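import Crest.Agent.R169.Defs

/-! # R169 task A0: the graded pieces `AA k t` of `k[x,y,z]` inside `k(x,y)` -/

set_option autoImplicit false

namespace Crest.Agent.R169
open Module

variable {k : Type} [Field k]

theorem mem_AA {t : ℤ} {a : KA k} : a ∈ AA k t ↔
    ∃ f : P2 k, algebraMap (P2 k) (KA k) f = a ∧ (f = 0 ∨ (f.totalDegree : ℤ) ≤ t) := Iff.rfl

theorem A0_inj : Function.Injective (algebraMap (P2 k) (KA k)) :=
  IsFractionRing.injective (P2 k) (KA k)

theorem AA_mul {s t : ℤ} {a b : KA k} (ha : a ∈ AA k s) (hb : b ∈ AA k t) :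
    a * b ∈ AA k (s + t) := by
  obtain ⟨f, rfl, hf⟩ := ha
  obtain ⟨g, rfl, hg⟩ := hb
  refine ⟨f * g, map_mul _ _ _, ?_⟩
  rcases hf with rfl | hf
  · left; simp
  rcases hg with rfl | hg
  · left; simp
  right
  have : ((f * g).totalDegree : ℤ) ≤ f.totalDegree + g.totalDegree := by
    exact_mod_cast MvPolynomial.totalDegree_mul f g
  omega

theorem AA_mono {s t : ℤ} (h : s ≤ t) : AA k s ≤ AA k t := by
  rintro _ ⟨f, rfl, hf⟩
  exact ⟨f, rfl, hf.imp id fun h' => h'.trans h⟩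

theorem AA_pow {s : ℤ} {a : KA k} (ha : a ∈ AA k s) (n : ℕ) : a ^ n ∈ AA k (n * s) := by
  induction n with
  | zero => exact ⟨1, by simp, Or.inr (by simp)⟩
  | succ n ih =>
    have := AA_mul ih ha
    rw [pow_succ]
    convert this using 2
    push_cast; ring

theorem AA_prod {ι : Type} (S : Finset ι) (a : ι → KA k) (s : ι → ℤ)
    (h : ∀ i ∈ S, a i ∈ AA k (s i)) : ∏ i ∈ S, a i ∈ AA k (∑ i ∈ S, s i) := by
  classical
  induction S using Finset.induction_on with
  | empty => exact ⟨1, by simp, Or.inr (by simp)⟩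
  | insert i S hi ih =>
    rw [Finset.prod_insert hi, Finset.sum_insert hi]
    exact AA_mul (h i (Finset.mem_insert_self _ _))
      (ih fun j hj => h j (Finset.mem_insert_of_mem hj))

theorem one_mem_AA {t : ℤ} (h : 0 ≤ t) : (1 : KA k) ∈ AA k t := by
  exact ⟨1, by simp, Or.inr (by simpa using h)⟩

theorem const_mem_AA {t : ℤ} (h : 0 ≤ t) (c : k) : algebraMap k (KA k) c ∈ AA k t := by
  rw [Algebra.algebraMap_eq_smul_one]
  exact Submodule.smul_mem _ _ (one_mem_AA h)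

theorem xA_mem (i : Fin 2) : xA k i ∈ AA k 1 := by
  exact ⟨MvPolynomial.X i, rfl, Or.inr (by simp)⟩

theorem xA_ne (i : Fin 2) : xA k i ≠ 0 := by
  intro h
  exact MvPolynomial.X_ne_zero (R := k) i (A0_inj (by rw [map_zero]; exact h))

theorem poly_mem_AA (f : P2 k) : algebraMap (P2 k) (KA k) f ∈ AA k f.totalDegree := by
  exact ⟨f, rfl, Or.inr le_rfl⟩

theorem AA_neg {t : ℤ} (h : t < 0) : AA k t = ⊥ := by
  rw [eq_bot_iff]
  rintro _ ⟨f, rfl, hf⟩
  rcases hf with rfl | hf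
  · simp
  · omega

theorem mem_AA_zero {a : KA k} : a ∈ AA k 0 ↔ ∃ c : k, algebraMap k (KA k) c = a := by
  constructor
  · rintro ⟨f, rfl, hf⟩
    rcases hf with rfl | hf
    · exact ⟨0, by simp⟩
    · have h0 : f.totalDegree = 0 := by omega
      rw [MvPolynomial.totalDegree_eq_zero_iff_eq_C] at h0
      refine ⟨f.coeff 0, ?_⟩
      rw [IsScalarTower.algebraMap_apply k (P2 k) (KA k)]
      congr 1
      exact h0.symm
  · rintro ⟨c, rfl⟩
    exact const_mem_AA le_rfl c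

/-- a nonzero element of `AA t` forces `0 ≤ t` -/
theorem AA_nonneg {t : ℤ} {a : KA k} (ha : a ∈ AA k t) (h0 : a ≠ 0) : 0 ≤ t := by
  by_contra h
  rw [AA_neg (not_le.mp h)] at ha
  exact h0 ha

theorem A0_mon_mem {i j : ℕ} {t : ℤ} (h : (i : ℤ) + j ≤ t) :
    xA k 0 ^ i * xA k 1 ^ j ∈ AA k t := by
  refine AA_mono (by simpa using h) (AA_mul (AA_pow (xA_mem 0) i) (AA_pow (xA_mem 1) j))

theorem A0_monomial (s : Fin 2 →₀ ℕ) (c : k) :
    algebraMap (P2 k) (KA k) (MvPolynomial.monomial s c) =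
      c • (xA k 0 ^ s 0 * xA k 1 ^ s 1) := by
  rw [MvPolynomial.monomial_eq, Finsupp.prod_fintype _ _ (by simp), Fin.prod_univ_two,
    Algebra.smul_def, IsScalarTower.algebraMap_apply k (P2 k) (KA k)]
  simp [xA]

theorem A0_span (t : ℤ) : AA k t =
    Submodule.span k {a | ∃ i j : ℕ, (i : ℤ) + j ≤ t ∧ a = xA k 0 ^ i * xA k 1 ^ j} := by
  refine le_antisymm ?_ (Submodule.span_le.mpr ?_)
  · rintro _ ⟨f, rfl, hf⟩
    rcases hf with rfl | hf
    · simp
    rw [f.as_sum, map_sum]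
    refine Submodule.sum_mem _ fun s hs => ?_
    rw [A0_monomial]
    refine Submodule.smul_mem _ _ (Submodule.subset_span ⟨s 0, s 1, ?_, rfl⟩)
    have h1 := MvPolynomial.le_totalDegree hs
    rw [Finsupp.sum_fintype _ _ (by simp), Fin.sum_univ_two] at h1
    omega
  · rintro _ ⟨i, j, h, rfl⟩
    exact A0_mon_mem h

theorem A0_li : LinearIndependent k (fun z : ℕ × ℕ => xA k 0 ^ z.1 * xA k 1 ^ z.2) := by
  have h1 := (MvPolynomial.basisMonomials (Fin 2) k).linearIndependent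
  have h2 := h1.comp (fun z : ℕ × ℕ => Finsupp.equivFunOnFinite.symm ![z.1, z.2]) (by
    intro z z' h
    have h' := Finsupp.equivFunOnFinite.symm.injective h
    exact Prod.ext (congrFun h' 0) (congrFun h' 1))
  have h3 := h2.map' (IsScalarTower.toAlgHom k (P2 k) (KA k)).toLinearMap
    (LinearMap.ker_eq_bot.mpr A0_inj)
  have e : (fun z : ℕ × ℕ => xA k 0 ^ z.1 * xA k 1 ^ z.2) =
      (⇑(IsScalarTower.toAlgHom k (P2 k) (KA k)).toLinearMap ∘
      ⇑(MvPolynomial.basisMonomials (Fin 2) k) ∘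
        fun z : ℕ × ℕ => Finsupp.equivFunOnFinite.symm ![z.1, z.2]) := by
    funext z
    simp only [Function.comp, MvPolynomial.coe_basisMonomials, AlgHom.toLinearMap_apply,
      IsScalarTower.coe_toAlgHom']
    rw [A0_monomial]
    simp
  rw [e]
  exact h3

/-- the exponents of degree `≤ m` -/
def A0_T (m : ℕ) : Finset (ℕ × ℕ) := (Finset.range (m + 1)).biUnion Finset.HasAntidiagonal.antidiagonal

theorem A0_mem_T {m : ℕ} {z : ℕ × ℕ} : z ∈ A0_T m ↔ z.1 + z.2 ≤ m := by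
  simp only [A0_T, Finset.mem_biUnion, Finset.mem_range, Finset.HasAntidiagonal.mem_antidiagonal]
  constructor
  · rintro ⟨a, h1, h2⟩; omega
  · intro h; exact ⟨_, by omega, rfl⟩

theorem A0_card_T (m : ℕ) : ((A0_T m).card : ℚ) = ((m : ℚ) + 1) * (m + 2) / 2 := by
  rw [A0_T, Finset.card_biUnion]
  · simp only [Finset.Nat.card_antidiagonal]
    induction m with
    | zero => simp
    | succ m ih =>
      rw [Finset.sum_range_succ]
      push_cast at ih ⊢
      rw [ih]; ring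
  · intro a _ b _ hab
    refine Finset.disjoint_left.mpr fun z h1 h2 => hab ?_
    rw [Finset.HasAntidiagonal.mem_antidiagonal] at h1 h2
    omega

theorem A0_span_nat (m : ℕ) : AA k m =
    Submodule.span k (Set.range fun z : A0_T m => xA k 0 ^ z.1.1 * xA k 1 ^ z.1.2) := by
  rw [A0_span]
  congr 1
  ext a
  constructor
  · rintro ⟨i, j, h, rfl⟩
    exact ⟨⟨(i, j), A0_mem_T.mpr (by simp only; omega)⟩, rfl⟩
  · rintro ⟨z, rfl⟩
    have := A0_mem_T.mp z.2
    exact ⟨_, _, by omega, rfl⟩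

instance AA_fin (t : ℤ) : FiniteDimensional k (AA k t) := by
  rcases lt_or_ge t 0 with h | h
  · rw [AA_neg h]; infer_instance
  · obtain ⟨m, rfl⟩ := Int.eq_ofNat_of_zero_le h
    rw [A0_span_nat]
    exact FiniteDimensional.span_of_finite k (Set.finite_range _)

/-- Count monomials `x^i y^j`, `i + j ≤ t` (e.g. via `MvPolynomial.restrictTotalDegree`, or
an explicit basis indexed by `Finset.antidiagonal`s). -/
theorem finrank_AA {t : ℤ} (h : -2 ≤ t) :
    (finrank k (AA k t) : ℚ) = ((t : ℚ) + 1) * (t + 2) / 2 := by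
  rcases lt_or_ge t 0 with h' | h'
  · rw [AA_neg h', finrank_bot]
    have : t = -1 ∨ t = -2 := by omega
    rcases this with rfl | rfl <;> norm_num
  · obtain ⟨m, rfl⟩ := Int.eq_ofNat_of_zero_le h'
    have hli : LinearIndependent k (fun z : A0_T m => xA k 0 ^ z.1.1 * xA k 1 ^ z.1.2) :=
      A0_li.comp (fun z : A0_T m => z.1) Subtype.val_injective
    rw [A0_span_nat, finrank_span_eq_card hli, Fintype.card_coe, A0_card_T]
    simp

/-- `h(s) + h(-3-s) = (s+1)(s+2)/2` for every `s` -/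
theorem finrank_AA_dual (s : ℤ) :
    (finrank k (AA k s) : ℚ) + finrank k (AA k (-3 - s)) = ((s : ℚ) + 1) * (s + 2) / 2 := by
  rcases le_or_gt (-2) s with h | h
  · rw [finrank_AA h, AA_neg (t := -3 - s) (by omega), finrank_bot]; simp
  · rw [finrank_AA (t := -3 - s) (by omega), AA_neg (t := s) (by omega), finrank_bot]
    push_cast; ring

theorem A0_split_pow (M : ℕ) {t : ℤ} (ht : 3 * (M : ℤ) ≤ t + 2) {a : KA k} (ha : a ∈ AA k t) :
    ∃ a0 ∈ AA k (t - M), ∃ a1 ∈ AA k (t - M), ∃ a2 ∈ AA k (t - M),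
      a = xA k 0 ^ M * a0 + xA k 1 ^ M * a1 + a2 := by
  rw [A0_span] at ha
  induction ha using Submodule.span_induction with
  | mem a ha =>
    obtain ⟨i, j, h, rfl⟩ := ha
    by_cases hi : M ≤ i
    · obtain ⟨i', rfl⟩ := Nat.exists_eq_add_of_le hi
      refine ⟨xA k 0 ^ i' * xA k 1 ^ j, A0_mon_mem (by push_cast at h; omega), 0, zero_mem _, 0,
        zero_mem _, by ring⟩
    by_cases hj : M ≤ j
    · obtain ⟨j', rfl⟩ := Nat.exists_eq_add_of_le hj
      refine ⟨0, zero_mem _, xA k 0 ^ i * xA k 1 ^ j', A0_mon_mem (by push_cast at h; omega), 0,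
        zero_mem _, by ring⟩
    exact ⟨0, zero_mem _, 0, zero_mem _, xA k 0 ^ i * xA k 1 ^ j, A0_mon_mem (by omega), by ring⟩
  | zero => exact ⟨0, zero_mem _, 0, zero_mem _, 0, zero_mem _, by ring⟩
  | add a b _ _ iha ihb =>
    obtain ⟨a0, h0, a1, h1, a2, h2, rfl⟩ := iha
    obtain ⟨b0, g0, b1, g1, b2, g2, rfl⟩ := ihb
    exact ⟨_, add_mem h0 g0, _, add_mem h1 g1, _, add_mem h2 g2, by ring⟩
  | smul c a _ iha =>
    obtain ⟨a0, h0, a1, h1, a2, h2, rfl⟩ := iha
    exact ⟨_, Submodule.smul_mem _ c h0, _, Submodule.smul_mem _ c h1, _,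
      Submodule.smul_mem _ c h2, by simp only [smul_add, mul_smul_comm]⟩

theorem AA_split {t : ℤ} (ht : 1 ≤ t) {a : KA k} (ha : a ∈ AA k t) :
    ∃ a0 ∈ AA k (t - 1), ∃ a1 ∈ AA k (t - 1), ∃ a2 ∈ AA k (t - 1),
      a = xA k 0 * a0 + xA k 1 * a1 + a2 := by
  simpa using A0_split_pow 1 (by push_cast; omega) ha

/-- `a = c + x a₀ + y a₁` with `c` constant -/
theorem AA_split' {t : ℤ} {a : KA k} (ha : a ∈ AA k t) :
    ∃ c : k, ∃ a0 ∈ AA k (t - 1), ∃ a1 ∈ AA k (t - 1),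
      a = algebraMap k (KA k) c + xA k 0 * a0 + xA k 1 * a1 ∧ (t < 0 → c = 0) := by
  rcases lt_or_ge t 0 with ht | ht
  · rw [AA_neg ht] at ha
    obtain rfl : a = 0 := ha
    exact ⟨0, 0, zero_mem _, 0, zero_mem _, by simp, fun _ => rfl⟩
  suffices h : ∃ c : k, ∃ a0 ∈ AA k (t - 1), ∃ a1 ∈ AA k (t - 1),
      a = algebraMap k (KA k) c + xA k 0 * a0 + xA k 1 * a1 by
    obtain ⟨c, a0, h0, a1, h1, h⟩ := h
    exact ⟨c, a0, h0, a1, h1, h, fun h' => absurd h' (not_lt.mpr ht)⟩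
  rw [A0_span] at ha
  induction ha using Submodule.span_induction with
  | mem a ha =>
    obtain ⟨i, j, h, rfl⟩ := ha
    rcases i with _ | i
    · rcases j with _ | j
      · exact ⟨1, 0, zero_mem _, 0, zero_mem _, by simp⟩
      · exact ⟨0, 0, zero_mem _, xA k 0 ^ 0 * xA k 1 ^ j, A0_mon_mem (by push_cast at h ⊢; omega),
          by simp; ring⟩
    · exact ⟨0, xA k 0 ^ i * xA k 1 ^ j, A0_mon_mem (by push_cast at h ⊢; omega), 0, zero_mem _,
        by simp; ring⟩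
  | zero => exact ⟨0, 0, zero_mem _, 0, zero_mem _, by simp⟩
  | add a b _ _ iha ihb =>
    obtain ⟨c, a0, h0, a1, h1, rfl⟩ := iha
    obtain ⟨d, b0, g0, b1, g1, rfl⟩ := ihb
    exact ⟨c + d, _, add_mem h0 g0, _, add_mem h1 g1, by rw [map_add]; ring⟩
  | smul d a _ iha =>
    obtain ⟨c, a0, h0, a1, h1, rfl⟩ := iha
    exact ⟨d * c, _, Submodule.smul_mem _ d h0, _, Submodule.smul_mem _ d h1,
      by simp only [Algebra.smul_def, map_mul]; ring⟩

/-- every element of degree `≥ 3M` lies in the ideal `(x^M, y^M, z^M)` -/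
theorem AA_split_pow (M : ℕ) {t : ℤ} (ht : 3 * (M : ℤ) ≤ t) {a : KA k} (ha : a ∈ AA k t) :
    ∃ a0 ∈ AA k (t - M), ∃ a1 ∈ AA k (t - M), ∃ a2 ∈ AA k (t - M),
      a = xA k 0 ^ M * a0 + xA k 1 ^ M * a1 + a2 := by
  rcases Nat.eq_zero_or_pos M with rfl | hM
  · exact ⟨0, zero_mem _, 0, zero_mem _, a, by simpa using ha, by ring⟩
  · exact A0_split_pow M (by omega) ha

/-- `AA t` is spanned by the monomials `x^i y^j`, `i + j ≤ t` -/
theorem AA_eq_span (t : ℤ) : AA k t =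
    Submodule.span k {a | ∃ i j : ℕ, (i : ℤ) + j ≤ t ∧ a = xA k 0 ^ i * xA k 1 ^ j} := by
  exact A0_span t

/-- denominators -/
theorem AA_denom (a : KA k) (t : ℤ) :
    ∃ (e : ℤ) (f : KA k), f ∈ AA k e ∧ f ≠ 0 ∧ f * a ∈ AA k (t + e) := by
  obtain ⟨p, q, hq, rfl⟩ := IsFractionRing.div_surjective (A := P2 k) a
  have hq0 : algebraMap (P2 k) (KA k) q ≠ 0 :=
    IsFractionRing.to_map_ne_zero_of_mem_nonZeroDivisors hq
  refine ⟨max (q.totalDegree : ℤ) (p.totalDegree - t), algebraMap (P2 k) (KA k) q,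
    AA_mono (le_max_left _ _) (poly_mem_AA q), hq0, ?_⟩
  rw [mul_div_cancel₀ _ hq0]
  refine AA_mono ?_ (poly_mem_AA p)
  have := le_max_right (q.totalDegree : ℤ) (p.totalDegree - t)
  omega

/-- common denominators -/
theorem AA_denom_fin {ι : Type} [Finite ι] (a : ι → KA k) (t : ι → ℤ) :
    ∃ (e : ℤ) (f : KA k), f ∈ AA k e ∧ f ≠ 0 ∧ ∀ i, f * a i ∈ AA k (t i + e) := by
  classical
  have := Fintype.ofFinite ι
  choose e f hf hf0 hfa using fun i => AA_denom (a i) (t i)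
  refine ⟨∑ i, e i, ∏ i, f i, AA_prod _ _ _ fun i _ => hf i,
    Finset.prod_ne_zero_iff.mpr fun i _ => hf0 i, fun i => ?_⟩
  rw [← Finset.mul_prod_erase _ _ (Finset.mem_univ i), ← Finset.add_sum_erase _ _ (Finset.mem_univ i)]
  have := AA_mul (hfa i) (AA_prod (Finset.univ.erase i) f e fun i _ => hf i)
  rw [mul_right_comm, ← add_assoc]
  exact this

/-- `A` is saturated for coprime pairs: `g P = f Q` gives `f ∣ P`, then degrees add. -/
theorem AA_S2 {f g : P2 k} (hf : f ≠ 0) (hfg : IsRelPrime f g) {a : KA k} {t s : ℤ}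
    (h1 : algebraMap (P2 k) (KA k) f * a ∈ AA k (t + f.totalDegree))
    (h2 : algebraMap (P2 k) (KA k) g * a ∈ AA k s) : a ∈ AA k t := by
  obtain ⟨P, hP, hPd⟩ := h1
  obtain ⟨Q, hQ, -⟩ := h2
  have e1 : g * P = f * Q := A0_inj (by rw [map_mul, map_mul, hP, hQ]; ring)
  obtain ⟨P', rfl⟩ : f ∣ P := hfg.dvd_of_dvd_mul_left ⟨Q, e1⟩
  have hf' : algebraMap (P2 k) (KA k) f ≠ 0 := fun h => hf (A0_inj (by rw [map_zero]; exact h))
  rw [map_mul] at hP
  refine ⟨P', mul_left_cancel₀ hf' hP, ?_⟩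
  by_cases hP' : P' = 0
  · exact Or.inl hP'
  right
  rcases hPd with h | h
  · exact absurd h (mul_ne_zero hf hP')
  · rw [MvPolynomial.totalDegree_mul_of_isDomain hf hP'] at h
    push_cast at h
    omega

theorem A0_relPrime (j : ℕ) :
    IsRelPrime ((MvPolynomial.X 0 : P2 k) ^ j) ((MvPolynomial.X 1 : P2 k) ^ j) := by
  refine IsRelPrime.pow ?_
  rw [(MvPolynomial.X_prime (R := k) (i := (0 : Fin 2))).irreducible.isRelPrime_iff_not_dvd,
    MvPolynomial.X_dvd_X]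
  decide

theorem AA_S2_xy (j : ℕ) {a : KA k} {t s : ℤ} (h1 : xA k 0 ^ j * a ∈ AA k (t + j))
    (h2 : xA k 1 ^ j * a ∈ AA k s) : a ∈ AA k t := by
  refine AA_S2 (f := MvPolynomial.X 0 ^ j) (g := MvPolynomial.X 1 ^ j) (s := s)
    (pow_ne_zero _ (MvPolynomial.X_ne_zero _)) (A0_relPrime j) ?_ ?_
  · rw [MvPolynomial.totalDegree_X_pow, map_pow]; exact h1
  · rw [map_pow]; exact h2

theorem AA_S2_xz (j : ℕ) {a : KA k} {t s : ℤ} (h1 : xA k 0 ^ j * a ∈ AA k (t + j))
    (h2 : a ∈ AA k s) : a ∈ AA k t := by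
  refine AA_S2 (f := MvPolynomial.X 0 ^ j) (g := 1) (s := s)
    (pow_ne_zero _ (MvPolynomial.X_ne_zero _)) isRelPrime_one_right ?_ ?_
  · rw [MvPolynomial.totalDegree_X_pow, map_pow]; exact h1
  · rw [map_one, one_mul]; exact h2

/-- a determinant with entries of degree `s j - r i` -/
theorem AA_det {n : ℕ} (C : Matrix (Fin n) (Fin n) (KA k)) (r s : Fin n → ℤ)
    (h : ∀ i j, C i j ∈ AA k (s j - r i)) : C.det ∈ AA k (∑ j, s j - ∑ i, r i) := by
  rw [Matrix.det_apply']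
  refine Submodule.sum_mem _ fun σ _ => ?_
  have h1 := AA_prod Finset.univ (fun i => C (σ i) i) (fun i => s i - r (σ i)) fun i _ => h _ _
  rw [Finset.sum_sub_distrib, Equiv.sum_comp σ r] at h1
  have h2 : (((Equiv.Perm.sign σ : ℤˣ) : ℤ) : KA k) ∈ AA k 0 := by
    rw [← map_intCast (algebraMap k (KA k))]
    exact const_mem_AA le_rfl _
  simpa using AA_mul h2 h1

theorem A0_deh_monomial (s : Fin 3 →₀ ℕ) (c : k) :
    deh (MvPolynomial.monomial s c) = c • (xA k 0 ^ s 0 * xA k 1 ^ s 1) := by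
  rw [deh, MvPolynomial.aeval_monomial, Finsupp.prod_fintype _ _ (by simp), Fin.prod_univ_three,
    Algebra.smul_def]
  simp

theorem A0_hom_deg {e : ℕ} {f : MvPolynomial (Fin 3) k} (hf : f.IsHomogeneous e)
    {s : Fin 3 →₀ ℕ} (hs : s ∈ f.support) : s 0 + s 1 + s 2 = e := by
  have h := hf (MvPolynomial.mem_support_iff.mp hs)
  rw [Finsupp.weight_apply, Finsupp.sum_fintype _ _ (by simp), Fin.sum_univ_three] at h
  simpa using h

/-- homogeneous polynomials of degree `e` dehomogenise into `AA e` -/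
theorem deh_mem {e : ℕ} {f : MvPolynomial (Fin 3) k} (hf : f.IsHomogeneous e) :
    deh f ∈ AA k e := by
  rw [f.as_sum, map_sum]
  refine Submodule.sum_mem _ fun s hs => ?_
  rw [A0_deh_monomial]
  have := A0_hom_deg hf hs
  exact Submodule.smul_mem _ _ (A0_mon_mem (by omega))

/-- ... injectively -/
theorem deh_inj {e : ℕ} {f : MvPolynomial (Fin 3) k} (hf : f.IsHomogeneous e) (h : deh f = 0) :
    f = 0 := by
  have hli := (A0_li (k := k)).comp (fun s : f.support => (s.1 0, s.1 1)) (by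
    intro s s' hss
    simp only [Prod.mk.injEq] at hss
    have h1 := A0_hom_deg hf s.2
    have h2 := A0_hom_deg hf s'.2
    refine Subtype.ext (Finsupp.ext fun i => ?_)
    fin_cases i
    · exact hss.1
    · exact hss.2
    · show s.1 2 = s'.1 2
      omega)
  rw [f.as_sum, map_sum, ← Finset.sum_coe_sort] at h
  simp only [A0_deh_monomial] at h
  have h3 := Fintype.linearIndependent_iff.mp hli (fun s => f.coeff s.1) h
  rw [← MvPolynomial.support_eq_empty, Finset.eq_empty_iff_forall_notMem]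
  intro s hs
  exact MvPolynomial.mem_support_iff.mp hs (h3 ⟨s, hs⟩)

/-- ... and surjectively -/
theorem deh_surj {e : ℕ} {a : KA k} (ha : a ∈ AA k e) :
    ∃ f : MvPolynomial (Fin 3) k, f.IsHomogeneous e ∧ deh f = a := by
  rw [A0_span] at ha
  induction ha using Submodule.span_induction with
  | mem a ha =>
    obtain ⟨i, j, h, rfl⟩ := ha
    refine ⟨MvPolynomial.X 0 ^ i * MvPolynomial.X 1 ^ j * MvPolynomial.X 2 ^ (e - i - j), ?_, ?_⟩
    · have := ((MvPolynomial.isHomogeneous_X_pow (R := k) (0 : Fin 3) i).mul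
        (MvPolynomial.isHomogeneous_X_pow (R := k) (1 : Fin 3) j)).mul
        (MvPolynomial.isHomogeneous_X_pow (R := k) (2 : Fin 3) (e - i - j))
      convert this using 1
      omega
    · simp [deh]
  | zero => exact ⟨0, MvPolynomial.isHomogeneous_zero _ _ _, map_zero _⟩
  | add a b _ _ iha ihb =>
    obtain ⟨f, hf, rfl⟩ := iha
    obtain ⟨g, hg, rfl⟩ := ihb
    exact ⟨f + g, hf.add hg, map_add _ _ _⟩
  | smul c a _ iha =>
    obtain ⟨f, hf, rfl⟩ := iha
    exact ⟨c • f, (MvPolynomial.homogeneousSubmodule (Fin 3) k e).smul_mem c hf, map_smul _ _ _⟩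

end Crest.Agent.R169
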