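import Crest.Agent.R169.A0

/-! # R169 task A1: generated families and lattices (formal properties) -/

set_option autoImplicit false
set_option linter.unusedSectionVars false

namespace Crest.Agent.R169
open Module

section gen
variable {k : Type} [Field k] {V V' : Type} [AddCommGroup V] [Module k V] [AddCommGroup V']
  [Module k V'] {L : Type} [CommRing L] [Algebra k L] [Module L V] [IsScalarTower k L V]
  [Module L V'] [IsScalarTower k L V']

theorem mem_gen {S : Fam k L} {ι : Type} [Fintype ι] {w : ι → V} {b : ι → ℤ} {t : ℤ} {v : V} :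
    v ∈ gen S w b t ↔ ∃ a : ι → L, (∀ i, a i ∈ S (t - b i)) ∧ v = ∑ i, a i • w i := by
  classical
  constructor
  · intro hv
    induction hv using Submodule.span_induction with
    | mem v hv =>
      obtain ⟨i, a, ha, rfl⟩ := hv
      refine ⟨Pi.single i a, fun j => ?_, ?_⟩
      · by_cases h : j = i
        · subst h; simpa using ha
        · simp [Pi.single_eq_of_ne h]
      · rw [Finset.sum_eq_single i (fun j _ h => by simp [Pi.single_eq_of_ne h]) (by simp)]
        simp
    | zero => exact ⟨0, fun i => zero_mem _, by simp⟩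
    | add u v _ _ ihu ihv =>
      obtain ⟨a, ha, rfl⟩ := ihu
      obtain ⟨a', ha', rfl⟩ := ihv
      exact ⟨a + a', fun i => add_mem (ha i) (ha' i), by simp [add_smul, Finset.sum_add_distrib]⟩
    | smul c u _ ihu =>
      obtain ⟨a, ha, rfl⟩ := ihu
      exact ⟨c • a, fun i => Submodule.smul_mem _ c (ha i), by simp [Finset.smul_sum]⟩
  · rintro ⟨a, ha, rfl⟩
    exact Submodule.sum_mem _ fun i _ => Submodule.subset_span ⟨i, a i, ha i, rfl⟩

theorem A1_smul_comm (c : k) (a : L) (v : V) : a • c • v = c • a • v := by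
  rw [← algebraMap_smul L c v, ← algebraMap_smul L c (a • v), smul_comm]

theorem gen_isMod {S : Fam k L} (hS : ∀ s t : ℤ, ∀ a ∈ S s, ∀ b ∈ S t, a * b ∈ S (s + t))
    {ι : Type} (w : ι → V) (b : ι → ℤ) : IsMod S (gen S w b) := by
  intro s t a ha v hv
  induction hv using Submodule.span_induction with
  | mem v hv =>
    obtain ⟨i, a', ha', rfl⟩ := hv
    refine Submodule.subset_span ⟨i, a * a', ?_, smul_smul _ _ _⟩
    have := hS _ _ a ha a' ha'
    rwa [← add_sub_assoc] at this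
  | zero => rw [smul_zero]; exact zero_mem _
  | add u v _ _ ihu ihv => rw [smul_add]; exact add_mem ihu ihv
  | smul c u _ ihu => rw [A1_smul_comm]; exact Submodule.smul_mem _ c ihu

theorem mem_gen_self {S : Fam k L} (h1 : (1 : L) ∈ S 0) {ι : Type} (w : ι → V) (b : ι → ℤ)
    (i : ι) : w i ∈ gen S w b (b i) := by
  exact Submodule.subset_span ⟨i, 1, by simpa using h1, (one_smul _ _).symm⟩

theorem gen_le {S : Fam k L} {N : Fam k V} (hN : IsMod S N) {ι : Type} {w : ι → V} {b : ι → ℤ}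
    (h : ∀ i, w i ∈ N (b i)) : gen S w b ≤ N := by
  intro t
  refine Submodule.span_le.mpr ?_
  rintro _ ⟨i, a, ha, rfl⟩
  have := hN _ _ a ha _ (h i)
  rwa [sub_add_cancel] at this

theorem fmap_gen {S : Fam k L} (f : V →ₗ[L] V') {ι : Type} (w : ι → V) (b : ι → ℤ) :
    fmap f (gen S w b) = gen S (fun i => f (w i)) b := by
  funext t
  rw [fmap, gen, gen, Submodule.map_span]
  congr 1
  ext v
  constructor
  · rintro ⟨_, ⟨i, a, ha, rfl⟩, rfl⟩
    exact ⟨i, a, ha, by simp⟩
  · rintro ⟨i, a, ha, rfl⟩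
    exact ⟨a • w i, ⟨i, a, ha, rfl⟩, by simp⟩

theorem mem_cut {N : Fam k V} {W : Submodule L V} {t : ℤ} {v : V} :
    v ∈ cut N W t ↔ v ∈ N t ∧ v ∈ W := Iff.rfl

theorem mem_fmap {f : V →ₗ[L] V'} {N : Fam k V} {t : ℤ} {v : V'} :
    v ∈ fmap f N t ↔ ∃ u ∈ N t, f u = v := Iff.rfl

theorem mem_fcomap {f : V →ₗ[L] V'} {N : Fam k V'} {t : ℤ} {v : V} :
    v ∈ fcomap f N t ↔ f v ∈ N t := Iff.rfl

theorem cut_top (N : Fam k V) : cut N (⊤ : Submodule L V) = N := by
  funext t; simp [cut]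

theorem cut_bot (N : Fam k V) : cut N (⊥ : Submodule L V) = ⊥ := by
  funext t; simp [cut]

theorem cut_le (N : Fam k V) (W : Submodule L V) : cut N W ≤ N := fun _ => inf_le_left

/-- rank–nullity in each degree -/
theorem hf_cut_add_fmap (f : V →ₗ[L] V') (N : Fam k V) (t : ℤ) [FiniteDimensional k (N t)] :
    hf N t = hf (cut N (LinearMap.ker f)) t + hf (fmap f N) t := by
  have h := LinearMap.finrank_range_add_finrank_ker ((f.restrictScalars k).domRestrict (N t))
  rw [LinearMap.range_domRestrict, LinearMap.ker_domRestrict] at h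
  have h2 : finrank k (Submodule.comap (N t).subtype (LinearMap.ker (f.restrictScalars k))) =
      finrank k (cut N (LinearMap.ker f) t) := by
    rw [← Submodule.finrank_map_subtype_eq, Submodule.map_comap_subtype]
    rfl
  rw [h2] at h
  simp only [hf]
  rw [← h]
  push_cast
  rw [add_comm]
  rfl

theorem hf_fmap_inj {f : V →ₗ[L] V'} (hf' : Function.Injective f) (N : Fam k V) :
    hf (fmap f N) = hf N := by
  funext t
  exact congrArg (Nat.cast : ℕ → ℚ)
    (LinearEquiv.finrank_eq (Submodule.equivMapOfInjective (f.restrictScalars k) hf' (N t))).symm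

theorem hf_fcomap_inj {f : V →ₗ[L] V'} (hf' : Function.Injective f) (N : Fam k V') :
    hf (fcomap f N) = hf (cut N (LinearMap.range f)) := by
  rw [← hf_fmap_inj hf']
  congr 1
  funext t
  ext v
  rw [mem_fmap, mem_cut]
  constructor
  · rintro ⟨u, hu, rfl⟩
    exact ⟨hu, u, rfl⟩
  · rintro ⟨hv, u, rfl⟩
    exact ⟨u, hv, rfl⟩

end gen

section lat
variable {k : Type} [Field k] {V V' : Type} [AddCommGroup V] [Module k V] [Module (KA k) V]
  [IsScalarTower k (KA k) V] [AddCommGroup V'] [Module k V'] [Module (KA k) V']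
  [IsScalarTower k (KA k) V']

theorem gen_isLat {ι : Type} [Finite ι] (w : ι → V) (b : ι → ℤ) : IsLat (gen (AA k) w b) := by
  obtain ⟨m, ⟨e⟩⟩ := Finite.exists_equiv_fin ι
  refine ⟨m, fun i => w (e.symm i), fun i => b (e.symm i), ?_⟩
  funext t
  simp only [gen]
  congr 1
  ext v
  constructor
  · rintro ⟨i, a, ha, rfl⟩
    exact ⟨e i, a, by simpa using ha, by simp⟩
  · rintro ⟨i, a, ha, rfl⟩
    exact ⟨_, a, ha, rfl⟩

theorem IsLat.isMod {N : Fam k V} (hN : IsLat N) : IsMod (AA k) N := by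
  obtain ⟨m, w, b, rfl⟩ := hN
  exact gen_isMod (fun _ _ _ ha _ hb => AA_mul ha hb) w b

theorem IsMod.mono {N : Fam k V} (hN : IsMod (AA k) N) {s t : ℤ} (h : s ≤ t) : N s ≤ N t := by
  intro v hv
  have := hN (t - s) s 1 (one_mem_AA (by omega)) v hv
  rwa [one_smul, sub_add_cancel] at this

/-- the evaluation map -/
noncomputable def A1_ev (k : Type) [Field k] {V : Type} [AddCommGroup V] [Module k V]
    [Module (KA k) V] [IsScalarTower k (KA k) V] {ι : Type} [Fintype ι] (w : ι → V) :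
    (ι → KA k) →ₗ[KA k] V := Fintype.linearCombination (KA k) w

theorem A1_gen_eq {ι : Type} [Fintype ι] (w : ι → V) (b : ι → ℤ) :
    gen (AA k) w b = fmap (A1_ev k w) (freeF k b) := by
  funext t
  ext v
  rw [mem_gen, mem_fmap]
  constructor
  · rintro ⟨a, ha, rfl⟩
    exact ⟨a, fun i _ => ha i, rfl⟩
  · rintro ⟨a, ha, rfl⟩
    exact ⟨a, fun i => ha i (Set.mem_univ i), rfl⟩

/-- `Submodule.pi` as a product -/
def A1_piEquiv {k : Type} [Field k] {ι : Type} {M : Type} [AddCommGroup M] [Module k M]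
    (p : ι → Submodule k M) : Submodule.pi Set.univ p ≃ₗ[k] (∀ i, p i) where
  toFun x i := ⟨x.1 i, x.2 i (Set.mem_univ i)⟩
  invFun y := ⟨fun i => (y i).1, fun i _ => (y i).2⟩
  map_add' _ _ := rfl
  map_smul' _ _ := rfl
  left_inv _ := rfl
  right_inv _ := rfl

theorem A1_free_fin {ι : Type} [Fintype ι] (b : ι → ℤ) (t : ℤ) :
    FiniteDimensional k (freeF k b t) :=
  LinearEquiv.finiteDimensional (A1_piEquiv fun i => AA k (t - b i)).symm

theorem IsLat.fin {N : Fam k V} (hN : IsLat N) (t : ℤ) : FiniteDimensional k (N t) := by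
  obtain ⟨m, w, b, rfl⟩ := hN
  rw [A1_gen_eq]
  have := A1_free_fin (k := k) b t
  exact Module.Finite.map _ _

theorem A1_bdd {m : ℕ} (b : Fin m → ℤ) : ∃ B : ℤ, ∀ i, -B ≤ b i ∧ b i ≤ B := by
  refine ⟨∑ i, |b i|, fun i => abs_le.mp ?_⟩
  exact Finset.single_le_sum (f := fun i => |b i|) (fun i _ => abs_nonneg _) (Finset.mem_univ i)

theorem IsLat.bot_low {N : Fam k V} (hN : IsLat N) : ∃ t0 : ℤ, ∀ t ≤ t0, N t = ⊥ := by
  obtain ⟨m, w, b, rfl⟩ := hN
  obtain ⟨B, hB⟩ := A1_bdd b
  refine ⟨-B - 1, fun t ht => ?_⟩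
  rw [eq_bot_iff]
  refine Submodule.span_le.mpr ?_
  rintro _ ⟨i, a, ha, rfl⟩
  rw [AA_neg (by have := (hB i).1; omega)] at ha
  obtain rfl : a = 0 := ha
  simp

/-- in high degree everything is in `(x,y,z) N` -/
theorem IsLat.split_high {N : Fam k V} (hN : IsLat N) : ∃ t0 : ℤ, ∀ t ≥ t0, ∀ ξ ∈ N (t + 1),
    ∃ a ∈ N t, ∃ b ∈ N t, ∃ c ∈ N t, ξ = xA k 0 • a + xA k 1 • b + c := by
  obtain ⟨m, w, b, rfl⟩ := hN
  obtain ⟨B, hB⟩ := A1_bdd b
  refine ⟨B, fun t ht ξ hξ => ?_⟩
  obtain ⟨a, ha, rfl⟩ := mem_gen.mp hξ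
  have h := fun i => AA_split (by have := (hB i).2; omega) (ha i)
  choose a0 h0 a1 h1 a2 h2 he using h
  have e : ∀ i, t + 1 - b i - 1 = t - b i := fun i => by ring
  simp only [e] at h0 h1 h2
  refine ⟨_, mem_gen.mpr ⟨a0, h0, rfl⟩, _, mem_gen.mpr ⟨a1, h1, rfl⟩, _,
    mem_gen.mpr ⟨a2, h2, rfl⟩, ?_⟩
  simp only [Finset.smul_sum, ← Finset.sum_add_distrib, smul_smul, ← add_smul]
  exact Finset.sum_congr rfl fun i _ => by rw [← he i]

theorem isLat_bot : IsLat (⊥ : Fam k V) := by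
  refine ⟨0, Fin.elim0, Fin.elim0, ?_⟩
  funext t
  simp [gen]

theorem IsLat.sup {N N' : Fam k V} (hN : IsLat N) (hN' : IsLat N') : IsLat (N ⊔ N') := by
  obtain ⟨m, w, b, rfl⟩ := hN
  obtain ⟨m', w', b', rfl⟩ := hN'
  have : gen (AA k) w b ⊔ gen (AA k) w' b' = gen (AA k) (Sum.elim w w') (Sum.elim b b') := by
    funext t
    simp only [Pi.sup_apply, gen, ← Submodule.span_union]
    congr 1
    ext v
    simp only [Set.mem_union, Set.mem_setOf_eq, Sum.exists, Sum.elim_inl, Sum.elim_inr]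
  rw [this]
  exact gen_isLat _ _

theorem IsLat.sh {N : Fam k V} (hN : IsLat N) (e : ℤ) : IsLat (sh N e) := by
  obtain ⟨m, w, b, rfl⟩ := hN
  refine ⟨m, w, fun i => b i - e, ?_⟩
  funext t
  simp only [R169.sh, gen]
  congr 1
  ext v
  have e : ∀ i, t + e - b i = t - (b i - e) := fun i => by ring
  simp only [Set.mem_setOf_eq, e]

theorem isLat_AA : IsLat (AA k) := by
  refine ⟨1, fun _ => 1, fun _ => 0, ?_⟩
  funext t
  ext v
  rw [mem_gen]
  constructor
  · intro hv
    exact ⟨fun _ => v, fun _ => by simpa using hv, by simp⟩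
  · rintro ⟨a, ha, rfl⟩
    simpa using ha 0

theorem IsLat.piF {N : Fam k V} (hN : IsLat N) (ι : Type) [Fintype ι] : IsLat (piF N ι) := by
  classical
  obtain ⟨m, w, b, rfl⟩ := hN
  have : R169.piF (gen (AA k) w b) ι =
      gen (AA k) (fun z : ι × Fin m => (Pi.single z.1 (w z.2) : ι → V)) (fun z => b z.2) := by
    funext t
    ext v
    rw [mem_gen]
    simp only [R169.piF, Submodule.mem_pi, Set.mem_univ, forall_const, mem_gen]
    constructor
    · intro h
      choose a ha he using h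
      refine ⟨fun z => a z.1 z.2, fun z => ha _ _, ?_⟩
      funext l
      rw [he l, Finset.sum_apply, Fintype.sum_prod_type,
        Finset.sum_eq_single l (fun j _ h => by simp [Pi.single_eq_of_ne h.symm]) (by simp)]
      simp
    · rintro ⟨a, ha, rfl⟩ l
      refine ⟨fun i => a (l, i), fun i => ha (l, i), ?_⟩
      rw [Finset.sum_apply, Fintype.sum_prod_type,
        Finset.sum_eq_single l (fun j _ h => by simp [Pi.single_eq_of_ne h.symm]) (by simp)]
      simp
  rw [this]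
  exact gen_isLat _ _

theorem freeF_eq_gen {ι : Type} [Fintype ι] [DecidableEq ι] (b : ι → ℤ) :
    freeF k b = gen (AA k) (fun i => (Pi.single i 1 : ι → KA k)) b := by
  funext t
  ext v
  rw [mem_gen]
  simp only [freeF, Submodule.mem_pi, Set.mem_univ, forall_const]
  have key : ∀ a : ι → KA k, ∑ i, a i • (Pi.single i 1 : ι → KA k) = a := by
    intro a
    funext l
    rw [Finset.sum_apply,
      Finset.sum_eq_single l (fun j _ h => by simp [Pi.single_eq_of_ne h.symm]) (by simp)]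
    simp
  constructor
  · intro h
    exact ⟨v, h, (key v).symm⟩
  · rintro ⟨a, ha, rfl⟩
    rw [key]; exact ha

theorem isLat_freeF {ι : Type} [Fintype ι] (b : ι → ℤ) : IsLat (freeF k b) := by
  classical
  rw [freeF_eq_gen]
  exact gen_isLat _ _

theorem hf_freeF {ι : Type} [Fintype ι] (b : ι → ℤ) (t : ℤ) :
    hf (freeF k b) t = ∑ i, (finrank k (AA k (t - b i)) : ℚ) := by
  have := LinearEquiv.finrank_eq (A1_piEquiv fun i => AA k (t - b i))
  rw [Module.finrank_pi_fintype] at this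
  refine (congrArg (Nat.cast : ℕ → ℚ) this).trans ?_
  push_cast
  rfl

theorem hf_piF (N : Fam k V) (hN : IsLat N) (ι : Type) [Fintype ι] (t : ℤ) :
    hf (piF N ι) t = Fintype.card ι * hf N t := by
  have hfin := hN.fin t
  have := LinearEquiv.finrank_eq (A1_piEquiv fun _ : ι => N t)
  rw [Module.finrank_pi_fintype] at this
  refine (congrArg (Nat.cast : ℕ → ℚ) this).trans ?_
  simp [hf]

/-- a family generated by `k(x,y)`-independent vectors is free -/
theorem hf_gen_indep {ι : Type} [Fintype ι] {w : ι → V} (hw : LinearIndependent (KA k) w)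
    (b : ι → ℤ) (t : ℤ) : hf (gen (AA k) w b) t = ∑ i, (finrank k (AA k (t - b i)) : ℚ) := by
  rw [A1_gen_eq, hf_fmap_inj, hf_freeF]
  refine (injective_iff_map_eq_zero _).mpr fun a ha => funext ?_
  exact Fintype.linearIndependent_iff.mp hw a ha

theorem spanF_gen {ι : Type} (w : ι → V) (b : ι → ℤ) :
    spanF (gen (AA k) w b) = Submodule.span (KA k) (Set.range w) := by
  refine le_antisymm (Submodule.span_le.mpr ?_) (Submodule.span_le.mpr ?_)
  · intro v hv
    obtain ⟨t, ht⟩ := Set.mem_iUnion.mp hv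
    have : gen (AA k) w b t ≤ (Submodule.span (KA k) (Set.range w)).restrictScalars k := by
      refine Submodule.span_le.mpr ?_
      rintro _ ⟨i, a, -, rfl⟩
      exact Submodule.smul_mem (Submodule.span (KA k) (Set.range w)) a
        (Submodule.subset_span ⟨i, rfl⟩)
    exact this ht
  · rintro _ ⟨i, rfl⟩
    exact Submodule.subset_span (Set.mem_iUnion.mpr
      ⟨b i, mem_gen_self (one_mem_AA le_rfl) w b i⟩)

theorem spanF_mono {N N' : Fam k V} (h : N ≤ N') : spanF N ≤ spanF N' := by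
  exact Submodule.span_mono (Set.iUnion_mono fun t => h t)

theorem IsLat.finite_spanF {N : Fam k V} (hN : IsLat N) :
    FiniteDimensional (KA k) (spanF N) := by
  obtain ⟨m, w, b, rfl⟩ := hN
  rw [spanF_gen]
  exact FiniteDimensional.span_of_finite _ (Set.finite_range _)

theorem IsLat.finiteDim {N : Fam k V} (hN : IsLat N) (hF : Full N) :
    FiniteDimensional (KA k) V := by
  have := hN.finite_spanF
  rw [hF] at this
  exact LinearEquiv.finiteDimensional Submodule.topEquiv

theorem A1_mem_spanF {N : Fam k V} {t : ℤ} {v : V} (h : v ∈ N t) : v ∈ spanF N :=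
  Submodule.subset_span (Set.mem_iUnion.mpr ⟨t, h⟩)

theorem A1_spanF_le {N : Fam k V} {W : Submodule (KA k) V} (h : ∀ t, ∀ v ∈ N t, v ∈ W) :
    spanF N ≤ W := by
  refine Submodule.span_le.mpr fun v hv => ?_
  obtain ⟨t, ht⟩ := Set.mem_iUnion.mp hv
  exact h t v ht

/-- every vector in the span has a multiple in `N` -/
theorem mem_spanF_denom {N : Fam k V} (hN : IsMod (AA k) N) {ξ : V} (hξ : ξ ∈ spanF N) (t : ℤ) :
    ∃ (e : ℤ) (f : KA k), f ∈ AA k e ∧ f ≠ 0 ∧ f • ξ ∈ N (t + e) := by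
  induction hξ using Submodule.span_induction generalizing t with
  | mem v hv =>
    obtain ⟨s, hs⟩ := Set.mem_iUnion.mp hv
    refine ⟨max 0 (s - t), 1, one_mem_AA (le_max_left _ _), one_ne_zero, ?_⟩
    rw [one_smul]
    exact hN.mono (by have := le_max_right 0 (s - t); omega) hs
  | zero => exact ⟨0, 1, one_mem_AA le_rfl, one_ne_zero, by simp⟩
  | add u v _ _ ihu ihv =>
    obtain ⟨e, f, hf, hf0, hu⟩ := ihu t
    obtain ⟨e', f', hf', hf0', hv⟩ := ihv t
    refine ⟨e + e', f * f', AA_mul hf hf', mul_ne_zero hf0 hf0', ?_⟩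
    rw [smul_add]
    refine add_mem ?_ ?_
    · have := hN _ _ f' hf' _ hu
      rw [smul_smul, mul_comm] at this
      convert this using 2; ring
    · have := hN _ _ f hf _ hv
      rw [smul_smul] at this
      convert this using 2; ring
  | smul c u _ ihu =>
    obtain ⟨e1, g, hg, hg0, hgc⟩ := AA_denom c 0
    obtain ⟨e, f, hf, hf0, hu⟩ := ihu t
    refine ⟨e1 + e, g * f, AA_mul hg hf, mul_ne_zero hg0 hf0, ?_⟩
    have := hN _ _ _ hgc _ hu
    rw [smul_smul] at this ⊢
    rw [show g * f * c = g * c * f by ring]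
    convert this using 2; ring

/-- a lattice inside the span of `N` has a uniform multiple in `N` -/
theorem IsLat.denom {N N' : Fam k V} (hN' : IsLat N') (hN : IsMod (AA k) N)
    (h : spanF N' ≤ spanF N) :
    ∃ (e : ℤ) (f : KA k), f ∈ AA k e ∧ f ≠ 0 ∧ ∀ t, ∀ ξ ∈ N' t, f • ξ ∈ N (t + e) := by
  classical
  obtain ⟨m, w, b, rfl⟩ := hN'
  have h1 := fun i => mem_spanF_denom hN
    (h (A1_mem_spanF (mem_gen_self (one_mem_AA le_rfl) w b i))) (b i)
  choose e f hf hf0 hw using h1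
  have hP : ∀ i, (∏ j, f j) • w i ∈ N (b i + ∑ j, e j) := by
    intro i
    have := hN _ _ _ (AA_prod (Finset.univ.erase i) f e fun j _ => hf j) _ (hw i)
    rw [smul_smul, Finset.prod_erase_mul _ _ (Finset.mem_univ i)] at this
    rw [← Finset.sum_erase_add _ _ (Finset.mem_univ i)]
    convert this using 2; ring
  refine ⟨∑ j, e j, ∏ j, f j, AA_prod _ _ _ fun j _ => hf j,
    Finset.prod_ne_zero_iff.mpr fun j _ => hf0 j, fun t ξ hξ => ?_⟩
  obtain ⟨a, ha, rfl⟩ := mem_gen.mp hξ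
  rw [Finset.smul_sum]
  refine Submodule.sum_mem _ fun i _ => ?_
  have := hN _ _ _ (ha i) _ (hP i)
  rw [smul_comm]
  convert this using 2; ring

theorem spanF_cut {N : Fam k V} (hN : IsMod (AA k) N) (W : Submodule (KA k) V) :
    spanF (cut N W) = spanF N ⊓ W := by
  refine le_antisymm (A1_spanF_le fun t v hv => ⟨A1_mem_spanF hv.1, hv.2⟩) ?_
  rintro ξ ⟨h1, h2⟩
  obtain ⟨e, f, -, hf0, hf⟩ := mem_spanF_denom hN h1 0
  have : f • ξ ∈ spanF (cut N W) := A1_mem_spanF (mem_cut.mpr ⟨hf, W.smul_mem f h2⟩)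
  have h3 := Submodule.smul_mem _ f⁻¹ this
  rwa [inv_smul_smul₀ hf0] at h3

theorem spanF_sh (N : Fam k V) (e : ℤ) : spanF (sh N e) = spanF N := by
  refine le_antisymm (A1_spanF_le fun t v hv => A1_mem_spanF (N := N) hv)
    (A1_spanF_le fun t v hv => A1_mem_spanF (t := t - e) ?_)
  simpa [R169.sh] using hv

theorem EvEq.spanF_eq {N N' : Fam k V} (hN : IsMod (AA k) N) (hN' : IsMod (AA k) N')
    (h : EvEq N N') : spanF N = spanF N' := by
  obtain ⟨t0, h⟩ := h
  refine le_antisymm (A1_spanF_le fun t v hv => A1_mem_spanF (t := max t t0) ?_)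
    (A1_spanF_le fun t v hv => A1_mem_spanF (t := max t t0) ?_)
  · rw [← h _ (le_max_right _ _)]; exact hN.mono (le_max_left _ _) hv
  · rw [h _ (le_max_right _ _)]; exact hN'.mono (le_max_left _ _) hv

/-- an eventual containment gives `Cop` (use `f = x^j`, `g = y^j`) -/
theorem EvLe.cop {N' N : Fam k V} (hN' : IsMod (AA k) N') (h : EvLe N' N) : Cop N' N := by
  obtain ⟨t0, h⟩ := h
  intro t ξ hξ
  set j := (t0 - t).toNat with hj
  have key : ∀ i : Fin 2, algebraMap (P2 k) (KA k) (MvPolynomial.X i ^ j) • ξ ∈ N (t + j) := by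
    intro i
    refine h _ (by omega) ?_
    have := hN' _ _ _ (AA_pow (xA_mem (k := k) i) j) _ hξ
    rw [map_pow]
    rw [mul_one, add_comm] at this
    exact this
  refine ⟨MvPolynomial.X 0 ^ j, MvPolynomial.X 1 ^ j, j, pow_ne_zero _ (MvPolynomial.X_ne_zero _),
    A0_relPrime j, ?_, ?_, key 1⟩
  · rw [MvPolynomial.totalDegree_X_pow]
  · rw [MvPolynomial.totalDegree_X_pow]; exact key 0

theorem EvEq.refl (N : Fam k V) : EvEq N N := ⟨0, fun _ _ => rfl⟩

theorem EvEq.symm {N N' : Fam k V} (h : EvEq N N') : EvEq N' N := by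
  obtain ⟨t0, h⟩ := h
  exact ⟨t0, fun t ht => (h t ht).symm⟩

theorem EvEq.trans {N N' N'' : Fam k V} (h : EvEq N N') (h' : EvEq N' N'') : EvEq N N'' := by
  obtain ⟨t0, h⟩ := h
  obtain ⟨t1, h'⟩ := h'
  exact ⟨max t0 t1, fun t ht => (h t (le_of_max_le_left ht)).trans (h' t (le_of_max_le_right ht))⟩

theorem EvEq.of_le {N N' : Fam k V} (h : EvLe N N') (h' : EvLe N' N) : EvEq N N' := by
  obtain ⟨t0, h⟩ := h
  obtain ⟨t1, h'⟩ := h'
  exact ⟨max t0 t1, fun t ht =>
    le_antisymm (h t (le_of_max_le_left ht)) (h' t (le_of_max_le_right ht))⟩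

theorem EvEq.evLe {N N' : Fam k V} (h : EvEq N N') : EvLe N N' := by
  obtain ⟨t0, h⟩ := h
  exact ⟨t0, fun t ht => (h t ht).le⟩

section tower
variable {L : Type} [Field L] [Algebra k L] [Algebra (KA k) L] [Module L V] [Module L V']
  [IsScalarTower k L V] [IsScalarTower k L V'] [IsScalarTower (KA k) L V]
  [IsScalarTower (KA k) L V']

theorem IsLat.fmap {N : Fam k V} (hN : IsLat N) (f : V →ₗ[L] V') : IsLat (fmap f N) := by
  obtain ⟨m, w, b, rfl⟩ := hN
  have : R169.fmap f (gen (AA k) w b) = R169.fmap (f.restrictScalars (KA k)) (gen (AA k) w b) := rfl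
  rw [this, fmap_gen]
  exact gen_isLat _ _

theorem IsMod.cut {N : Fam k V} (hN : IsMod (AA k) N) (W : Submodule L V) :
    IsMod (AA k) (cut N W) := by
  intro s t a ha v hv
  refine ⟨hN s t a ha v hv.1, ?_⟩
  exact (W.restrictScalars (KA k)).smul_mem a hv.2

theorem IsMod.fcomap {N : Fam k V'} (hN : IsMod (AA k) N) (f : V →ₗ[L] V') :
    IsMod (AA k) (fcomap f N) := by
  intro s t a ha v hv
  rw [mem_fcomap, LinearMap.map_smul_of_tower]
  exact hN s t a ha _ hv

theorem cut_restrict (N : Fam k V) (W : Submodule L V) :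
    cut N (W.restrictScalars (KA k)) = cut N W := rfl

theorem spanF_fmap (N : Fam k V) (f : V →ₗ[L] V') :
    spanF (fmap f N) = (spanF N).map (f.restrictScalars (KA k)) := by
  rw [spanF, spanF, Submodule.map_span, Set.image_iUnion]
  rfl

theorem Cop.cut {N' N : Fam k V} (h : Cop N' N) (W : Submodule L V) :
    Cop (cut N' W) (cut N W) := by
  intro t ξ hξ
  obtain ⟨f, g, e, hf, hfg, hg, h1, h2⟩ := h t ξ hξ.1
  exact ⟨f, g, e, hf, hfg, hg, ⟨h1, (W.restrictScalars (KA k)).smul_mem _ hξ.2⟩,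
    ⟨h2, (W.restrictScalars (KA k)).smul_mem _ hξ.2⟩⟩

end tower
end lat

end Crest.Agent.R169
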