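import Crest.Agent.R169.AHilb

/-! # R169 task AResP: Hilbert functions from a free presentation -/

set_option autoImplicit false

namespace Crest.Agent.R169
open Module

variable {k : Type} [Field k] {V V' : Type} [AddCommGroup V] [Module k V] [Module (KA k) V]
  [IsScalarTower k (KA k) V] [AddCommGroup V'] [Module k V'] [Module (KA k) V']
  [IsScalarTower k (KA k) V']

theorem AResP_ev {m : ℕ} (w : Fin m → V) (η : Fin m → KA k) :
    A1_ev k w η = ∑ i, η i • w i := by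
  simp [A1_ev, Fintype.linearCombination_apply]

theorem AResP_rel {m m' : ℕ} {w : Fin m → V} {φ : Matrix (Fin m) (Fin m') (KA k)}
    (hrel : ∀ j, ∑ i, φ i j • w i = 0) (ζ : Fin m' → KA k) : ∑ i, φ.mulVec ζ i • w i = 0 := by
  have : ∀ i, φ.mulVec ζ i • w i = ∑ j, ζ j • (φ i j • w i) := by
    intro i
    simp only [Matrix.mulVec, dotProduct, Finset.sum_smul]
    refine Finset.sum_congr rfl fun j _ => ?_
    rw [mul_comm, mul_smul]
  simp only [this]
  rw [Finset.sum_comm]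
  refine Finset.sum_eq_zero fun j _ => ?_
  rw [← Finset.smul_sum, hrel j, smul_zero]

theorem AResP_deg {m m' : ℕ} {b : Fin m → ℤ} {φ : Matrix (Fin m) (Fin m') (KA k)}
    {b' : Fin m' → ℤ} (hdeg : ∀ i j, φ i j ∈ AA k (b' j - b i)) {t : ℤ} {ζ : Fin m' → KA k}
    (hζ : ∀ j, ζ j ∈ AA k (t - b' j)) (i : Fin m) : φ.mulVec ζ i ∈ AA k (t - b i) := by
  simp only [Matrix.mulVec, dotProduct]
  refine Submodule.sum_mem _ fun j _ => ?_
  have := AA_mul (hdeg i j) (hζ j)
  rwa [show b' j - b i + (t - b' j) = t - b i by ring] at this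

theorem AResP_inj {m m' : ℕ} {φ : Matrix (Fin m) (Fin m') (KA k)}
    (h : ∀ ζ : Fin m' → KA k, φ.mulVec ζ = 0 → ζ = 0) : Function.Injective φ.mulVecLin :=
  (injective_iff_map_eq_zero φ.mulVecLin).2 h

theorem AResP_rn {m : ℕ} {w : Fin m → V} {b : Fin m → ℤ} (hF : Full (gen (AA k) w b)) :
    m = finrank (KA k) (LinearMap.ker (A1_ev k w)) + finrank (KA k) V := by
  have h1 := LinearMap.finrank_range_add_finrank_ker (A1_ev k w)
  have h2 : LinearMap.range (A1_ev k w) = ⊤ := by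
    rw [A1_ev, Fintype.range_linearCombination, ← spanF_gen w b]
    exact hF
  rw [h2, finrank_top] at h1
  simp only [Module.finrank_fintype_fun_eq_card, Fintype.card_fin] at h1
  omega

/-- `0 → freeF b' → freeF b → gen w b → 0` is exact in each degree -/
theorem Syz.hf_eq {m m' : ℕ} {w : Fin m → V} {b : Fin m → ℤ} {φ : Matrix (Fin m) (Fin m') (KA k)}
    {b' : Fin m' → ℤ} (H : Syz w b φ b') (t : ℤ) : hf (gen (AA k) w b) t =
      ∑ i, (finrank k (AA k (t - b i)) : ℚ) - ∑ j, (finrank k (AA k (t - b' j)) : ℚ) := by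
  haveI := A1_free_fin (k := k) b t
  have h1 := hf_cut_add_fmap (A1_ev k w) (freeF k b) t
  have h2 : cut (freeF k b) (LinearMap.ker (A1_ev k w)) = fmap φ.mulVecLin (freeF k b') := by
    funext s
    ext η
    rw [mem_cut, mem_fmap]
    constructor
    · rintro ⟨h3, h4⟩
      rw [LinearMap.mem_ker, AResP_ev] at h4
      obtain ⟨ζ, h5, h6⟩ := H.ex s η (fun i => h3 i (Set.mem_univ i)) h4
      exact ⟨ζ, fun j _ => h5 j, h6.symm⟩
    · rintro ⟨ζ, h3, rfl⟩
      refine ⟨fun i _ => AResP_deg H.deg (fun j => h3 j (Set.mem_univ j)) i, ?_⟩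
      rw [LinearMap.mem_ker, AResP_ev]
      exact AResP_rel H.rel ζ
  rw [h2, hf_fmap_inj (AResP_inj H.inj), hf_freeF, hf_freeF, ← A1_gen_eq] at h1
  linarith

theorem Syz.hasHP {m m' : ℕ} {w : Fin m → V} {b : Fin m → ℤ} {φ : Matrix (Fin m) (Fin m') (KA k)}
    {b' : Fin m' → ℤ} (H : Syz w b φ b') : HasHP (hf (gen (AA k) w b)) (((m : ℚ) - m') / 2)
      (∑ i, (3 / 2 - (b i : ℚ)) - ∑ j, (3 / 2 - (b' j : ℚ)))
      (∑ i, ((b i : ℚ) - 1) * (b i - 2) / 2 - ∑ j, ((b' j : ℚ) - 1) * (b' j - 2) / 2) := by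
  have h := (AHilb_free (k := k) b).sub (AHilb_free (k := k) b')
  simp only [Fintype.card_fin] at h
  rw [show ((m : ℚ) - m') / 2 = m / 2 - m' / 2 by ring]
  exact h.congr ⟨0, fun t _ => H.hf_eq t⟩

/-- all `k(x,y)`-relations come from `φ` (clear denominators, `AA_denom_fin`) -/
theorem Syz.ex' {m m' : ℕ} {w : Fin m → V} {b : Fin m → ℤ} {φ : Matrix (Fin m) (Fin m') (KA k)}
    {b' : Fin m' → ℤ} (H : Syz w b φ b') (η : Fin m → KA k) (h : ∑ i, η i • w i = 0) :
    ∃ ζ : Fin m' → KA k, η = φ.mulVec ζ := by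
  obtain ⟨e, f, -, hf0, hf⟩ := AA_denom_fin η (fun i => - b i)
  obtain ⟨ζ, -, hζ⟩ := H.ex e (f • η) (fun i => by
    have := hf i
    rwa [show - b i + e = e - b i by ring] at this) (by
    simp only [Pi.smul_apply, smul_eq_mul, mul_smul]
    rw [← Finset.smul_sum, h, smul_zero])
  refine ⟨f⁻¹ • ζ, ?_⟩
  rw [Matrix.mulVec_smul, ← hζ, smul_smul, inv_mul_cancel₀ hf0, one_smul]

theorem Syz.card {m m' : ℕ} {w : Fin m → V} {b : Fin m → ℤ} {φ : Matrix (Fin m) (Fin m') (KA k)}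
    {b' : Fin m' → ℤ} (H : Syz w b φ b') (hF : Full (gen (AA k) w b)) :
    m = m' + finrank (KA k) V := by
  have h1 := AResP_rn hF
  have h2 : LinearMap.ker (A1_ev k w) = LinearMap.range φ.mulVecLin := by
    ext η
    rw [LinearMap.mem_ker, AResP_ev, LinearMap.mem_range]
    constructor
    · intro h
      obtain ⟨ζ, hζ⟩ := H.ex' η h
      exact ⟨ζ, hζ.symm⟩
    · rintro ⟨ζ, rfl⟩
      exact AResP_rel H.rel ζ
  rw [h2, LinearMap.finrank_range_of_inj (AResP_inj H.inj)] at h1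
  simpa using h1

/-- Sketch: `ψ 2 * φ = 1` gives `inj`; by `card` and fullness the relation space has dimension `m'`,
so it is the range of `φ`: `η = φ ζ`; then `x^M ζ = ψ 0 η`, `y^M ζ = ψ 1 η` and `AA_S2_xy`. -/
theorem ResData.syz {m m' : ℕ} {w : Fin m → V} {b : Fin m → ℤ}
    {φ : Matrix (Fin m) (Fin m') (KA k)} {b' : Fin m' → ℤ} {M0 : ℕ}
    {ψ : Fin 3 → Matrix (Fin m') (Fin m) (KA k)} (H : ResData w b φ b' M0 ψ)
    (hF : Full (gen (AA k) w b)) : Syz w b φ b' := by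
  have hinj : ∀ ζ : Fin m' → KA k, φ.mulVec ζ = 0 → ζ = 0 := by
    intro ζ h
    have : (ψ 2 * φ).mulVec ζ = 0 := by rw [← Matrix.mulVec_mulVec, h, Matrix.mulVec_zero]
    rwa [H.ψ2, Matrix.one_mulVec] at this
  refine ⟨H.deg, H.rel, hinj, fun t η hη h => ?_⟩
  have h1 := AResP_rn hF
  have h2 : LinearMap.range φ.mulVecLin = LinearMap.ker (A1_ev k w) := by
    apply Submodule.eq_of_le_of_finrank_eq
    · rintro _ ⟨ζ, rfl⟩
      rw [LinearMap.mem_ker, AResP_ev]
      exact AResP_rel H.rel ζ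
    · rw [LinearMap.finrank_range_of_inj (AResP_inj hinj)]
      have := H.card
      simp only [Module.finrank_fintype_fun_eq_card, Fintype.card_fin]
      omega
  have h3 : η ∈ LinearMap.range φ.mulVecLin := by
    rw [h2, LinearMap.mem_ker, AResP_ev]; exact h
  obtain ⟨ζ, hζ⟩ := h3
  have hζ' : φ.mulVec ζ = η := hζ
  refine ⟨ζ, fun j => ?_, hζ'.symm⟩
  have key : ∀ l, (ψ l).mulVec η j ∈ AA k (t - b' j + M0) := by
    intro l
    simp only [Matrix.mulVec, dotProduct]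
    refine Submodule.sum_mem _ fun i _ => ?_
    have := AA_mul (H.ψdeg l j i) (hη i)
    rwa [show (M0 : ℤ) + b i - b' j + (t - b i) = t - b' j + M0 by ring] at this
  have k0 := key 0
  have k1 := key 1
  rw [← hζ', Matrix.mulVec_mulVec] at k0 k1
  rw [H.ψ0, Matrix.smul_mulVec, Matrix.one_mulVec] at k0
  rw [H.ψ1, Matrix.smul_mulVec, Matrix.one_mulVec] at k1
  exact AA_S2_xy M0 k0 k1

end Crest.Agent.R169
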