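import Crest.Agent.R169.ADeg1
import Crest.Agent.R169.AResP

/-! # R169 task ACert: first-order certificates for quotients of bounded degree -/

set_option autoImplicit false

namespace Crest.Agent.R169
open Module

variable {k : Type} [Field k]

theorem ACert_col {y m : ℕ} {C : Matrix (Fin y) (Fin m) (KA k)} {I : Fin y → Fin m}
    (hI : C.submatrix id I = 1) (r : Fin y) : (fun i => C i (I r)) = Pi.single r 1 := by
  ext i
  have := congrFun (congrFun hI i) r
  simp only [Matrix.submatrix_apply, id] at this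
  rw [this, Matrix.one_apply, Pi.single_apply]

theorem ACert_span_single {y : ℕ} {S : Submodule (KA k) (Fin y → KA k)}
    (h : ∀ r, (Pi.single r 1 : Fin y → KA k) ∈ S) : S = ⊤ := by
  rw [eq_top_iff]
  intro v _
  rw [pi_eq_sum_univ' v]
  exact Submodule.sum_mem _ fun r _ => Submodule.smul_mem _ _ (h r)

theorem ACert_det {y m : ℕ} (C : Matrix (Fin y) (Fin m) (KA k)) (a : Fin y → Fin m → KA k) :
    (Matrix.of fun i => ∑ j, a i j • (fun r => C r j)).det =
      ∑ J : Fin y → Fin m, (∏ i, a i (J i)) * (C.submatrix id J).det := by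
  have h1 := (Matrix.detRowAlternating (R := KA k) (n := Fin y)).toMultilinearMap.map_sum
    (fun i j => a i j • (fun r => C r j))
  refine h1.trans (Finset.sum_congr rfl fun J _ => ?_)
  rw [MultilinearMap.map_smul_univ, smul_eq_mul, ← Matrix.det_transpose]
  rfl

/-- Sketch: `N = gen (columns of C) b` is a full lattice; take `DetGcd N γ e`, `hb N - 3y/2 = -e`.
(⇒) `h = γ⁻¹` (note `det C_I = 1`).  (⇐) multilinear expansion gives `h det n ∈ AA (D + ∑ s)` for all
`n_i ∈ N (s_i)`; on the witnesses `θ^(D+e) h γ ∈ O` at all places, so `hγ ∈ AA (D + e)`, `0 ≤ D + e`. -/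
theorem deg_le_iff {y m : ℕ} (C : Matrix (Fin y) (Fin m) (KA k)) (I : Fin y → Fin m)
    (hI : C.submatrix id I = 1) (b : Fin m → ℤ) (D : ℤ) :
    hb (gen (AA k) (fun j => fun i => C i j) b) - 3 * (y : ℚ) / 2 ≤ D ↔
      ∃ h : KA k, h ≠ 0 ∧ h ∈ AA k (D + ∑ i, b (I i)) ∧
        ∀ J : Fin y → Fin m, h * (C.submatrix id J).det ∈ AA k (D + ∑ i, b (J i)) := by
  have hN : IsLat (gen (AA k) (fun j => fun i => C i j) b) := gen_isLat _ _
  have hF : Full (gen (AA k) (fun j => fun i => C i j) b) := by
    unfold Full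
    rw [spanF_gen]
    refine ACert_span_single fun r => Submodule.subset_span ⟨I r, ACert_col hI r⟩
  obtain ⟨Pl, HP⟩ := exists_placeSys k
  obtain ⟨γ, e, hγ⟩ := exists_detGcd HP hN hF
  rw [hγ.hb_eq HP hN hF]
  obtain ⟨hγ0, h1, h2⟩ := hγ
  constructor
  · intro hD
    have hD' : -e ≤ D := by exact_mod_cast hD
    have key : ∀ J : Fin y → Fin m,
        γ⁻¹ * (C.submatrix id J).det ∈ AA k (D + ∑ i, b (J i)) := by
      intro J
      have h3 := h1 (fun i r => C r (J i)) (fun i => b (J i))
        (fun i => mem_gen_self (one_mem_AA le_rfl) (fun j => fun i => C i j) b (J i))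
      have h4 : (Matrix.of fun i r => C r (J i)).det = (C.submatrix id J).det := by
        rw [← Matrix.det_transpose]
        rfl
      rw [h4, div_eq_inv_mul] at h3
      exact AA_mono (by omega) h3
    refine ⟨γ⁻¹, inv_ne_zero hγ0, ?_, key⟩
    have := key I
    rwa [hI, Matrix.det_one, mul_one] at this
  · rintro ⟨h, h0, -, hJ⟩
    have key : ∀ (n : Fin y → Fin y → KA k) (s : Fin y → ℤ),
        (∀ i, n i ∈ gen (AA k) (fun j => fun i => C i j) b (s i)) →
        h * (Matrix.of n).det ∈ AA k (D + ∑ i, s i) := by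
      intro n s hn
      choose a ha hna using fun i => mem_gen.1 (hn i)
      have e1 : n = fun i => ∑ j, a i j • (fun r => C r j) := funext hna
      rw [e1, ACert_det, Finset.mul_sum]
      refine Submodule.sum_mem _ fun J _ => ?_
      have h3 := AA_mul (AA_prod Finset.univ (fun i => a i (J i)) (fun i => s i - b (J i))
        (fun i _ => ha i (J i))) (hJ J)
      rw [Finset.sum_sub_distrib] at h3
      have e2 : ∑ i, s i - ∑ i, b (J i) + (D + ∑ i, b (J i)) = D + ∑ i, s i := by ring
      rw [e2, mul_left_comm] at h3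
      exact h3
    have h5 : h * γ ∈ AA k (D + e) := by
      refine HP.mem_AA fun P hP => ?_
      obtain ⟨n, s, hn, hdet, hu⟩ := h2 P hP
      have h6 := P.O.mul_mem _ _ (P.mem _ _ (key n s hn)) hu
      have e3 : D + ∑ i, s i = (D + e) + (∑ i, s i - e) := by ring
      have hθ : P.θ ^ (∑ i, s i - e) ≠ 0 := zpow_ne_zero _ P.θ_ne
      rw [e3, zpow_add₀ P.θ_ne] at h6
      convert h6 using 1
      field_simp
    have h7 := AA_nonneg h5 (mul_ne_zero h0 hγ0)
    have h8 : -e ≤ D := by omega
    exact_mod_cast h8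

variable {K : Type} [Field K] [Algebra k K] [Algebra (KA k) K] [IsScalarTower k (KA k) K]

/-- the intermediate form of `cert_iff` -/
def ACert_Mid {ι : Type} (μ : ι → K) {ρ m : ℕ} (w : Fin m → Fin ρ → K) (b : Fin m → ℤ) (y : ℕ)
    (D : ℤ) : Prop :=
  ∃ (ψ : (Fin ρ → K) →ₗ[KA k] (Fin y → KA k)) (I : Fin y → Fin m),
    (∀ r, ψ (w (I r)) = Pi.single r 1) ∧ (∀ l v, ψ v = 0 → ψ (μ l • v) = 0) ∧
    hb (gen (AA k) (fun j => ψ (w j)) b) - 3 * (y : ℚ) / 2 ≤ D

theorem ACert_hb {ρ m y : ℕ} (w : Fin m → Fin ρ → K) (b : Fin m → ℤ)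
    (ψ : (Fin ρ → K) →ₗ[KA k] (Fin y → KA k)) (W : Submodule K (Fin ρ → K))
    (hW : LinearMap.ker ψ = W.restrictScalars (KA k)) :
    hb (gen (AA k) w b) - hb (cut (gen (AA k) w b) W) = hb (gen (AA k) (fun j => ψ (w j)) b) := by
  have h1 := ((gen_isLat (k := k) w b).coeffs_add ψ).2.1
  rw [hW, cut_restrict, fmap_gen] at h1
  linarith

omit [Algebra k K] [IsScalarTower k (KA k) K] in
theorem ACert_rank [FiniteDimensional (KA k) K] {ρ : ℕ} (W : Submodule K (Fin ρ → K)) :
    ((ρ : ℚ) - finrank K W) * rk k K = finrank (KA k) ((Fin ρ → K) ⧸ W) := by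
  have h1 := Submodule.finrank_quotient_add_finrank W
  rw [Module.finrank_fin_fun] at h1
  have h2 := Module.finrank_mul_finrank (KA k) K ((Fin ρ → K) ⧸ W)
  have h3 : (ρ : ℚ) - finrank K W = finrank K ((Fin ρ → K) ⧸ W) := by
    have : (finrank K ((Fin ρ → K) ⧸ W) : ℚ) + finrank K W = ρ := by exact_mod_cast h1
    linarith
  rw [h3, ← h2, rk]
  push_cast
  ring

theorem ACert_left {ι : Type} (μ : ι → K) (hμ : Submodule.span (KA k) (Set.range μ) = ⊤)
    [FiniteDimensional (KA k) K] {ρ m : ℕ} {w : Fin m → Fin ρ → K} {b : Fin m → ℤ}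
    (hF : Full (gen (AA k) w b)) (y : ℕ) (D : ℤ) :
    (∃ W : Submodule K (Fin ρ → K), ((ρ : ℚ) - finrank K W) * rk k K = y ∧
      hb (gen (AA k) w b) - hb (cut (gen (AA k) w b) W) - 3 * (y : ℚ) / 2 ≤ D) ↔
    ACert_Mid (k := k) μ w b y D := by
  have hsp : Submodule.span (KA k) (Set.range w) = ⊤ := by
    rw [← spanF_gen w b]; exact hF
  constructor
  · rintro ⟨W, hy, hD⟩
    rw [ACert_rank] at hy
    have hy' : finrank (KA k) ((Fin ρ → K) ⧸ W) = y := by exact_mod_cast hy
    let π : (Fin ρ → K) →ₗ[KA k] ((Fin ρ → K) ⧸ W) := W.mkQ.restrictScalars (KA k)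
    have hπ : Function.Surjective π := W.mkQ_surjective
    have hsp' : Submodule.span (KA k) (Set.range fun j => π (w j)) = ⊤ := by
      have : (Set.range fun j => π (w j)) = π '' Set.range w := by
        rw [← Set.range_comp]; rfl
      rw [this, Submodule.span_image, hsp, Submodule.map_top, LinearMap.range_eq_top.2 hπ]
    obtain ⟨κ, a, ha, hspan, hli⟩ := exists_linearIndependent' (KA k) (fun j => π (w j))
    rw [hsp'] at hspan
    have : Finite κ := Finite.of_injective a ha
    let _ : Fintype κ := Fintype.ofFinite κ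
    let B0 : Basis κ (KA k) ((Fin ρ → K) ⧸ W) := Basis.mk hli hspan.ge
    have hc : Fintype.card κ = y := by rw [← hy', finrank_eq_card_basis B0]
    let σ : κ ≃ Fin y := Fintype.equivFinOfCardEq hc
    let B : Basis (Fin y) (KA k) ((Fin ρ → K) ⧸ W) := B0.reindex σ
    have hB : ∀ r, B r = π (w (a (σ.symm r))) := by
      intro r
      simp [B, B0]
    let ψ : (Fin ρ → K) →ₗ[KA k] (Fin y → KA k) := B.equivFun.toLinearMap.comp π
    have hψ : ∀ v, ψ v = 0 ↔ v ∈ W := by
      intro v
      have : ψ v = B.equivFun (π v) := rfl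
      rw [this, LinearEquiv.map_eq_zero_iff]
      exact Submodule.Quotient.mk_eq_zero W
    have hker : LinearMap.ker ψ = W.restrictScalars (KA k) := by
      ext v
      rw [LinearMap.mem_ker, hψ, Submodule.restrictScalars_mem]
    refine ⟨ψ, fun r => a (σ.symm r), fun r => ?_, fun l v hv => ?_, ?_⟩
    · have : ψ (w (a (σ.symm r))) = B.equivFun (B r) := by rw [hB]; rfl
      rw [this]
      ext i
      rw [Basis.equivFun_self, Pi.single_apply]
      simp only [eq_comm]
    · exact (hψ _).2 (W.smul_mem _ ((hψ _).1 hv))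
    · rw [← ACert_hb w b ψ W hker]
      exact hD
  · rintro ⟨ψ, I, hI, hst, hD⟩
    let W : Submodule K (Fin ρ → K) :=
      { carrier := {v | ψ v = 0}
        zero_mem' := map_zero ψ
        add_mem' := fun {u v} hu hv => by
          have hu' : ψ u = 0 := hu
          have hv' : ψ v = 0 := hv
          show ψ (u + v) = 0
          rw [map_add, hu', hv', add_zero]
        smul_mem' := fun c v hv => by
          have hv' : ψ v = 0 := hv
          show ψ (c • v) = 0
          have hc : c ∈ Submodule.span (KA k) (Set.range μ) := hμ ▸ Submodule.mem_top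
          induction hc using Submodule.span_induction with
          | mem x hx =>
            obtain ⟨l, rfl⟩ := hx
            exact hst l v hv'
          | zero => rw [zero_smul, map_zero]
          | add x y _ _ hx hy => rw [add_smul, map_add, hx, hy, add_zero]
          | smul a x _ hx => rw [smul_assoc, map_smul, hx, smul_zero] }
    have hker : LinearMap.ker ψ = W.restrictScalars (KA k) := by
      ext v
      rfl
    refine ⟨W, ?_, ?_⟩
    · rw [ACert_rank]
      have hsur : LinearMap.range ψ = ⊤ := ACert_span_single fun r => ⟨_, hI r⟩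
      have e1 := (Submodule.Quotient.restrictScalarsEquiv (KA k) W).finrank_eq
      have e2 := (LinearMap.quotKerEquivOfSurjective ψ (LinearMap.range_eq_top.1 hsur)).finrank_eq
      rw [hker, e1, Module.finrank_fin_fun] at e2
      rw [e2]
    · rw [ACert_hb w b ψ W hker]
      exact hD

theorem ACert_right {ι : Type} (μ : ι → K) {ρ m m' : ℕ} {w : Fin m → Fin ρ → K} {b : Fin m → ℤ}
    {φ : Matrix (Fin m) (Fin m') (KA k)} {b' : Fin m' → ℤ} (H : Syz w b φ b')
    (hF : Full (gen (AA k) w b)) {θ : ι → Matrix (Fin m) (Fin m) (KA k)}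
    (hθ : ∀ l i, μ l • w i = ∑ j, θ l j i • w j) (y : ℕ) (D : ℤ) :
    ACert_Mid (k := k) μ w b y D ↔ ∃ I : Fin y → Fin m, Cert b φ θ I D := by
  have hsp : Submodule.span (KA k) (Set.range w) = ⊤ := by
    rw [← spanF_gen w b]; exact hF
  constructor
  · rintro ⟨ψ, I, hI, hst, hD⟩
    let C : Matrix (Fin y) (Fin m) (KA k) := Matrix.of fun i j => ψ (w j) i
    have hCI : C.submatrix id I = 1 := by
      ext i r
      simp only [C, Matrix.submatrix_apply, id, Matrix.of_apply, hI, Matrix.one_apply,
        Pi.single_apply]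
    obtain ⟨h, h0, h1, h2⟩ := (deg_le_iff C I hCI b D).1 hD
    have hmul : ∀ {n : ℕ} (M : Matrix (Fin m) (Fin n) (KA k)) (i : Fin y) (j : Fin n),
        (C * M) i j = ψ (∑ r, M r j • w r) i := by
      intro n M i j
      rw [map_sum, Finset.sum_apply, Matrix.mul_apply]
      refine Finset.sum_congr rfl fun r _ => ?_
      rw [map_smul, Pi.smul_apply, smul_eq_mul, mul_comm]
      rfl
    have hθ' : ∀ l, C * θ l = (C * θ l).submatrix id I * C := by
      intro l
      ext i j
      have h3 : ψ (w j - ∑ r, C r j • w (I r)) = 0 := by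
        rw [map_sub, map_sum]
        simp only [map_smul, hI]
        rw [sub_eq_zero]
        exact pi_eq_sum_univ' (ψ (w j))
      have h4 := hst l _ h3
      rw [smul_sub, map_sub, sub_eq_zero, Finset.smul_sum, map_sum] at h4
      rw [hmul, ← hθ, h4, Finset.sum_apply, Matrix.mul_apply]
      refine Finset.sum_congr rfl fun r _ => ?_
      rw [smul_comm, map_smul, Pi.smul_apply, smul_eq_mul, mul_comm, Matrix.submatrix_apply, id,
        hmul, ← hθ]
    refine ⟨I, h, h • C, fun J => h * (C.submatrix id J).det, h0, h1, ?_, ?_, ?_, ?_, ?_⟩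
    · intro i j
      have h3 := h2 (Function.update I i j)
      have e1 : C.submatrix id (Function.update I i j) =
          (1 : Matrix (Fin y) (Fin y) (KA k)).updateCol i (fun r => C r j) := by
        rw [← hCI]
        ext r s
        by_cases hs : s = i
        · subst hs
          simp
        · simp [Matrix.updateCol_ne hs, Function.update_of_ne hs]
      have e2 : ∑ r, b (Function.update I i j r) = ∑ r, b (I r) + b j - b (I i) := by
        have e3 : (fun r => b (Function.update I i j r)) =
            Function.update (fun r => b (I r)) i (b j) := by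
          ext r
          by_cases hr : r = i
          · subst hr; simp
          · simp [Function.update_of_ne hr]
        rw [e3, Finset.sum_update_of_mem (Finset.mem_univ i),
          Finset.sum_eq_sum_sdiff_singleton_add (Finset.mem_univ i) (fun r => b (I r))]
        ring
      rw [e1, ← Matrix.cramer_apply, Matrix.cramer_one, e2] at h3
      have e4 : D + ∑ r, b (I r) + b j - b (I i) = D + (∑ r, b (I r) + b j - b (I i)) := by ring
      rw [e4]
      exact h3
    · rw [← hCI]
      rfl
    · rw [Matrix.smul_mul]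
      have : C * φ = 0 := by
        ext i j
        rw [hmul, H.rel j, map_zero]
        rfl
      rw [this, smul_zero]
    · intro l
      rw [Matrix.smul_mul, Matrix.mul_smul]
      congr 1
      have : (h • (C * θ l)).submatrix id I = h • (C * θ l).submatrix id I := rfl
      rw [this, Matrix.smul_mul, ← hθ']
    · intro J
      refine ⟨h2 J, ?_⟩
      have : (h • C).submatrix id J = h • C.submatrix id J := rfl
      rw [this, Matrix.det_smul, Fintype.card_fin]
      ring
  · rintro ⟨I, h, G, v, h0, h1, -, hGI, hGφ, hGθ, hv⟩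
    obtain ⟨C, rfl⟩ : ∃ C : Matrix (Fin y) (Fin m) (KA k), G = h • C :=
      ⟨h⁻¹ • G, by rw [smul_smul, mul_inv_cancel₀ h0, one_smul]⟩
    have hCI : C.submatrix id I = 1 := by
      have : (h • C).submatrix id I = h • C.submatrix id I := rfl
      rw [this] at hGI
      exact smul_right_injective _ h0 hGI
    have hCφ : C * φ = 0 := by
      rw [Matrix.smul_mul] at hGφ
      exact (smul_eq_zero.1 hGφ).resolve_left h0
    have hCθ : ∀ l, C * θ l = (C * θ l).submatrix id I * C := by
      intro l
      have h3 := hGθ l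
      have : (h • (C * θ l)).submatrix id I = h • (C * θ l).submatrix id I := rfl
      rw [Matrix.smul_mul, Matrix.mul_smul, this, Matrix.smul_mul] at h3
      exact smul_right_injective _ h0 (smul_right_injective _ h0 h3)
    have hdet : ∀ J : Fin y → Fin m, h * (C.submatrix id J).det ∈ AA k (D + ∑ i, b (J i)) := by
      intro J
      obtain ⟨h3, h4⟩ := hv J
      have : (h • C).submatrix id J = h • C.submatrix id J := rfl
      rw [this, Matrix.det_smul, Fintype.card_fin, mul_left_comm] at h4
      rw [mul_left_cancel₀ (pow_ne_zero y h0) h4]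
      exact h3
    have hD := (deg_le_iff C I hCI b D).2 ⟨h, h0, h1, hdet⟩
    let ev : (Fin m → KA k) →ₗ[KA k] (Fin ρ → K) := Fintype.linearCombination (KA k) w
    have hev : ∀ η, ev η = ∑ i, η i • w i := fun η => Fintype.linearCombination_apply _ _ _
    have hsur : LinearMap.range ev = ⊤ := by
      rw [Fintype.range_linearCombination, hsp]
    obtain ⟨s, hs⟩ := ev.exists_rightInverse_of_surjective hsur
    let ψ : (Fin ρ → K) →ₗ[KA k] (Fin y → KA k) := C.mulVecLin.comp s
    have hψ : ∀ η, ψ (ev η) = C.mulVec η := by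
      intro η
      have h3 : ev (s (ev η) - η) = 0 := by
        have : ev (s (ev η)) = ev η := LinearMap.congr_fun hs (ev η)
        rw [map_sub, this, sub_self]
      rw [hev] at h3
      obtain ⟨ζ, hζ⟩ := H.ex' _ h3
      have h4 : C.mulVec (s (ev η) - η) = 0 := by
        rw [hζ, Matrix.mulVec_mulVec, hCφ, Matrix.zero_mulVec]
      rw [Matrix.mulVec_sub, sub_eq_zero] at h4
      exact h4
    have hw : ∀ j, ψ (w j) = fun i => C i j := by
      intro j
      have : w j = ev (Pi.single j 1) := by
        simp [ev]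
      rw [this, hψ, Matrix.mulVec_single_one]
      rfl
    refine ⟨ψ, I, fun r => by rw [hw, ACert_col hCI], fun l u hu => ?_, ?_⟩
    · obtain ⟨η, rfl⟩ := LinearMap.range_eq_top.1 hsur u
      have h3 : μ l • ev η = ev ((θ l).mulVec η) := by
        rw [hev, hev, Finset.smul_sum]
        simp only [Matrix.mulVec, dotProduct, Finset.sum_smul]
        rw [Finset.sum_comm]
        refine Finset.sum_congr rfl fun i _ => ?_
        rw [smul_comm, hθ, Finset.smul_sum]
        refine Finset.sum_congr rfl fun j _ => ?_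
        rw [smul_smul, mul_comm]
      rw [hψ] at hu
      rw [h3, hψ, Matrix.mulVec_mulVec, hCθ, ← Matrix.mulVec_mulVec, hu, Matrix.mulVec_zero]
    · simp only [hw]
      exact hD

/-- `E = gen w b ⊆ K^ρ`.
(⇒) `π : K^ρ → K^ρ/W` has `k(x,y)`-rank `y`; choose `I` with `π (w (I i))` a basis, `C` = coordinates of
`π (w j)`; `hb E - hb (cut E W) = hb (gen C b)` (`coeffs_add`, `hf_fmap_inj`, `fmap_gen`);
`deg_le_iff` gives `h`; `H = h • C` (`C i j = det C_J` for `J = update I i j`), `v J = h det C_J`;
`μ l` acts on the quotient by a matrix `T_l` with `C θ_l = T_l C`, so `T_l = (C θ_l)_I`.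
(⇐) `C = h⁻¹ • H` kills all relations (`Syz.ex'`), so `w j ↦ C_j` defines a `k(x,y)`-linear
surjection `π : K^ρ → k(x,y)^y`, whose kernel is stable under the `μ l`, which span `K`. -/
theorem cert_iff {ι : Type} (μ : ι → K) (hμ : Submodule.span (KA k) (Set.range μ) = ⊤)
    [FiniteDimensional (KA k) K] {ρ m m' : ℕ} {w : Fin m → Fin ρ → K} {b : Fin m → ℤ}
    {φ : Matrix (Fin m) (Fin m') (KA k)} {b' : Fin m' → ℤ} (H : Syz w b φ b')
    (hF : Full (gen (AA k) w b)) {θ : ι → Matrix (Fin m) (Fin m) (KA k)}
    (hθ : ∀ l i, μ l • w i = ∑ j, θ l j i • w j) (y : ℕ) (D : ℤ) :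
    (∃ W : Submodule K (Fin ρ → K), ((ρ : ℚ) - finrank K W) * rk k K = y ∧
      hb (gen (AA k) w b) - hb (cut (gen (AA k) w b) W) - 3 * (y : ℚ) / 2 ≤ D) ↔
    ∃ I : Fin y → Fin m, Cert b φ θ I D :=
  (ACert_left μ hμ hF y D).trans (ACert_right μ H hF hθ y D)

end Crest.Agent.R169
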