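import Crest.Agent.R169.AHilb

/-! # R169 task ACop: codimension two modifications do not change `ha, hb` -/

set_option autoImplicit false

namespace Crest.Agent.R169
open Module

variable {k : Type} [Field k] {V V' : Type} [AddCommGroup V] [Module k V] [Module (KA k) V]
  [IsScalarTower k (KA k) V] [AddCommGroup V'] [Module k V'] [Module (KA k) V']
  [IsScalarTower k (KA k) V']

theorem ACop_finrank_mul {a : KA k} (ha : a ≠ 0) (t : ℤ) :
    finrank k ((AA k t).map (LinearMap.mulLeft k a)) = finrank k (AA k t) := by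
  have hinj : Function.Injective (LinearMap.mulLeft k a) := by
    intro x y hxy
    exact mul_left_cancel₀ ha hxy
  exact (LinearEquiv.finrank_eq (Submodule.equivMapOfInjective _ hinj (AA k t))).symm

theorem ACop_compl {M : Type} [AddCommGroup M] [Module k M] {U A : Submodule k M} (h : U ≤ A)
    [FiniteDimensional k A] : ∃ C : Submodule k M, C ≤ A ∧ A ≤ C ⊔ U ∧
      finrank k C + finrank k U = finrank k A := by
  obtain ⟨C0, hC0⟩ := U.exists_isCompl
  have h1 : (C0 ⊓ A) ⊔ U = A := by
    rw [sup_comm, ← sup_inf_assoc_of_le C0 h, hC0.sup_eq_top, top_inf_eq]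
  have h2 : (C0 ⊓ A) ⊓ U = ⊥ := by
    rw [inf_right_comm, inf_comm C0 U, hC0.inf_eq_bot, bot_inf_eq]
  have : FiniteDimensional k U := Submodule.finiteDimensional_of_le h
  have : FiniteDimensional k (C0 ⊓ A : Submodule k M) :=
    Submodule.finiteDimensional_of_le inf_le_right
  refine ⟨C0 ⊓ A, inf_le_right, h1.ge, ?_⟩
  have h3 := Submodule.finrank_sup_add_finrank_inf_eq (C0 ⊓ A) U
  rw [h1, h2, finrank_bot, add_zero] at h3
  exact h3.symm

/-- `dim A_s / (f A_{s-d} + g A_{s-e}) ≤ d e` for `s` large, `d = deg f`: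
`f A_{s-d} ∩ g A_{s-e} = f g A_{s-d-e}` when `g ≠ 0` (coprimality; `f` has exact degree `d`);
if `g = 0` then `f` is a unit and the quotient vanishes. -/
theorem cop_count {f g : P2 k} {e : ℤ} (hf0 : f ≠ 0) (hfg : IsRelPrime f g)
    (hg : (g.totalDegree : ℤ) ≤ e) : ∃ (C : ℚ) (s0 : ℤ), ∀ s ≥ s0,
      (finrank k (AA k s) : ℚ) ≤ C + finrank k ↥(
        (AA k (s - f.totalDegree)).map (LinearMap.mulLeft k (algebraMap (P2 k) (KA k) f)) ⊔
        (AA k (s - e)).map (LinearMap.mulLeft k (algebraMap (P2 k) (KA k) g))) := by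
  have hf' : algebraMap (P2 k) (KA k) f ≠ 0 := fun h => hf0 (A0_inj (by rw [h, map_zero]))
  by_cases hg0 : g = 0
  · subst hg0
    obtain ⟨u, hu⟩ := (isRelPrime_zero_right.1 hfg).exists_right_inv
    have hu0 : u ≠ 0 := by
      rintro rfl
      simp at hu
    have hd : f.totalDegree = 0 := by
      have := MvPolynomial.totalDegree_mul_of_isDomain hf0 hu0
      rw [hu, MvPolynomial.totalDegree_one] at this
      omega
    refine ⟨0, 0, fun s _ => ?_⟩
    have e1 : s - (f.totalDegree : ℤ) = s := by rw [hd]; simp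
    rw [zero_add, e1]
    have h1 := ACop_finrank_mul hf' s
    rw [← h1]
    exact_mod_cast Submodule.finrank_mono le_sup_left
  have hg' : algebraMap (P2 k) (KA k) g ≠ 0 := fun h => hg0 (A0_inj (by rw [h, map_zero]))
  have he : 0 ≤ e := le_trans (Int.natCast_nonneg _) hg
  have hd : (0 : ℤ) ≤ f.totalDegree := Int.natCast_nonneg _
  refine ⟨(f.totalDegree : ℤ) * e, f.totalDegree + e, fun s hs => ?_⟩
  set U := (AA k (s - f.totalDegree)).map (LinearMap.mulLeft k (algebraMap (P2 k) (KA k) f))
    with hU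
  set W := (AA k (s - e)).map (LinearMap.mulLeft k (algebraMap (P2 k) (KA k) g)) with hW
  have h1 := Submodule.finrank_sup_add_finrank_inf_eq U W
  have h2 : finrank k U = finrank k (AA k (s - f.totalDegree)) := ACop_finrank_mul hf' _
  have h3 : finrank k W = finrank k (AA k (s - e)) := ACop_finrank_mul hg' _
  have h4 : U ⊓ W ≤ (AA k (s - f.totalDegree - e)).map (LinearMap.mulLeft k
      (algebraMap (P2 k) (KA k) f * algebraMap (P2 k) (KA k) g)) := by
    rintro z ⟨⟨a, ha, haz⟩, ⟨b, hb, hbz⟩⟩
    simp only [LinearMap.mulLeft_apply] at haz hbz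
    refine ⟨z / (algebraMap (P2 k) (KA k) f * algebraMap (P2 k) (KA k) g), ?_, ?_⟩
    · refine AA_S2 hf0 hfg (s := s - f.totalDegree) ?_ ?_
      · have : algebraMap (P2 k) (KA k) f *
            (z / (algebraMap (P2 k) (KA k) f * algebraMap (P2 k) (KA k) g)) = b := by
          rw [← hbz]; field_simp
        rw [this]
        have e1 : s - f.totalDegree - e + f.totalDegree = s - e := by ring
        rw [e1]
        exact hb
      · have : algebraMap (P2 k) (KA k) g *
            (z / (algebraMap (P2 k) (KA k) f * algebraMap (P2 k) (KA k) g)) = a := by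
          rw [← haz]; field_simp
        rw [this]
        exact ha
    · simp only [LinearMap.mulLeft_apply]
      field_simp
  have h5 : finrank k (U ⊓ W : Submodule k (KA k)) ≤ finrank k (AA k (s - f.totalDegree - e)) := by
    rw [← ACop_finrank_mul (mul_ne_zero hf' hg')]
    exact Submodule.finrank_mono h4
  have q0 := finrank_AA (k := k) (t := s) (by omega)
  have q1 := finrank_AA (k := k) (t := s - f.totalDegree) (by omega)
  have q2 := finrank_AA (k := k) (t := s - e) (by omega)
  have q3 := finrank_AA (k := k) (t := s - f.totalDegree - e) (by omega)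
  have h1' : (finrank k (U ⊔ W : Submodule k (KA k)) : ℚ) +
      finrank k (U ⊓ W : Submodule k (KA k)) = finrank k U + finrank k W := by exact_mod_cast h1
  have h5' : (finrank k (U ⊓ W : Submodule k (KA k)) : ℚ) ≤
      finrank k (AA k (s - f.totalDegree - e)) := by exact_mod_cast h5
  rw [h2, h3, q1, q2] at h1'
  rw [q3] at h5'
  rw [q0]
  push_cast at h1' h5' ⊢
  nlinarith

theorem ACop_finrank_sup {M : Type} [AddCommGroup M] [Module k M] {ι : Type} (S : Finset ι)
    (p : ι → Submodule k M) [∀ i, FiniteDimensional k (p i)] :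
    finrank k (S.sup p : Submodule k M) ≤ ∑ i ∈ S, finrank k (p i) := by
  classical
  induction S using Finset.induction_on with
  | empty => simp
  | insert a S ha ih =>
    rw [Finset.sup_insert, Finset.sum_insert ha]
    exact (Submodule.finrank_add_le_finrank_add_finrank _ _).trans (by omega)

/-- Sketch: `N' = gen w b`; `N' t / N t` is a quotient of `⊕_i A_{t - b_i}/(f_i, g_i)`
(add one generator at a time). -/
theorem Cop.hf_le {N N' : Fam k V} (hN : IsLat N) (hN' : IsLat N') (hle : N ≤ N') (h : Cop N' N) :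
    ∃ (C : ℚ) (t0 : ℤ), ∀ t ≥ t0, hf N' t ≤ hf N t + C := by
  classical
  obtain ⟨m, w, b, rfl⟩ := hN'
  have hw : ∀ i, w i ∈ gen (AA k) w b (b i) := mem_gen_self (one_mem_AA le_rfl) w b
  choose f g e hf0 hfg hg h1 h2 using fun i => h (b i) (w i) (hw i)
  choose C s0 hC using fun i => cop_count (hf0 i) (hfg i) (hg i)
  obtain ⟨B, hB⟩ := A1_bdd (fun i => s0 i + b i)
  refine ⟨∑ i, C i, B, fun t ht => ?_⟩
  have hUA : ∀ i, (AA k (t - b i - (f i).totalDegree)).map
      (LinearMap.mulLeft k (algebraMap (P2 k) (KA k) (f i))) ⊔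
      (AA k (t - b i - e i)).map (LinearMap.mulLeft k (algebraMap (P2 k) (KA k) (g i))) ≤
      AA k (t - b i) := by
    intro i
    refine sup_le ?_ ?_
    · rintro _ ⟨a, ha, rfl⟩
      have := AA_mul (poly_mem_AA (f i)) ha
      rwa [add_sub_cancel] at this
    · rintro _ ⟨a, ha, rfl⟩
      have := AA_mul (AA_mono (hg i) (poly_mem_AA (g i))) ha
      rwa [add_sub_cancel] at this
  choose D hDA hAD hD using fun i => ACop_compl (hUA i)
  have : ∀ i, FiniteDimensional k (D i) := fun i => Submodule.finiteDimensional_of_le (hDA i)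
  have := hN.fin t
  let ev : Fin m → KA k →ₗ[k] V := fun i =>
    (LinearMap.toSpanSingleton (KA k) V (w i)).restrictScalars k
  have hsub : gen (AA k) w b t ≤ N t ⊔ Finset.univ.sup (fun i => (D i).map (ev i)) := by
    intro v hv
    obtain ⟨a, ha, rfl⟩ := mem_gen.1 hv
    refine Submodule.sum_mem _ fun i _ => ?_
    obtain ⟨c, hc, u, hu, hcu⟩ := Submodule.mem_sup.1 (hAD i (ha i))
    rw [← hcu, add_smul]
    refine Submodule.add_mem _ (Submodule.mem_sup_right ?_) (Submodule.mem_sup_left ?_)
    · exact (Finset.le_sup (f := fun i => (D i).map (ev i)) (Finset.mem_univ i)) ⟨c, hc, rfl⟩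
    · obtain ⟨_, ⟨a1, ha1, rfl⟩, _, ⟨a2, ha2, rfl⟩, rfl⟩ := Submodule.mem_sup.1 hu
      simp only [LinearMap.mulLeft_apply]
      rw [add_smul, mul_comm _ a1, mul_comm _ a2, mul_smul, mul_smul]
      refine Submodule.add_mem _ ?_ ?_
      · have := hN.isMod _ _ a1 ha1 _ (h1 i)
        have e1 : t - b i - (f i).totalDegree + (b i + (f i).totalDegree) = t := by ring
        rwa [e1] at this
      · have := hN.isMod _ _ a2 ha2 _ (h2 i)
        have e1 : t - b i - e i + (b i + e i) = t := by ring
        rwa [e1] at this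
  have h3 : finrank k (gen (AA k) w b t) ≤ finrank k (N t) + ∑ i, finrank k (D i) := by
    refine (Submodule.finrank_mono hsub).trans ?_
    refine (Submodule.finrank_add_le_finrank_add_finrank _ _).trans ?_
    refine Nat.add_le_add_left ((ACop_finrank_sup _ _).trans ?_) _
    exact Finset.sum_le_sum fun i _ => Submodule.finrank_map_le _ _
  have h4 : ∀ i, (finrank k (D i) : ℚ) ≤ C i := by
    intro i
    have q1 := hC i (t - b i) (by have := (hB i).2; omega)
    have q2 := hD i
    rw [← q2] at q1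
    push_cast at q1
    linarith
  have h3' : (finrank k (gen (AA k) w b t) : ℚ) ≤ finrank k (N t) + ∑ i, (finrank k (D i) : ℚ) := by
    exact_mod_cast h3
  unfold hf
  have := Finset.sum_le_sum fun i (_ : i ∈ Finset.univ) => h4 i
  linarith

theorem Cop.coeffs {N N' : Fam k V} (hN : IsLat N) (hN' : IsLat N') (hle : N ≤ N') (h : Cop N' N) :
    ha N = ha N' ∧ hb N = hb N' ∧ hc N ≤ hc N' := by
  obtain ⟨C, t0, hC⟩ := h.hf_le hN hN' hle
  obtain ⟨a1, a2, a3⟩ := coeffs_le_of_le hN hN' ⟨0, fun t _ => hle t⟩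
  obtain ⟨b1, b2, -⟩ := hN'.hasHP.le (hN.hasHP.add (hasHP_const C)) ⟨t0, hC⟩
  rw [add_zero] at b1 b2
  rw [add_zero] at b2
  have e1 : ha N = ha N' := le_antisymm a1 b1
  have e2 : hb N = hb N' := le_antisymm (a2 e1) (b2 e1.symm)
  exact ⟨e1, e2, a3 e1 e2⟩

end Crest.Agent.R169
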