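import Crest.Agent.R169.A1

/-! # R169 task APlace: the places of `k[x,y,z]` -/

set_option autoImplicit false

namespace Crest.Agent.R169
open Module

section APlace_aux
variable {k : Type} [Field k]

local notation "alg" => algebraMap (P2 k) (KA k)

theorem APlace_inj : Function.Injective (algebraMap (P2 k) (KA k)) :=
  IsFractionRing.injective (P2 k) (KA k)

theorem APlace_ne {f : P2 k} (hf : f ≠ 0) : alg f ≠ 0 := by
  intro h
  exact hf (APlace_inj (by rw [h, map_zero]))

theorem APlace_frac (z : KA k) : ∃ a f : P2 k, f ≠ 0 ∧ IsRelPrime a f ∧ z * alg f = alg a := by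
  obtain ⟨a, b, hab, rfl⟩ := IsFractionRing.exists_reduced_fraction (A := P2 k) z
  exact ⟨a, b, nonZeroDivisors.coe_ne_zero b, hab, IsLocalization.mk'_spec _ _ _⟩

theorem APlace_mem {f : P2 k} {t : ℤ} (h : (f.totalDegree : ℤ) ≤ t) : alg f ∈ AA k t :=
  ⟨f, rfl, Or.inr h⟩

/-- the valuation ring at a prime `π` -/
def APlace_Oπ (π : P2 k) (hπ : Prime π) : ValuationSubring (KA k) where
  carrier := {z | ∃ a f : P2 k, ¬ π ∣ f ∧ z * alg f = alg a}
  zero_mem' := ⟨0, 1, hπ.not_dvd_one, by simp⟩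
  one_mem' := ⟨1, 1, hπ.not_dvd_one, by simp⟩
  add_mem' := by
    rintro z z' ⟨a, f, hf, h⟩ ⟨a', f', hf', h'⟩
    refine ⟨a * f' + a' * f, f * f', fun hd => (hπ.dvd_or_dvd hd).elim hf hf', ?_⟩
    simp only [map_add, map_mul, ← h, ← h']; ring
  mul_mem' := by
    rintro z z' ⟨a, f, hf, h⟩ ⟨a', f', hf', h'⟩
    refine ⟨a * a', f * f', fun hd => (hπ.dvd_or_dvd hd).elim hf hf', ?_⟩
    simp only [map_mul, ← h, ← h']; ring
  neg_mem' := by
    rintro z ⟨a, f, hf, h⟩
    exact ⟨-a, f, hf, by simp only [map_neg, ← h]; ring⟩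
  mem_or_inv_mem' := by
    intro z
    obtain ⟨a, f, hf, hrel, h⟩ := APlace_frac z
    by_cases hd : π ∣ f
    · right
      have ha : ¬ π ∣ a := fun ha => hπ.not_isUnit (hrel ha hd)
      have ha0 : a ≠ 0 := by rintro rfl; exact ha (dvd_zero _)
      have hz : z ≠ 0 := by
        rintro rfl
        rw [zero_mul] at h
        exact APlace_ne ha0 h.symm
      refine ⟨f, a, ha, ?_⟩
      rw [← h]; field_simp
    · left; exact ⟨a, f, hd, h⟩

theorem APlace_mem_Oπ {π : P2 k} {hπ : Prime π} {z : KA k} :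
    z ∈ APlace_Oπ π hπ ↔ ∃ a f : P2 k, ¬ π ∣ f ∧ z * alg f = alg a := Iff.rfl

theorem APlace_inv_mem_Oπ {π : P2 k} {hπ : Prime π} {f : P2 k} (hf : f ≠ 0) :
    (alg f)⁻¹ ∈ APlace_Oπ π hπ ↔ ¬ π ∣ f := by
  constructor
  · rintro ⟨a, g, hg, h⟩ hd
    apply hg
    have : g = a * f := by
      apply APlace_inj
      rw [map_mul, ← h]
      have := APlace_ne hf
      field_simp
    rw [this]; exact Dvd.dvd.mul_left hd a
  · intro h
    exact ⟨1, f, h, by rw [map_one, inv_mul_cancel₀ (APlace_ne hf)]⟩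

/-- the place at a prime `π` -/
noncomputable def APlace_Pπ (π : P2 k) (hπ : Prime π) : Place k where
  O := APlace_Oπ π hπ
  θ := 1
  θ_ne := one_ne_zero
  mem := by
    rintro t a ⟨g, rfl, -⟩
    exact ⟨g, 1, hπ.not_dvd_one, by simp⟩
  clear := by
    rintro t a ⟨g, f, hf, h⟩
    have hf0 : f ≠ 0 := by rintro rfl; exact hf (dvd_zero _)
    rw [one_zpow, one_mul] at h
    refine ⟨max (f.totalDegree : ℤ) (g.totalDegree - t), alg f, APlace_mem (le_max_left _ _),
      APlace_ne hf0, ?_, ?_⟩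
    · rw [one_zpow, one_mul]; exact (APlace_inv_mem_Oπ hf0).2 hf
    · rw [mul_comm, h]
      refine APlace_mem ?_
      have := le_max_right (f.totalDegree : ℤ) (g.totalDegree - t)
      omega

/-- the valuation ring at infinity -/
def APlace_Oi (k : Type) [Field k] : ValuationSubring (KA k) where
  carrier := {z | ∃ a f : P2 k, f ≠ 0 ∧ z * algebraMap (P2 k) (KA k) f =
    algebraMap (P2 k) (KA k) a ∧ a.totalDegree ≤ f.totalDegree}
  zero_mem' := ⟨0, 1, one_ne_zero, by simp, by simp⟩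
  one_mem' := ⟨1, 1, one_ne_zero, by simp, by simp⟩
  add_mem' := by
    rintro z z' ⟨a, f, hf, h, hd⟩ ⟨a', f', hf', h', hd'⟩
    refine ⟨a * f' + a' * f, f * f', mul_ne_zero hf hf', ?_, ?_⟩
    · simp only [map_add, map_mul, ← h, ← h']; ring
    · rw [MvPolynomial.totalDegree_mul_of_isDomain hf hf']
      refine (MvPolynomial.totalDegree_add _ _).trans (max_le ?_ ?_)
      · refine (MvPolynomial.totalDegree_mul _ _).trans ?_; omega
      · refine (MvPolynomial.totalDegree_mul _ _).trans ?_; omega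
  mul_mem' := by
    rintro z z' ⟨a, f, hf, h, hd⟩ ⟨a', f', hf', h', hd'⟩
    refine ⟨a * a', f * f', mul_ne_zero hf hf', ?_, ?_⟩
    · simp only [map_mul, ← h, ← h']; ring
    · rw [MvPolynomial.totalDegree_mul_of_isDomain hf hf']
      refine (MvPolynomial.totalDegree_mul _ _).trans ?_; omega
  neg_mem' := by
    rintro z ⟨a, f, hf, h, hd⟩
    exact ⟨-a, f, hf, by simp only [map_neg, ← h]; ring, by rwa [MvPolynomial.totalDegree_neg]⟩
  mem_or_inv_mem' := by
    intro z
    obtain ⟨a, f, hf, -, h⟩ := APlace_frac z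
    by_cases hd : a.totalDegree ≤ f.totalDegree
    · left; exact ⟨a, f, hf, h, hd⟩
    · right
      have ha0 : a ≠ 0 := by rintro rfl; simp at hd
      have hz : z ≠ 0 := by
        rintro rfl
        rw [zero_mul] at h
        exact APlace_ne ha0 h.symm
      refine ⟨f, a, ha0, ?_, by omega⟩
      rw [← h]; field_simp

theorem APlace_mem_Oi {z : KA k} {a f : P2 k} (ha : a ≠ 0) (hf : f ≠ 0)
    (h : z * alg f = alg a) : z ∈ APlace_Oi k ↔ a.totalDegree ≤ f.totalDegree := by
  constructor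
  · rintro ⟨a', f', hf', h', hd⟩
    have e : a * f' = a' * f := by
      apply APlace_inj
      simp only [map_mul, ← h, ← h']; ring
    have ha' : a' ≠ 0 := by
      rintro rfl
      exact mul_ne_zero ha hf' (by rw [e, zero_mul])
    have := congrArg MvPolynomial.totalDegree e
    rw [MvPolynomial.totalDegree_mul_of_isDomain ha hf',
      MvPolynomial.totalDegree_mul_of_isDomain ha' hf] at this
    omega
  · intro hd; exact ⟨a, f, hf, h, hd⟩

theorem APlace_mem_Oi' {z : KA k} {a f : P2 k} (ha : a ≠ 0) (hf : f ≠ 0)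
    (h : z * alg f = alg a) (t : ℤ) :
    (xA k 0)⁻¹ ^ t * z ∈ APlace_Oi k ↔ (a.totalDegree : ℤ) ≤ f.totalDegree + t := by
  have hX : ∀ n : ℕ, (MvPolynomial.X 0 ^ n : P2 k) ≠ 0 := fun n =>
    pow_ne_zero _ (MvPolynomial.X_ne_zero _)
  have hx : xA k 0 ≠ 0 := xA_ne 0
  obtain ⟨n, rfl | rfl⟩ := Int.eq_nat_or_neg t
  · rw [APlace_mem_Oi (f := f * MvPolynomial.X 0 ^ n) ha (mul_ne_zero hf (hX n)),
      MvPolynomial.totalDegree_mul_of_isDomain hf (hX n), MvPolynomial.totalDegree_X_pow]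
    · omega
    · rw [map_mul, map_pow, ← h, zpow_natCast]
      change _ * (_ * xA k 0 ^ n) = _
      rw [inv_pow]
      field_simp
  · rw [APlace_mem_Oi (a := a * MvPolynomial.X 0 ^ n) (mul_ne_zero ha (hX n)) hf,
      MvPolynomial.totalDegree_mul_of_isDomain ha (hX n), MvPolynomial.totalDegree_X_pow]
    · omega
    · rw [map_mul, map_pow, ← h, inv_zpow', neg_neg, zpow_natCast]
      change _ = _ * xA k 0 ^ n
      ring

theorem APlace_inv_mem_Oi {f : P2 k} (hf : f ≠ 0) (e : ℤ) :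
    ((xA k 0)⁻¹ ^ e * alg f)⁻¹ ∈ APlace_Oi k ↔ e ≤ f.totalDegree := by
  rw [mul_inv, ← zpow_neg, APlace_mem_Oi' (a := 1) (f := f) one_ne_zero hf
    (by rw [map_one, inv_mul_cancel₀ (APlace_ne hf)])]
  simp only [MvPolynomial.totalDegree_one]
  omega

/-- the place at infinity -/
noncomputable def APlace_Pi (k : Type) [Field k] : Place k where
  O := APlace_Oi k
  θ := (xA k 0)⁻¹
  θ_ne := inv_ne_zero (xA_ne 0)
  mem := by
    rintro t a ⟨g, rfl, hg⟩
    by_cases hg0 : g = 0
    · subst hg0; simp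
    · rw [APlace_mem_Oi' (a := g) (f := 1) hg0 one_ne_zero (by simp)]
      simpa using hg.resolve_left hg0
  clear := by
    intro t a ha
    by_cases ha0 : a = 0
    · subst ha0
      exact ⟨0, 1, one_mem_AA le_rfl, one_ne_zero, by simp, by simp⟩
    obtain ⟨g, f, hf, -, h⟩ := APlace_frac a
    have hg : g ≠ 0 := by
      rintro rfl
      rw [map_zero] at h
      exact mul_ne_zero ha0 (APlace_ne hf) h
    rw [APlace_mem_Oi' hg hf h] at ha
    refine ⟨f.totalDegree, _, poly_mem_AA f, APlace_ne hf, (APlace_inv_mem_Oi hf _).2 le_rfl, ?_⟩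
    rw [mul_comm, h]
    exact APlace_mem (by omega)

/-- all places -/
def APlace_Pl (k : Type) [Field k] : Set (Place k) :=
  {P | P = APlace_Pi k ∨ ∃ (π : P2 k) (hπ : Prime π), P = APlace_Pπ π hπ}

theorem APlace_cop (V : Type) [AddCommGroup V] [Module k V] [Module (KA k) V]
    [IsScalarTower k (KA k) V] (N' N : Fam k V) (hN : IsMod (AA k) N)
    (h : LocLE (APlace_Pl k) N' N) : Cop N' N := by
  classical
  intro t ξ hξ
  obtain ⟨e, _, ⟨F, rfl, hF⟩, hF0, hFu, hFξ⟩ := h (APlace_Pi k) (Or.inl rfl) t ξ hξ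
  have hF0' : F ≠ 0 := by rintro rfl; exact hF0 (map_zero _)
  have hFe : (F.totalDegree : ℤ) = e :=
    le_antisymm (hF.resolve_left hF0') ((APlace_inv_mem_Oi hF0' e).1 hFu)
  let I : Ideal (P2 k) :=
    { carrier := {G | ∃ e' : ℤ, alg G • ξ ∈ N (t + e')}
      zero_mem' := ⟨0, by simp⟩
      add_mem' := by
        rintro G G' ⟨e1, h1⟩ ⟨e2, h2⟩
        refine ⟨max e1 e2, ?_⟩
        rw [map_add, add_smul]
        exact Submodule.add_mem _ (hN.mono (by omega) h1) (hN.mono (by omega) h2)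
      smul_mem' := by
        rintro c G ⟨e1, h1⟩
        refine ⟨c.totalDegree + e1, ?_⟩
        rw [smul_eq_mul, map_mul, mul_smul]
        have := hN _ _ _ (poly_mem_AA c) _ h1
        rwa [show (c.totalDegree : ℤ) + (t + e1) = t + (c.totalDegree + e1) by ring] at this }
  have hI : ∀ π : P2 k, Prime π → ¬ I ≤ Ideal.span {π} := by
    intro π hπ hle
    obtain ⟨e', _, ⟨G, rfl, -⟩, hG0, hGu, hGξ⟩ :=
      h (APlace_Pπ π hπ) (Or.inr ⟨π, hπ, rfl⟩) t ξ hξ
    have hG0' : G ≠ 0 := by rintro rfl; exact hG0 (map_zero _)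
    have hGu' : (alg G)⁻¹ ∈ APlace_Oπ π hπ := by
      have : (((1 : KA k)) ^ e' * alg G)⁻¹ ∈ APlace_Oπ π hπ := hGu
      rwa [one_zpow, one_mul] at this
    exact (APlace_inv_mem_Oπ hG0').1 hGu' (Ideal.mem_span_singleton.1 (hle ⟨e', hGξ⟩))
  have hns : ¬ ((I : Set (P2 k)) ⊆ ⋃ π ∈ (↑(UniqueFactorizationMonoid.factors F).toFinset :
      Set (P2 k)), ((Ideal.span {π} : Ideal (P2 k)) : Set (P2 k))) := by
    rw [Ideal.subset_union_prime (f := fun π : P2 k => Ideal.span {π}) 0 0]
    · rintro ⟨π, hπ, hle⟩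
      exact hI π (UniqueFactorizationMonoid.prime_of_factor π (Multiset.mem_toFinset.1 hπ)) hle
    · intro π hπ _ _
      have := UniqueFactorizationMonoid.prime_of_factor π (Multiset.mem_toFinset.1 hπ)
      exact (Ideal.span_singleton_prime this.ne_zero).2 this
  obtain ⟨G, ⟨e', hG⟩, hG'⟩ := Set.not_subset.1 hns
  refine ⟨F, G, max e' G.totalDegree, hF0', ?_, le_max_right _ _, by rwa [hFe],
    hN.mono (by omega) hG⟩
  rw [UniqueFactorizationMonoid.isRelPrime_iff_no_prime_factors hF0']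
  intro d hdF hdG hd
  obtain ⟨q, hq, hdq⟩ := UniqueFactorizationMonoid.exists_mem_factors_of_dvd hF0' hd.irreducible hdF
  apply hG'
  simp only [Set.mem_iUnion]
  exact ⟨q, by simpa using hq, Ideal.mem_span_singleton.2 (hdq.symm.dvd.trans hdG)⟩

theorem APlace_gcd (ι : Type) [Fintype ι] (a : ι → KA k) (b : ι → ℤ) (h : ∃ i, a i ≠ 0) :
    ∃ (γ : KA k) (e : ℤ), γ ≠ 0 ∧ (∀ i, a i / γ ∈ AA k (b i - e)) ∧
      ∀ P ∈ APlace_Pl k, ∃ i, a i ≠ 0 ∧ (P.θ ^ (b i - e) * (a i / γ))⁻¹ ∈ P.O := by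
  classical
  obtain ⟨i0, hi0⟩ := h
  obtain ⟨⟨d, hd⟩, hda⟩ :=
    IsLocalization.exist_integer_multiples_of_finite (nonZeroDivisors (P2 k)) a
  have hd0 : d ≠ 0 := nonZeroDivisors.ne_zero hd
  choose A hA using hda
  have hA' : ∀ i, alg (A i) = alg d * a i := by
    intro i; rw [hA i, Algebra.smul_def]
  let _ : StrongNormalizationMonoid (P2 k) := UniqueFactorizationMonoid.strongNormalizationMonoid
  let _ : NormalizedGCDMonoid (P2 k) := UniqueFactorizationMonoid.toNormalizedGCDMonoid _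
  obtain ⟨B, hB, hB1⟩ := Finset.extract_gcd (s := Finset.univ) A ⟨i0, Finset.mem_univ _⟩
  set g := Finset.univ.gcd A with hg
  have hg0 : g ≠ 0 := by
    intro h0
    have h1 := hA' i0
    rw [hB i0 (Finset.mem_univ _), h0, zero_mul, map_zero] at h1
    exact mul_ne_zero (APlace_ne hd0) hi0 h1.symm
  have hq : ∀ i, a i / (alg g / alg d) = alg (B i) := by
    intro i
    have h1 := hA' i
    rw [hB i (Finset.mem_univ _), map_mul] at h1
    have h2 := APlace_ne hg0
    have h3 := APlace_ne hd0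
    field_simp
    linear_combination -h1
  have hBa : ∀ i, B i ≠ 0 ↔ a i ≠ 0 := by
    intro i
    have h2 := APlace_ne hg0
    have h3 := APlace_ne hd0
    constructor
    · intro hb ha
      have := hq i
      rw [ha, zero_div] at this
      exact APlace_ne hb this.symm
    · intro ha hb
      have := hq i
      rw [hb, map_zero] at this
      exact div_ne_zero ha (div_ne_zero h2 h3) this
  obtain ⟨i1, hi1, hmin⟩ := Finset.exists_min_image (Finset.univ.filter fun i => a i ≠ 0)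
    (fun i => b i - (B i).totalDegree) ⟨i0, by simpa using hi0⟩
  have hi1' : a i1 ≠ 0 := by simpa using hi1
  refine ⟨alg g / alg d, b i1 - (B i1).totalDegree, div_ne_zero (APlace_ne hg0) (APlace_ne hd0),
    fun i => ?_, ?_⟩
  · rw [hq]
    by_cases hi : a i = 0
    · have : B i = 0 := by by_contra hb; exact (hBa i).1 hb hi
      rw [this, map_zero]; exact Submodule.zero_mem _
    · have := hmin i (by simpa using hi)
      exact APlace_mem (by omega)
  · rintro P (rfl | ⟨π, hπ, rfl⟩)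
    · refine ⟨i1, hi1', ?_⟩
      rw [hq]
      exact (APlace_inv_mem_Oi ((hBa i1).2 hi1') _).2 (by omega)
    · have : ∃ i, ¬ π ∣ B i := by
        by_contra hall
        push Not at hall
        have := Finset.dvd_gcd (s := Finset.univ) (f := B) fun i _ => hall i
        rw [hB1] at this
        exact hπ.not_dvd_one this
      obtain ⟨i, hi⟩ := this
      have hb : B i ≠ 0 := by intro h0; exact hi (by rw [h0]; exact dvd_zero _)
      refine ⟨i, (hBa i).1 hb, ?_⟩
      rw [hq]
      change (((1 : KA k)) ^ _ * alg (B i))⁻¹ ∈ APlace_Oπ π hπ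
      rw [one_zpow, one_mul]
      exact (APlace_inv_mem_Oπ hb).2 hi

end APlace_aux

theorem APlace_lb {F V : Type} [Field F] [AddCommGroup V] [Module F V] (O : ValuationSubring F)
    {m : ℕ} (w : Fin m → V) (S : Finset (Fin m)) : ∃ T : Finset (Fin m), T ⊆ S ∧
      LinearIndepOn F w T ∧ ∀ j ∈ S, w j ∈ Submodule.span O.toSubring (w '' T) := by
  classical
  induction S using Finset.strongInduction with
  | H S ih =>
  by_cases hS : LinearIndepOn F w S
  · exact ⟨S, le_rfl, hS, fun j hj => Submodule.subset_span ⟨j, hj, rfl⟩⟩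
  rw [linearIndepOn_finset_iff] at hS
  push Not at hS
  obtain ⟨c, hc, i1, hi1, hc1⟩ := hS
  obtain ⟨i0, hi0, hmax⟩ := Finset.exists_max_image S (fun i => O.valuation (c i)) ⟨i1, hi1⟩
  have hc0 : c i0 ≠ 0 := by
    intro h0
    have := hmax i1 hi1
    simp only [h0, map_zero, le_zero_iff] at this
    exact hc1 ((Valuation.zero_iff _).1 this)
  obtain ⟨T, hT, hli, hsp⟩ := ih (S.erase i0) (Finset.erase_ssubset hi0)
  refine ⟨T, hT.trans (Finset.erase_subset _ _), hli, fun j hj => ?_⟩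
  by_cases hj0 : j = i0
  · subst hj0
    have hO : ∀ i ∈ S, c i / c j ∈ O := by
      intro i hi
      rw [← O.valuation_le_one_iff, map_div₀]
      have hpos : 0 < O.valuation (c j) := by
        rw [pos_iff_ne_zero]; exact (Valuation.ne_zero_iff _).2 hc0
      exact (div_le_one₀ hpos).2 (hmax i hi)
    have e : w j = -∑ i ∈ S.erase j, (c i / c j) • w i := by
      rw [← Finset.add_sum_erase _ _ hj] at hc
      have h1 : c j • w j = -∑ i ∈ S.erase j, c i • w i := eq_neg_of_add_eq_zero_left hc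
      have h2 : w j = (c j)⁻¹ • (c j • w j) := by rw [smul_smul, inv_mul_cancel₀ hc0, one_smul]
      rw [h2, h1, smul_neg, Finset.smul_sum]
      congr 1
      refine Finset.sum_congr rfl fun i _ => ?_
      rw [smul_smul, div_eq_inv_mul]
    rw [e]
    refine Submodule.neg_mem _ (Submodule.sum_mem _ fun i hi => ?_)
    exact Submodule.smul_mem _ (⟨c i / c j, hO i (Finset.mem_of_mem_erase hi)⟩ : O.toSubring)
      (hsp i hi)
  · exact hsp j (Finset.mem_erase.2 ⟨hj0, hj⟩)

/-- Take `Pl` = {place at infinity} ∪ {places of irreducible `π ∈ k[x,y]`}.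
* `π`: `θ = 1`, `O = {a/f : π ∤ f}` (a valuation subring since `k[x,y]` is a UFD; e.g. write
  `z = a/f` with `a, f` relatively prime, so `π ∤ f` or `π ∤ a`).
* `∞`: `θ = x⁻¹`, `O = {a/f : a = 0 ∨ deg a ≤ deg f}`; `f ∈ AA e`, `(θ^e f)⁻¹ ∈ O` ⇔ `deg f = e`.
`cop`: `∞` gives `f` of exact degree `e`; for each prime factor `π_i` of `f` (up to associates) the
place gives `g_i`, `π_i ∤ g_i`; `g = ∑ g_i ∏_{j ≠ i} π_j` is coprime to `f` (or induct on the
factorisation), and `g • ξ ∈ N (t+e')` for `e'` large (`IsMod.mono`).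
`gcd`: common denominator `d`, `γ = gcd (d a_i) / d`, `e = min_{a_i ≠ 0} (b_i - deg (a_i/γ))`. -/
theorem exists_placeSys (k : Type) [Field k] : ∃ Pl : Set (Place k), PlaceSys k Pl :=
  ⟨APlace_Pl k, ⟨APlace_cop, APlace_gcd⟩⟩

/-- an element integral at all places is a polynomial: apply `cop` to `N' = gen a`, `N = AA` and
`AA_S2` -/
theorem PlaceSys.mem_AA {k : Type} [Field k] {Pl : Set (Place k)} (H : PlaceSys k Pl) {a : KA k}
    {t : ℤ} (h : ∀ P ∈ Pl, P.θ ^ t * a ∈ P.O) : a ∈ AA k t := by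
  have hmod : IsMod (AA k) (AA k) := fun s t a ha b hb => AA_mul ha hb
  have hc : Cop (gen (AA k) (fun _ : Unit => a) (fun _ => t)) (AA k) := by
    refine H.cop (KA k) _ _ hmod ?_
    intro P hP s ξ hξ
    obtain ⟨c, hc, rfl⟩ := mem_gen.1 hξ
    refine P.clear s _ ?_
    have h1 := P.O.mul_mem _ _ (P.mem _ _ (hc ())) (h P hP)
    have e : P.θ ^ s = P.θ ^ (s - t) * P.θ ^ t := by
      rw [← zpow_add₀ P.θ_ne, sub_add_cancel]
    simp only [Finset.univ_unique, Finset.sum_singleton, smul_eq_mul]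
    convert h1 using 1
    rw [e]; ring
  obtain ⟨f, g, e, hf, hfg, -, h1, h2⟩ :=
    hc t a (mem_gen_self (one_mem_AA le_rfl) (fun _ : Unit => a) (fun _ => t) ())
  exact AA_S2 hf hfg h1 h2

/-- a local basis chosen among the generators.  Sketch: among the injective `I` with `w ∘ I` a basis
of the span pick one whose determinant (relative to a fixed one) has maximal valuation; Cramer.
Or induct on `m` with the exchange step: `w_new = ∑ c_i w_{I i}`; if some `c_i ∉ O` exchange the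
`i` with `c_i` of largest valuation. -/
theorem local_basis {F V : Type} [Field F] [AddCommGroup V] [Module F V] (O : ValuationSubring F)
    {m : ℕ} (w : Fin m → V) : ∃ (n : ℕ) (I : Fin n → Fin m), Function.Injective I ∧
      LinearIndependent F (w ∘ I) ∧
      ∀ j, ∃ c : Fin n → F, (∀ i, c i ∈ O) ∧ w j = ∑ i, c i • w (I i) := by
  obtain ⟨T, -, hli, hsp⟩ := APlace_lb O w Finset.univ
  refine ⟨T.card, fun i => (T.equivFin.symm i : Fin m), ?_, ?_, fun j => ?_⟩
  · exact Subtype.val_injective.comp T.equivFin.symm.injective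
  · exact LinearIndependent.comp hli T.equivFin.symm T.equivFin.symm.injective
  · have h1 := hsp j (Finset.mem_univ _)
    have e : w '' T = Set.range (fun i => w (T.equivFin.symm i : Fin m)) := by
      ext v
      constructor
      · rintro ⟨i, hi, rfl⟩
        exact ⟨T.equivFin ⟨i, hi⟩, by simp⟩
      · rintro ⟨i, rfl⟩
        exact ⟨_, (T.equivFin.symm i).2, rfl⟩
    rw [e, Submodule.mem_span_range_iff_exists_fun] at h1
    obtain ⟨c, hc⟩ := h1
    exact ⟨fun i => c i, fun i => (c i).2, hc.symm⟩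

/-- weighted form: apply `local_basis` to `θ^(b j) • w j` -/
theorem Place.local_basis {k V : Type} [Field k] [AddCommGroup V] [Module (KA k) V] (P : Place k)
    {m : ℕ} (w : Fin m → V) (b : Fin m → ℤ) : ∃ (n : ℕ) (I : Fin n → Fin m),
      Function.Injective I ∧ LinearIndependent (KA k) (w ∘ I) ∧
      ∀ j, ∃ c : Fin n → KA k, (∀ i, P.θ ^ (b j - b (I i)) * c i ∈ P.O) ∧
        w j = ∑ i, c i • w (I i) := by
  obtain ⟨n, I, hI, hli, hc⟩ := Crest.Agent.R169.local_basis P.O (fun j => P.θ ^ b j • w j)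
  have hθ : ∀ t : ℤ, P.θ ^ t ≠ 0 := fun t => zpow_ne_zero _ P.θ_ne
  refine ⟨n, I, hI, ?_, fun j => ?_⟩
  · have := hli.units_smul (fun i => (Units.mk0 _ (hθ (b (I i))))⁻¹)
    have e : (w ∘ I) = ((fun i => (Units.mk0 _ (hθ (b (I i))))⁻¹) •
        (fun j => P.θ ^ b j • w j) ∘ I) := by
      funext i
      simp [Units.smul_def, smul_smul, hθ]
    rw [e]; exact this
  · obtain ⟨c, hcO, hw⟩ := hc j
    refine ⟨fun i => P.θ ^ (b (I i) - b j) * c i, fun i => ?_, ?_⟩
    · rw [← mul_assoc, ← zpow_add₀ P.θ_ne]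
      simpa using hcO i
    · have h2 : w j = (P.θ ^ b j)⁻¹ • (P.θ ^ b j • w j) := by
        rw [smul_smul, inv_mul_cancel₀ (hθ _), one_smul]
      rw [h2, hw, Finset.smul_sum]
      refine Finset.sum_congr rfl fun i _ => ?_
      beta_reduce
      rw [smul_smul, smul_smul, zpow_sub₀ P.θ_ne]
      congr 1
      have := hθ (b j)
      field_simp

/-- simultaneous clearing of denominators by a unit at `P` (product of the `P.clear` witnesses) -/
theorem Place.clear_fin {k : Type} [Field k] (P : Place k) {ι : Type} [Finite ι] (a : ι → KA k)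
    (t : ι → ℤ) (h : ∀ i, P.θ ^ t i * a i ∈ P.O) : ∃ (e : ℤ) (f : KA k), f ∈ AA k e ∧ f ≠ 0 ∧
      (P.θ ^ e * f)⁻¹ ∈ P.O ∧ ∀ i, f * a i ∈ AA k (t i + e) := by
  classical
  have := Fintype.ofFinite ι
  choose e f hf hf0 hu hm using fun i => P.clear (t i) (a i) (h i)
  have hz : ∀ S : Finset ι, P.θ ^ (∑ i ∈ S, e i) = ∏ i ∈ S, P.θ ^ e i := by
    intro S
    induction S using Finset.induction_on with
    | empty => simp
    | insert j S hj ih => rw [Finset.sum_insert hj, Finset.prod_insert hj, zpow_add₀ P.θ_ne, ih]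
  refine ⟨∑ i, e i, ∏ i, f i, AA_prod _ _ _ fun i _ => hf i,
    Finset.prod_ne_zero_iff.2 fun i _ => hf0 i, ?_, fun i => ?_⟩
  · rw [hz, ← Finset.prod_mul_distrib, ← Finset.prod_inv_distrib]
    exact prod_mem fun i _ => hu i
  · rw [← Finset.mul_prod_erase _ _ (Finset.mem_univ i), ← Finset.add_sum_erase _ _ (Finset.mem_univ i)]
    have := AA_mul (hm i) (AA_prod (Finset.univ.erase i) f e fun j _ => hf j)
    convert this using 1
    · ring
    · ring_nf

end Crest.Agent.R169
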