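import Crest.Agent.R169.ACop
import Crest.Agent.R169.APlace

/-! # R169 task ADeg1: `c₁ (N) = c₁ (det N)` -/

set_option autoImplicit false

namespace Crest.Agent.R169
open Module

variable {k : Type} [Field k]

theorem ADeg1_expand {F : Type} [Field F] {y m : ℕ} (w : Fin m → Fin y → F)
    (a : Fin y → Fin m → F) :
    (Matrix.of fun i => ∑ j, a i j • w j).det =
      ∑ J : Fin y → Fin m, (∏ i, a i (J i)) * (Matrix.of fun i => w (J i)).det := by
  have h := (Matrix.detRowAlternating (R := F) (n := Fin y)).toMultilinearMap.map_sum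
    (fun i j => a i j • w j)
  refine h.trans (Finset.sum_congr rfl fun J _ => ?_)
  have h2 := (Matrix.detRowAlternating (R := F) (n := Fin y)).toMultilinearMap.map_smul_univ
    (fun i => a i (J i)) (fun i => w (J i))
  exact h2

theorem ADeg1_zpow_sum {F : Type} [Field F] {θ : F} (hθ : θ ≠ 0) {ι : Type} (S : Finset ι)
    (e : ι → ℤ) : θ ^ (∑ i ∈ S, e i) = ∏ i ∈ S, θ ^ e i := by
  classical
  induction S using Finset.induction_on with
  | empty => simp
  | insert j S hj ih => rw [Finset.sum_insert hj, Finset.prod_insert hj, zpow_add₀ hθ, ih]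

/-- `v ↦ (0, v)` -/
def ADeg1_cons (F : Type) [Field F] (y : ℕ) : (Fin y → F) →ₗ[F] (Fin (y + 1) → F) where
  toFun v := Fin.cons 0 v
  map_add' u v := by
    funext i
    refine Fin.cases ?_ (fun i => ?_) i <;> simp
  map_smul' c v := by
    funext i
    refine Fin.cases ?_ (fun i => ?_) i <;> simp

theorem ADeg1_cons_apply {F : Type} [Field F] {y : ℕ} (v : Fin y → F) :
    ADeg1_cons F y v = Fin.cons 0 v := rfl

theorem ADeg1_cons_inj (F : Type) [Field F] (y : ℕ) : Function.Injective (ADeg1_cons F y) := by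
  intro u v h
  funext i
  simpa [ADeg1_cons_apply] using congrFun h i.succ

theorem ADeg1_cons_tail {F : Type} [Field F] {y : ℕ} {v : Fin (y + 1) → F} (h : v 0 = 0) :
    ADeg1_cons F y (fun i => v i.succ) = v := by
  funext i
  refine Fin.cases ?_ (fun i => ?_) i <;> simp [ADeg1_cons_apply, h]

theorem ADeg1_range (F : Type) [Field F] (y : ℕ) : LinearMap.range (ADeg1_cons F y) =
    LinearMap.ker (LinearMap.proj 0 : (Fin (y + 1) → F) →ₗ[F] F) := by
  ext v
  constructor
  · rintro ⟨u, rfl⟩; simp [ADeg1_cons_apply]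
  · intro h
    exact ⟨_, ADeg1_cons_tail (by simpa using h)⟩

theorem ADeg1_laplace {F : Type} [Field F] {y : ℕ} (n : Fin (y + 1) → Fin (y + 1) → F)
    (w : Fin (y + 1) → F) (hw : w 0 ≠ 0) :
    (Matrix.of n).det = ∑ i : Fin (y + 1), (-1) ^ (i : ℕ) * n i 0 *
      (Matrix.of fun l : Fin y => fun r : Fin y =>
        (n (i.succAbove l) - (n (i.succAbove l) 0 / w 0) • w) r.succ).det := by
  let B : Matrix (Fin (y + 1)) (Fin (y + 1)) F := Matrix.of fun i r =>
    Fin.cases (n i 0) (fun r => (n i - (n i 0 / w 0) • w) r.succ) r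
  have h1 : (Matrix.of n).det = B.det := by
    rw [← Matrix.det_transpose (Matrix.of n), ← Matrix.det_transpose B]
    refine Matrix.det_eq_of_forall_row_eq_smul_add_const
      (fun r => Fin.cases 0 (fun r => w r.succ / w 0) r) 0 rfl ?_
    intro r i
    refine Fin.cases ?_ (fun r => ?_) r
    · simp [B]
    · simp [B]
      field_simp
      ring
  rw [h1, Matrix.det_succ_column_zero]
  refine Finset.sum_congr rfl fun i _ => ?_
  rfl

theorem ADeg1_witness {F : Type} [Field F] {y : ℕ} (w : Fin (y + 1) → F) (n : Fin y → Fin y → F) :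
    (Matrix.of (Fin.cons w (fun i => ADeg1_cons F y (n i)) : Fin (y + 1) → Fin (y + 1) → F)).det =
      w 0 * (Matrix.of n).det := by
  rw [Matrix.det_succ_column_zero, Fin.sum_univ_succ]
  simp only [ADeg1_cons_apply, Matrix.of_apply, Fin.cons_zero, Fin.cons_succ, mul_zero, zero_mul,
    Finset.sum_const_zero, add_zero, Fin.val_zero, pow_zero, one_mul]
  rfl


/-- existence, from `PlaceSys.gcd` applied to the minors `det (w ∘ J)`, `J : Fin y → Fin m`, of the
generators; a determinant of arbitrary elements of `N` expands multilinearly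
(`MultilinearMap.map_sum` for `Matrix.detRowAlternating`) into `∑_J (∏ a_{i,J i}) det (w ∘ J)`. -/
theorem exists_detGcd {Pl : Set (Place k)} (H : PlaceSys k Pl) {y : ℕ}
    {N : Fam k (Fin y → KA k)} (hN : IsLat N) (hF : Full N) : ∃ γ e, DetGcd Pl N γ e := by
  classical
  obtain ⟨m, w, b, rfl⟩ := hN
  have hne : ∃ J : Fin y → Fin m, (Matrix.of fun i => w (J i)).det ≠ 0 := by
    by_contra hall
    push Not at hall
    have hsp : ∀ i : Fin y, ∃ c : Fin m → KA k, ∑ j, c j • w j = Pi.single i 1 := by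
      intro i
      rw [← Submodule.mem_span_range_iff_exists_fun, ← spanF_gen w b, hF]
      trivial
    choose c hc using hsp
    have h := ADeg1_expand w c
    simp only [hc, hall, mul_zero, Finset.sum_const_zero] at h
    have e : (Matrix.of fun i : Fin y => (Pi.single i 1 : Fin y → KA k)) = 1 := by
      ext i j
      simp [Matrix.one_apply, Pi.single_apply, eq_comm]
    rw [e, Matrix.det_one] at h
    exact one_ne_zero h
  obtain ⟨γ, e, hγ, h1, h2⟩ := H.gcd (Fin y → Fin m)
    (fun J => (Matrix.of fun i => w (J i)).det) (fun J => ∑ i, b (J i)) hne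
  refine ⟨γ, e, hγ, fun n s hn => ?_, fun P hP => ?_⟩
  · choose a ha hna using fun i => mem_gen.1 (hn i)
    have e1 : n = fun i => ∑ j, a i j • w j := funext hna
    rw [e1, ADeg1_expand, Finset.sum_div]
    refine Submodule.sum_mem _ fun J _ => ?_
    have := AA_mul (AA_prod Finset.univ (fun i => a i (J i)) (fun i => s i - b (J i))
      fun i _ => ha i (J i)) (h1 J)
    rw [mul_div_assoc]
    convert this using 2
    rw [Finset.sum_sub_distrib]; ring
  · obtain ⟨J, hJ, hu⟩ := h2 P hP
    exact ⟨fun i => w (J i), fun i => b (J i),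
      fun i => mem_gen_self (one_mem_AA le_rfl) w b (J i), hJ, hu⟩

/-- `e` is unique: `θ^(e'-e) (γ'/γ)` is integral at every place (evaluate on the witnesses), so
`γ'/γ ∈ AA (e' - e)` (`PlaceSys.mem_AA`) is nonzero; and symmetrically. -/
theorem DetGcd.unique {Pl : Set (Place k)} (H : PlaceSys k Pl) {y : ℕ}
    {N : Fam k (Fin y → KA k)} {γ γ' : KA k} {e e' : ℤ} (h : DetGcd Pl N γ e)
    (h' : DetGcd Pl N γ' e') : e = e' := by
  have key : ∀ {γ γ' : KA k} {e e' : ℤ}, DetGcd Pl N γ e → DetGcd Pl N γ' e' → 0 ≤ e - e' := by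
    intro γ γ' e e' h h'
    refine AA_nonneg (a := γ / γ') (H.mem_AA fun P hP => ?_) (div_ne_zero h.1 h'.1)
    obtain ⟨n, s, hn, hd, hu⟩ := h.2.2 P hP
    have h1 := P.O.mul_mem _ _ hu (P.mem _ _ (h'.2.1 n s hn))
    convert h1 using 1
    have hθ := P.θ_ne
    have := h.1
    have := h'.1
    rw [zpow_sub₀ hθ, zpow_sub₀ hθ, zpow_sub₀ hθ]
    have : P.θ ^ (∑ i, s i) ≠ 0 := zpow_ne_zero _ hθ
    have : P.θ ^ e ≠ 0 := zpow_ne_zero _ hθ
    have : P.θ ^ e' ≠ 0 := zpow_ne_zero _ hθ
    field_simp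
  have h1 := key h h'
  have h2 := key h' h
  omega

set_option maxHeartbeats 1000000 in
/-- Induction on `y` (for `y = 0`: `det = 1`, `1/γ ∈ AA (-e)` and `θ^e γ ∈ O` everywhere, so `e = 0`).
Step: `Q = fmap (proj 0) N ⊆ k(x,y)` has generators `w j 0` with gcd `(γ₁, e₁)` (`PlaceSys.gcd`);
`Q ≤ gen γ₁ e₁` with `Cop` (`PlaceSys.cop`, `Place.clear`), so `hb Q = 3/2 - e₁`.
`N' = fcomap (v ↦ Fin.cons 0 v) N` is a full lattice of rank `y` with data `(γ', e')`, and
`hb N = hb N' + hb Q` (`coeffs_add`, `hf_fcomap_inj`).  Claim `DetGcd N (γ₁γ') (e₁ + e')`: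
at a place `P` pick the generator `w j` whose first coordinate is `γ₁ ·` unit; for arbitrary
`n_i ∈ N (s_i)`, `n_i - c_i w_j` has first coordinate `0`, `θ^(s_i - b_j) c_i ∈ O`, a unit multiple
(`Place.clear_fin`) lies in `N'`; expanding `det n` multilinearly (or: Laplace along column 0)
shows `θ^(∑ s - e₁ - e') det n/(γ₁γ') ∈ O`; conclude by `PlaceSys.mem_AA`.  The witnesses are
`w j` and `Fin.cons 0` of the witnesses for `N'`.  Finish with `DetGcd.unique`. -/
theorem DetGcd.hb_eq {Pl : Set (Place k)} (H : PlaceSys k Pl) {y : ℕ}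
    {N : Fam k (Fin y → KA k)} (hN : IsLat N) (hF : Full N) {γ : KA k} {e : ℤ}
    (h : DetGcd Pl N γ e) : hb N - 3 * (y : ℚ) / 2 = -(e : ℚ) := by
  classical
  induction y generalizing γ e with
  | zero =>
    have hb0 : N = ⊥ := by
      funext t
      exact Subsingleton.elim _ _
    have h0 : DetGcd Pl N 1 0 := by
      refine ⟨one_ne_zero, fun n s _ => ?_, fun P _ => ⟨Fin.elim0, Fin.elim0, fun i => i.elim0, ?_, ?_⟩⟩
      · simpa using one_mem_AA (k := k) le_rfl
      · simp
      · simp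
    rw [h.unique H h0, hb0, coeffs_bot.2.1]
    simp
  | succ y ih =>
    have hmod := hN.isMod
    set p0 : (Fin (y + 1) → KA k) →ₗ[KA k] KA k := LinearMap.proj 0 with hp0
    set N' : Fam k (Fin y → KA k) := fcomap (ADeg1_cons (KA k) y) N with hN'def
    have hN' : IsLat N' := hN.fcomap (ADeg1_cons_inj _ _)
    have hF' : Full N' := by
      refine eq_top_iff.2 fun v _ => ?_
      obtain ⟨e, f, -, hf0, hfv⟩ := mem_spanF_denom hmod (ξ := ADeg1_cons (KA k) y v)
        (by rw [hF]; trivial) 0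
      have h1 : f • v ∈ N' (0 + e) := by
        rw [hN'def, mem_fcomap, map_smul]; exact hfv
      have h2 : v = f⁻¹ • (f • v) := by rw [smul_smul, inv_mul_cancel₀ hf0, one_smul]
      rw [h2]
      exact Submodule.smul_mem _ _ (Submodule.subset_span (Set.mem_iUnion.2 ⟨_, h1⟩))
    obtain ⟨γ', e', h'⟩ := exists_detGcd H hN' hF'
    have ih' := ih hN' hF' h'
    have hadd := (hN.coeffs_add p0).2.1
    have hcut : hb N' = hb (cut N (LinearMap.ker p0)) := by
      unfold hb
      rw [hN'def, hf_fcomap_inj (ADeg1_cons_inj _ _), ADeg1_range]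
    obtain ⟨m, w, b, hNw⟩ := hN
    have hQ : fmap p0 N = gen (AA k) (fun j => w j 0) b := by
      rw [hNw, fmap_gen]; rfl
    have hw : ∀ j, w j ∈ N (b j) := fun j => by
      rw [hNw]; exact mem_gen_self (one_mem_AA le_rfl) w b j
    have hne : ∃ j, w j 0 ≠ 0 := by
      by_contra hall
      push Not at hall
      have h1 : (Pi.single 0 1 : Fin (y + 1) → KA k) ∈ Submodule.span (KA k) (Set.range w) := by
        rw [← spanF_gen w b, ← hNw, hF]; trivial
      obtain ⟨c, hc⟩ := (Submodule.mem_span_range_iff_exists_fun _).1 h1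
      have := congrFun hc 0
      simp [Finset.sum_apply, hall] at this
    obtain ⟨γ₁, e₁, hγ₁, hg1, hg2⟩ := H.gcd (Fin m) (fun j => w j 0) b hne
    set G : Fam k (KA k) := gen (AA k) (fun _ : Unit => γ₁) (fun _ => e₁) with hG
    have hGmem : ∀ t (a : KA k), a ∈ G t ↔ a / γ₁ ∈ AA k (t - e₁) := by
      intro t a
      rw [hG, mem_gen]
      constructor
      · rintro ⟨c, hc, rfl⟩
        simpa [hγ₁] using hc ()
      · intro ha
        exact ⟨fun _ => a / γ₁, fun _ => ha, by simp [hγ₁]⟩
    have hQG : gen (AA k) (fun j => w j 0) b ≤ G :=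
      gen_le (gen_isLat _ _).isMod fun j => (hGmem _ _).2 (hg1 j)
    have hloc : ∀ (P : Place k) (j : Fin m), w j 0 ≠ 0 →
        (P.θ ^ (b j - e₁) * (w j 0 / γ₁))⁻¹ ∈ P.O → ∀ t, ∀ a ∈ G t,
        P.θ ^ (t - b j) * (a / w j 0) ∈ P.O := by
      intro P j hj hu t a ha
      have h1 := P.O.mul_mem _ _ hu (P.mem _ _ ((hGmem _ _).1 ha))
      convert h1 using 1
      have hθ := P.θ_ne
      rw [zpow_sub₀ hθ, zpow_sub₀ hθ, zpow_sub₀ hθ]
      have : P.θ ^ t ≠ 0 := zpow_ne_zero _ hθ
      have : P.θ ^ e₁ ≠ 0 := zpow_ne_zero _ hθ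
      have : P.θ ^ b j ≠ 0 := zpow_ne_zero _ hθ
      field_simp
    have hcop : Cop G (gen (AA k) (fun j => w j 0) b) := by
      refine H.cop (KA k) _ _ (gen_isLat _ _).isMod ?_
      intro P hP t a ha
      obtain ⟨j, hj, hu⟩ := hg2 P hP
      obtain ⟨e, f, hf, hf0, hfu, hfa⟩ := P.clear _ _ (hloc P j hj hu t a ha)
      refine ⟨e, f, hf, hf0, hfu, ?_⟩
      have h0 : w j 0 ∈ gen (AA k) (fun j => w j 0) b (b j) :=
        mem_gen_self (S := AA k) (one_mem_AA le_rfl) (fun j => w j 0) b j
      have h1 := (gen_isLat (k := k) (fun j => w j 0) b).isMod _ _ _ hfa _ h0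
      rw [show t - b j + e + b j = t + e by ring] at h1
      have e1 : f • a = (f * (a / w j 0)) • w j 0 := by
        simp only [smul_eq_mul]
        field_simp
      rw [e1]; exact h1
    have hQb : hb (gen (AA k) (fun j => w j 0) b) = 3 / 2 - e₁ := by
      rw [(hcop.coeffs (gen_isLat _ _) (gen_isLat _ _) hQG).2.1]
      have hli : LinearIndependent (KA k) (fun _ : Unit => γ₁) :=
        (linearIndependent_unique_iff).2 hγ₁
      have := (hasHP_gen_indep hli (fun _ => e₁)).coeffs.2.1
      rw [this]; simp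
    have hnew : DetGcd Pl N (γ₁ * γ') (e₁ + e') := by
      refine ⟨mul_ne_zero hγ₁ h'.1, fun n s hn => H.mem_AA fun P hP => ?_, fun P hP => ?_⟩
      · obtain ⟨j, hj, hu⟩ := hg2 P hP
        have hn0 : ∀ i, n i 0 ∈ G (s i) := fun i => hQG _ (by
          rw [← hQ]; exact ⟨n i, hn i, rfl⟩)
        obtain ⟨e, f, hf, hf0, hfu, hfa⟩ := P.clear_fin (fun i => n i 0 / w j 0)
          (fun i => s i - b j) fun i => hloc P j hj hu _ _ (hn0 i)
        have hm : ∀ i, (fun r : Fin y => (f • (n i - (n i 0 / w j 0) • w j)) r.succ) ∈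
            N' (s i + e) := by
          intro i
          rw [hN'def, mem_fcomap, ADeg1_cons_tail (by simp [hj]), smul_sub, smul_smul]
          refine Submodule.sub_mem _ ?_ ?_
          · have := hmod _ _ _ hf _ (hn i)
            rwa [add_comm e (s i)] at this
          · have := hmod _ _ _ (hfa i) _ (hw j)
            convert this using 2
            ring
        rw [ADeg1_laplace n (w j) hj, Finset.sum_div, Finset.mul_sum]
        refine sum_mem fun i _ => ?_
        have h1 := P.mem _ _ ((hGmem _ _).1 (hn0 i))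
        have h2 := P.mem _ _ (h'.2.1 _ _ fun l => hm (i.succAbove l))
        have h3 : ((-1 : KA k)) ^ (i : ℕ) ∈ P.O := pow_mem (neg_mem (one_mem _)) _
        have h4 := mul_mem (mul_mem (mul_mem h3 h1) h2) (pow_mem hfu y)
        convert h4 using 1
        have e1 : (Matrix.of fun l : Fin y => fun r : Fin y =>
            (f • (n (i.succAbove l) - (n (i.succAbove l) 0 / w j 0) • w j)) r.succ) =
            f • (Matrix.of fun l : Fin y => fun r : Fin y =>
            (n (i.succAbove l) - (n (i.succAbove l) 0 / w j 0) • w j) r.succ) := by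
          ext l r; simp [mul_sub]
        rw [e1, Matrix.det_smul, Fintype.card_fin, Fin.sum_univ_succAbove s i,
          Finset.sum_add_distrib]
        simp only [Finset.sum_const, Finset.card_univ, Fintype.card_fin, nsmul_eq_mul]
        have hθ := P.θ_ne
        have e2 : P.θ ^ ((y : ℤ) * e) = (P.θ ^ e) ^ y := by
          rw [mul_comm, zpow_mul, zpow_natCast]
        simp only [zpow_sub₀ hθ, zpow_add₀ hθ, e2, inv_pow, mul_pow]
        have : P.θ ^ e ≠ 0 := zpow_ne_zero _ hθ
        have : P.θ ^ e₁ ≠ 0 := zpow_ne_zero _ hθ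
        have : P.θ ^ e' ≠ 0 := zpow_ne_zero _ hθ
        have := h'.1
        field_simp
      · obtain ⟨j, hj, hu⟩ := hg2 P hP
        obtain ⟨n, s, hn, hd, hu'⟩ := h'.2.2 P hP
        refine ⟨Fin.cons (w j) (fun i => ADeg1_cons (KA k) y (n i)), Fin.cons (b j) s, ?_, ?_, ?_⟩
        · intro i
          refine Fin.cases ?_ (fun i => ?_) i
          · simpa using hw j
          · simp only [Fin.cons_succ]; exact hn i
        · rw [ADeg1_witness]; exact mul_ne_zero hj hd
        · rw [ADeg1_witness, Fin.sum_cons]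
          convert mul_mem hu hu' using 1
          have hθ := P.θ_ne
          simp only [zpow_sub₀ hθ, zpow_add₀ hθ]
          have : P.θ ^ b j ≠ 0 := zpow_ne_zero _ hθ
          have : P.θ ^ e₁ ≠ 0 := zpow_ne_zero _ hθ
          have : P.θ ^ e' ≠ 0 := zpow_ne_zero _ hθ
          have : P.θ ^ (∑ i, s i) ≠ 0 := zpow_ne_zero _ hθ
          have := h'.1
          field_simp
    rw [h.unique H hnew, hadd, ← hcut, hQ, hQb]
    push_cast
    linarith

end Crest.Agent.R169
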