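import Crest.Agent.R169.ANoeth
import Crest.Agent.R169.APlace

/-! # R169 task ADual: duals and reflexive hulls -/

set_option autoImplicit false

namespace Crest.Agent.R169
open Module

variable {k : Type} [Field k] {V V' : Type} [AddCommGroup V] [Module k V] [Module (KA k) V]
  [IsScalarTower k (KA k) V] [AddCommGroup V'] [Module k V'] [Module (KA k) V']
  [IsScalarTower k (KA k) V']

theorem mem_dual {β : V →ₗ[KA k] V' →ₗ[KA k] KA k} {N : Fam k V} {t : ℤ} {φ : V'} :
    φ ∈ dual β N t ↔ ∀ s : ℤ, ∀ ξ ∈ N s, β ξ φ ∈ AA k (s + t - 3) := Iff.rfl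

theorem Perfect.flip {F W W' : Type} [Field F] [AddCommGroup W] [Module F W] [AddCommGroup W']
    [Module F W'] {β : W →ₗ[F] W' →ₗ[F] F} (h : Perfect β) : Perfect β.flip := by
  exact ⟨h.2.1, h.1, h.2.2.2, h.2.2.1⟩

theorem Perfect.finrank_eq {F W W' : Type} [Field F] [AddCommGroup W] [Module F W]
    [AddCommGroup W'] [Module F W'] {β : W →ₗ[F] W' →ₗ[F] F} (h : Perfect β) :
    finrank F W = finrank F W' := by
  obtain ⟨h1, h2, h3, h4⟩ := h
  have i1 : Function.Injective β :=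
    (injective_iff_map_eq_zero β).2 fun ξ e => h3 ξ fun φ => by rw [e]; rfl
  have i2 : Function.Injective β.flip :=
    (injective_iff_map_eq_zero β.flip).2 fun φ e => h4 φ fun ξ => by
      have := LinearMap.congr_fun e ξ
      simpa using this
  have a1 := LinearMap.finrank_le_finrank_of_injective i1
  have a2 := LinearMap.finrank_le_finrank_of_injective i2
  have b1 : finrank F (W' →ₗ[F] F) = finrank F W' := Subspace.dual_finrank_eq
  have b2 : finrank F (W →ₗ[F] F) = finrank F W := Subspace.dual_finrank_eq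
  omega

/-- every functional is represented -/
theorem Perfect.exists_rep {F W W' : Type} [Field F] [AddCommGroup W] [Module F W]
    [AddCommGroup W'] [Module F W'] {β : W →ₗ[F] W' →ₗ[F] F} (h : Perfect β) (l : W →ₗ[F] F) :
    ∃ φ : W', ∀ ξ, β ξ φ = l ξ := by
  have e := h.finrank_eq
  obtain ⟨h1, h2, h3, h4⟩ := h
  have i2 : Function.Injective β.flip :=
    (injective_iff_map_eq_zero β.flip).2 fun φ e => h4 φ fun ξ => by
      have := LinearMap.congr_fun e ξ
      simpa using this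
  have b2 : finrank F (W →ₗ[F] F) = finrank F W := Subspace.dual_finrank_eq
  obtain ⟨φ, hφ⟩ := (LinearMap.injective_iff_surjective_of_finrank_eq_finrank
    (e.symm.trans b2.symm)).1 i2 l
  exact ⟨φ, fun ξ => by rw [← hφ]; rfl⟩

theorem dual_isMod (β : V →ₗ[KA k] V' →ₗ[KA k] KA k) (N : Fam k V) :
    IsMod (AA k) (dual β N) := by
  intro s t a ha φ hφ u ξ hξ
  rw [map_smul, smul_eq_mul, show u + (s + t) - 3 = s + (u + t - 3) by ring]
  exact AA_mul ha (hφ u ξ hξ)

theorem dual_anti (β : V →ₗ[KA k] V' →ₗ[KA k] KA k) {N N' : Fam k V} (h : N ≤ N') :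
    dual β N' ≤ dual β N := by
  exact fun t φ hφ s ξ hξ => hφ s ξ (h s hξ)

theorem mem_dual_gen (β : V →ₗ[KA k] V' →ₗ[KA k] KA k) {ι : Type} (w : ι → V) (b : ι → ℤ)
    {t : ℤ} {φ : V'} : φ ∈ dual β (gen (AA k) w b) t ↔ ∀ i, β (w i) φ ∈ AA k (b i + t - 3) := by
  refine ⟨fun h i => h _ _ (mem_gen_self (one_mem_AA le_rfl) w b i), fun h s ξ hξ => ?_⟩
  induction hξ using Submodule.span_induction with
  | mem v hv =>
    obtain ⟨i, a, ha, rfl⟩ := hv
    rw [map_smul, LinearMap.smul_apply, smul_eq_mul,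
      show s + t - 3 = s - b i + (b i + t - 3) by ring]
    exact AA_mul ha (h i)
  | zero => rw [map_zero, LinearMap.zero_apply]; exact Submodule.zero_mem _
  | add u v _ _ hu hv => rw [map_add, LinearMap.add_apply]; exact Submodule.add_mem _ hu hv
  | smul c u _ hu =>
    rw [← algebraMap_smul (KA k) c u, map_smul, LinearMap.smul_apply, algebraMap_smul]
    exact Submodule.smul_mem _ _ hu

theorem le_dual_dual (β : V →ₗ[KA k] V' →ₗ[KA k] KA k) (N : Fam k V) :
    N ≤ dual β.flip (dual β N) := by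
  intro t ξ hξ s φ hφ
  rw [add_comm s t]
  exact hφ t ξ hξ

theorem dual_dual_dual (β : V →ₗ[KA k] V' →ₗ[KA k] KA k) (N : Fam k V) :
    dual β (dual β.flip (dual β N)) = dual β N := by
  exact le_antisymm (dual_anti β (le_dual_dual β N)) (le_dual_dual β.flip (dual β N))

/-- duals are saturated for coprime pairs (`AA_S2`) -/
theorem dual_sat (β : V →ₗ[KA k] V' →ₗ[KA k] KA k) (N : Fam k V) {f g : P2 k} (hf0 : f ≠ 0)
    (hfg : IsRelPrime f g) {φ : V'} {t s : ℤ}
    (h1 : algebraMap (P2 k) (KA k) f • φ ∈ dual β N (t + f.totalDegree))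
    (h2 : algebraMap (P2 k) (KA k) g • φ ∈ dual β N s) : φ ∈ dual β N t := by
  intro u ξ hξ
  have a1 := h1 u ξ hξ
  have a2 := h2 u ξ hξ
  rw [map_smul, smul_eq_mul] at a1 a2
  rw [show u + (t + f.totalDegree) - 3 = u + t - 3 + f.totalDegree by ring] at a1
  exact AA_S2 hf0 hfg a1 a2

theorem dual_satX (β : V →ₗ[KA k] V' →ₗ[KA k] KA k) (N : Fam k V) : SatX (dual β N) := by
  intro t j φ h1 h2 u ξ hξ
  have a1 := h1 u ξ hξ
  have a2 := h2 u ξ hξ
  rw [map_smul, smul_eq_mul, show u + (t + j) - 3 = u + t - 3 + j by ring] at a2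
  exact AA_S2_xz j a2 a1

theorem dual_satXY (β : V →ₗ[KA k] V' →ₗ[KA k] KA k) (N : Fam k V) : SatXY (dual β N) := by
  intro t φ h1 h2 u ξ hξ
  have a1 := h1 u ξ hξ
  have a2 := h2 u ξ hξ
  rw [map_smul, smul_eq_mul] at a1 a2
  refine AA_S2_xy 1 (s := u + (t + 1) - 3) ?_ (by rwa [pow_one])
  rwa [pow_one, Nat.cast_one, show u + t - 3 + 1 = u + (t + 1) - 3 by ring]

theorem Cop.le_dual (β : V →ₗ[KA k] V' →ₗ[KA k] KA k) {N : Fam k V} {M : Fam k V'}
    (h : Cop M (dual β N)) : M ≤ dual β N := by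
  intro t φ hφ
  obtain ⟨f, g, e, hf, hfg, -, h1, h2⟩ := h t φ hφ
  exact dual_sat β N hf hfg h1 h2

theorem Cop.dual_le (β : V →ₗ[KA k] V' →ₗ[KA k] KA k) {N N' : Fam k V} (h : Cop N' N) :
    dual β N ≤ dual β N' := by
  intro t φ hφ s ξ hξ
  obtain ⟨f, g, e, hf, hfg, -, h1, h2⟩ := h s ξ hξ
  have a1 := hφ _ _ h1
  have a2 := hφ _ _ h2
  rw [map_smul, LinearMap.smul_apply, smul_eq_mul] at a1 a2
  rw [show s + f.totalDegree + t - 3 = s + t - 3 + f.totalDegree by ring] at a1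
  exact AA_S2 hf hfg a1 a2

theorem EvEq.dual_eq (β : V →ₗ[KA k] V' →ₗ[KA k] KA k) {N N' : Fam k V} (hN : IsMod (AA k) N)
    (hN' : IsMod (AA k) N') (h : EvEq N N') : dual β N = dual β N' := by
  exact le_antisymm (Cop.dual_le β (EvLe.cop hN' h.symm.evLe)) (Cop.dual_le β (EvLe.cop hN h.evLe))

/-- dual basis -/
theorem ADual_basis {F W W' : Type} [Field F] [AddCommGroup W] [Module F W]
    [AddCommGroup W'] [Module F W'] {β : W →ₗ[F] W' →ₗ[F] F} (h : Perfect β) {n : ℕ}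
    {v : Fin n → W} (hv : LinearIndependent F v) (hs : ⊤ ≤ Submodule.span F (Set.range v)) :
    ∃ u : Fin n → W', (∀ ξ, ξ = ∑ i, β ξ (u i) • v i) ∧ (∀ φ, φ = ∑ i, β (v i) φ • u i) ∧
      ∀ (c : Fin n → F) (j : Fin n), β (∑ i, c i • v i) (u j) = c j := by
  classical
  let B := Basis.mk hv hs
  have hB : ∀ i, B i = v i := fun i => Basis.mk_apply hv hs i
  choose u hu using fun i => h.exists_rep (B.coord i)
  have h1 : ∀ ξ, ξ = ∑ i, β ξ (u i) • v i := by
    intro ξ
    conv_lhs => rw [← B.sum_repr ξ]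
    simp only [hu, hB, Basis.coord_apply]
  refine ⟨u, h1, fun φ => ?_, fun c j => ?_⟩
  · rw [← sub_eq_zero]
    refine h.2.2.2 _ fun ξ => ?_
    rw [map_sub, map_sum]
    conv_lhs => enter [1]; rw [h1 ξ]
    simp only [map_sum, map_smul, LinearMap.sum_apply, LinearMap.smul_apply, smul_eq_mul]
    rw [sub_eq_zero]
    exact Finset.sum_congr rfl fun i _ => mul_comm _ _
  · rw [hu, Basis.coord_apply]
    simp only [← hB]
    rw [B.repr_sum_self]

theorem ADual_span {m n : ℕ} {w : Fin m → V} {b : Fin m → ℤ} (hF : Full (gen (AA k) w b))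
    {I : Fin n → Fin m} (h : ∀ j, ∃ c : Fin n → KA k, w j = ∑ i, c i • w (I i)) :
    ⊤ ≤ Submodule.span (KA k) (Set.range (w ∘ I)) := by
  rw [Full, spanF_gen] at hF
  rw [← hF, Submodule.span_le]
  rintro _ ⟨j, rfl⟩
  obtain ⟨c, hc⟩ := h j
  rw [hc]
  exact Submodule.sum_mem _ fun i _ => Submodule.smul_mem _ _ (Submodule.subset_span ⟨i, rfl⟩)

/-- Sketch: a basis `w ∘ I` of `V` among the generators; its dual basis `w*` in `V'`
(`exists_rep`); `dual N ≤ dual (gen (w ∘ I)) = gen w* (3 - b ∘ I)`, so `IsLat.sub` applies;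
a common denominator `f` gives `f • w*_i ∈ dual N`, so it is full. -/
theorem dual_isLat {β : V →ₗ[KA k] V' →ₗ[KA k] KA k} (hβ : Perfect β) {N : Fam k V}
    (hN : IsLat N) (hF : Full N) : IsLat (dual β N) ∧ Full (dual β N) := by
  obtain ⟨m, w, b, rfl⟩ := hN
  obtain ⟨n, I, -, hli, hc⟩ := local_basis (⊤ : ValuationSubring (KA k)) w
  obtain ⟨u, -, h2, -⟩ := ADual_basis hβ hli
    (ADual_span hF fun j => (hc j).imp fun _ h => h.2)
  constructor
  · refine (gen_isLat u fun i => 3 - b (I i)).sub (dual_isMod β _) fun t φ hφ => ?_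
    refine mem_gen.2 ⟨fun i => β (w (I i)) φ, fun i => ?_, h2 φ⟩
    rw [show t - (3 - b (I i)) = b (I i) + t - 3 by ring]
    exact (mem_dual_gen β w b).1 hφ (I i)
  · rw [Full, eq_top_iff]
    intro φ _
    rw [h2 φ]
    refine Submodule.sum_mem _ fun i _ => Submodule.smul_mem _ _ ?_
    obtain ⟨e, f, -, hf, h3⟩ := AA_denom_fin (fun j => β (w j) (u i)) (fun j => b j - 3)
    have h4 : f • u i ∈ dual β (gen (AA k) w b) e := (mem_dual_gen β w b).2 fun j => by
      rw [map_smul, smul_eq_mul, show b j + e - 3 = b j - 3 + e by ring]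
      exact h3 j
    have h5 := Submodule.smul_mem _ f⁻¹ (A1_mem_spanF h4)
    rwa [smul_smul, inv_mul_cancel₀ hf, one_smul] at h5

/-- `N^∨∨ / N` has codimension `≥ 2`.  Sketch: `PlaceSys.cop`.  At a place `P` take
`Place.local_basis`, dual basis `w*`; `β (w j) w*_i = c_{ji}`, so `Place.clear_fin` gives a unit `f`
(degree `e`) with `f • w*_i ∈ dual N (3 - b (I i) + e)`; for `ξ ∈ N^∨∨ t`,
`f • ξ = ∑ β ξ (f • w*_i) • w (I i) ∈ N (t + e)`. -/
theorem cop_dual_dual {β : V →ₗ[KA k] V' →ₗ[KA k] KA k} (hβ : Perfect β) {N : Fam k V}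
    (hN : IsLat N) (hF : Full N) : Cop (dual β.flip (dual β N)) N := by
  obtain ⟨Pl, H⟩ := exists_placeSys k
  refine H.cop V _ N hN.isMod fun P _ t ξ hξ => ?_
  have hM := hN.isMod
  obtain ⟨m, w, b, rfl⟩ := hN
  obtain ⟨n, I, -, hli, hc⟩ := P.local_basis w b
  obtain ⟨u, h1, -, h3⟩ := ADual_basis hβ hli
    (ADual_span hF fun j => (hc j).imp fun _ h => h.2)
  choose c hc1 hc2 using hc
  obtain ⟨e, f, hf1, hf2, hf3, hf4⟩ := P.clear_fin (fun z : Fin m × Fin n => c z.1 z.2)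
    (fun z => b z.1 - b (I z.2)) fun z => hc1 z.1 z.2
  refine ⟨e, f, hf1, hf2, hf3, ?_⟩
  have h4 : ∀ i, f • u i ∈ dual β (gen (AA k) w b) (3 - b (I i) + e) := fun i =>
    (mem_dual_gen β w b).2 fun j => by
      have := h3 (c j) i
      simp only [Function.comp_apply, ← hc2] at this
      rw [map_smul, smul_eq_mul, this,
        show b j + (3 - b (I i) + e) - 3 = b j - b (I i) + e by ring]
      exact hf4 (j, i)
  rw [h1 ξ, Finset.smul_sum]
  refine Submodule.sum_mem _ fun i _ => ?_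
  have h5 := hξ _ _ (h4 i)
  rw [LinearMap.flip_apply, map_smul, smul_eq_mul] at h5
  have h6 := hM _ _ _ h5 _ (mem_gen_self (one_mem_AA le_rfl) w b (I i))
  rw [show 3 - b (I i) + e + t - 3 + b (I i) = t + e by ring] at h6
  rw [smul_smul]
  exact h6

end Crest.Agent.R169
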