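import Crest.Agent.R169.ACop

/-! # R169 task AGrow: linear growth of `h⁰` along a line -/

set_option autoImplicit false

namespace Crest.Agent.R169
open Module

variable {k : Type} [Field k] {V V' : Type} [AddCommGroup V] [Module k V] [Module (KA k) V]
  [IsScalarTower k (KA k) V] [AddCommGroup V'] [Module k V'] [Module (KA k) V']
  [IsScalarTower k (KA k) V']

/-- multiplication by a scalar of `k(x,y)` as a `k`-linear map -/
private noncomputable def agrowMul (c : KA k) : V →ₗ[k] V :=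
  (c • (LinearMap.id : V →ₗ[KA k] V)).restrictScalars k

private theorem agrowMul_apply (c : KA k) (v : V) : agrowMul (k := k) c v = c • v := rfl

private theorem agrow_finrank_map {c : KA k} (hc : c ≠ 0) (S : Submodule k V) :
    finrank k (S.map (agrowMul (k := k) c)) = finrank k S := by
  have hinj : Function.Injective (agrowMul (k := k) (V := V) c) := by
    intro u v h
    rw [agrowMul_apply, agrowMul_apply] at h
    exact smul_right_injective V hc h
  exact (Submodule.equivMapOfInjective _ hinj S).finrank_eq.symm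

private theorem agrow_xpow (j : ℕ) : xA k 0 ^ j ∈ AA k j := by
  simpa using AA_pow (xA_mem (k := k) 0) j

/-- the `x`-saturation of `z N` -/
private def agrowSat (N : Fam k V) (hN : IsMod (AA k) N) : Fam k V := fun t =>
  { carrier := {u | u ∈ N (t + 1) ∧ ∃ j : ℕ, xA k 0 ^ j • u ∈ N (t + j)}
    zero_mem' := ⟨Submodule.zero_mem _, 0, by rw [smul_zero]; exact Submodule.zero_mem _⟩
    add_mem' := by
      rintro u v ⟨hu, i, hi⟩ ⟨hv, j, hj⟩
      refine ⟨Submodule.add_mem _ hu hv, i + j, ?_⟩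
      rw [smul_add]
      refine Submodule.add_mem _ ?_ ?_
      · have := hN _ _ _ (agrow_xpow j) _ hi
        rwa [smul_smul, ← pow_add, add_comm j i,
          show (j : ℤ) + (t + i) = t + ((i + j : ℕ) : ℤ) by push_cast; ring] at this
      · have := hN _ _ _ (agrow_xpow i) _ hj
        rwa [smul_smul, ← pow_add,
          show (i : ℤ) + (t + j) = t + ((i + j : ℕ) : ℤ) by push_cast; ring] at this
    smul_mem' := by
      rintro c u ⟨hu, i, hi⟩
      refine ⟨Submodule.smul_mem _ c hu, i, ?_⟩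
      rw [smul_comm]
      exact Submodule.smul_mem _ c hi }

private theorem mem_agrowSat {N : Fam k V} {hN : IsMod (AA k) N} {t : ℤ} {u : V} :
    u ∈ agrowSat N hN t ↔ u ∈ N (t + 1) ∧ ∃ j : ℕ, xA k 0 ^ j • u ∈ N (t + j) := Iff.rfl

private theorem agrowSat_isMod {N : Fam k V} (hN : IsMod (AA k) N) :
    IsMod (AA k) (agrowSat N hN) := by
  rintro s t a ha u ⟨hu, j, hj⟩
  refine ⟨?_, j, ?_⟩
  · rw [add_assoc]; exact hN _ _ _ ha _ hu
  · rw [smul_comm, add_assoc]; exact hN _ _ _ ha _ hj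

private theorem le_agrowSat {N : Fam k V} (hN : IsMod (AA k) N) : N ≤ agrowSat N hN := by
  intro t u hu
  exact ⟨hN.mono (by omega) hu, 0, by simpa using hu⟩

private theorem agrowSat_cop {N : Fam k V} (hN : IsMod (AA k) N) : Cop (agrowSat N hN) N := by
  rintro t u ⟨hu, j, hj⟩
  refine ⟨MvPolynomial.X 0 ^ j, 1, 1, pow_ne_zero _ (MvPolynomial.X_ne_zero _),
    isRelPrime_one_right, by simp, ?_, by simpa using hu⟩
  rw [MvPolynomial.totalDegree_X_pow, map_pow]
  exact hj

/-- the core estimate for a lattice generated in degree `s + 1` -/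
private theorem agrow_core {N : Fam k V} (hN : IsLat N) (s : ℤ)
    (hgen : ∀ t ≥ s + 1, ∀ ξ ∈ N (t + 1), ∃ a ∈ N t, ∃ b ∈ N t, ∃ c ∈ N t,
      ξ = xA k 0 • a + xA k 1 • b + c) :
    hf N (s + 1) - hf (agrowSat N hN.isMod) s ≤ 2 * ha N * s + ha N + hb N := by
  have hM := hN.isMod
  set N₁ := agrowSat N hM with hN₁
  have hM₁ : IsMod (AA k) N₁ := agrowSat_isMod hM
  have hL₁ : IsLat N₁ := (hN.sh 1).sub hM₁ (fun t u hu => hu.1)
  have hle : N ≤ N₁ := le_agrowSat hM
  obtain ⟨c1, c2, -⟩ := Cop.coeffs hN hL₁ hle (agrowSat_cop hM)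
  let S : ℤ → Submodule k V := fun t => N₁ (t + 1) ⊔ (N (t + 1)).map (agrowMul (xA k 0))
  have hfin := hN.fin
  have hfin₁ := hL₁.fin
  have hSfin : ∀ t, FiniteDimensional k (S t) := fun t => inferInstance
  have hS : ∀ t, (finrank k (S t) : ℚ) = hf N₁ (t + 1) + hf N (t + 1) - hf N₁ t := by
    intro t
    have h1 := Submodule.finrank_sup_add_finrank_inf_eq (N₁ (t + 1))
      ((N (t + 1)).map (agrowMul (xA k 0)))
    have h2 : N₁ (t + 1) ⊓ (N (t + 1)).map (agrowMul (xA k 0)) =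
        (N₁ t).map (agrowMul (xA k 0)) := by
      ext v
      rw [Submodule.mem_inf, Submodule.mem_map, Submodule.mem_map]
      constructor
      · rintro ⟨⟨-, j, hj⟩, u, hu, rfl⟩
        refine ⟨u, ⟨hu, j + 1, ?_⟩, rfl⟩
        rw [agrowMul_apply, smul_smul, ← pow_succ] at hj
        rwa [show t + ((j + 1 : ℕ) : ℤ) = t + 1 + j by push_cast; ring]
      · rintro ⟨u, hu, rfl⟩
        refine ⟨?_, u, hu.1, rfl⟩
        have := hM₁ _ _ _ (xA_mem 0) _ hu
        rwa [add_comm] at this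
    rw [h2, agrow_finrank_map (xA_ne 0), agrow_finrank_map (xA_ne 0)] at h1
    have h3 : (finrank k (S t) : ℚ) + finrank k (N₁ t) =
        finrank k (N₁ (t + 1)) + finrank k (N (t + 1)) := by exact_mod_cast h1
    unfold hf; linarith
  have hSle : ∀ t, S t ≤ N (t + 1 + 1) := by
    intro t
    refine sup_le (fun u hu => hu.1) ?_
    rintro _ ⟨u, hu, rfl⟩
    have := hM _ _ _ (xA_mem 0) _ hu
    rwa [add_comm] at this
  have hstep : ∀ t ≥ s, hf N (t + 1 + 1 + 1) - finrank k (S (t + 1)) ≤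
      hf N (t + 1 + 1) - finrank k (S t) := by
    intro t ht
    have h1 := Submodule.finrank_sup_add_finrank_inf_eq (S (t + 1))
      ((N (t + 1 + 1)).map (agrowMul (xA k 1)))
    have h2 : N (t + 1 + 1 + 1) ≤ S (t + 1) ⊔ (N (t + 1 + 1)).map (agrowMul (xA k 1)) := by
      intro ξ hξ
      obtain ⟨a, ha, b, hb, c, hc, rfl⟩ := hgen (t + 1 + 1) (by omega) ξ hξ
      refine Submodule.add_mem _ (Submodule.add_mem _ ?_ ?_) ?_
      · exact Submodule.mem_sup_left (Submodule.mem_sup_right ⟨a, ha, rfl⟩)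
      · exact Submodule.mem_sup_right ⟨b, hb, rfl⟩
      · exact Submodule.mem_sup_left (Submodule.mem_sup_left (hle _ hc))
    have h3 : (S t).map (agrowMul (xA k 1)) ≤
        S (t + 1) ⊓ (N (t + 1 + 1)).map (agrowMul (xA k 1)) := by
      refine le_inf ?_ (Submodule.map_mono (hSle t))
      rintro _ ⟨u, hu, rfl⟩
      obtain ⟨u1, hu1, _, ⟨u2, hu2, rfl⟩, rfl⟩ := Submodule.mem_sup.1 hu
      rw [map_add]
      refine Submodule.add_mem _ (Submodule.mem_sup_left ?_) (Submodule.mem_sup_right ?_)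
      · have := hM₁ _ _ _ (xA_mem 1) _ hu1
        rwa [add_comm] at this
      · refine ⟨xA k 1 • u2, ?_, ?_⟩
        · have := hM _ _ _ (xA_mem 1) _ hu2
          rwa [add_comm] at this
        · simp only [agrowMul_apply]; rw [smul_comm]
    have h4 := Submodule.finrank_mono h2
    have h5 := Submodule.finrank_mono h3
    rw [agrow_finrank_map (xA_ne 1)] at h1 h5
    have h6 : finrank k (N (t + 1 + 1 + 1)) + finrank k (S t) ≤
        finrank k (S (t + 1)) + finrank k (N (t + 1 + 1)) := by omega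
    have h7 : (finrank k (N (t + 1 + 1 + 1)) : ℚ) + finrank k (S t) ≤
        finrank k (S (t + 1)) + finrank k (N (t + 1 + 1)) := by exact_mod_cast h6
    unfold hf; linarith
  -- `q` and `d`
  let q : ℤ → ℚ := fun t => hf N (t + 1) - hf N₁ t
  have hd : ∀ t ≥ s, q (t + 1 + 1) - q (t + 1) ≤ q (t + 1) - q t := by
    intro t ht
    have := hstep t ht
    rw [hS, hS] at this
    simp only [q]; linarith
  have hd' : ∀ t ≥ s, ∀ j : ℕ, q (t + j + 1) - q (t + j) ≤ q (t + 1) - q t := by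
    intro t ht j
    induction j with
    | zero => simp
    | succ j ih =>
      have := hd (t + j) (by omega)
      rw [show t + ((j + 1 : ℕ) : ℤ) = t + j + 1 by push_cast; ring]
      linarith
  obtain ⟨t1, ht1⟩ := hN.hasHP
  obtain ⟨t2, ht2⟩ := hL₁.hasHP
  have hd'' : ∀ t ≥ s, 2 * ha N ≤ q (t + 1) - q t := by
    intro t ht
    have := hd' t ht (max t1 t2 - t).toNat
    have hj : max t1 t2 ≤ t + ((max t1 t2 - t).toNat : ℤ) := by omega
    generalize t + ((max t1 t2 - t).toNat : ℤ) = T at this hj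
    have e1 := ht1 (T + 1) (by omega)
    have e2 := ht1 (T + 1 + 1) (by omega)
    have e3 := ht2 T (by omega)
    have e4 := ht2 (T + 1) (by omega)
    simp only [q] at this ⊢
    rw [e1, e2, e3, e4, ← c1, ← c2] at this
    push_cast at this
    linarith
  have hq : ∀ j : ℕ, q s + 2 * ha N * j ≤ q (s + j) := by
    intro j
    induction j with
    | zero => simp
    | succ j ih =>
      have := hd'' (s + j) (by omega)
      rw [show s + ((j + 1 : ℕ) : ℤ) = s + j + 1 by push_cast; ring]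
      push_cast; linarith
  have h8 := hq (t1 - s).toNat
  have hj : t1 ≤ s + ((t1 - s).toNat : ℤ) := by omega
  have hcast : (((t1 - s).toNat : ℕ) : ℚ) = ((s + ((t1 - s).toNat : ℤ) : ℤ) : ℚ) - s := by
    push_cast; ring
  rw [hcast] at h8
  generalize s + ((t1 - s).toNat : ℤ) = T at h8 hj
  have e1 := ht1 (T + 1) (by omega)
  have e2 := ht1 T hj
  have h9 : hf N T ≤ hf N₁ T := by
    unfold hf; exact_mod_cast Submodule.finrank_mono (hle T)
  simp only [q] at h8
  rw [e1] at h8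
  rw [e2] at h9
  push_cast at h8
  linarith

/-- Sketch.  `U = G (s+1)`, `G' = gen U` (all in degree `s+1`; use a basis of `U`), rank `n' = 2 ha G' ≤ n`,
`hb G' ≤ n' (3/2 + a)` (`hb_le_of_le_free`).  `G₁ t = {u ∈ G' (t+1) | ∃ j, x^j u ∈ G' (t + j)}` is a
lattice with `G' ≤ G₁`, `Cop G₁ G'` (`f = x^j, g = 1`), so `ha, hb` agree and `hf G' ≤ hf G₁`.
`q t = hf G' (t+1) - hf G₁ t` is the Hilbert function of `Q = G'/G₁(-1)`, on which `x` is
injective and `z` is zero, generated in the lowest degree.  `d t = q (t+1) - q t = dim (Q/xQ)` is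
non-increasing for `t ≥ s` (`y` is onto: `G' (t+2) = x G'(t+1) + y G'(t+1) + G'(t+1)`) and eventually
`n'`, so `q t ≥ q s + n' (t - s)`, while eventually `q t ≤ hf G' (t+1) - hf G' t ≤ n' (t + a + 2)`.
Hence `q s ≤ n' (s + a + 2)`; finally `G₁ s ≤ G s` by `SatX`.  (If `U ≠ 0` then `0 ≤ s + 1 + a`.) -/
theorem grow_free {n : ℕ} {G : Fam k (Fin n → KA k)} (hG : IsLat G) (hs : SatX G) (a : ℤ)
    (h : G ≤ freeF k (fun _ => -a)) (s : ℤ) :
    hf G (s + 1) ≤ hf G s + n * (|(s : ℚ)| + |(a : ℚ)| + 2) := by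
  have hfin := hG.fin
  let B := Module.finBasis k (G (s + 1))
  let N : Fam k (Fin n → KA k) := gen (AA k) (fun i => (B i : Fin n → KA k)) (fun _ => s + 1)
  have hN : IsLat N := gen_isLat _ _
  have hNG : N ≤ G := gen_le hG.isMod (fun i => (B i).2)
  have hU : G (s + 1) ≤ N (s + 1) := by
    intro u hu
    have h1 : u = ∑ i, B.repr ⟨u, hu⟩ i • (B i : Fin n → KA k) := by
      have := congrArg Subtype.val (B.sum_repr ⟨u, hu⟩)
      rw [Submodule.coe_sum] at this
      exact this.symm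
    rw [h1]
    exact Submodule.sum_mem _ (fun i _ => Submodule.smul_mem _ _
      (mem_gen_self (one_mem_AA le_rfl) (fun i => (B i : Fin n → KA k)) (fun _ => s + 1) i))
  have hcore := agrow_core hN s (by
    intro t ht ξ hξ
    obtain ⟨c, hc, rfl⟩ := mem_gen.1 hξ
    choose a0 h0 a1 h1 a2 h2 he using fun i => AA_split (by omega) (hc i)
    have hh : t + 1 - (s + 1) - 1 = t - (s + 1) := by ring
    refine ⟨_, mem_gen.2 ⟨a0, fun i => hh ▸ h0 i, rfl⟩, _, mem_gen.2 ⟨a1, fun i => hh ▸ h1 i, rfl⟩,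
      _, mem_gen.2 ⟨a2, fun i => hh ▸ h2 i, rfl⟩, ?_⟩
    rw [Finset.smul_sum, Finset.smul_sum, ← Finset.sum_add_distrib, ← Finset.sum_add_distrib]
    refine Finset.sum_congr rfl (fun i _ => ?_)
    rw [he i, add_smul, add_smul, mul_smul, mul_smul])
  have h1 : hf G (s + 1) ≤ hf N (s + 1) := by
    have := hN.fin
    unfold hf; exact_mod_cast Submodule.finrank_mono hU
  have h2 : hf (agrowSat N hN.isMod) s ≤ hf G s := by
    have : agrowSat N hN.isMod s ≤ G s := by
      rintro u ⟨hu, j, hj⟩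
      exact hs s j u (hNG _ hu) (hNG _ hj)
    unfold hf; exact_mod_cast Submodule.finrank_mono this
  have h3 := hb_le_of_le_free hN a (hNG.trans h)
  have h4 := hN.two_ha
  have h5 : finrank (KA k) (spanF N) ≤ n := by
    simpa using Submodule.finrank_le (spanF N)
  have h6 : (finrank (KA k) (spanF N) : ℚ) ≤ n := by exact_mod_cast h5
  have h7 : (0 : ℚ) ≤ finrank (KA k) (spanF N) := Nat.cast_nonneg _
  have h8 : (s : ℚ) + a + 2 ≤ |(s : ℚ)| + |(a : ℚ)| + 2 := by
    linarith [le_abs_self (s : ℚ), le_abs_self (a : ℚ)]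
  have h9 : (0 : ℚ) ≤ |(s : ℚ)| + |(a : ℚ)| + 2 := by positivity
  have h10 : 2 * ha N * ((s : ℚ) + a + 2) ≤ n * (|(s : ℚ)| + |(a : ℚ)| + 2) := by
    rw [h4]
    exact (mul_le_mul_of_nonneg_left h8 h7).trans (mul_le_mul_of_nonneg_right h6 h9)
  linarith

/-- uniform version: embed `G₀` into a free module (coordinates on `spanF G₀`, common
denominators), transport `G` by `fmap`. -/
theorem grow {G₀ : Fam k V'} (hG₀ : IsLat G₀) : ∃ C : ℚ, 0 ≤ C ∧
    ∀ (G : Fam k V) (c : V →ₗ[KA k] V') (a : ℤ), IsLat G → SatX G → Function.Injective c →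
      (∀ t, ∀ ξ ∈ G t, c ξ ∈ G₀ (t + a)) →
      ∀ s : ℤ, hf G (s + 1) ≤ hf G s + C * (|(s : ℚ)| + |(a : ℚ)| + 1) := by
  classical
  have hW := hG₀.finite_spanF
  let n := finrank (KA k) (spanF G₀)
  let B := Module.finBasis (KA k) (spanF G₀)
  obtain ⟨π, hπ⟩ := LinearMap.exists_extend (B.equivFun.toLinearMap)
  have hπinj : ∀ v ∈ spanF G₀, π v = 0 → v = 0 := by
    intro v hv h0
    have h1 := LinearMap.congr_fun hπ ⟨v, hv⟩
    simp only [LinearMap.comp_apply, Submodule.subtype_apply, LinearEquiv.coe_coe] at h1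
    rw [h0] at h1
    have := B.equivFun.map_eq_zero_iff.1 h1.symm
    exact congrArg Subtype.val this
  have hfull : spanF (freeF k (fun _ : Fin n => (0 : ℤ))) = ⊤ := by
    rw [freeF_eq_gen, spanF_gen]
    have := (Pi.basisFun (KA k) (Fin n)).span_eq
    have h2 : (fun i : Fin n => (Pi.single i 1 : Fin n → KA k)) = Pi.basisFun (KA k) (Fin n) := by
      funext i
      rw [Pi.basisFun_apply]
    rw [h2]; exact this
  obtain ⟨e, f, -, hf0, hfe⟩ := (hG₀.fmap (L := KA k) π).denom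
    (isLat_freeF (k := k) (fun _ : Fin n => (0 : ℤ))).isMod (by rw [hfull]; exact le_top)
  refine ⟨n * (|(e : ℚ)| + 2), by positivity, ?_⟩
  intro G c a hG hs hc hcG s
  let g : V →ₗ[KA k] (Fin n → KA k) := f • (π ∘ₗ c)
  have hg : ∀ v, g v = f • π (c v) := fun _ => rfl
  have hspan : ∀ t, ∀ v ∈ G t, c v ∈ spanF G₀ := fun t v hv =>
    Submodule.subset_span (Set.mem_iUnion.2 ⟨t + a, hcG t v hv⟩)
  have hginj : ∀ v, c v ∈ spanF G₀ → g v = 0 → v = 0 := by
    intro v hv h0
    rw [hg, smul_eq_zero] at h0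
    have := hπinj _ hv (h0.resolve_left hf0)
    exact hc (by rw [this, map_zero])
  have hhf : ∀ t, hf G t = hf (fmap g G) t := by
    intro t
    have := hG.fin t
    rw [hf_cut_add_fmap g G t]
    have h1 : cut G (LinearMap.ker g) t = ⊥ := by
      rw [Submodule.eq_bot_iff]
      intro v hv
      obtain ⟨h1, h2⟩ := mem_cut.1 hv
      exact hginj v (hspan t v h1) h2
    rw [hf, h1]; simp
  have hsat : SatX (fmap g G) := by
    intro t j ξ h1 h2
    obtain ⟨u, hu, rfl⟩ := mem_fmap.1 h1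
    obtain ⟨u', hu', he⟩ := mem_fmap.1 h2
    have h3 : u' - xA k 0 ^ j • u = 0 := by
      apply hginj
      · rw [map_sub, map_smul]
        exact Submodule.sub_mem _ (hspan _ _ hu') (Submodule.smul_mem _ _ (hspan _ _ hu))
      · rw [map_sub, map_smul, he, sub_self]
    rw [sub_eq_zero] at h3
    exact mem_fmap.2 ⟨u, hs t j u hu (h3 ▸ hu'), rfl⟩
  have hle : fmap g G ≤ freeF k (fun _ => -(a + e)) := by
    intro t ξ hξ
    obtain ⟨u, hu, rfl⟩ := mem_fmap.1 hξ
    have := hfe (t + a) (π (c u)) (mem_fmap.2 ⟨c u, hcG t u hu, rfl⟩)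
    intro i _
    have h1 : (f • π (c u)) i ∈ AA k (t + a + e - 0) := this i (Set.mem_univ i)
    rwa [show t + a + e - 0 = t - -(a + e) by ring] at h1
  have h1 := grow_free (hG.fmap (L := KA k) g) hsat (a + e) hle s
  rw [← hhf, ← hhf] at h1
  have h2 : |((a + e : ℤ) : ℚ)| ≤ |(a : ℚ)| + |(e : ℚ)| := by
    push_cast; exact abs_add_le _ _
  have h3 : |(s : ℚ)| + |((a + e : ℤ) : ℚ)| + 2 ≤ (|(e : ℚ)| + 2) * (|(s : ℚ)| + |(a : ℚ)| + 1) := by
    have := abs_nonneg (s : ℚ)
    have := abs_nonneg (a : ℚ)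
    have := abs_nonneg (e : ℚ)
    nlinarith [mul_nonneg (abs_nonneg (e : ℚ)) (abs_nonneg (s : ℚ)),
      mul_nonneg (abs_nonneg (e : ℚ)) (abs_nonneg (a : ℚ))]
  have h4 := mul_le_mul_of_nonneg_left h3 (Nat.cast_nonneg (α := ℚ) n)
  rw [mul_assoc]
  linarith

end Crest.Agent.R169
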