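import Crest.Agent.R169.Defs

/-! # R169 task AHP: eventually quadratic functions (pure arithmetic) -/

set_option autoImplicit false

namespace Crest.Agent.R169
open Module

theorem HasHP.congr {h h' : ℤ → ℚ} {a b c : ℚ} (H : HasHP h a b c)
    (e : ∃ t0 : ℤ, ∀ t ≥ t0, h' t = h t) : HasHP h' a b c := by
  obtain ⟨s, hs⟩ := H
  obtain ⟨s', hs'⟩ := e
  refine ⟨max s s', fun t ht => ?_⟩
  rw [hs' t (le_trans (le_max_right _ _) ht), hs t (le_trans (le_max_left _ _) ht)]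

theorem HasHP.add {h h' : ℤ → ℚ} {a b c a' b' c' : ℚ} (H : HasHP h a b c) (H' : HasHP h' a' b' c') :
    HasHP (fun t => h t + h' t) (a + a') (b + b') (c + c') := by
  obtain ⟨s, hs⟩ := H
  obtain ⟨s', hs'⟩ := H'
  refine ⟨max s s', fun t ht => ?_⟩
  show h t + h' t = _
  rw [hs' t (le_trans (le_max_right _ _) ht), hs t (le_trans (le_max_left _ _) ht)]
  ring

theorem HasHP.sub {h h' : ℤ → ℚ} {a b c a' b' c' : ℚ} (H : HasHP h a b c) (H' : HasHP h' a' b' c') :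
    HasHP (fun t => h t - h' t) (a - a') (b - b') (c - c') := by
  obtain ⟨s, hs⟩ := H
  obtain ⟨s', hs'⟩ := H'
  refine ⟨max s s', fun t ht => ?_⟩
  show h t - h' t = _
  rw [hs' t (le_trans (le_max_right _ _) ht), hs t (le_trans (le_max_left _ _) ht)]
  ring

theorem HasHP.const_mul {h : ℤ → ℚ} {a b c : ℚ} (H : HasHP h a b c) (q : ℚ) :
    HasHP (fun t => q * h t) (q * a) (q * b) (q * c) := by
  obtain ⟨s, hs⟩ := H
  refine ⟨s, fun t ht => ?_⟩
  show q * h t = _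
  rw [hs t ht]
  ring

theorem HasHP.shift {h : ℤ → ℚ} {a b c : ℚ} (H : HasHP h a b c) (e : ℤ) :
    HasHP (fun t => h (t + e)) a (b + 2 * a * e) (c + b * e + a * (e : ℚ) ^ 2) := by
  obtain ⟨s, hs⟩ := H
  refine ⟨s - e, fun t ht => ?_⟩
  show h (t + e) = _
  rw [hs (t + e) (by omega)]
  push_cast
  ring

theorem HasHP.scale {h : ℤ → ℚ} {a b c : ℚ} (H : HasHP h a b c) {q : ℕ} (hq : 0 < q) (e : ℤ) :
    HasHP (fun t => h (q * t + e)) (a * (q : ℚ) ^ 2) ((b + 2 * a * e) * q)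
      (c + b * e + a * (e : ℚ) ^ 2) := by
  obtain ⟨s, hs⟩ := H
  refine ⟨max (s - e) 0, fun t ht => ?_⟩
  show h (q * t + e) = _
  have h1 : s - e ≤ t := le_trans (le_max_left _ _) ht
  have h2 : 0 ≤ t := le_trans (le_max_right _ _) ht
  have h3 : (1 : ℤ) ≤ q := by exact_mod_cast hq
  have h4 : t ≤ q * t := by nlinarith
  rw [hs (q * t + e) (by omega)]
  push_cast
  ring

theorem hasHP_const (c : ℚ) : HasHP (fun _ => c) 0 0 c :=
  ⟨0, fun t _ => by simp⟩

theorem HasHP.sum {ι : Type} (S : Finset ι) {h : ι → ℤ → ℚ} {a b c : ι → ℚ}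
    (H : ∀ i ∈ S, HasHP (h i) (a i) (b i) (c i)) :
    HasHP (fun t => ∑ i ∈ S, h i t) (∑ i ∈ S, a i) (∑ i ∈ S, b i) (∑ i ∈ S, c i) := by
  classical
  induction S using Finset.induction_on with
  | empty => simpa using hasHP_const 0
  | insert i S hi ih =>
    simp only [Finset.sum_insert hi]
    exact (H i (Finset.mem_insert_self _ _)).add
      (ih fun j hj => H j (Finset.mem_insert_of_mem hj))

/-- an eventually nonnegative quadratic is lexicographically nonnegative -/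
theorem AHP_nonneg {a b c : ℚ} {s : ℤ} (H : ∀ t ≥ s, 0 ≤ a * (t : ℚ) ^ 2 + b * t + c) :
    0 ≤ a ∧ (a = 0 → 0 ≤ b) ∧ (a = 0 → b = 0 → 0 ≤ c) := by
  refine ⟨?_, ?_, ?_⟩
  · by_contra ha
    push Not at ha
    obtain ⟨n, hn⟩ := exists_nat_gt ((|b| + |c|) / (-a))
    have ha' : 0 < -a := by linarith
    rw [div_lt_iff₀ ha'] at hn
    set t : ℤ := max (max s n) 1 with ht
    have h1 : (n : ℚ) ≤ t := by
      have : (n : ℤ) ≤ t := le_trans (le_max_right _ _) (le_max_left _ _)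
      exact_mod_cast this
    have h2 : (1 : ℚ) ≤ t := by
      have : (1 : ℤ) ≤ t := le_max_right _ _
      exact_mod_cast this
    have h3 := H t (le_trans (le_max_left _ _) (le_max_left _ _))
    have hb := le_abs_self b
    have hc := le_abs_self c
    have hc0 := abs_nonneg c
    have h4 : |b| + |c| < t * -a := lt_of_lt_of_le hn (by nlinarith)
    have h5 : (|b| + |c|) * t < t * -a * t := by nlinarith
    nlinarith
  · rintro rfl
    by_contra hb
    push Not at hb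
    obtain ⟨n, hn⟩ := exists_nat_gt (c / (-b))
    have hb' : 0 < -b := by linarith
    rw [div_lt_iff₀ hb'] at hn
    have h3 := H (max s n) (le_max_left _ _)
    have h1 : (n : ℚ) ≤ ((max s n : ℤ) : ℚ) := by
      have : (n : ℤ) ≤ max s n := le_max_right _ _
      exact_mod_cast this
    nlinarith
  · rintro rfl rfl
    simpa using H s le_rfl

/-- lexicographic comparison -/
theorem HasHP.le {h h' : ℤ → ℚ} {a b c a' b' c' : ℚ} (H : HasHP h a b c) (H' : HasHP h' a' b' c')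
    (hle : ∃ t0 : ℤ, ∀ t ≥ t0, h t ≤ h' t) :
    a ≤ a' ∧ (a = a' → b ≤ b') ∧ (a = a' → b = b' → c ≤ c') := by
  obtain ⟨s, hs⟩ := H'.sub H
  obtain ⟨s', hs'⟩ := hle
  have key := AHP_nonneg (a := a' - a) (b := b' - b) (c := c' - c) (s := max s s') (fun t ht => by
    have e1 := hs t (le_trans (le_max_left _ _) ht)
    have e2 := hs' t (le_trans (le_max_right _ _) ht)
    simp only at e1
    linarith)
  refine ⟨by linarith [key.1], fun e => ?_, fun e e' => ?_⟩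
  · have := key.2.1 (by rw [e, sub_self]); linarith
  · have := key.2.2 (by rw [e, sub_self]) (by rw [e', sub_self]); linarith

/-- discrete integration -/
theorem HasHP.of_diff {h : ℤ → ℚ} {b c : ℚ} (H : HasHP (fun t => h (t + 1) - h t) 0 b c) :
    ∃ c' : ℚ, HasHP h (b / 2) (c - b / 2) c' := by
  obtain ⟨s, hs⟩ := H
  refine ⟨h s - (b / 2 * (s : ℚ) ^ 2 + (c - b / 2) * s), s, fun t ht => ?_⟩
  induction t, ht using Int.leInduction with
  | base => ring
  | succ t ht ih =>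
    have := hs t ht
    simp only at this
    push_cast
    linarith

/-- integer valued ⇒ `2a, b - 3a, c ∈ ℤ` (second differences; then descend `t ↦ t - 1`) -/
theorem HasHP.int {h : ℤ → ℚ} {a b c : ℚ} (H : HasHP h a b c) (hz : ∀ t, ∃ z : ℤ, h t = z) :
    (∃ z : ℤ, 2 * a = z) ∧ (∃ z : ℤ, b - 3 * a = z) ∧ ∃ z : ℤ, c = z := by
  obtain ⟨s, hs⟩ := H
  obtain ⟨z0, h0⟩ := hz s
  obtain ⟨z1, h1⟩ := hz (s + 1)
  obtain ⟨z2, h2⟩ := hz (s + 2)
  rw [hs s le_rfl] at h0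
  rw [hs (s + 1) (by omega)] at h1
  rw [hs (s + 2) (by omega)] at h2
  push_cast at h1 h2
  have ea : 2 * a = ((z2 - 2 * z1 + z0 : ℤ) : ℚ) := by push_cast; linarith
  have eb : b - 3 * a = ((z1 - z0 - (z2 - 2 * z1 + z0) * (s + 2) : ℤ) : ℚ) := by
    push_cast at ea ⊢
    rw [← ea]; linarith
  refine ⟨⟨_, ea⟩, ⟨_, eb⟩, ?_⟩
  obtain ⟨m, hm⟩ : ∃ m : ℤ, s ^ 2 + 3 * s = 2 * m := by
    have : Even (s * (s + 1)) := Int.even_mul_succ_self s
    obtain ⟨r, hr⟩ := this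
    exact ⟨r + s, by linarith⟩
  have hm' : (s : ℚ) ^ 2 + 3 * s = 2 * m := by exact_mod_cast hm
  generalize (z2 - 2 * z1 + z0 : ℤ) = A at ea eb
  generalize (z1 - z0 - A * (s + 2) : ℤ) = B at eb
  refine ⟨z0 - A * m - B * s, ?_⟩
  push_cast
  rw [← ea, ← eb, ← h0]
  linear_combination (-a) * hm'

/-- `hp` only depends on the germ at `+∞` -/
theorem hp_congr {h h' : ℤ → ℚ} (e : ∃ t0 : ℤ, ∀ t ≥ t0, h t = h' t) : hp h = hp h' := by
  unfold hp
  congr 1
  funext x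
  refine propext ⟨fun H => H.congr ?_, fun H => H.congr e⟩
  obtain ⟨s, hs⟩ := e
  exact ⟨s, fun t ht => (hs t ht).symm⟩

theorem hasHP_binom (b : ℤ) : HasHP (fun t => (((t - b : ℤ) : ℚ) + 1) * (((t - b : ℤ) : ℚ) + 2) / 2)
    (1 / 2) (3 / 2 - b) (((b : ℚ) - 1) * (b - 2) / 2) :=
  ⟨0, fun t _ => by push_cast; ring⟩

variable {k : Type} [Field k] {V V' : Type} [AddCommGroup V] [Module k V] [AddCommGroup V']
  [Module k V']

theorem coeffs_congr {N : Fam k V} {N' : Fam k V'} (e : ∃ t0 : ℤ, ∀ t ≥ t0, hf N t = hf N' t) :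
    ha N = ha N' ∧ hb N = hb N' ∧ hc N = hc N' := by
  unfold ha hb hc
  rw [hp_congr e]
  exact ⟨rfl, rfl, rfl⟩

theorem EvEq.coeffs {N N' : Fam k V} (h : EvEq N N') :
    ha N = ha N' ∧ hb N = hb N' ∧ hc N = hc N' := by
  obtain ⟨s, hs⟩ := h
  exact coeffs_congr ⟨s, fun t ht => by unfold hf; rw [hs t ht]⟩

theorem coeffs_bot : ha (⊥ : Fam k V) = 0 ∧ hb (⊥ : Fam k V) = 0 ∧ hc (⊥ : Fam k V) = 0 := by
  refine HasHP.coeffs ((hasHP_const 0).congr ⟨0, fun t _ => ?_⟩)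
  unfold hf
  rw [Pi.bot_apply, finrank_bot]
  simp

end Crest.Agent.R169
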