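import Crest.Agent.R169.ANoeth
import Crest.Agent.R169.AHP

/-! # R169 task AHilb: Hilbert polynomials of lattices -/

set_option autoImplicit false
set_option linter.unusedSectionVars false

namespace Crest.Agent.R169
open Module

variable {k : Type} [Field k] {V V' : Type} [AddCommGroup V] [Module k V] [Module (KA k) V]
  [IsScalarTower k (KA k) V] [AddCommGroup V'] [Module k V'] [Module (KA k) V']
  [IsScalarTower k (KA k) V']

theorem AHilb_rn (g : V →ₗ[k] V') (A : Submodule k V) [FiniteDimensional k A] :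
    finrank k A = finrank k (A ⊓ LinearMap.ker g : Submodule k V) + finrank k (A.map g) := by
  have h := LinearMap.finrank_range_add_finrank_ker (g.domRestrict A)
  rw [LinearMap.range_domRestrict, LinearMap.ker_domRestrict,
    ← Submodule.finrank_map_subtype_eq A, Submodule.map_comap_subtype] at h
  omega

theorem AHilb_rn2 (g : V →ₗ[k] V') (A : Submodule k V) (B : Submodule k V')
    [FiniteDimensional k A] [FiniteDimensional k B] :
    finrank k (B ⊔ A.map g : Submodule k V') + finrank k (A ⊓ B.comap g : Submodule k V) =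
      finrank k A + finrank k B := by
  have h1 := Submodule.finrank_sup_add_finrank_inf_eq B (A.map g)
  have h2 := AHilb_rn g A
  have : FiniteDimensional k (A ⊓ B.comap g : Submodule k V) :=
    Submodule.finiteDimensional_of_le inf_le_left
  have h3 := AHilb_rn g (A ⊓ B.comap g)
  have e1 : (A ⊓ B.comap g) ⊓ LinearMap.ker g = A ⊓ LinearMap.ker g := by
    refine le_antisymm (inf_le_inf_right _ inf_le_left) ?_
    rintro v ⟨hv, hv0⟩
    refine ⟨⟨hv, ?_⟩, hv0⟩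
    show g v ∈ B
    rw [LinearMap.mem_ker.mp hv0]; exact B.zero_mem
  have e2 : (A ⊓ B.comap g).map g = B ⊓ A.map g := by
    rw [Submodule.map_inf_eq_map_inf_comap.symm, inf_comm]
  rw [e1, e2] at h3
  omega

/-- `ℓ` kills the pair `(N, N')` -/
def AHilb_Kills (l : KA k) (N N' : Fam k V) : Prop := ∀ t, ∀ ξ ∈ N t, l • ξ ∈ N' (t + 1)

/-- multiplication by `l` as a `k`-linear map -/
noncomputable def AHilb_mul (l : KA k) : V →ₗ[k] V :=
  ((LinearMap.lsmul (KA k) V l).restrictScalars k)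

theorem AHilb_step {l : KA k} (hl : l ∈ AA k 1) {N N' : Fam k V} (hN : IsLat N) (hN' : IsLat N')
    (hle : N' ≤ N) : ∃ N₁ N₂ : Fam k V, IsLat N₁ ∧ IsLat N₂ ∧ N' ≤ N₁ ∧ N₁ ≤ N ∧ N' ≤ N₂ ∧
      N₂ ≤ N ∧ AHilb_Kills l N₁ N' ∧ AHilb_Kills l N N₂ ∧
      ∀ t, (hf N (t + 1) - hf N' (t + 1)) - (hf N t - hf N' t) =
        (hf N (t + 1) - hf N₂ (t + 1)) - (hf N₁ t - hf N' t) := by
  have hM := hN.isMod
  have hM' := hN'.isMod
  have hlN : ∀ t, ∀ ξ ∈ N t, l • ξ ∈ N (t + 1) := fun t ξ hξ => by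
    have := hM 1 t l hl ξ hξ
    rwa [add_comm] at this
  have hlN' : ∀ t, ∀ ξ ∈ N' t, l • ξ ∈ N' (t + 1) := fun t ξ hξ => by
    have := hM' 1 t l hl ξ hξ
    rwa [add_comm] at this
  have le1 : (fun t => N t ⊓ (N' (t + 1)).comap (AHilb_mul l) : Fam k V) ≤ N :=
    fun t => inf_le_left
  have le2 : (fun t => N' t ⊔ (N (t - 1)).map (AHilb_mul l) : Fam k V) ≤ N := fun t => by
    refine sup_le (hle t) ?_
    rintro _ ⟨ξ, hξ, rfl⟩
    have := hlN _ ξ hξ
    rwa [sub_add_cancel] at this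
  refine ⟨fun t => N t ⊓ (N' (t + 1)).comap (AHilb_mul l),
    fun t => N' t ⊔ (N (t - 1)).map (AHilb_mul l), hN.sub ?_ le1, hN.sub ?_ le2, ?_, le1,
    fun t => le_sup_left, le2, fun t ξ hξ => hξ.2, ?_, ?_⟩
  · rintro s t a ha v ⟨hv, hv'⟩
    refine ⟨hM s t a ha v hv, ?_⟩
    show l • a • v ∈ N' (s + t + 1)
    rw [smul_comm, add_assoc]
    exact hM' s (t + 1) a ha _ hv'
  · intro s t a ha v hv
    obtain ⟨u, hu, _, ⟨ξ, hξ, rfl⟩, rfl⟩ := Submodule.mem_sup.mp hv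
    rw [smul_add]
    refine Submodule.add_mem_sup (hM' s t a ha u hu) ⟨a • ξ, ?_, ?_⟩
    · have := hM s (t - 1) a ha ξ hξ
      rwa [← add_sub_assoc] at this
    · show l • a • ξ = a • l • ξ
      rw [smul_comm]
  · exact fun t ξ hξ => ⟨hle t hξ, hlN' t ξ hξ⟩
  · intro t ξ hξ
    refine Submodule.mem_sup_right ⟨ξ, ?_, rfl⟩
    rw [add_sub_cancel_right]; exact hξ
  · intro t
    have := hN.fin t
    have := hN'.fin (t + 1)
    have h := AHilb_rn2 (AHilb_mul l) (N t) (N' (t + 1))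
    have h' : (finrank k (N' (t + 1) ⊔ (N t).map (AHilb_mul l) : Submodule k V) : ℚ) +
        finrank k (N t ⊓ (N' (t + 1)).comap (AHilb_mul l) : Submodule k V) =
        finrank k (N t) + finrank k (N' (t + 1)) := by exact_mod_cast h
    unfold hf
    beta_reduce
    rw [show t + 1 - 1 = t by ring]
    linarith

theorem AHilb_Kills.mono {l : KA k} {N N' M M' : Fam k V} (h : AHilb_Kills l N N') (h1 : M ≤ N)
    (h2 : N' ≤ M') : AHilb_Kills l M M' := fun t ξ hξ => h2 _ (h t ξ (h1 t hξ))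

theorem AHilb_3 {N N' : Fam k V} (hN : IsLat N) (hle : N' ≤ N)
    (hx : AHilb_Kills (xA k 0) N N') (hy : AHilb_Kills (xA k 1) N N')
    (h1 : AHilb_Kills (1 : KA k) N N') : HasHP (fun t => hf N t - hf N' t) 0 0 0 := by
  obtain ⟨t0, ht0⟩ := hN.split_high
  refine ⟨t0 + 1, fun t ht => ?_⟩
  obtain ⟨s, rfl⟩ : ∃ s, t = s + 1 := ⟨t - 1, by ring⟩
  have e : N (s + 1) = N' (s + 1) := by
    refine le_antisymm (fun ξ hξ => ?_) (hle _)
    obtain ⟨a, ha, b, hb, c, hc, rfl⟩ := ht0 s (by omega) ξ hξ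
    refine add_mem (add_mem (hx s a ha) (hy s b hb)) ?_
    simpa using h1 s c hc
  show hf N (s + 1) - hf N' (s + 1) = _
  unfold hf
  rw [e]; simp

theorem AHilb_2 {N N' : Fam k V} (hN : IsLat N) (hN' : IsLat N') (hle : N' ≤ N)
    (hx : AHilb_Kills (xA k 0) N N') (hy : AHilb_Kills (xA k 1) N N') :
    ∃ c, HasHP (fun t => hf N t - hf N' t) 0 0 c := by
  obtain ⟨N₁, N₂, l1, l2, a1, b1, a2, b2, k1, k2, e⟩ := AHilb_step (one_mem_AA zero_le_one) hN hN' hle
  have H1 := AHilb_3 l1 a1 (hx.mono b1 le_rfl) (hy.mono b1 le_rfl) k1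
  have H2 := AHilb_3 hN b2 (hx.mono le_rfl a2) (hy.mono le_rfl a2) k2
  have H := ((H2.shift 1).sub H1).congr (h' := fun t => (hf N (t + 1) - hf N' (t + 1)) -
    (hf N t - hf N' t)) ⟨0, fun t _ => e t⟩
  simp only [mul_zero, zero_mul, add_zero, sub_zero] at H
  obtain ⟨c, hc⟩ := HasHP.of_diff (h := fun t => hf N t - hf N' t) H
  exact ⟨c, by simpa using hc⟩

theorem AHilb_1 {N N' : Fam k V} (hN : IsLat N) (hN' : IsLat N') (hle : N' ≤ N)
    (hx : AHilb_Kills (xA k 0) N N') :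
    ∃ b c, HasHP (fun t => hf N t - hf N' t) 0 b c := by
  obtain ⟨N₁, N₂, l1, l2, a1, b1, a2, b2, k1, k2, e⟩ := AHilb_step (xA_mem 1) hN hN' hle
  obtain ⟨c1, H1⟩ := AHilb_2 l1 hN' a1 (hx.mono b1 le_rfl) k1
  obtain ⟨c2, H2⟩ := AHilb_2 hN l2 b2 (hx.mono le_rfl a2) k2
  have H := ((H2.shift 1).sub H1).congr (h' := fun t => (hf N (t + 1) - hf N' (t + 1)) -
    (hf N t - hf N' t)) ⟨0, fun t _ => e t⟩
  simp only [mul_zero, zero_mul, add_zero, sub_zero] at H
  obtain ⟨c, hc⟩ := HasHP.of_diff (h := fun t => hf N t - hf N' t) H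
  exact ⟨_, c, by simpa using hc⟩

theorem AHilb_0 {N N' : Fam k V} (hN : IsLat N) (hN' : IsLat N') (hle : N' ≤ N) :
    ∃ a b c, HasHP (fun t => hf N t - hf N' t) a b c := by
  obtain ⟨N₁, N₂, l1, l2, a1, b1, a2, b2, k1, k2, e⟩ := AHilb_step (xA_mem 0) hN hN' hle
  obtain ⟨d1, c1, H1⟩ := AHilb_1 l1 hN' a1 k1
  obtain ⟨d2, c2, H2⟩ := AHilb_1 hN l2 b2 k2
  have H := ((H2.shift 1).sub H1).congr (h' := fun t => (hf N (t + 1) - hf N' (t + 1)) -
    (hf N t - hf N' t)) ⟨0, fun t _ => e t⟩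
  rw [sub_zero] at H
  obtain ⟨c, hc⟩ := HasHP.of_diff (h := fun t => hf N t - hf N' t) H
  exact ⟨_, _, c, hc⟩

/-- Hilbert's theorem.  Sketch: for lattices `N' ≤ N` put `h = hf N - hf N'`.  Say `ℓ ∈ {1, x, y}`
*kills* the pair if `ℓ • N t ⊆ N' (t+1)` for all `t`.  For any `ℓ`, with
`N₁ t = {ξ ∈ N t | ℓ • ξ ∈ N' (t+1)}` and `N₂ (t+1) = N' (t+1) ⊔ ℓ • N t` (lattices by
`IsLat.sub`), rank–nullity gives
`h(N,N')(t+1) - h(N,N')(t) = h(N,N₂)(t+1) - h(N₁,N')(t)`, and the pairs `(N,N₂)`, `(N₁,N')` are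
killed by `ℓ` and by whatever killed `(N,N')`.  All three kill ⇒ `h = 0` eventually
(`IsLat.split_high`); two kill ⇒ eventually constant; one kills ⇒ linear; none ⇒ quadratic
(`HasHP.of_diff`).  Apply to `(N, ⊥)`. -/
theorem IsLat.exists_hasHP {N : Fam k V} (hN : IsLat N) : ∃ a b c, HasHP (hf N) a b c := by
  obtain ⟨a, b, c, h⟩ := AHilb_0 hN isLat_bot bot_le
  refine ⟨a, b, c, h.congr ⟨0, fun t _ => ?_⟩⟩
  unfold hf
  rw [Pi.bot_apply, finrank_bot]
  simp

theorem IsLat.hasHP {N : Fam k V} (hN : IsLat N) : HasHP (hf N) (ha N) (hb N) (hc N) := by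
  obtain ⟨a, b, c, h⟩ := hN.exists_hasHP
  obtain ⟨h1, h2, h3⟩ := h.coeffs
  rw [h1, h2, h3]; exact h

theorem AHilb_free {ι : Type} [Fintype ι] (b : ι → ℤ) :
    HasHP (fun t => ∑ i, (finrank k (AA k (t - b i)) : ℚ)) (Fintype.card ι / 2)
      (∑ i, (3 / 2 - (b i : ℚ))) (∑ i, ((b i : ℚ) - 1) * (b i - 2) / 2) := by
  have H := HasHP.sum Finset.univ (fun i _ => hasHP_binom (b i))
  have e : (∑ _i : ι, (1 / 2 : ℚ)) = Fintype.card ι / 2 := by
    rw [Finset.sum_const, Finset.card_univ, nsmul_eq_mul]; ring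
  rw [e] at H
  obtain ⟨t0, ht0⟩ := (Set.finite_range b).bddAbove
  refine H.congr ⟨t0, fun t ht => Finset.sum_congr rfl fun i _ => finrank_AA ?_⟩
  have := ht0 (Set.mem_range_self i)
  omega

theorem hasHP_gen_indep {ι : Type} [Fintype ι] {w : ι → V} (hw : LinearIndependent (KA k) w)
    (b : ι → ℤ) : HasHP (hf (gen (AA k) w b)) (Fintype.card ι / 2) (∑ i, (3 / 2 - (b i : ℚ)))
      (∑ i, ((b i : ℚ) - 1) * (b i - 2) / 2) :=
  (AHilb_free (k := k) b).congr ⟨0, fun t _ => hf_gen_indep hw b t⟩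

theorem hasHP_freeF {ι : Type} [Fintype ι] (b : ι → ℤ) :
    HasHP (hf (freeF k b)) (Fintype.card ι / 2) (∑ i, (3 / 2 - (b i : ℚ)))
      (∑ i, ((b i : ℚ) - 1) * (b i - 2) / 2) :=
  (AHilb_free (k := k) b).congr ⟨0, fun t _ => hf_freeF b t⟩

/-- comparison along an injective map of degree `e` -/
theorem coeffs_le_of_inj {N : Fam k V} {N' : Fam k V'} (hN : IsLat N) (hN' : IsLat N')
    (f : V →ₗ[k] V') (e : ℤ) (hinj : ∀ t, ∀ ξ ∈ N t, f ξ = 0 → ξ = 0)
    (hmap : ∀ t, ∀ ξ ∈ N t, f ξ ∈ N' (t + e)) :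
    ha N ≤ ha N' ∧ (ha N = ha N' → hb N ≤ hb N' + 2 * ha N' * e) := by
  have H := hN.hasHP.le (hN'.hasHP.shift e) ⟨0, fun t _ => by
    have := hN'.fin (t + e)
    have hi : Function.Injective (f.restrict (hmap t)) := by
      rw [injective_iff_map_eq_zero]
      intro ξ hξ
      exact Subtype.ext (hinj t ξ ξ.2 (congrArg Subtype.val hξ))
    have := LinearMap.finrank_le_finrank_of_injective hi
    unfold hf
    exact_mod_cast this⟩
  exact ⟨H.1, H.2.1⟩

theorem coeffs_le_of_le {N N' : Fam k V} (hN : IsLat N) (hN' : IsLat N') (h : EvLe N N') :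
    ha N ≤ ha N' ∧ (ha N = ha N' → hb N ≤ hb N') ∧ (ha N = ha N' → hb N = hb N' → hc N ≤ hc N') := by
  obtain ⟨t0, ht0⟩ := h
  refine hN.hasHP.le hN'.hasHP ⟨t0, fun t ht => ?_⟩
  have := hN'.fin t
  have := Submodule.finrank_mono (ht0 t ht)
  unfold hf
  exact_mod_cast this

/-- Sketch: a maximal independent subfamily of the generators generates a free `F ≤ N` with
`f • N t ⊆ F (t+e)` (`IsLat.denom`); compare leading coefficients. -/
theorem IsLat.two_ha {N : Fam k V} (hN : IsLat N) :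
    2 * ha N = (finrank (KA k) (spanF N) : ℚ) := by
  have hN0 := hN
  obtain ⟨m, w, b, rfl⟩ := hN
  obtain ⟨κ, a, ha, hsp, hli⟩ := exists_linearIndependent' (KA k) w
  have : Finite κ := Finite.of_injective a ha
  have := Fintype.ofFinite κ
  have hF : IsLat (gen (AA k) (w ∘ a) (b ∘ a)) := gen_isLat _ _
  have hle : gen (AA k) (w ∘ a) (b ∘ a) ≤ gen (AA k) w b :=
    gen_le hN0.isMod fun i => mem_gen_self (one_mem_AA le_rfl) w b (a i)
  have e1 := (hasHP_gen_indep hli (b ∘ a)).coeffs.1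
  have e2 : spanF (gen (AA k) w b) = spanF (gen (AA k) (w ∘ a) (b ∘ a)) := by
    rw [spanF_gen, spanF_gen, hsp]
  have h1 := (coeffs_le_of_le hF hN0 ⟨0, fun t _ => hle t⟩).1
  obtain ⟨e, f, -, hf0, hf⟩ := hN0.denom hF.isMod e2.le
  have h2 := (coeffs_le_of_inj hN0 hF (AHilb_mul f) e
    (fun t ξ _ h => (smul_eq_zero.mp h).resolve_left hf0) hf).1
  rw [e2, spanF_gen, finrank_span_eq_card hli, le_antisymm h2 h1, e1]
  ring

theorem IsLat.int_hb {N : Fam k V} (hN : IsLat N) : ∃ z : ℤ, hb N - 3 * ha N = z :=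
  (hN.hasHP.int fun t => ⟨finrank k (N t), by simp [hf]⟩).2.1

theorem IsLat.int_hc {N : Fam k V} (hN : IsLat N) : ∃ z : ℤ, hc N = z :=
  (hN.hasHP.int fun t => ⟨finrank k (N t), by simp [hf]⟩).2.2

theorem IsLat.coeffs_sh {N : Fam k V} (hN : IsLat N) (e : ℤ) :
    ha (Crest.Agent.R169.sh N e) = ha N ∧ hb (Crest.Agent.R169.sh N e) = hb N + 2 * ha N * e ∧
      hc (Crest.Agent.R169.sh N e) = hc N + hb N * e + ha N * (e : ℚ) ^ 2 :=
  HasHP.coeffs (N := Crest.Agent.R169.sh N e) (hN.hasHP.shift e)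

/-- a lattice of rank zero is zero -/
theorem IsLat.eq_bot_of_ha {N : Fam k V} (hN : IsLat N) (h : ha N = 0) : N = ⊥ := by
  have h1 := hN.two_ha
  rw [h, mul_zero] at h1
  have := hN.finite_spanF
  have h2 : spanF N = ⊥ := Submodule.finrank_eq_zero.mp (by exact_mod_cast h1.symm)
  funext t
  rw [Pi.bot_apply, eq_bot_iff]
  intro ξ hξ
  have : ξ ∈ spanF N := Submodule.subset_span (Set.mem_iUnion.mpr ⟨t, hξ⟩)
  rw [h2] at this
  exact this

section tower
variable {L : Type} [Field L] [Algebra k L] [Algebra (KA k) L] [Module L V] [Module L V']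
  [IsScalarTower k L V] [IsScalarTower k L V'] [IsScalarTower (KA k) L V]
  [IsScalarTower (KA k) L V']

theorem IsLat.coeffs_add {N : Fam k V} (hN : IsLat N) (f : V →ₗ[L] V') :
    ha N = ha (Crest.Agent.R169.cut N (LinearMap.ker f)) + ha (Crest.Agent.R169.fmap f N) ∧
    hb N = hb (Crest.Agent.R169.cut N (LinearMap.ker f)) + hb (Crest.Agent.R169.fmap f N) ∧
    hc N = hc (Crest.Agent.R169.cut N (LinearMap.ker f)) + hc (Crest.Agent.R169.fmap f N) :=
  HasHP.coeffs (((hN.cut (LinearMap.ker f)).hasHP.add (hN.fmap f).hasHP).congr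
    ⟨0, fun t _ => by have := hN.fin t; exact hf_cut_add_fmap f N t⟩)

/-- supermodularity: `cut W₁ ⊔ cut W₂ ≤ cut (W₁ ⊔ W₂)` have the same rank
(`two_ha`, `spanF_cut`, fullness), and `dim (S ⊔ S') + dim (S ⊓ S') = dim S + dim S'`. -/
theorem IsLat.hb_supermod {N : Fam k V} (hN : IsLat N) (hF : Full N) (W₁ W₂ : Submodule L V) :
    hb (Crest.Agent.R169.cut N W₁) + hb (Crest.Agent.R169.cut N W₂) ≤
      hb (Crest.Agent.R169.cut N (W₁ ⊓ W₂)) + hb (Crest.Agent.R169.cut N (W₁ ⊔ W₂)) := by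
  have l1 := hN.cut W₁
  have l2 := hN.cut W₂
  have l3 := hN.cut (W₁ ⊓ W₂)
  have l4 := hN.cut (W₁ ⊔ W₂)
  have l5 := l1.sup l2
  have sp : ∀ W : Submodule L V,
      spanF (Crest.Agent.R169.cut N W) = W.restrictScalars (KA k) := fun W => by
    rw [← cut_restrict, spanF_cut hN.isMod, hF, top_inf_eq]
  have hle : Crest.Agent.R169.cut N W₁ ⊔ Crest.Agent.R169.cut N W₂ ≤
      Crest.Agent.R169.cut N (W₁ ⊔ W₂) := by
    refine sup_le (fun t ξ hξ => ⟨hξ.1, ?_⟩) (fun t ξ hξ => ⟨hξ.1, ?_⟩)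
    · exact Submodule.mem_sup_left (S := W₁) hξ.2
    · exact Submodule.mem_sup_right (T := W₂) hξ.2
  have esp : spanF (Crest.Agent.R169.cut N W₁ ⊔ Crest.Agent.R169.cut N W₂) =
      spanF (Crest.Agent.R169.cut N (W₁ ⊔ W₂)) := by
    refine le_antisymm (spanF_mono hle) ?_
    rw [sp]
    intro ξ hξ
    obtain ⟨u, hu, v, hv, rfl⟩ := Submodule.mem_sup.mp (show ξ ∈ W₁ ⊔ W₂ from hξ)
    refine add_mem (spanF_mono le_sup_left ?_) (spanF_mono le_sup_right ?_)
    · rw [sp]; exact hu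
    · rw [sp]; exact hv
  have ea : ha (Crest.Agent.R169.cut N W₁ ⊔ Crest.Agent.R169.cut N W₂) =
      ha (Crest.Agent.R169.cut N (W₁ ⊔ W₂)) := by
    have h1 := l5.two_ha
    have h2 := l4.two_ha
    rw [esp] at h1
    linarith
  have h1 := (coeffs_le_of_le l5 l4 ⟨0, fun t _ => hle t⟩).2.1 ea
  have h2 := ((l5.hasHP.add l3.hasHP).unique ((l1.hasHP.add l2.hasHP).congr ⟨0, fun t _ => by
    have := l1.fin t
    have := l2.fin t
    have h := Submodule.finrank_sup_add_finrank_inf_eq (Crest.Agent.R169.cut N W₁ t)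
      (Crest.Agent.R169.cut N W₂ t)
    have e : Crest.Agent.R169.cut N W₁ t ⊓ Crest.Agent.R169.cut N W₂ t =
        Crest.Agent.R169.cut N (W₁ ⊓ W₂) t := by
      ext ξ
      simp only [Submodule.mem_inf, mem_cut]
      tauto
    rw [e] at h
    unfold hf
    rw [Pi.sup_apply]
    exact_mod_cast h⟩)).2.1
  linarith

end tower

/-- a sublattice of `⊕ A(a)` has `hb ≤ rank (3/2 + a)`: project injectively to `rank`
coordinates. -/
theorem hb_le_of_le_free {n : ℕ} {G : Fam k (Fin n → KA k)} (hG : IsLat G) (a : ℤ)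
    (h : G ≤ freeF k (fun _ => -a)) : hb G ≤ 2 * ha G * (3 / 2 + a) := by
  have := hG.finite_spanF
  obtain ⟨κ, c, hc, hsp, hli⟩ := exists_linearIndependent' (KA k)
    (fun i : Fin n => ((LinearMap.proj i : (Fin n → KA k) →ₗ[KA k] KA k).domRestrict (spanF G) :
      Module.Dual (KA k) (spanF G)))
  have : Finite κ := Finite.of_injective c hc
  have := Fintype.ofFinite κ
  have hcard : Fintype.card κ ≤ finrank (KA k) (spanF G) := by
    have := hli.fintype_card_le_finrank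
    rwa [Subspace.dual_finrank_eq] at this
  have hF : IsLat (freeF k (fun _ : κ => -a)) := isLat_freeF _
  obtain ⟨e1, e2, -⟩ := (hasHP_freeF (k := k) (fun _ : κ => -a)).coeffs
  have H := coeffs_le_of_inj hG hF ((LinearMap.funLeft (KA k) (KA k) c).restrictScalars k) 0
    (fun t ξ hξ h0 => by
      have hξ' : ξ ∈ spanF G := Submodule.subset_span (Set.mem_iUnion.mpr ⟨t, hξ⟩)
      funext i
      have hmem : ((LinearMap.proj i : (Fin n → KA k) →ₗ[KA k] KA k).domRestrict (spanF G) :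
          Module.Dual (KA k) (spanF G)) ∈ LinearMap.ker (Module.Dual.eval (KA k) (spanF G)
            ⟨ξ, hξ'⟩) := by
        refine (Submodule.span_le (p := LinearMap.ker _)).mpr ?_
          (hsp.ge (Submodule.subset_span ⟨i, rfl⟩))
        rintro _ ⟨j, rfl⟩
        exact congrFun h0 j
      exact hmem)
    (fun t ξ hξ => by
      rw [add_zero]
      exact fun j _ => h t hξ (c j) trivial)
  have h2 := hG.two_ha
  have hcard' : (Fintype.card κ : ℚ) ≤ finrank (KA k) (spanF G) := by exact_mod_cast hcard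
  have ea : ha G = ha (freeF k (fun _ : κ => -a)) := le_antisymm H.1 (by rw [e1]; linarith)
  have h3 := H.2 ea
  rw [e2, Finset.sum_const, Finset.card_univ, nsmul_eq_mul] at h3
  rw [ea, e1]
  push_cast at h3
  linarith

end Crest.Agent.R169
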