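import Crest.Agent.R169.A1

/-! # R169 task ANoeth: Hilbert basis theorem for families -/

set_option autoImplicit false

namespace Crest.Agent.R169
open Module

variable {k : Type} [Field k] {V V' : Type} [AddCommGroup V] [Module k V] [Module (KA k) V]
  [IsScalarTower k (KA k) V] [AddCommGroup V'] [Module k V'] [Module (KA k) V']
  [IsScalarTower k (KA k) V']

/-- homogeneous of integer degree `e` -/
private def anoethHom (e : ℤ) (f : MvPolynomial (Fin 3) k) : Prop :=
  f = 0 ∨ (0 ≤ e ∧ f.IsHomogeneous e.toNat)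

private theorem anoeth_mem {e : ℤ} {f : MvPolynomial (Fin 3) k} (h : anoethHom e f) :
    deh f ∈ AA k e := by
  rcases h with rfl | ⟨h0, h⟩
  · rw [map_zero]; exact Submodule.zero_mem _
  · have := deh_mem h
    rwa [Int.toNat_of_nonneg h0] at this

private theorem anoeth_surj {e : ℤ} {a : KA k} (ha : a ∈ AA k e) :
    ∃ f : MvPolynomial (Fin 3) k, anoethHom e f ∧ deh f = a := by
  by_cases h0 : 0 ≤ e
  · rw [← Int.toNat_of_nonneg h0] at ha
    obtain ⟨f, hf, rfl⟩ := deh_surj ha
    exact ⟨f, Or.inr ⟨h0, hf⟩, rfl⟩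
  · rw [AA_neg (not_le.1 h0), Submodule.mem_bot] at ha
    exact ⟨0, Or.inl rfl, by rw [ha, map_zero]⟩

/-- the component of integer degree `d` -/
private noncomputable def anoethComp (d : ℤ) (f : MvPolynomial (Fin 3) k) :
    MvPolynomial (Fin 3) k :=
  if 0 ≤ d then MvPolynomial.homogeneousComponent d.toNat f else 0

private theorem anoethComp_hom (d : ℤ) (f : MvPolynomial (Fin 3) k) :
    anoethHom d (anoethComp d f) := by
  unfold anoethComp
  split_ifs with h
  · exact Or.inr ⟨h, MvPolynomial.homogeneousComponent_isHomogeneous _ _⟩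
  · exact Or.inl rfl

private theorem anoethComp_self {d : ℤ} {f : MvPolynomial (Fin 3) k} (h : anoethHom d f) :
    anoethComp d f = f := by
  unfold anoethComp
  rcases h with rfl | ⟨h0, h⟩
  · simp
  · rw [if_pos h0, MvPolynomial.homogeneousComponent_of_mem h, if_pos rfl]

private theorem anoethComp_sum {ι : Type} (d : ℤ) (S : Finset ι)
    (f : ι → MvPolynomial (Fin 3) k) :
    anoethComp d (∑ i ∈ S, f i) = ∑ i ∈ S, anoethComp d (f i) := by
  unfold anoethComp
  split_ifs with h
  · rw [map_sum]
  · simp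

private theorem anoethComp_mul {d e : ℤ} (c : MvPolynomial (Fin 3) k) {g : MvPolynomial (Fin 3) k}
    (hg : anoethHom e g) : anoethComp d (c * g) = anoethComp (d - e) c * g := by
  rcases hg with rfl | ⟨h0, hg⟩
  · unfold anoethComp; simp
  unfold anoethComp
  by_cases hd : 0 ≤ d
  swap
  · rw [if_neg hd, if_neg (by omega), zero_mul]
  rw [if_pos hd]
  conv_lhs => rw [← MvPolynomial.sum_homogeneousComponent c, Finset.sum_mul, map_sum]
  have key : ∀ n : ℕ, MvPolynomial.homogeneousComponent d.toNat
      (MvPolynomial.homogeneousComponent n c * g) =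
      if (0 ≤ d - e ∧ n = (d - e).toNat) then MvPolynomial.homogeneousComponent n c * g else 0 := by
    intro n
    have h1 : (MvPolynomial.homogeneousComponent n c * g).IsHomogeneous (n + e.toNat) :=
      (MvPolynomial.homogeneousComponent_isHomogeneous n c).mul hg
    rw [MvPolynomial.homogeneousComponent_of_mem h1]
    by_cases h2 : d.toNat = n + e.toNat
    · rw [if_pos h2, if_pos (by omega)]
    · rw [if_neg h2, if_neg (by omega)]
  simp only [key]
  by_cases h3 : 0 ≤ d - e
  · simp only [h3, true_and, if_true, Finset.sum_ite_eq', Finset.mem_range]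
    split_ifs with h4
    · rfl
    · rw [MvPolynomial.homogeneousComponent_eq_zero _ _ (by omega), zero_mul]
  · simp only [h3, false_and, if_false, Finset.sum_const_zero, zero_mul]

/-- A graded submodule of a finitely generated graded `A`-module is finitely generated.
Sketch: `N = gen w b` (`m` generators).  Let `S` be the `MvPolynomial (Fin 3) k`-submodule of
`Fin m → MvPolynomial (Fin 3) k` spanned by the set `G` of pairs-with-degree vectors
`η` with `η i` homogeneous of degree `t - b i` (zero if `t < b i`) and `∑ deh (η i) • w i ∈ M t`.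
Noetherian ⇒ `S` is spanned by finitely many `η^1..η^n ∈ G` (degrees `t_1..t_n`,
`Submodule.exists_finite_span_eq`-type lemma).  For `ξ ∈ M t` lift by `deh_surj` to `η ∈ G`,
write `η = ∑ c_l η^l`, take `homogeneousComponent (t - b i)` of both sides to replace `c_l` by its
component of degree `t - t_l`, dehomogenise (`deh_mem`). -/
theorem IsLat.sub {N M : Fam k V} (hN : IsLat N) (hM : IsMod (AA k) M) (hle : M ≤ N) :
    IsLat M := by
  classical
  obtain ⟨m, w, b, rfl⟩ := hN
  let G : Set (Fin m → MvPolynomial (Fin 3) k) :=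
    {η | ∃ t : ℤ, (∀ i, anoethHom (t - b i) (η i)) ∧ ∑ i, deh (η i) • w i ∈ M t}
  have hfg : (Submodule.span (MvPolynomial (Fin 3) k) G).FG := IsNoetherian.noetherian _
  obtain ⟨S, hSG, hS⟩ := (Submodule.fg_span_iff_fg_span_finset_subset G).1 hfg
  choose! τ hτ1 hτ2 using fun η (h : η ∈ S) => hSG h
  have : M = gen (AA k) (fun l : S => ∑ i, deh (l.1 i) • w i) (fun l => τ l.1) := by
    apply le_antisymm
    · intro t ξ hξ
      obtain ⟨a, ha, rfl⟩ := mem_gen.1 (hle t hξ)
      choose η hη1 hη2 using fun i => anoeth_surj (ha i)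
      have hηG : η ∈ Submodule.span (MvPolynomial (Fin 3) k) G :=
        Submodule.subset_span ⟨t, hη1, by simpa only [hη2] using hξ⟩
      rw [hS] at hηG
      obtain ⟨c, -, hc⟩ := Submodule.mem_span_finset.1 hηG
      have hi : ∀ i, a i = ∑ l ∈ S, deh (anoethComp (t - τ l) (c l)) * deh (l i) := by
        intro i
        have h1 := congrFun hc i
        rw [Finset.sum_apply] at h1
        rw [← hη2, ← anoethComp_self (hη1 i), ← h1, anoethComp_sum, map_sum]
        refine Finset.sum_congr rfl (fun l hl => ?_)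
        rw [Pi.smul_apply, smul_eq_mul, anoethComp_mul _ (hτ1 l hl i), map_mul,
          show t - b i - (τ l - b i) = t - τ l by ring]
      refine mem_gen.2 ⟨fun l => deh (anoethComp (t - τ l.1) (c l.1)),
        fun l => anoeth_mem (anoethComp_hom _ _), ?_⟩
      simp only [hi, Finset.sum_smul, Finset.smul_sum]
      rw [Finset.sum_comm, ← Finset.sum_coe_sort S]
      refine Finset.sum_congr rfl (fun l _ => Finset.sum_congr rfl (fun i _ => ?_))
      rw [mul_smul]
    · exact gen_le hM (fun l => hτ2 l.1 l.2)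
  rw [this]
  exact gen_isLat _ _

/-- ACC.  Sketch: a strictly increasing chain `M_n` has union `⨆ n, M_n` (pointwise, directed) which
is an `A`-subfamily of `N`, hence generated by finitely many elements, all in one `M_n`. -/
theorem IsLat.exists_max {N : Fam k V} (hN : IsLat N) (𝒮 : Set (Fam k V)) (hne : 𝒮.Nonempty)
    (h : ∀ M ∈ 𝒮, IsMod (AA k) M ∧ M ≤ N) : ∃ M ∈ 𝒮, ∀ M' ∈ 𝒮, M ≤ M' → M' = M := by
  by_contra hcon
  push Not at hcon
  choose! f hf1 hf2 hf3 using hcon
  obtain ⟨M0, hM0⟩ := hne
  let C : ℕ → Fam k V := fun n => f^[n] M0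
  have hC : ∀ n, C (n + 1) = f (C n) := fun n => Function.iterate_succ_apply' f n M0
  have hCS : ∀ n, C n ∈ 𝒮 := by
    intro n
    induction n with
    | zero => exact hM0
    | succ n ih => rw [hC]; exact hf1 _ ih
  have hmono : Monotone C := monotone_nat_of_le_succ (fun n => by rw [hC]; exact hf2 _ (hCS n))
  have hmem : ∀ t v, v ∈ (⨆ n, C n) t ↔ ∃ n, v ∈ C n t := by
    intro t v
    rw [iSup_apply]
    exact Submodule.mem_iSup_of_directed _ (Monotone.directed_le (fun a b hab => hmono hab t))
  have hU : IsLat (⨆ n, C n) := by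
    refine hN.sub ?_ (iSup_le fun n => (h _ (hCS n)).2)
    intro s t a ha v hv
    obtain ⟨n, hn⟩ := (hmem t v).1 hv
    exact (hmem _ _).2 ⟨n, (h _ (hCS n)).1 s t a ha v hn⟩
  obtain ⟨m, w, b, hw⟩ := hU
  have hwi : ∀ i, ∃ n, w i ∈ C n (b i) := fun i => by
    rw [← hmem, hw]; exact mem_gen_self (one_mem_AA le_rfl) w b i
  choose n hn using hwi
  have hle : (⨆ n, C n) ≤ C (Finset.univ.sup n) := by
    rw [hw]
    exact gen_le (h _ (hCS _)).1
      (fun i => hmono (Finset.le_sup (f := n) (Finset.mem_univ i)) (b i) (hn i))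
  apply hf3 _ (hCS (Finset.univ.sup n))
  apply le_antisymm _ (hf2 _ (hCS _))
  rw [← hC]
  exact (le_iSup C _).trans hle

section tower
variable {L : Type} [Field L] [Algebra k L] [Algebra (KA k) L] [Module L V] [Module L V']
  [IsScalarTower k L V] [IsScalarTower k L V'] [IsScalarTower (KA k) L V]
  [IsScalarTower (KA k) L V']

theorem IsLat.cut {N : Fam k V} (hN : IsLat N) (W : Submodule L V) : IsLat (cut N W) :=
  hN.sub (hN.isMod.cut W) (cut_le N W)

/-- Sketch: `fmap f (fcomap f N) = cut N (range f)` is a lattice; pull its generators back. -/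
theorem IsLat.fcomap {N : Fam k V'} (hN : IsLat N) {f : V →ₗ[L] V'} (hf' : Function.Injective f) :
    IsLat (fcomap f N) := by
  obtain ⟨m, w, b, hw⟩ := hN.cut (LinearMap.range f)
  have hwi : ∀ i, ∃ u, f u = w i := fun i => by
    have : w i ∈ Crest.Agent.R169.cut N (LinearMap.range f) (b i) := by
      rw [hw]; exact mem_gen_self (one_mem_AA le_rfl) w b i
    exact (mem_cut.1 this).2
  choose u hu using hwi
  refine ⟨m, u, b, ?_⟩
  have h1 := fmap_gen (S := AA k) (f.restrictScalars (KA k)) u b
  simp only [LinearMap.restrictScalars_apply, hu] at h1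
  funext t
  ext v
  rw [mem_fcomap]
  constructor
  · intro hv
    have h2 : f v ∈ gen (AA k) w b t := by
      rw [← hw]; exact mem_cut.2 ⟨hv, LinearMap.mem_range_self f v⟩
    rw [← h1] at h2
    obtain ⟨v', hv', he⟩ := mem_fmap.1 h2
    rw [← hf' he]; exact hv'
  · intro hv
    have h2 : f v ∈ gen (AA k) w b t := by
      rw [← h1]; exact mem_fmap.2 ⟨v, hv, rfl⟩
    rw [← hw] at h2
    exact (mem_cut.1 h2).1

end tower

end Crest.Agent.R169
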