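import Crest.Agent.R169.ANoeth

/-! # R169 task ASyz: a depth-two module has a free resolution of length one -/

set_option autoImplicit false

namespace Crest.Agent.R169
open Module

variable {k : Type} [Field k] {V V' : Type} [AddCommGroup V] [Module k V] [Module (KA k) V]
  [IsScalarTower k (KA k) V] [AddCommGroup V'] [Module k V'] [Module (KA k) V']
  [IsScalarTower k (KA k) V']

theorem ASyz_ind {P : ℤ → Prop} (t0 : ℤ) (h0 : ∀ t ≤ t0, P t) (hs : ∀ t, P (t - 1) → P t)
    (t : ℤ) : P t := by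
  rcases le_total t t0 with h | h
  · exact h0 t h
  · induction t, h using Int.leInduction with
    | base => exact h0 _ le_rfl
    | succ n _ ih => exact hs (n + 1) (by rwa [add_sub_cancel_right])

theorem ASyz_const {c : k} {s s' : ℤ} {p q : KA k} (hp : p ∈ AA k s) (hq : q ∈ AA k s')
    (h : algebraMap k (KA k) c = xA k 0 * p + xA k 1 * q) : c = 0 := by
  obtain ⟨f, rfl, -⟩ := hp
  obtain ⟨g, rfl, -⟩ := hq
  have h1 : algebraMap (P2 k) (KA k) (MvPolynomial.C c) =
      algebraMap (P2 k) (KA k) (MvPolynomial.X 0 * f + MvPolynomial.X 1 * g) := by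
    rw [map_add, map_mul, map_mul]
    exact (IsScalarTower.algebraMap_apply k (P2 k) (KA k) c).symm.trans h
  have h2 := congrArg MvPolynomial.constantCoeff (A0_inj h1)
  simpa using h2

theorem ASyz_mulx (i : Fin 2) {t : ℤ} {a : KA k} (ha : a ∈ AA k (t - 1)) :
    xA k i * a ∈ AA k t := by
  have := AA_mul (xA_mem i) ha
  rwa [show 1 + (t - 1) = t by ring] at this

theorem ASyz_smulx {N : Fam k V} (hN : IsMod (AA k) N) (i : Fin 2) {t : ℤ} {a : V}
    (ha : a ∈ N (t - 1)) : xA k i • a ∈ N t := by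
  have := hN _ _ _ (xA_mem i) a ha
  rwa [show 1 + (t - 1) = t by ring] at this

theorem ASyz_ev {m : ℕ} (w : Fin m → V) (η : Fin m → KA k) :
    A1_ev k w η = ∑ i, η i • w i := by
  simp [A1_ev, Fintype.linearCombination_apply]

theorem ASyz_mem {m : ℕ} {w : Fin m → V} {b : Fin m → ℤ} {t : ℤ} {v : V} :
    v ∈ gen (AA k) w b t ↔ ∃ a ∈ freeF k b t, A1_ev k w a = v := by
  rw [A1_gen_eq, mem_fmap]

theorem ASyz_memF {m : ℕ} {b : Fin m → ℤ} {t : ℤ} {a : Fin m → KA k} :
    a ∈ freeF k b t ↔ ∀ i, a i ∈ AA k (t - b i) :=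
  ⟨fun h i => h i (Set.mem_univ i), fun h i _ => h i⟩

/-- the Koszul relation lifts -/
theorem ASyz_kos {m : ℕ} {w : Fin m → V} {b : Fin m → ℤ} (h2 : SatXY (gen (AA k) w b)) {t : ℤ}
    {α α' : Fin m → KA k} (hα : α ∈ freeF k b t) (hα' : α' ∈ freeF k b t)
    (h : A1_ev k w (xA k 0 • α + xA k 1 • α') = 0) :
    ∃ γ ∈ freeF k b (t - 1), A1_ev k w (α - xA k 1 • γ) = 0 ∧
      A1_ev k w (α' + xA k 0 • γ) = 0 := by
  rw [map_add, map_smul, map_smul] at h
  have hy := xA_ne (k := k) 1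
  have e1 : xA k 1 • (xA k 1)⁻¹ • A1_ev k w α = A1_ev k w α := by
    rw [smul_smul, mul_inv_cancel₀ hy, one_smul]
  have e0 : xA k 0 • (xA k 1)⁻¹ • A1_ev k w α = - A1_ev k w α' := by
    rw [smul_comm, eq_neg_of_add_eq_zero_left h, smul_neg, smul_smul, inv_mul_cancel₀ hy, one_smul]
  have hζ : (xA k 1)⁻¹ • A1_ev k w α ∈ gen (AA k) w b (t - 1) := by
    apply h2
    · rw [e0, sub_add_cancel]
      exact Submodule.neg_mem _ (ASyz_mem.2 ⟨α', hα', rfl⟩)
    · rw [e1, sub_add_cancel]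
      exact ASyz_mem.2 ⟨α, hα, rfl⟩
  obtain ⟨γ, hγ, hγ'⟩ := ASyz_mem.1 hζ
  refine ⟨γ, hγ, ?_, ?_⟩
  · rw [map_sub, map_smul, hγ', e1, sub_self]
  · rw [map_add, map_smul, hγ', e0, add_neg_cancel]

theorem ASyz_split {m : ℕ} {b : Fin m → ℤ} {t : ℤ} {u : Fin m → KA k} (hu : u ∈ freeF k b t) :
    ∃ c : Fin m → k, ∃ α ∈ freeF k b (t - 1), ∃ α' ∈ freeF k b (t - 1),
      u = (fun i => algebraMap k (KA k) (c i)) + xA k 0 • α + xA k 1 • α' ∧
        ∀ i, t < b i → c i = 0 := by
  have h := fun i => AA_split' (ASyz_memF.1 hu i)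
  choose c a0 h0 a1 h1 he hc using h
  have e : ∀ i, t - b i - 1 = t - 1 - b i := fun i => by ring
  simp only [e] at h0 h1
  refine ⟨c, a0, ASyz_memF.2 h0, a1, ASyz_memF.2 h1, ?_, fun i hi => hc i (by omega)⟩
  funext i
  exact he i

theorem ASyz_low {m : ℕ} (b : Fin m → ℤ) : ∃ t0 : ℤ, ∀ t ≤ t0, ∀ u ∈ freeF k b t, u = 0 := by
  obtain ⟨t0, h⟩ := (isLat_freeF (k := k) b).bot_low
  exact ⟨t0, fun t ht u hu => by rw [h t ht] at hu; exact hu⟩

/-- minimal generators: `w` generates and is independent modulo `(x,y,z) N`.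
Sketch: take generators with the minimal number `m`; a relation with a nonzero constant
coefficient `c i₀` (`b i₀ = t`) would express `w i₀` through the others: elements of
`x N + y N + N (t-1)` in degree `t` only involve generators with `b i < t`. -/
theorem IsLat.min_gen {N : Fam k V} (hN : IsLat N) : ∃ (m : ℕ) (w : Fin m → V) (b : Fin m → ℤ),
    N = gen (AA k) w b ∧ ∀ (t : ℤ) (c : Fin m → k), (∀ i, b i ≠ t → c i = 0) →
      (∃ a ∈ N (t - 1), ∃ a' ∈ N (t - 1), ∃ a'' ∈ N (t - 1),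
        ∑ i, c i • w i = xA k 0 • a + xA k 1 • a' + a'') → c = 0 := by
  classical
  have hN' := hN.isMod
  obtain ⟨m, ⟨w, b, hw⟩, hmin⟩ : ∃ m : ℕ, (∃ (w : Fin m → V) (b : Fin m → ℤ),
      N = gen (AA k) w b) ∧ ∀ n < m, ¬ ∃ (w : Fin n → V) (b : Fin n → ℤ), N = gen (AA k) w b :=
    ⟨Nat.find hN, Nat.find_spec hN, fun n hn => Nat.find_min hN hn⟩
  refine ⟨m, w, b, hw, fun t c hc ⟨a, ha, a', ha', a'', ha'', he⟩ => ?_⟩
  by_contra hne
  obtain ⟨i₀, hi₀⟩ := Function.ne_iff.1 hne
  have hi₀' : c i₀ ≠ 0 := hi₀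
  have hb : b i₀ = t := by
    by_contra h
    exact hi₀' (hc i₀ h)
  cases m with
  | zero => exact i₀.elim0
  | succ n =>
    apply hmin n (Nat.lt_succ_self n)
    refine ⟨fun j => w (i₀.succAbove j), fun j => b (i₀.succAbove j), ?_⟩
    set N' := gen (AA k) (fun j => w (i₀.succAbove j)) (fun j => b (i₀.succAbove j)) with hN''
    have hM : IsMod (AA k) N' := (gen_isLat _ _).isMod
    have hself : ∀ j, w (i₀.succAbove j) ∈ N' (b (i₀.succAbove j)) :=
      fun j => mem_gen_self (one_mem_AA le_rfl) (fun j => w (i₀.succAbove j))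
        (fun j => b (i₀.succAbove j)) j
    have hlow : N (t - 1) ≤ N' (t - 1) := by
      intro ξ hξ
      rw [hw] at hξ
      obtain ⟨u, hu, rfl⟩ := mem_gen.1 hξ
      have h0 : u i₀ = 0 := by
        have := hu i₀
        rw [AA_neg (by omega)] at this
        exact this
      rw [Fin.sum_univ_succAbove _ i₀, h0, zero_smul, zero_add]
      exact mem_gen.2 ⟨fun j => u (i₀.succAbove j), fun j => hu _, rfl⟩
    have htop : w i₀ ∈ N' (b i₀) := by
      rw [hb]
      have h1 : ∑ i, c i • w i ∈ N' t := by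
        rw [he]
        exact add_mem (add_mem (ASyz_smulx hM 0 (hlow ha)) (ASyz_smulx hM 1 (hlow ha')))
          (hM.mono (by omega) (hlow ha''))
      have h2 : ∑ j, c (i₀.succAbove j) • w (i₀.succAbove j) ∈ N' t := by
        refine Submodule.sum_mem _ fun j _ => ?_
        by_cases h : b (i₀.succAbove j) = t
        · exact Submodule.smul_mem _ _ (h ▸ hself j)
        · rw [hc _ h, zero_smul]; exact zero_mem _
      rw [Fin.sum_univ_succAbove _ i₀] at h1
      have h3 : c i₀ • w i₀ ∈ N' t := by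
        have := sub_mem h1 h2
        rwa [add_sub_cancel_right] at this
      exact (Submodule.smul_mem_iff _ hi₀').1 h3
    apply le_antisymm
    · rw [hw]
      refine gen_le hM fun i => ?_
      rcases Fin.eq_self_or_eq_succAbove i₀ i with rfl | ⟨j, rfl⟩
      · exact htop
      · exact hself j
    · refine gen_le hN' fun j => ?_
      rw [hw]
      exact mem_gen_self (one_mem_AA le_rfl) w b _

/-- freeness criterion.  `K` has `SatXY` and `z` is injective on `K/(x,y)K`.  Take minimal generators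
`κ` (degrees `b'`), `F = freeF b'`, `K₂ t = {u ∈ F t | ∑ u_j κ_j = 0}`.
(1) by induction on `t`: `u ∈ F t`, `∑ u_j κ_j ∈ x K(t-1) + y K(t-1)` ⇒ `u ∈ x F(t-1) + y F(t-1)`:
`AA_split'` writes `u = c + x a + y a'`; the part of `c` with `b' j = t` vanishes by minimality,
the rest lies in `F (t-1)`; use `hz` and the induction hypothesis.
(2) by induction on `t`, `K₂ t = 0`: `u = x a + y a'`, `ζ = (∑ a_j κ_j)/y` has `yζ, xζ ∈ K(t-1)`,
so `ζ = ∑ c_j κ_j`, `c ∈ F (t-2)`, and `a - y c, a' + x c ∈ K₂ (t-1)`, `u = x(a - yc) + y(a' + xc)`.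
(3) clear denominators. -/
theorem free_of_sat {K : Fam k V} (hK : IsLat K) (h2 : SatXY K)
    (hz : ∀ t, ∀ η ∈ K t, (∃ a ∈ K t, ∃ a' ∈ K t, η = xA k 0 • a + xA k 1 • a') →
      ∃ a ∈ K (t - 1), ∃ a' ∈ K (t - 1), η = xA k 0 • a + xA k 1 • a') :
    ∃ (m : ℕ) (w : Fin m → V) (b : Fin m → ℤ), K = gen (AA k) w b ∧ LinearIndependent (KA k) w := by
  classical
  obtain ⟨m, w, b, rfl, hmin⟩ := hK.min_gen
  refine ⟨m, w, b, rfl, ?_⟩
  obtain ⟨t0, ht0⟩ := ASyz_low (k := k) b
  have hF : IsMod (AA k) (freeF k b) := (isLat_freeF b).isMod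
  have step1 : ∀ t, ∀ u ∈ freeF k b t, (∃ a ∈ gen (AA k) w b (t - 1),
      ∃ a' ∈ gen (AA k) w b (t - 1), A1_ev k w u = xA k 0 • a + xA k 1 • a') →
      ∃ α ∈ freeF k b (t - 1), ∃ α' ∈ freeF k b (t - 1), u = xA k 0 • α + xA k 1 • α' := by
    intro t
    induction t using ASyz_ind t0 with
    | h0 t ht =>
      intro u hu _
      exact ⟨0, zero_mem _, 0, zero_mem _, by simp [ht0 t ht u hu]⟩
    | hs t ih =>
      rintro u hu ⟨a, ha, a', ha', he⟩
      obtain ⟨c, α, hα, α', hα', hu', hc⟩ := ASyz_split hu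
      set c' : Fin m → k := fun i => if b i = t then c i else 0 with hc'
      set d : Fin m → KA k := fun i => if b i = t then 0 else algebraMap k (KA k) (c i) with hd
      have hdm : d ∈ freeF k b (t - 1) := by
        refine ASyz_memF.2 fun i => ?_
        simp only [hd]
        split_ifs with h
        · exact zero_mem _
        · rcases lt_or_gt_of_ne h with h | h
          · exact const_mem_AA (by omega) _
          · rw [hc i h, map_zero]; exact zero_mem _
      have hsum : (fun i => algebraMap k (KA k) (c i)) =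
          (fun i => algebraMap k (KA k) (c' i)) + d := by
        funext i
        simp only [hc', hd, Pi.add_apply]
        split_ifs <;> simp
      have hev : A1_ev k w (fun i => algebraMap k (KA k) (c' i)) = ∑ i, c' i • w i := by
        rw [ASyz_ev]
        exact Finset.sum_congr rfl fun i _ => algebraMap_smul _ _ _
      have hb1 : a - A1_ev k w α ∈ gen (AA k) w b (t - 1) :=
        sub_mem ha (ASyz_mem.2 ⟨α, hα, rfl⟩)
      have hb2 : a' - A1_ev k w α' ∈ gen (AA k) w b (t - 1) :=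
        sub_mem ha' (ASyz_mem.2 ⟨α', hα', rfl⟩)
      have hb3 : A1_ev k w d ∈ gen (AA k) w b (t - 1) := ASyz_mem.2 ⟨d, hdm, rfl⟩
      rw [hu', hsum, map_add, map_add, map_add, hev, map_smul, map_smul] at he
      have hc0 : c' = 0 := by
        refine hmin t c' (fun i hi => by simp only [hc', if_neg hi])
          ⟨_, hb1, _, hb2, _, neg_mem hb3, ?_⟩
        rw [smul_sub, smul_sub]
        linear_combination (norm := abel) he
      have he' : A1_ev k w d = xA k 0 • (a - A1_ev k w α) + xA k 1 • (a' - A1_ev k w α') := by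
        rw [hc0] at he
        simp only [Pi.zero_apply, zero_smul, Finset.sum_const_zero, zero_add] at he
        rw [smul_sub, smul_sub]
        linear_combination (norm := abel) he
      obtain ⟨β, hβ, β', hβ', hdβ⟩ := ih d hdm (hz _ _ hb3 ⟨_, hb1, _, hb2, he'⟩)
      refine ⟨α + β, add_mem hα (hF.mono (by omega) hβ), α' + β',
        add_mem hα' (hF.mono (by omega) hβ'), ?_⟩
      rw [hu', hsum, hc0, hdβ, smul_add, smul_add]
      have : (fun i : Fin m => algebraMap k (KA k) ((0 : Fin m → k) i)) = 0 := by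
        funext i; simp
      rw [this]
      abel
  have step2 : ∀ t, ∀ u ∈ freeF k b t, A1_ev k w u = 0 → u = 0 := by
    intro t
    induction t using ASyz_ind t0 with
    | h0 t ht => exact fun u hu _ => ht0 t ht u hu
    | hs t ih =>
      intro u hu he
      obtain ⟨α, hα, α', hα', rfl⟩ := step1 t u hu ⟨0, zero_mem _, 0, zero_mem _, by simp [he]⟩
      obtain ⟨γ, hγ, e1, e2⟩ := ASyz_kos h2 hα hα' he
      have f1 := ih _ (sub_mem hα (ASyz_smulx hF 1 hγ)) e1
      have f2 := ih _ (add_mem hα' (ASyz_smulx hF 0 hγ)) e2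
      rw [sub_eq_zero.1 f1, eq_neg_of_add_eq_zero_left f2, smul_neg, smul_comm, add_neg_cancel]
  rw [Fintype.linearIndependent_iff]
  intro g hg i
  obtain ⟨e, f, -, hf0, hf⟩ := AA_denom_fin g (fun i => - b i)
  have := step2 e (f • g) (ASyz_memF.2 fun i => by
    have := hf i
    rwa [show - b i + e = e - b i by ring] at this) (by rw [map_smul, ASyz_ev, hg, smul_zero])
  exact (mul_eq_zero.1 (congrFun this i)).resolve_left hf0

/-- Sketch: `K = cut (freeF b) (ker (η ↦ ∑ η i • w i))`.  `SatXY K` by `AA_S2_xy`.  For `hz`: if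
`η ∈ K t` is `x a + y a'` with `a, a' ∈ F t`, its entries have no constant term, so
`η = x α + y α'` with `α, α' ∈ F (t-1)`; `ζ = ᾱ / y` satisfies `yζ = ᾱ, xζ = -ᾱ' ∈ M (t-1)`, so
`ζ ∈ M (t-2)` lifts to `γ ∈ F (t-2)` and `η = x (α - yγ) + y (α' + xγ)`.
`φ` has the free generators of `K` as columns. -/
theorem exists_syz {m : ℕ} (w : Fin m → V) (b : Fin m → ℤ) (h2 : SatXY (gen (AA k) w b)) :
    ∃ (m' : ℕ) (φ : Matrix (Fin m) (Fin m') (KA k)) (b' : Fin m' → ℤ), Syz w b φ b' := by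
  have hF : IsMod (AA k) (freeF k b) := (isLat_freeF b).isMod
  obtain ⟨m', κ, b', hK, hli⟩ := free_of_sat
    ((isLat_freeF (k := k) b).cut (LinearMap.ker (A1_ev k w))) (by
      intro t ξ h0 h1
      refine mem_cut.2 ⟨ASyz_memF.2 fun i => ?_, ?_⟩
      · have k0 := ASyz_memF.1 (mem_cut.1 h0).1 i
        have k1 := ASyz_memF.1 (mem_cut.1 h1).1 i
        refine AA_S2_xy 1 (s := t + 1 - b i) ?_ ?_
        · rw [pow_one, show t - b i + ((1 : ℕ) : ℤ) = t + 1 - b i by push_cast; ring]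
          exact k0
        · rw [pow_one]; exact k1
      · have k0 := (mem_cut.1 h0).2
        rw [LinearMap.mem_ker, map_smul] at k0
        exact (smul_eq_zero.1 k0).resolve_left (xA_ne 0)) (by
      rintro t η hη ⟨a, ha, a', ha', he⟩
      obtain ⟨c, α, hα, α', hα', hu, -⟩ := ASyz_split (mem_cut.1 hη).1
      have hc : ∀ i, c i = 0 := by
        intro i
        have e1 := congrFun he i
        have e2 := congrFun hu i
        simp only [Pi.add_apply, Pi.smul_apply, smul_eq_mul] at e1 e2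
        refine ASyz_const
          (sub_mem (ASyz_memF.1 (mem_cut.1 ha).1 i) (ASyz_memF.1 (hF.mono (by omega) hα) i))
          (sub_mem (ASyz_memF.1 (mem_cut.1 ha').1 i) (ASyz_memF.1 (hF.mono (by omega) hα') i)) ?_
        linear_combination e1 - e2
      have hu' : η = xA k 0 • α + xA k 1 • α' := by
        rw [hu]
        funext i
        simp [hc i]
      have h0 : A1_ev k w (xA k 0 • α + xA k 1 • α') = 0 := by
        rw [← hu']; exact (mem_cut.1 hη).2
      obtain ⟨γ, hγ, e1, e2⟩ := ASyz_kos h2 hα hα' h0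
      refine ⟨_, mem_cut.2 ⟨sub_mem hα (ASyz_smulx hF 1 hγ), e1⟩, _,
        mem_cut.2 ⟨add_mem hα' (ASyz_smulx hF 0 hγ), e2⟩, ?_⟩
      rw [hu', smul_sub, smul_add, smul_comm (xA k 0) (xA k 1) γ]
      abel)
  have hκ : ∀ j, κ j ∈ cut (freeF k b) (LinearMap.ker (A1_ev k w)) (b' j) := by
    intro j
    rw [hK]
    exact mem_gen_self (one_mem_AA le_rfl) κ b' j
  have hmv : ∀ ζ : Fin m' → KA k, (Matrix.of fun i j => κ j i).mulVec ζ = ∑ j, ζ j • κ j := by
    intro ζ
    funext i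
    simp [Matrix.mulVec, dotProduct, Finset.sum_apply, mul_comm]
  refine ⟨m', Matrix.of fun i j => κ j i, b', fun i j => ASyz_memF.1 (mem_cut.1 (hκ j)).1 i,
    fun j => ?_, fun ζ h => ?_, fun t η hη h => ?_⟩
  · have := (mem_cut.1 (hκ j)).2
    rwa [LinearMap.mem_ker, ASyz_ev] at this
  · rw [hmv] at h
    funext j
    exact Fintype.linearIndependent_iff.1 hli ζ h j
  · have h1 : η ∈ cut (freeF k b) (LinearMap.ker (A1_ev k w)) t :=
      mem_cut.2 ⟨ASyz_memF.2 hη, by rw [LinearMap.mem_ker, ASyz_ev]; exact h⟩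
    rw [hK] at h1
    obtain ⟨ζ, hζ, e⟩ := mem_gen.1 h1
    exact ⟨ζ, hζ, by rw [hmv]; exact e⟩

end Crest.Agent.R169
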