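import Crest.Agent.R169.AResP
import Crest.Agent.R169.ACop
import Crest.Agent.R169.ADual
import Crest.Agent.R169.ASyz

/-! # R169 task ARes: graded duality on `ℙ²` for reflexive modules

For `Syz w b φ b'`, `M = gen w b` full, put `F₀' = freeF (3 - b)`, `F₁' = freeF (3 - b')` and
`Im = fmap φᵀ F₀' ≤ F₁'`.  The map `φ' ↦ (β (w i) φ')_i` identifies `dual β M` with
`cut F₀' (ker φᵀ)` (`mem_dual_gen`, `Syz.ex'`, `Perfect.exists_rep`). -/

set_option autoImplicit false

namespace Crest.Agent.R169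
open Module

variable {k : Type} [Field k] {V V' : Type} [AddCommGroup V] [Module k V] [Module (KA k) V]
  [IsScalarTower k (KA k) V] [AddCommGroup V'] [Module k V'] [Module (KA k) V']
  [IsScalarTower k (KA k) V']

private theorem ares_im_le {m m' : ℕ} {w : Fin m → V} {b : Fin m → ℤ}
    {φ : Matrix (Fin m) (Fin m') (KA k)} {b' : Fin m' → ℤ} (H : Syz w b φ b') :
    fmap (Matrix.toLin' φ.transpose) (freeF k (fun i => 3 - b i)) ≤
      freeF k (fun j => 3 - b' j) := by
  intro s v hv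
  obtain ⟨u, hu, rfl⟩ := mem_fmap.1 hv
  intro j _
  have hu' : ∀ i, u i ∈ AA k (s - (3 - b i)) := fun i => hu i (Set.mem_univ i)
  simp only [Matrix.toLin'_apply, Matrix.mulVec, dotProduct, Matrix.transpose_apply,
    SetLike.mem_coe]
  refine Submodule.sum_mem _ (fun i _ => ?_)
  have := AA_mul (H.deg i j) (hu' i)
  rwa [show b' j - b i + (s - (3 - b i)) = s - (3 - b' j) by ring] at this

private theorem ares_im_lat {m m' : ℕ} (b : Fin m → ℤ) (φ : Matrix (Fin m) (Fin m') (KA k)) :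
    IsLat (fmap (Matrix.toLin' φ.transpose) (freeF k (fun i => 3 - b i))) :=
  (isLat_freeF (k := k) (fun i => 3 - b i)).fmap (L := KA k) _

/-- `h_{M^∨}(s) = ∑ h_A(s + b_i - 3) - h_{Im}(s)` -/
theorem Syz.hf_dual {β : V →ₗ[KA k] V' →ₗ[KA k] KA k} (hβ : Perfect β) {m m' : ℕ}
    {w : Fin m → V} {b : Fin m → ℤ} {φ : Matrix (Fin m) (Fin m') (KA k)} {b' : Fin m' → ℤ}
    (H : Syz w b φ b') (hF : Full (gen (AA k) w b)) (s : ℤ) :
    hf (dual β (gen (AA k) w b)) s = hf (freeF k (fun i => 3 - b i)) s -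
      hf (fmap (Matrix.toLin' φ.transpose) (freeF k (fun i => 3 - b i))) s := by
  classical
  let ev : V' →ₗ[KA k] (Fin m → KA k) := LinearMap.pi (fun i => β (w i))
  have hev : ∀ x i, ev x i = β (w i) x := fun _ _ => rfl
  have hspan : Submodule.span (KA k) (Set.range w) = ⊤ := by
    rw [← spanF_gen (k := k) w b]; exact hF
  have hinj : Function.Injective ev := by
    rw [← LinearMap.ker_eq_bot, LinearMap.ker_eq_bot']
    intro x hx
    apply hβ.2.2.2
    intro ξ
    have hξ : ξ ∈ Submodule.span (KA k) (Set.range w) := hspan ▸ Submodule.mem_top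
    obtain ⟨c, rfl⟩ := (Submodule.mem_span_range_iff_exists_fun (KA k)).1 hξ
    have h0 : ∀ i, β (w i) x = 0 := fun i => by rw [← hev, hx]; rfl
    simp [map_sum, LinearMap.sum_apply, h0]
  have hEq : fmap ev (dual β (gen (AA k) w b)) =
      cut (freeF k (fun i => 3 - b i)) (LinearMap.ker (Matrix.toLin' φ.transpose)) := by
    funext t
    ext v
    rw [mem_fmap, mem_cut]
    constructor
    · rintro ⟨x, hx, rfl⟩
      rw [mem_dual_gen] at hx
      refine ⟨fun i _ => ?_, ?_⟩
      · have := hx i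
        rwa [show b i + t - 3 = t - (3 - b i) by ring] at this
      · rw [LinearMap.mem_ker]
        funext j
        have h1 := congrArg (fun ξ => β ξ x) (H.rel j)
        simp only [map_sum, map_smul, LinearMap.sum_apply, LinearMap.smul_apply, smul_eq_mul,
          map_zero, LinearMap.zero_apply] at h1
        simpa [Matrix.toLin'_apply, Matrix.mulVec, dotProduct, hev] using h1
    · rintro ⟨hv, hker⟩
      rw [LinearMap.mem_ker] at hker
      let π : (Fin m → KA k) →ₗ[KA k] V := Fintype.linearCombination (KA k) w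
      have hπ : ∀ η, π η = ∑ i, η i • w i := fun η => Fintype.linearCombination_apply _ _ _
      have hsurj : LinearMap.range π = ⊤ := by
        rw [Fintype.range_linearCombination]; exact hspan
      obtain ⟨σ, hσ⟩ := LinearMap.exists_rightInverse_of_surjective π hsurj
      let L : (Fin m → KA k) →ₗ[KA k] KA k := Fintype.linearCombination (KA k) v
      have hL : ∀ η, L η = ∑ i, η i * v i := fun η => Fintype.linearCombination_apply _ _ _
      have hLker : ∀ η, π η = 0 → L η = 0 := by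
        intro η hη
        rw [hπ] at hη
        obtain ⟨ζ, rfl⟩ := H.ex' η hη
        rw [hL]
        have h2 : ∑ i, φ.mulVec ζ i * v i = ζ ⬝ᵥ (φ.transpose.mulVec v) := by
          rw [Matrix.dotProduct_mulVec, Matrix.vecMul_transpose]; rfl
        rw [h2]
        rw [Matrix.toLin'_apply] at hker
        rw [hker, dotProduct_zero]
      obtain ⟨x, hx⟩ := hβ.exists_rep (L ∘ₗ σ)
      have hxi : ∀ i, β (w i) x = v i := by
        intro i
        rw [hx, LinearMap.comp_apply]
        have h3 : π (σ (w i) - Pi.single i 1) = 0 := by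
          rw [map_sub]
          have h4 : π (σ (w i)) = w i := by
            have := LinearMap.congr_fun hσ (w i)
            simpa using this
          rw [h4, hπ]
          simp [Pi.single_apply]
        have h5 := hLker _ h3
        rw [map_sub, sub_eq_zero] at h5
        rw [h5, hL]
        simp [Pi.single_apply]
      refine ⟨x, ?_, funext fun i => hxi i⟩
      rw [mem_dual_gen]
      intro i
      rw [hxi, show b i + t - 3 = t - (3 - b i) by ring]
      exact hv i (Set.mem_univ i)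
  haveI := (isLat_freeF (k := k) (fun i => 3 - b i)).fin s
  have h1 := hf_cut_add_fmap (Matrix.toLin' φ.transpose) (freeF k (fun i => 3 - b i)) s
  rw [← hEq, hf_fmap_inj hinj] at h1
  linarith

/-- `φ` is split injective at every place.  Sketch: `Place.local_basis` `I, c`; for `j ∉ range I`
the relation `s_j = e_j - ∑ c_{ji} e_{I i}`, cleared by a unit `f` (`Place.clear_fin`), is
`φ ζ_j` (`Syz.ex`).  Let `ψ` have columns `ζ_j` (`0` for `j ∈ range I`).  Every relation `η` equals
`∑_{j ∉ range I} η_j s_j` (the difference is a relation supported on `range I`), so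
`φ ψ φ = f φ`, and `inj` gives `ψ φ = f`. -/
theorem Syz.local_split {m m' : ℕ} {w : Fin m → V} {b : Fin m → ℤ}
    {φ : Matrix (Fin m) (Fin m') (KA k)} {b' : Fin m' → ℤ} (H : Syz w b φ b') (P : Place k) :
    ∃ (e : ℤ) (f : KA k) (ψ : Matrix (Fin m') (Fin m) (KA k)), f ∈ AA k e ∧ f ≠ 0 ∧
      (P.θ ^ e * f)⁻¹ ∈ P.O ∧ (∀ j i, ψ j i ∈ AA k (e + b i - b' j)) ∧ ψ * φ = f • 1 := by
  classical
  obtain ⟨n, I, -, hLI, hc⟩ := P.local_basis w b
  choose c hcO hcw using hc
  obtain ⟨e, f, hf, hf0, hfu, hfc⟩ := P.clear_fin (fun p : Fin m × Fin n => c p.1 p.2)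
    (fun p => b p.1 - b (I p.2)) (fun p => hcO p.1 p.2)
  let η : Fin m → Fin m → KA k := fun j l =>
    (if l = j then f else 0) - ∑ i, if l = I i then f * c j i else 0
  have hηdeg : ∀ j l, η j l ∈ AA k (b j + e - b l) := by
    intro j l
    refine Submodule.sub_mem _ ?_ (Submodule.sum_mem _ (fun i _ => ?_))
    · split_ifs with h
      · subst h; rwa [show b l + e - b l = e by ring]
      · exact Submodule.zero_mem _
    · split_ifs with h
      · have := hfc (j, i)
        subst h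
        rwa [show b j + e - b (I i) = b j - b (I i) + e by ring]
      · exact Submodule.zero_mem _
  have hηrel : ∀ j, ∑ l, η j l • w l = 0 := by
    intro j
    simp only [η, sub_smul, Finset.sum_sub_distrib, Finset.sum_smul, ite_smul, zero_smul,
      Finset.sum_ite_eq', Finset.mem_univ, if_true]
    rw [Finset.sum_comm]
    simp only [Finset.sum_ite_eq', Finset.mem_univ, if_true]
    rw [sub_eq_zero]
    conv_lhs => rw [hcw j]
    rw [Finset.smul_sum]
    exact Finset.sum_congr rfl (fun i _ => by rw [mul_smul])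
  choose ζ hζdeg hζ using fun j => H.ex (b j + e) (η j) (hηdeg j) (hηrel j)
  have hC : ∀ j' i, ∑ j, φ j j' * c j i = 0 := by
    intro j'
    have h1 : ∑ i, (∑ j, φ j j' * c j i) • (w ∘ I) i = 0 := by
      rw [← H.rel j']
      simp only [Finset.sum_smul, Function.comp_apply]
      rw [Finset.sum_comm]
      refine Finset.sum_congr rfl (fun j _ => ?_)
      conv_rhs => rw [hcw j]
      rw [Finset.smul_sum]
      exact Finset.sum_congr rfl (fun i _ => by rw [mul_smul])
    exact Fintype.linearIndependent_iff.1 hLI _ h1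
  refine ⟨e, f, Matrix.of (fun l j => ζ j l), hf, hf0, hfu, fun l j => ?_, ?_⟩
  · have := hζdeg j l
    rwa [show b j + e - b' l = e + b j - b' l by ring] at this
  · ext l j'
    have h1 : φ.mulVec (fun l => ∑ j, ζ j l * φ j j' - (if l = j' then f else 0)) = 0 := by
      funext r
      have h2 : ∀ j, ∑ l, φ r l * ζ j l = η j r := fun j => by rw [hζ j]; rfl
      have h3 : ∑ l, φ r l * ∑ j, ζ j l * φ j j' = ∑ j, η j r * φ j j' := by
        simp only [Finset.mul_sum]
        rw [Finset.sum_comm]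
        refine Finset.sum_congr rfl (fun j _ => ?_)
        rw [← h2, Finset.sum_mul]
        exact Finset.sum_congr rfl (fun l _ => by ring)
      have h4 : ∑ j, (∑ i, if r = I i then f * c j i else 0) * φ j j' = 0 := by
        simp only [Finset.sum_mul]
        rw [Finset.sum_comm]
        refine Finset.sum_eq_zero (fun i _ => ?_)
        split_ifs with h
        · have := hC j' i
          calc ∑ j, f * c j i * φ j j' = f * ∑ j, φ j j' * c j i := by
                rw [Finset.mul_sum]; exact Finset.sum_congr rfl (fun j _ => by ring)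
            _ = 0 := by rw [this, mul_zero]
        · simp
      simp only [Matrix.mulVec, dotProduct, mul_sub, Finset.sum_sub_distrib, Pi.zero_apply]
      rw [h3]
      simp only [η, sub_mul, Finset.sum_sub_distrib]
      rw [h4]
      simp [mul_comm]
    have h5 := congrFun (H.inj _ h1) l
    simp only [Pi.zero_apply, sub_eq_zero] at h5
    simp only [Matrix.mul_apply, Matrix.of_apply, Matrix.smul_apply, Matrix.one_apply, smul_eq_mul,
      mul_ite, mul_one, mul_zero]
    exact h5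

/-- hence `Ext¹` has codimension `≥ 2`: `f λ = φᵀ (ψᵀ λ)` -/
theorem Syz.cop_im {m m' : ℕ} {w : Fin m → V} {b : Fin m → ℤ}
    {φ : Matrix (Fin m) (Fin m') (KA k)} {b' : Fin m' → ℤ} (H : Syz w b φ b') :
    Cop (freeF k (fun j => 3 - b' j))
      (fmap (Matrix.toLin' φ.transpose) (freeF k (fun i => 3 - b i))) := by
  obtain ⟨Pl, hPl⟩ := exists_placeSys k
  refine hPl.cop _ _ _ (ares_im_lat b φ).isMod ?_
  intro P _ t ξ hξ
  obtain ⟨e, f, ψ, hf, hf0, hfu, hψ, hψφ⟩ := H.local_split P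
  refine ⟨e, f, hf, hf0, hfu, mem_fmap.2 ⟨ψ.transpose.mulVec ξ, ?_, ?_⟩⟩
  · intro i _
    simp only [Matrix.mulVec, dotProduct, Matrix.transpose_apply, SetLike.mem_coe]
    refine Submodule.sum_mem _ (fun j _ => ?_)
    have := AA_mul (hψ j i) (hξ j (Set.mem_univ j))
    rwa [show e + b i - b' j + (t - (3 - b' j)) = t + e - (3 - b i) by ring] at this
  · rw [Matrix.toLin'_apply, Matrix.mulVec_mulVec, ← Matrix.transpose_mul, hψφ,
      Matrix.transpose_smul, Matrix.transpose_one, Matrix.smul_mulVec, Matrix.one_mulVec]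

/-- `h_M(t) + h_{M^∨}(-t) = P_M(t) + h_X(-t)` with `X = F₁'/Im` (`finrank_AA_dual`) -/
theorem Syz.duality {β : V →ₗ[KA k] V' →ₗ[KA k] KA k} (hβ : Perfect β) {m m' : ℕ}
    {w : Fin m → V} {b : Fin m → ℤ} {φ : Matrix (Fin m) (Fin m') (KA k)} {b' : Fin m' → ℤ}
    (H : Syz w b φ b') (hF : Full (gen (AA k) w b)) (t : ℤ) :
    hf (gen (AA k) w b) t + hf (dual β (gen (AA k) w b)) (-t) = hP (gen (AA k) w b) t +
      (hf (freeF k (fun j => 3 - b' j)) (-t) -
        hf (fmap (Matrix.toLin' φ.transpose) (freeF k (fun i => 3 - b i))) (-t)) := by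
  obtain ⟨h1, h2, h3⟩ := H.hasHP.coeffs
  rw [H.hf_eq, H.hf_dual hβ hF, hf_freeF, hf_freeF, hP, h1, h2, h3]
  have key : ∀ {n : ℕ} (a : Fin n → ℤ), ∑ i, (finrank k (AA k (t - a i)) : ℚ) +
      ∑ i, (finrank k (AA k (-t - (3 - a i))) : ℚ) = (n : ℚ) / 2 * (t : ℚ) ^ 2 +
        (∑ i, (3 / 2 - (a i : ℚ))) * t + ∑ i, ((a i : ℚ) - 1) * (a i - 2) / 2 := by
    intro n a
    have e1 : (n : ℚ) / 2 * (t : ℚ) ^ 2 = ∑ _i : Fin n, (t : ℚ) ^ 2 / 2 := by
      simp; ring
    rw [e1, Finset.sum_mul, ← Finset.sum_add_distrib, ← Finset.sum_add_distrib,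
      ← Finset.sum_add_distrib]
    refine Finset.sum_congr rfl (fun i _ => ?_)
    have := finrank_AA_dual (k := k) (t - a i)
    rw [show -t - (3 - a i) = -3 - (t - a i) by ring, this]
    push_cast; ring
  have k1 := key b
  have k2 := key b'
  linarith

private theorem ares_coeffs {β : V →ₗ[KA k] V' →ₗ[KA k] KA k} (hβ : Perfect β) {m m' : ℕ}
    {w : Fin m → V} {b : Fin m → ℤ} {φ : Matrix (Fin m) (Fin m') (KA k)} {b' : Fin m' → ℤ}
    (H : Syz w b φ b') (hF : Full (gen (AA k) w b)) :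
    ha (dual β (gen (AA k) w b)) = ha (gen (AA k) w b) ∧
    hb (dual β (gen (AA k) w b)) = -hb (gen (AA k) w b) ∧
    hc (dual β (gen (AA k) w b)) = hc (gen (AA k) w b) + (hc (freeF k (fun j => 3 - b' j)) -
      hc (fmap (Matrix.toLin' φ.transpose) (freeF k (fun i => 3 - b i)))) := by
  obtain ⟨c1, c2, -⟩ := Cop.coeffs (ares_im_lat b φ) (isLat_freeF _) (ares_im_le H) H.cop_im
  obtain ⟨t0, ht0⟩ := (gen_isLat (k := k) w b).bot_low
  have hP1 : HasHP (fun s : ℤ => hP (gen (AA k) w b) ((-s : ℤ) : ℚ)) (ha (gen (AA k) w b))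
      (-hb (gen (AA k) w b)) (hc (gen (AA k) w b)) :=
    ⟨0, fun s _ => by simp only [hP]; push_cast; ring⟩
  have hP2 := (isLat_freeF (k := k) (fun j => 3 - b' j)).hasHP.sub (ares_im_lat b φ).hasHP
  have hP3 := (hP1.add hP2).congr (h' := hf (dual β (gen (AA k) w b))) ⟨-t0, fun s hs => by
    have := H.duality hβ hF (-s)
    rw [neg_neg] at this
    have h0 : hf (gen (AA k) w b) (-s) = 0 := by
      rw [hf, ht0 (-s) (by linarith)]; simp
    rw [h0, zero_add] at this
    exact this⟩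
  obtain ⟨h1, h2, h3⟩ := hP3.coeffs
  refine ⟨by rw [h1, c1]; ring, by rw [h2, c2]; ring, h3⟩

/-- (D0) `χ ≤ h⁰ + h²` -/
theorem D0 {β : V →ₗ[KA k] V' →ₗ[KA k] KA k} (hβ : Perfect β) {M : Fam k V} (hM : IsLat M)
    (hF : Full M) (h2 : SatXY M) (t : ℤ) : hP M t ≤ hf M t + hf (dual β M) (-t) := by
  obtain ⟨m, w, b, rfl⟩ := hM
  obtain ⟨m', φ, b', H⟩ := exists_syz w b h2
  rw [H.duality hβ hF t]
  haveI := (isLat_freeF (k := k) (fun j => 3 - b' j)).fin (-t)
  have := Submodule.finrank_mono (ares_im_le H (-t))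
  have h3 : hf (fmap (Matrix.toLin' φ.transpose) (freeF k (fun i => 3 - b i))) (-t) ≤
      hf (freeF k (fun j => 3 - b' j)) (-t) := by
    unfold hf; exact_mod_cast this
  linarith

/-- one-sided form: by `duality` for `t → -∞` (`IsLat.bot_low`), `P_{M^∨}(s) = P_M(-s) + P_X(s)`, and
`P_X` is a constant `≥ 0` by `cop_im`, `Cop.coeffs`. -/
theorem D1_le {β : V →ₗ[KA k] V' →ₗ[KA k] KA k} (hβ : Perfect β) {M : Fam k V} (hM : IsLat M)
    (hF : Full M) (h2 : SatXY M) :
    ha (dual β M) = ha M ∧ hb (dual β M) = -hb M ∧ hc M ≤ hc (dual β M) := by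
  obtain ⟨m, w, b, rfl⟩ := hM
  obtain ⟨m', φ, b', H⟩ := exists_syz w b h2
  obtain ⟨h1, h2, h3⟩ := ares_coeffs hβ H hF
  obtain ⟨-, -, c3⟩ := Cop.coeffs (ares_im_lat b φ) (isLat_freeF _) (ares_im_le H) H.cop_im
  exact ⟨h1, h2, by linarith⟩

/-- (D1) Serre duality for a reflexive module: apply `D1_le` to `M` and to `M^∨`. -/
theorem D1 {β : V →ₗ[KA k] V' →ₗ[KA k] KA k} (hβ : Perfect β) {M : Fam k V} (hM : IsLat M)
    (hF : Full M) (hr : dual β.flip (dual β M) = M) :
    ha (dual β M) = ha M ∧ hb (dual β M) = -hb M ∧ hc (dual β M) = hc M := by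
  have hs : SatXY M := hr ▸ dual_satXY β.flip (dual β M)
  obtain ⟨h1, h2, h3⟩ := D1_le hβ hM hF hs
  obtain ⟨hL, hF'⟩ := dual_isLat hβ hM hF
  obtain ⟨-, -, h4⟩ := D1_le hβ.flip hL hF' (dual_satXY β M)
  rw [hr] at h4
  exact ⟨h1, h2, le_antisymm h4 h3⟩

/-- (D1) for a lattice that eventually equals its double dual -/
theorem D1_ev {β : V →ₗ[KA k] V' →ₗ[KA k] KA k} (hβ : Perfect β) {N : Fam k V} (hN : IsLat N)
    (hF : Full N) (hr : EvEq (dual β.flip (dual β N)) N) :
    ha (dual β N) = ha N ∧ hb (dual β N) = -hb N ∧ hc (dual β N) = hc N := by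
  obtain ⟨hL, hF'⟩ := dual_isLat hβ hN hF
  obtain ⟨hL2, hF2⟩ := dual_isLat hβ.flip hL hF'
  obtain ⟨h1, h2, h3⟩ := D1 hβ hL2 hF2 (by rw [dual_dual_dual])
  rw [dual_dual_dual] at h1 h2 h3
  obtain ⟨c1, c2, c3⟩ := hr.coeffs
  exact ⟨h1.trans c1, by rw [h2, c2], h3.trans c3⟩

/-- for any full lattice (pass to the double dual, `Cop.coeffs`) -/
theorem D1_hb {β : V →ₗ[KA k] V' →ₗ[KA k] KA k} (hβ : Perfect β) {N : Fam k V} (hN : IsLat N)
    (hF : Full N) : ha (dual β N) = ha N ∧ hb (dual β N) = -hb N := by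
  obtain ⟨hL, hF'⟩ := dual_isLat hβ hN hF
  obtain ⟨hL2, hF2⟩ := dual_isLat hβ.flip hL hF'
  obtain ⟨h1, h2, -⟩ := D1 hβ hL2 hF2 (by rw [dual_dual_dual])
  rw [dual_dual_dual] at h1 h2
  obtain ⟨c1, c2, -⟩ := Cop.coeffs hN hL2 (le_dual_dual β N) (cop_dual_dual hβ hN hF)
  exact ⟨h1.trans c1.symm, by rw [h2, c2]⟩

/-- certificates: for reflexive `M`, `D1` and `duality` give `P_X = 0`, so `Im s = F₁' s` for `s ≥ s₀`;
for `M0` large `x^M0 e_j, y^M0 e_j, e_j ∈ F₁' (3 - b' j + M0)` are `φᵀ` of rows of `ψ 0, ψ 1, ψ 2`. -/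
theorem exists_resData {β : V →ₗ[KA k] V' →ₗ[KA k] KA k} (hβ : Perfect β) {m : ℕ}
    (w : Fin m → V) (b : Fin m → ℤ) (hF : Full (gen (AA k) w b))
    (hr : dual β.flip (dual β (gen (AA k) w b)) = gen (AA k) w b) :
    ∃ (m' : ℕ) (φ : Matrix (Fin m) (Fin m') (KA k)) (b' : Fin m' → ℤ) (M0 : ℕ)
      (ψ : Fin 3 → Matrix (Fin m') (Fin m) (KA k)), ResData w b φ b' M0 ψ := by
  classical
  have hs : SatXY (gen (AA k) w b) := hr ▸ dual_satXY β.flip (dual β (gen (AA k) w b))
  obtain ⟨m', φ, b', H⟩ := exists_syz w b hs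
  obtain ⟨-, -, h3⟩ := ares_coeffs hβ H hF
  obtain ⟨-, -, h4⟩ := D1 hβ (gen_isLat w b) hF hr
  obtain ⟨c1, c2, -⟩ := Cop.coeffs (ares_im_lat b φ) (isLat_freeF _) (ares_im_le H) H.cop_im
  have c3 : hc (fmap (Matrix.toLin' φ.transpose) (freeF k (fun i => 3 - b i))) =
      hc (freeF k (fun j => 3 - b' j)) := by linarith
  obtain ⟨s1, hs1⟩ := (ares_im_lat b φ).hasHP
  obtain ⟨s2, hs2⟩ := (isLat_freeF (k := k) (fun j => 3 - b' j)).hasHP
  have heq : ∀ s ≥ max s1 s2, fmap (Matrix.toLin' φ.transpose) (freeF k (fun i => 3 - b i)) s =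
      freeF k (fun j => 3 - b' j) s := by
    intro s hs
    haveI := (isLat_freeF (k := k) (fun j => 3 - b' j)).fin s
    apply Submodule.eq_of_le_of_finrank_eq (ares_im_le H s)
    have e1 := hs1 s (le_trans (le_max_left _ _) hs)
    have e2 := hs2 s (le_trans (le_max_right _ _) hs)
    rw [c1, c2, c3, ← e2] at e1
    unfold hf at e1
    exact_mod_cast e1
  obtain ⟨M0, hM0⟩ : ∃ M0 : ℕ, ∀ j, max s1 s2 ≤ 3 - b' j + M0 := by
    refine ⟨∑ j, (max s1 s2 - 3 + b' j).toNat, fun j => ?_⟩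
    have h1 : (max s1 s2 - 3 + b' j).toNat ≤ ∑ j, (max s1 s2 - 3 + b' j).toNat :=
      Finset.single_le_sum (f := fun j => (max s1 s2 - 3 + b' j).toNat)
        (fun _ _ => Nat.zero_le _) (Finset.mem_univ j)
    have h2 := Int.self_le_toNat (max s1 s2 - 3 + b' j)
    omega
  let g : Fin 3 → KA k := ![xA k 0 ^ M0, xA k 1 ^ M0, 1]
  have hg : ∀ l, g l ∈ AA k M0 := by
    intro l
    fin_cases l
    · simpa [g] using AA_pow (xA_mem (k := k) 0) M0
    · simpa [g] using AA_pow (xA_mem (k := k) 1) M0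
    · simpa [g] using one_mem_AA (k := k) (Int.natCast_nonneg M0)
  have hex : ∀ (l : Fin 3) (j : Fin m'), ∃ u ∈ freeF k (fun i => 3 - b i) (3 - b' j + M0),
      Matrix.toLin' φ.transpose u = Pi.single j (g l) := by
    intro l j
    rw [← mem_fmap, heq _ (hM0 j)]
    intro j' _
    rw [Pi.single_apply]
    split_ifs with h
    · subst h
      simpa using hg l
    · exact Submodule.zero_mem _
  choose u hu huφ using hex
  have hmul : ∀ l, Matrix.of (u l) * φ = g l • (1 : Matrix (Fin m') (Fin m') (KA k)) := by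
    intro l
    ext j j'
    have := congrFun (huφ l j) j'
    simp only [Matrix.toLin'_apply, Matrix.mulVec, dotProduct, Matrix.transpose_apply,
      Pi.single_apply] at this
    simp only [Matrix.mul_apply, Matrix.of_apply, Matrix.smul_apply, Matrix.one_apply, smul_eq_mul,
      mul_ite, mul_one, mul_zero]
    rw [show (if j = j' then g l else 0) = (if j' = j then g l else 0) by simp only [eq_comm],
      ← this]
    exact Finset.sum_congr rfl (fun i _ => mul_comm _ _)
  refine ⟨m', φ, b', M0, fun l => Matrix.of (u l), H.deg, H.rel, H.card hF, fun l j i => ?_,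
    hmul 0, hmul 1, by simpa [g] using hmul 2⟩
  have := hu l j i (Set.mem_univ i)
  simp only [SetLike.mem_coe] at this
  rwa [show 3 - b' j + M0 - (3 - b i) = M0 + b i - b' j by ring] at this

end Crest.Agent.R169
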