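import Crest.Agent.R169.Defs

/-! # R169 task CLoc: finite domains over complete local rings -/

set_option autoImplicit false

namespace Crest.Agent.R169
open Module

namespace CLocAux

theorem precomplete_of_finite {A M : Type} [CommRing A] (I : Ideal A) [IsPrecomplete I A]
    [AddCommGroup M] [Module A M] [Module.Finite A M] : IsPrecomplete I M := by
  rw [← AdicCompletion.of_surjective_iff]
  intro x
  obtain ⟨y, rfl⟩ := AdicCompletion.ofTensorProduct_surjective_of_finite I M x
  induction y using TensorProduct.induction_on with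
  | zero => exact ⟨0, by simp⟩
  | add a b ha hb =>
    obtain ⟨a', ha⟩ := ha
    obtain ⟨b', hb⟩ := hb
    exact ⟨a' + b', by rw [map_add, map_add, ha, hb]⟩
  | tmul r m =>
    obtain ⟨a, rfl⟩ := AdicCompletion.of_surjective I A r
    refine ⟨a • m, ?_⟩
    rw [AdicCompletion.ofTensorProduct_tmul, map_smul]
    ext n
    simp [AdicCompletion.val_smul_apply]
    rfl

/-- an element of a complete domain with Artinian quotient is a unit or nilpotent mod `J` -/
theorem unit_or_nil {B : Type} [CommRing B] [IsDomain B] (J : Ideal B) [IsAdicComplete J B]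
    [IsArtinianRing (B ⧸ J)] (a : B) : IsUnit a ∨ ∃ n : ℕ, a ^ n ∈ J := by
  obtain ⟨n, y, hy⟩ := IsArtinian.exists_pow_succ_smul_dvd (Ideal.Quotient.mk J a) (1 : B ⧸ J)
  obtain ⟨y, rfl⟩ := Ideal.Quotient.mk_surjective y
  set a' := Ideal.Quotient.mk J a with ha'
  set y' := Ideal.Quotient.mk J y with hy'
  simp only [smul_eq_mul, mul_one] at hy
  have key : ∀ k : ℕ, a' ^ n * (a' * y') ^ k = a' ^ n := by
    intro k
    induction k with
    | zero => simp
    | succ k ih =>
      calc a' ^ n * (a' * y') ^ (k + 1) = (a' ^ n.succ * y') * (a' * y') ^ k := by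
            rw [pow_succ, Nat.succ_eq_add_one, pow_succ]; ring
        _ = a' ^ n := by rw [hy, ih]
  have hid : (a' * y') ^ n * (a' * y') ^ n = (a' * y') ^ n := by
    calc (a' * y') ^ n * (a' * y') ^ n = (a' ^ n * (a' * y') ^ n) * y' ^ n := by
          rw [mul_pow a' y' n]; ring
      _ = (a' * y') ^ n := by rw [key, mul_pow]
  set e0 : B := (a * y) ^ n with he0
  have he0' : Ideal.Quotient.mk J e0 = (a' * y') ^ n := by simp [he0, ha', hy']
  have hmon : (Polynomial.X ^ 2 - Polynomial.X : Polynomial B).Monic := by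
    apply Polynomial.Monic.sub_of_left (Polynomial.monic_X_pow 2)
    rw [Polynomial.degree_X_pow, Polynomial.degree_X]; norm_num
  obtain ⟨e, he, hee⟩ := HenselianRing.is_henselian (R := B) (I := J)
    (Polynomial.X ^ 2 - Polynomial.X) hmon e0
    (by
      rw [← Ideal.Quotient.eq_zero_iff_mem]
      simp only [Polynomial.eval_sub, Polynomial.eval_pow, Polynomial.eval_X, map_sub, map_pow,
        he0']
      rw [sq, hid, sub_self])
    (by
      simp only [Polynomial.derivative_X_pow, Polynomial.derivative_X,
        Polynomial.eval_sub, Polynomial.eval_mul, Polynomial.eval_C, Polynomial.eval_pow,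
        Polynomial.eval_X, Polynomial.eval_one, map_sub, map_mul, map_pow, he0', map_one]
      refine IsUnit.of_mul_eq_one (2 * (a' * y') ^ n - 1) ?_
      simp only [Nat.cast_ofNat, map_ofNat, Nat.add_one_sub_one, pow_one]
      linear_combination 4 * hid)
  have he2 : e * (e - 1) = 0 := by
    have := he
    simp only [Polynomial.IsRoot.def, Polynomial.eval_sub, Polynomial.eval_pow,
      Polynomial.eval_X] at this
    linear_combination this
  have hjac : J ≤ (⊥ : Ideal B).jacobson := IsAdicComplete.le_jacobson_bot J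
  rcases mul_eq_zero.1 he2 with h0 | h1
  · right
    refine ⟨n, ?_⟩
    rw [h0, zero_sub, neg_mem_iff, ← Ideal.Quotient.eq_zero_iff_mem, he0'] at hee
    rw [← Ideal.Quotient.eq_zero_iff_mem, map_pow, ← ha', ← key n, hee, mul_zero]
  · have h1' : e = 1 := sub_eq_zero.1 h1
    rw [h1'] at hee
    have hu : IsUnit e0 := by
      have := Ideal.mem_jacobson_bot.1 (hjac hee) (-1)
      simpa using this
    rcases n with _ | n
    · left
      have hay : 1 - a * y ∈ J := by
        rw [← Ideal.Quotient.eq_zero_iff_mem, map_sub, map_one, map_mul, ← ha', ← hy']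
        have : a' * y' = 1 := by simpa using hy
        rw [this, sub_self]
      have := Ideal.mem_jacobson_bot.1 (hjac hay) (-1)
      have h2 : IsUnit (a * y) := by simpa using this
      exact isUnit_of_mul_isUnit_left h2
    · left
      rw [he0, isUnit_pow_succ_iff] at hu
      exact isUnit_of_mul_isUnit_left hu

end CLocAux

/-- Sketch.  `J = 𝔪B`.  `B` is `𝔪`-adically complete as a finite module over a complete Noetherian ring,
i.e. `J`-adically complete as a ring.  `B/J` is Artinian and nonzero (Nakayama).  Idempotents lift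
modulo `J` (`IsAdicComplete.henselianRing` applied to `X² - X`), and `B` is a domain, so `B/J` has only
trivial idempotents, hence only one maximal ideal (CRT: `𝔫₁^n · (∏ others)^n = 0` comaximal gives an
idempotent); every maximal ideal of `B` contains `J` (integrality).  `𝔪_B^n ⊆ J ⊆ 𝔪_B` gives
completeness for `𝔪_B`. -/
theorem finite_local_complete {A B : Type} [CommRing A] [IsLocalRing A] [IsNoetherianRing A]
    [IsAdicComplete (IsLocalRing.maximalIdeal A) A] [CommRing B] [IsDomain B] [Algebra A B]
    [Module.Finite A B] : ∃ _ : IsLocalRing B,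
      IsAdicComplete (IsLocalRing.maximalIdeal B) B ∧
      (IsLocalRing.maximalIdeal B).comap (algebraMap A B) = IsLocalRing.maximalIdeal A ∧
      ∀ r ∈ IsLocalRing.maximalIdeal B, ∃ n : ℕ,
        r ^ n ∈ (IsLocalRing.maximalIdeal A).map (algebraMap A B) := by
  set 𝔪 := IsLocalRing.maximalIdeal A with h𝔪
  set J := 𝔪.map (algebraMap A B) with hJ
  have hpre : IsPrecomplete 𝔪 B := CLocAux.precomplete_of_finite 𝔪
  have hhaus : IsHausdorff 𝔪 B := inferInstance
  have hc : IsAdicComplete 𝔪 B := ⟨⟩
  have hcJ : IsAdicComplete J B := (IsAdicComplete.map_algebraMap_iff 𝔪 B).2 hc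
  have hN : IsNoetherianRing B := IsNoetherianRing.of_finite A B
  have hart : IsArtinianRing (B ⧸ J) := by
    let _ : Field (A ⧸ 𝔪) := Ideal.Quotient.field 𝔪
    have : Module.Finite (A ⧸ 𝔪) (B ⧸ J) := Module.Finite.of_restrictScalars_finite A _ _
    exact IsArtinianRing.of_finite (A ⧸ 𝔪) (B ⧸ J)
  have hjac : J ≤ (⊥ : Ideal B).jacobson := IsAdicComplete.le_jacobson_bot J
  have hloc : IsLocalRing B := by
    refine IsLocalRing.of_isUnit_or_isUnit_one_sub_self fun a => ?_
    rcases CLocAux.unit_or_nil J a with h | ⟨n, hn⟩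
    · exact Or.inl h
    · right
      have h1 : IsUnit (1 - a ^ n) := by
        have := Ideal.mem_jacobson_bot.1 (hjac hn) (-1)
        simpa [sub_eq_neg_add] using this
      rw [← mul_neg_geom_sum] at h1
      exact isUnit_of_mul_isUnit_left h1
  have hnil : ∀ r ∈ IsLocalRing.maximalIdeal B, ∃ n : ℕ, r ^ n ∈ J := by
    intro r hr
    rcases CLocAux.unit_or_nil J r with h | h
    · exact absurd h hr
    · exact h
  have hJle : J ≤ IsLocalRing.maximalIdeal B := by
    rw [← IsLocalRing.jacobson_eq_maximalIdeal ⊥ bot_ne_top]; exact hjac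
  refine ⟨hloc, ?_, ?_, hnil⟩
  · obtain ⟨n, hn⟩ := Ideal.exists_pow_le_of_le_radical_of_fg
      (I := IsLocalRing.maximalIdeal B) (J := J) (fun r hr => hnil r hr)
      (IsNoetherian.noetherian _)
    have hpre' : IsPrecomplete (IsLocalRing.maximalIdeal B) B := by
      refine ⟨fun f hf => ?_⟩
      have hle : ∀ k : ℕ, (IsLocalRing.maximalIdeal B ^ ((n + 1) * k) • ⊤ : Submodule B B) ≤
          J ^ k • ⊤ := by
        intro k
        apply Submodule.smul_mono_left
        rw [pow_mul]
        exact Ideal.pow_right_mono ((Ideal.pow_le_pow_right (Nat.le_succ n)).trans hn) k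
      obtain ⟨L, hL⟩ := IsPrecomplete.prec' (I := J) (fun k => f ((n + 1) * k)) (fun {a b} hab =>
        SModEq.mono (hle a) (hf (Nat.mul_le_mul_left _ hab)))
      refine ⟨L, fun k => ?_⟩
      have h1 : f k ≡ f ((n + 1) * k) [SMOD (IsLocalRing.maximalIdeal B ^ k • ⊤ : Submodule B B)] :=
        hf (by nlinarith)
      exact h1.trans (SModEq.mono (Submodule.smul_mono_left (Ideal.pow_right_mono hJle k)) (hL k))
    exact ⟨⟩
  · have : ((IsLocalRing.maximalIdeal B).comap (algebraMap A B)).IsMaximal :=
      Ideal.isMaximal_comap_of_isIntegral_of_isMaximal _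
    exact IsLocalRing.eq_maximalIdeal this

end Crest.Agent.R169
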