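import Crest.Agent.R169.CDim

/-! # R169 task CNorm: `ℂ[[X,Y,Z]]` is normal -/

set_option autoImplicit false

namespace Crest.Agent.R169
open Module

namespace CNormAux

/-- completely integrally closed, phrased inside the ring -/
def CIC (R : Type) [CommRing R] : Prop :=
  ∀ a b c : R, b ≠ 0 → c ≠ 0 → (∀ n : ℕ, b ^ n ∣ c * a ^ n) → b ∣ a

theorem CIC.of_equiv {R S : Type} [CommRing R] [CommRing S] (e : R ≃+* S) (h : CIC S) : CIC R := by
  intro a b c hb hc H
  have := h (e a) (e b) (e c) (by simpa using hb) (by simpa using hc) (fun n => by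
    have := map_dvd e (H n)
    simpa using this)
  have h2 := map_dvd e.symm this
  simpa using h2

theorem cic_field (K : Type) [Field K] : CIC K := fun a b _ hb _ _ =>
  ⟨b⁻¹ * a, by field_simp⟩

theorem dvd_of_dvd_prime_pow_mul {R : Type} [CommRing R] [IsDomain R] {p b : R} (hp : Prime p)
    (hb : ¬ p ∣ b) (j : ℕ) : ∀ u : R, b ∣ p ^ j * u → b ∣ u := by
  induction j with
  | zero => intro u h; simpa using h
  | succ j ih =>
    rintro u ⟨h, hh⟩
    have : p ∣ b * h := ⟨p ^ j * u, by rw [← hh]; ring⟩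
    rcases hp.dvd_or_dvd this with h1 | ⟨h', rfl⟩
    · exact absurd h1 hb
    · refine ih u ⟨h', ?_⟩
      apply mul_left_cancel₀ hp.ne_zero
      linear_combination hh

open PowerSeries in
theorem step {R : Type} [CommRing R] [IsDomain R] (hR : CIC R) {b c : R⟦X⟧}
    (hb : constantCoeff b ≠ 0) (hc : constantCoeff c ≠ 0) (a : R⟦X⟧)
    (H : ∀ n : ℕ, b ^ n ∣ c * a ^ n) :
    ∃ (q a' : R⟦X⟧), a = q * b + X * a' ∧ ∀ n : ℕ, b ^ n ∣ c * a' ^ n := by
  obtain ⟨q, hq⟩ := hR (constantCoeff a) (constantCoeff b) (constantCoeff c) hb hc (fun n => by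
    have := map_dvd (constantCoeff (R := R)) (H n)
    simpa using this)
  have hX : (X : R⟦X⟧) ∣ a - C q * b := by
    rw [X_dvd_iff]; simp [hq, mul_comm]
  obtain ⟨a', ha'⟩ := hX
  refine ⟨C q, a', by linear_combination ha', fun n => ?_⟩
  have h1 : b ^ n ∣ c * (a - C q * b) ^ n := by
    rw [sub_eq_add_neg, add_pow, Finset.mul_sum]
    refine Finset.dvd_sum fun i hi => ?_
    have hi' : i ≤ n := Nat.lt_succ_iff.1 (Finset.mem_range.1 hi)
    obtain ⟨y, hy⟩ := H i
    refine ⟨y * (-C q) ^ (n - i) * (n.choose i : R⟦X⟧), ?_⟩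
    have : b ^ n = b ^ i * b ^ (n - i) := by rw [← pow_add, Nat.add_sub_cancel' hi']
    rw [this, show -(C q * b) = (-C q) * b by ring, mul_pow]
    linear_combination ((-C q) ^ (n - i) * b ^ (n - i) * (n.choose i : R⟦X⟧)) * hy
  rw [ha', mul_pow, show c * (X ^ n * a' ^ n) = X ^ n * (c * a' ^ n) by ring] at h1
  refine dvd_of_dvd_prime_pow_mul X_prime ?_ n _ h1
  intro h
  have := X_prime.dvd_of_dvd_pow h
  rw [X_dvd_iff] at this
  exact hb this

open PowerSeries in
theorem cic_unit {R : Type} [CommRing R] [IsDomain R] [IsNoetherianRing R] (hR : CIC R)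
    {b c : R⟦X⟧} (hb : constantCoeff b ≠ 0) (hc : c ≠ 0) (a : R⟦X⟧)
    (H : ∀ n : ℕ, b ^ n ∣ c * a ^ n) : b ∣ a := by
  have hXb : ∀ n : ℕ, ¬ (X : R⟦X⟧) ∣ b ^ n := by
    intro n h
    have := X_prime.dvd_of_dvd_pow h
    rw [X_dvd_iff] at this
    exact hb this
  set c' := divXPowOrder c with hc'
  have hc0 : constantCoeff c' ≠ 0 := by
    rw [hc', Ne, constantCoeff_divXPowOrder_eq_zero_iff]; exact hc
  have H' : ∀ n : ℕ, b ^ n ∣ c' * a ^ n := by
    intro n
    refine dvd_of_dvd_prime_pow_mul X_prime (hXb n) c.order.toNat _ ?_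
    rw [← mul_assoc, hc', X_pow_order_mul_divXPowOrder]
    exact H n
  have key : ∀ N : ℕ, ∃ (q a' : R⟦X⟧), a = q * b + X ^ N * a' ∧ ∀ n : ℕ, b ^ n ∣ c' * a' ^ n := by
    intro N
    induction N with
    | zero => exact ⟨0, a, by simp, H'⟩
    | succ N ih =>
      obtain ⟨q, a', h1, h2⟩ := ih
      obtain ⟨q', a'', h3, h4⟩ := step hR hb hc0 a' h2
      refine ⟨q + X ^ N * q', a'', ?_, h4⟩
      rw [h1, h3]; ring
  have hH : IsHausdorff (Ideal.span {X} : Ideal R⟦X⟧) (R⟦X⟧ ⧸ (Ideal.span {b} : Ideal R⟦X⟧)) :=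
    IsHausdorff.of_le_jacobson _ _ (IsAdicComplete.le_jacobson_bot _)
  rw [← Ideal.mem_span_singleton, ← Ideal.Quotient.eq_zero_iff_mem]
  refine hH.haus _ fun N => ?_
  obtain ⟨q, a', h1, -⟩ := key N
  rw [SModEq.zero, h1, map_add, map_mul]
  have hb0 : Ideal.Quotient.mk (Ideal.span {b} : Ideal R⟦X⟧) b = 0 :=
    Ideal.Quotient.eq_zero_iff_mem.2 (Ideal.mem_span_singleton_self b)
  rw [hb0, mul_zero, zero_add]
  have : Ideal.Quotient.mk (Ideal.span {b} : Ideal R⟦X⟧) (X ^ N * a') =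
      (X ^ N : R⟦X⟧) • Ideal.Quotient.mk (Ideal.span {b} : Ideal R⟦X⟧) a' := rfl
  rw [this]
  exact Submodule.smul_mem_smul (Ideal.pow_mem_pow (Ideal.mem_span_singleton_self _) N)
    Submodule.mem_top

open PowerSeries in
theorem cic_powerSeries {R : Type} [CommRing R] [IsDomain R] [IsNoetherianRing R] (hR : CIC R) :
    CIC R⟦X⟧ := by
  intro a b c hb hc H
  set k := b.order.toNat with hk
  set b' := divXPowOrder b with hb'
  have hbb : X ^ k * b' = b := X_pow_order_mul_divXPowOrder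
  have hb0 : constantCoeff b' ≠ 0 := by
    rw [hb', Ne, constantCoeff_divXPowOrder_eq_zero_iff]; exact hb
  have hb'ne : b' ≠ 0 := by rintro h; rw [h] at hb0; simp at hb0
  obtain ⟨h, rfl⟩ := cic_unit hR hb0 hc a (fun n =>
    (pow_dvd_pow_of_dvd (Dvd.intro_left _ hbb) n).trans (H n))
  by_cases hh : h = 0
  · simp [hh]
  have hXk : (X : R⟦X⟧) ^ k ∣ h := by
    have H2 : ∀ n : ℕ, (X : R⟦X⟧) ^ (k * n) ∣ c * h ^ n := by
      intro n
      obtain ⟨y, hy⟩ := H n
      refine ⟨y, ?_⟩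
      apply mul_left_cancel₀ (pow_ne_zero n hb'ne)
      rw [← hbb] at hy
      rw [pow_mul]
      rw [mul_pow, mul_pow] at hy
      linear_combination hy
    have hle : k ≤ h.order.toNat := by
      by_contra hlt
      push Not at hlt
      obtain ⟨y, hy⟩ := H2 (c.order.toNat + 1)
      have ho := congrArg order hy
      rw [order_mul, order_mul, order_pow, order_X_pow, ← coe_toNat_order hc,
        ← coe_toNat_order hh] at ho
      simp only [ENat.toNat_natCast] at ho
      have h3 : ((k * (c.order.toNat + 1) : ℕ) : ℕ∞) ≤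
          ((c.order.toNat + (c.order.toNat + 1) * h.order.toNat : ℕ) : ℕ∞) := by
        calc ((k * (c.order.toNat + 1) : ℕ) : ℕ∞) ≤ (k * (c.order.toNat + 1) : ℕ) + order y :=
              le_self_add
          _ = _ := by rw [← ho]; simp [nsmul_eq_mul]
      have h4 : k * (c.order.toNat + 1) ≤ c.order.toNat + (c.order.toNat + 1) * h.order.toNat := by
        exact_mod_cast h3
      nlinarith
    exact (pow_dvd_pow X hle).trans X_pow_order_dvd
  obtain ⟨g, rfl⟩ := hXk
  exact ⟨g, by rw [← hbb]; ring⟩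

instance isDomain_mv (n : ℕ) : IsDomain (MvPowerSeries (Fin n) ℂ) :=
  NoZeroDivisors.to_isDomain _

theorem cic_mv (n : ℕ) : CIC (MvPowerSeries (Fin n) ℂ) := by
  induction n with
  | zero => exact CIC.of_equiv (MvPowerSeries.isEmptyEquiv (Fin 0) ℂ).toRingEquiv (cic_field ℂ)
  | succ n ih =>
    exact CIC.of_equiv (MvPowerSeries.finSuccEquiv ℂ n).toRingEquiv (cic_powerSeries ih)

theorem CIC.isIntegrallyClosed {R : Type} [CommRing R] [IsDomain R] (hR : CIC R) :
    IsIntegrallyClosed R := by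
  rw [isIntegrallyClosed_iff (FractionRing R)]
  intro x hx
  obtain ⟨c, hc, H⟩ := hx.isAlmostIntegral_of_isLocalization (nonZeroDivisors R) le_rfl
  obtain ⟨a, b, hb, rfl⟩ := IsFractionRing.div_surjective (A := R) x
  have hb0 : b ≠ 0 := nonZeroDivisors.ne_zero hb
  have hb1 : algebraMap R (FractionRing R) b ≠ 0 :=
    IsFractionRing.to_map_ne_zero_of_mem_nonZeroDivisors hb
  obtain ⟨q, rfl⟩ := hR a b c hb0 (nonZeroDivisors.ne_zero hc) (fun n => by
    obtain ⟨y, hy⟩ := H n
    refine ⟨y, IsFractionRing.injective R (FractionRing R) ?_⟩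
    rw [map_mul, map_mul, map_pow, map_pow, hy, Algebra.smul_def, div_pow]
    field_simp)
  exact ⟨q, by rw [map_mul]; field_simp⟩

end CNormAux

/-- `ℂ[[X,Y,Z]]` is completely integrally closed (induction on the number of variables through
`MvPowerSeries.finSuccEquiv`, using lowest coefficients and Krull's intersection theorem). -/
theorem isIntegrallyClosed_PS : IsIntegrallyClosed (PS ℂ) :=
  (CNormAux.cic_mv 3).isIntegrallyClosed

end Crest.Agent.R169
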