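import Crest.Agent.R169.CFree
import Crest.Agent.R169.CNorm
import Crest.Agent.R169.CLoc

/-! # R169 task C56: the complete normal example -/

set_option autoImplicit false

namespace Crest.Agent.R169
open Module

namespace C56Aux

instance : IsDomain (PS ℂ) := NoZeroDivisors.to_isDomain _

theorem exists_lift {A T Ω : Type} [CommRing A] [CommRing T] [IsDomain T] [Field Ω] [IsAlgClosed Ω]
    (ι : A →+* T) (φ : A →+* Ω) (hι : Function.Injective ι) (hφ : Function.Injective φ)
    (hfin : ι.Finite) : ∃ j : T →+* Ω, ∀ a, j (ι a) = φ a := by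
  let _ : Algebra A T := ι.toAlgebra
  let _ : Algebra A Ω := φ.toAlgebra
  have hfinT : Module.Finite A T := hfin
  have : IsDomain A := hι.isDomain _
  have h1 : FaithfulSMul A T := (faithfulSMul_iff_algebraMap_injective A T).2 hι
  have h2 : FaithfulSMul A Ω := (faithfulSMul_iff_algebraMap_injective A Ω).2 hφ
  have h3 : Algebra.IsAlgebraic A T := inferInstance
  let j : T →ₐ[A] Ω := IsAlgClosed.lift
  exact ⟨j.toRingHom, fun a => j.commutes a⟩

/-- `T` maps to a finite extension of `Frac ℂ[[X,Y,Z]]` compatibly with `A` -/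
theorem exists_field (T : Type) [CommRing T] [IsDomain T] [Algebra ℂ T]
    (ιA : MvPolynomial (Fin 3) ℂ →ₐ[ℂ] T) (hinj : Function.Injective ιA)
    (hfin : ιA.toRingHom.Finite) :
    ∃ (L : Type) (_ : Field L) (_ : Algebra (FractionRing (PS ℂ)) L)
      (_ : FiniteDimensional (FractionRing (PS ℂ)) L) (j : T →+* L),
      ∀ f, j (ιA f) = algebraMap (FractionRing (PS ℂ)) L
        (algebraMap (PS ℂ) (FractionRing (PS ℂ)) (f : PS ℂ)) := by
  classical
  let A := MvPolynomial (Fin 3) ℂ
  let F := FractionRing (PS ℂ)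
  let Ω := AlgebraicClosure F
  let _ : Algebra A T := ιA.toRingHom.toAlgebra
  have hfinT : Module.Finite A T := hfin
  let φ : A →+* Ω := (algebraMap F Ω).comp ((algebraMap (PS ℂ) F).comp
    MvPolynomial.coeToMvPowerSeries.ringHom)
  have hφ : Function.Injective φ :=
    (algebraMap F Ω).injective.comp ((IsFractionRing.injective (PS ℂ) F).comp
      (MvPolynomial.coe_injective (Fin 3) ℂ))
  obtain ⟨j, hj⟩ := exists_lift ιA.toRingHom φ hinj hφ hfin
  obtain ⟨s, hs⟩ := Module.Finite.fg_top (R := A) (M := T)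
  let L : IntermediateField F Ω := IntermediateField.adjoin F (j '' (s : Set T))
  have hLfin : FiniteDimensional F L := by
    have : Finite (j '' (s : Set T)) := (s.finite_toSet.image j).to_subtype
    exact IntermediateField.finiteDimensional_adjoin fun x _ => Algebra.IsIntegral.isIntegral x
  have hmem : ∀ t, j t ∈ L := by
    intro t
    have ht : t ∈ Submodule.span A (s : Set T) := hs ▸ Submodule.mem_top
    induction ht using Submodule.span_induction with
    | mem x hx => exact IntermediateField.subset_adjoin F _ ⟨x, hx, rfl⟩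
    | zero => rw [map_zero]; exact L.zero_mem
    | add x y _ _ hx hy => rw [map_add]; exact L.add_mem hx hy
    | smul a x _ hx =>
      have : a • x = ιA.toRingHom a * x := rfl
      rw [this, map_mul, hj]
      exact L.mul_mem (L.algebraMap_mem _) hx
  refine ⟨L, inferInstance, inferInstance, hLfin, j.codRestrict L.toSubring hmem,
    fun f => ?_⟩
  apply Subtype.ext
  exact hj f

theorem residue_bij {R : Type} [CommRing R] [IsLocalRing R] [Algebra (PS ℂ) R]
    [Module.Finite (PS ℂ) R] [Algebra ℂ R] [IsScalarTower ℂ (PS ℂ) R]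
    (hc : (IsLocalRing.maximalIdeal R).comap (algebraMap (PS ℂ) R) =
      IsLocalRing.maximalIdeal (PS ℂ)) :
    Function.Bijective (algebraMap ℂ (IsLocalRing.ResidueField R)) := by
  have hkey : ∀ p : PS ℂ, algebraMap ℂ (IsLocalRing.ResidueField R)
      (MvPowerSeries.constantCoeff p) =
      IsLocalRing.residue R (algebraMap (PS ℂ) R p) := by
    intro p
    have hp : p - algebraMap ℂ (PS ℂ) (MvPowerSeries.constantCoeff p) ∈
        IsLocalRing.maximalIdeal (PS ℂ) := by
      rw [IsLocalRing.mem_maximalIdeal, mem_nonunits_iff, MvPowerSeries.isUnit_iff_constantCoeff]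
      simp [MvPowerSeries.algebraMap_apply]
    rw [← hc, Ideal.mem_comap, map_sub, ← IsScalarTower.algebraMap_apply,
      ← IsLocalRing.residue_eq_zero_iff, map_sub, sub_eq_zero] at hp
    rw [hp]
    rfl
  have hint : Algebra.IsIntegral ℂ (IsLocalRing.ResidueField R) := by
    refine ⟨fun x => ?_⟩
    obtain ⟨r, rfl⟩ := IsLocalRing.residue_surjective x
    obtain ⟨q, hq, hqr⟩ := Algebra.IsIntegral.isIntegral (R := PS ℂ) r
    refine ⟨q.map (MvPowerSeries.constantCoeff (σ := Fin 3) (R := ℂ)), hq.map _, ?_⟩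
    rw [Polynomial.eval₂_map]
    have : (algebraMap ℂ (IsLocalRing.ResidueField R)).comp
        (MvPowerSeries.constantCoeff (σ := Fin 3) (R := ℂ)) =
        (IsLocalRing.residue R).comp (algebraMap (PS ℂ) R) := RingHom.ext hkey
    rw [this, ← Polynomial.hom_eval₂, hqr, map_zero]
  exact IsAlgClosed.algebraMap_bijective_of_isIntegral

end C56Aux

/-- Sketch.  `P = PS ℂ`, `F = FractionRing P`, `Ω = AlgebraicClosure F`.  `T` is a domain algebraic over
`A = ℂ[X,Y,Z]` (via `ιA`), `A → P → Ω` is injective, so `IsAlgClosed.lift` gives `j : T → Ω` over `A`.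
`L = F(j t₁,…,j t_n)` for module generators `t_i` is finite separable over `F` and contains `j T`.
`R = integralClosure P L`: finite over `P` (`IsIntegralClosure.finite`, `isIntegrallyClosed_PS`),
normal domain, Noetherian, local and complete (`finite_local_complete`), dimension 3
(`ringKrullDim_eq_of_integral`), residue field integral over `P/𝔪 = ℂ`, so `= ℂ`
(`IsAlgClosed.algebraMap_bijective_of_isIntegral`).  `j` factors through `R`; a depth-three module
gives by `exists_matrix_rep` a ring map `R → M_N(P)` scalar on `P`, contradicting `NoRep`. -/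
theorem S0256_of_noRep (T : Type) [CommRing T] [IsDomain T] [Algebra ℂ T]
    (ιA : MvPolynomial (Fin 3) ℂ →ₐ[ℂ] T) (hinj : Function.Injective ιA)
    (hfin : ιA.toRingHom.Finite) (h : NoRep T ιA) :
    ∃ (R : Type) (_ : CommRing R) (_ : IsLocalRing R) (_ : Algebra ℂ R),
      IsDomain R ∧ IsNoetherianRing R ∧ IsIntegrallyClosed R ∧
      IsAdicComplete (IsLocalRing.maximalIdeal R) R ∧ ringKrullDim R = 3 ∧
      Function.Bijective (algebraMap ℂ (IsLocalRing.ResidueField R)) ∧
      ∀ (M : Type) [AddCommGroup M] [Module R M], Module.Finite R M → Nontrivial M →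
        ∀ rs : List R, rs.length = 3 → (∀ r ∈ rs, r ∈ IsLocalRing.maximalIdeal R) →
          ¬ RingTheory.Sequence.IsRegular M rs := by
  obtain ⟨L, _, _, _, j, hj⟩ := C56Aux.exists_field T ιA hinj hfin
  let F := FractionRing (PS ℂ)
  let _ : Algebra (PS ℂ) L := ((algebraMap F L).comp (algebraMap (PS ℂ) F)).toAlgebra
  have htow : IsScalarTower (PS ℂ) F L := IsScalarTower.of_algebraMap_eq fun _ => rfl
  have hchar : CharZero F := by
    have : CharZero (PS ℂ) := algebraRat.charZero _
    exact IsFractionRing.charZero (PS ℂ)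
  have hnorm : IsIntegrallyClosed (PS ℂ) := isIntegrallyClosed_PS
  have hcomp := isAdicComplete_PS
  let R := integralClosure (PS ℂ) L
  have hRfin : Module.Finite (PS ℂ) R := IsIntegralClosure.finite (PS ℂ) F L R
  have hRinj : Function.Injective (algebraMap (PS ℂ) R) := by
    intro a b hab
    have h1 : algebraMap (PS ℂ) L a = algebraMap (PS ℂ) L b := congrArg Subtype.val hab
    exact ((algebraMap F L).injective.comp (IsFractionRing.injective (PS ℂ) F)) h1
  obtain ⟨hloc, hcR, hcomap, hnil⟩ := finite_local_complete (A := PS ℂ) (B := R)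
  let algC : Algebra ℂ R := ((algebraMap (PS ℂ) R).comp (algebraMap ℂ (PS ℂ))).toAlgebra
  have htow2 : IsScalarTower ℂ (PS ℂ) R := IsScalarTower.of_algebraMap_eq fun _ => rfl
  have hjmem : ∀ t, j t ∈ R := by
    intro t
    let _ : Algebra (MvPolynomial (Fin 3) ℂ) T := ιA.toRingHom.toAlgebra
    have hfinT : Module.Finite (MvPolynomial (Fin 3) ℂ) T := hfin
    obtain ⟨q, hq, hqt⟩ := Algebra.IsIntegral.isIntegral (R := MvPolynomial (Fin 3) ℂ) t
    refine ⟨q.map MvPolynomial.coeToMvPowerSeries.ringHom, hq.map _, ?_⟩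
    rw [Polynomial.eval₂_map]
    have : (algebraMap (PS ℂ) L).comp MvPolynomial.coeToMvPowerSeries.ringHom =
        j.comp (algebraMap (MvPolynomial (Fin 3) ℂ) T) := RingHom.ext fun f => (hj f).symm
    rw [this, ← Polynomial.hom_eval₂, hqt, map_zero]
  refine ⟨R, inferInstance, hloc, algC, inferInstance, IsNoetherianRing.of_finite (PS ℂ) R,
    integralClosure.isIntegrallyClosedOfFiniteExtension F, hcR, ?_,
    C56Aux.residue_bij hcomap, ?_⟩
  · rw [ringKrullDim_eq_of_integral hRinj, ringKrullDim_PS]
  · intro M _ _ hMfin hMnt rs hlen hrs hreg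
    obtain ⟨N, hN, ρ, hρ⟩ := exists_matrix_rep (A := PS ℂ) (T := R) (M := M)
      (MvPowerSeries.X : Fin 3 → PS ℂ) maximalIdeal_PS rs hlen (fun r hr => by
        obtain ⟨n, hn⟩ := hnil r (hrs r hr)
        refine ⟨n, ?_⟩
        rw [maximalIdeal_PS, Ideal.map_span, ← Set.range_comp] at hn
        exact hn) hreg
    refine h N hN (ρ.comp (j.codRestrict R.toSubring hjmem)) fun f => ?_
    rw [← hρ]
    show ρ _ = ρ _
    congr 1
    exact Subtype.ext (hj f)

end Crest.Agent.R169
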