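import Crest.Agent.R169.Defs

/-! # R169 task CDim: dimension theory -/

set_option autoImplicit false

namespace Crest.Agent.R169
open Module

/-- `≤`: incomparability (`Ideal.comap_lt_comap_of_integral_mem_sdiff` makes `comap` strictly
monotone on primes); `≥`: lying over and `Ideal.exists_ltSeries_of_hasGoingUp`. -/
theorem ringKrullDim_eq_of_integral {A B : Type} [CommRing A] [CommRing B] [Algebra A B]
    [Algebra.IsIntegral A B] (hinj : Function.Injective (algebraMap A B)) :
    ringKrullDim B = ringKrullDim A := by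
  have : FaithfulSMul A B := (faithfulSMul_iff_algebraMap_injective A B).2 hinj
  refine le_antisymm (Order.krullDim_le_of_strictMono (PrimeSpectrum.comap (algebraMap A B))
    fun P Q h => Ideal.IsIntegral.comap_lt_comap (R := A) h) (iSup_le fun l => ?_)
  obtain ⟨P, hP⟩ := Algebra.IsIntegral.comap_surjective A B l.head
  have : P.asIdeal.LiesOver l.head.asIdeal := ⟨by rw [← hP]; rfl⟩
  obtain ⟨L, hL, -⟩ := Ideal.exists_ltSeries_of_hasGoingUp l P.asIdeal
  rw [← hL]
  exact Order.LTSeries.length_le_krullDim L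

/-- a chain ending at `𝔪 ∩ A` lifts (lying over, going up) to a chain ending at a prime over it -/
theorem height_eq_of_unique {A B : Type} [CommRing A] [CommRing B] [Algebra A B]
    [Algebra.IsIntegral A B] (hinj : Function.Injective (algebraMap A B)) (𝔪 : Ideal B)
    [𝔪.IsPrime] (huniq : ∀ Q : Ideal B, Q.IsPrime →
      Q.comap (algebraMap A B) = 𝔪.comap (algebraMap A B) → Q = 𝔪) :
    𝔪.height = (𝔪.comap (algebraMap A B)).height := by
  have : FaithfulSMul A B := (faithfulSMul_iff_algebraMap_injective A B).2 hinj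
  have e1 := PrimeSpectrum.height_eq_orderHeight (⟨𝔪, inferInstance⟩ : PrimeSpectrum B)
  have e2 := PrimeSpectrum.height_eq_orderHeight
    (PrimeSpectrum.comap (algebraMap A B) ⟨𝔪, inferInstance⟩)
  refine e1.trans (Eq.trans ?_ e2.symm)
  refine le_antisymm (Order.height_le_height_apply_of_strictMono
    (PrimeSpectrum.comap (algebraMap A B)) (fun P Q h => Ideal.IsIntegral.comap_lt_comap (R := A) h) _) ?_
  rw [Order.height_le_iff']
  intro l hl
  obtain ⟨P, hP⟩ := Algebra.IsIntegral.comap_surjective A B l.head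
  have : P.asIdeal.LiesOver l.head.asIdeal := ⟨by rw [← hP]; rfl⟩
  obtain ⟨L, hL, -, hm⟩ := Ideal.exists_ltSeries_of_hasGoingUp l P.asIdeal
  have h1 : PrimeSpectrum.comap (algebraMap A B) L.last = l.last := by
    have a := L.getLast_toList
    have b := l.getLast_toList
    rw [← a, ← b]
    simp only [← hm, List.getLast_map]
  have h2 : L.last = ⟨𝔪, inferInstance⟩ :=
    PrimeSpectrum.ext (huniq _ L.last.2 (congrArg PrimeSpectrum.asIdeal (h1.trans hl)))
  rw [← hL, ← h2]
  exact Order.length_le_height_last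

theorem ringKrullDim_mvPoly : ringKrullDim (MvPolynomial (Fin 3) ℂ) = 3 := by
  rw [MvPolynomial.ringKrullDim_of_isNoetherianRing, ringKrullDim_eq_zero_of_field]
  simp

theorem isMaximal_origin :
    (Ideal.span (Set.range (MvPolynomial.X : Fin 3 → MvPolynomial (Fin 3) ℂ))).IsMaximal := by
  have : Ideal.span (Set.range (MvPolynomial.X : Fin 3 → MvPolynomial (Fin 3) ℂ)) =
      RingHom.ker (MvPolynomial.constantCoeff : MvPolynomial (Fin 3) ℂ →+* ℂ) := by
    ext f
    have := MvPolynomial.mem_pow_idealOfVars_iff' 1 f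
    rw [pow_one] at this
    rw [this, RingHom.mem_ker]
    simp [MvPolynomial.constantCoeff_eq, Finsupp.degree_eq_zero_iff]
  rw [this]
  exact RingHom.ker_isMaximal_of_surjective _ fun c => ⟨MvPolynomial.C c, by simp⟩

theorem mem_origin {f : MvPolynomial (Fin 3) ℂ} :
    f ∈ Ideal.span (Set.range (MvPolynomial.X : Fin 3 → MvPolynomial (Fin 3) ℂ)) ↔
      MvPolynomial.constantCoeff f = 0 := by
  have := MvPolynomial.mem_pow_idealOfVars_iff' 1 f
  rw [pow_one] at this
  rw [this]
  simp [MvPolynomial.constantCoeff_eq, Finsupp.degree_eq_zero_iff]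

/-- `≤ 3` from `ringKrullDim_mvPoly`; the chain of kernels of the substitutions killing the first
`i` variables gives `≥ 3`. -/
theorem height_origin :
    (Ideal.span (Set.range (MvPolynomial.X : Fin 3 → MvPolynomial (Fin 3) ℂ))).height = 3 := by
  have hm := isMaximal_origin
  refine le_antisymm ?_ ?_
  · have := Ideal.height_le_ringKrullDim_of_isPrime
      (I := Ideal.span (Set.range (MvPolynomial.X : Fin 3 → MvPolynomial (Fin 3) ℂ)))
    rw [ringKrullDim_mvPoly] at this
    exact WithBot.coe_le_coe.1 this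
  let φ : ℕ → (MvPolynomial (Fin 3) ℂ →ₐ[ℂ] MvPolynomial (Fin 3) ℂ) := fun i =>
    MvPolynomial.aeval fun j => if (j : ℕ) < i then 0 else MvPolynomial.X j
  have hp : ∀ i, (RingHom.ker (φ i)).IsPrime := fun i => RingHom.ker_isPrime _
  have hc : ∀ i, (φ (i + 1)).comp (φ i) = φ (i + 1) := fun i => by
    ext1 j
    by_cases h : (j : ℕ) < i
    · simp only [φ, AlgHom.comp_apply, MvPolynomial.aeval_X, if_pos h,
        if_pos (h.trans (Nat.lt_succ_self i)), map_zero]
    · simp [φ, h]
  have hlt : ∀ i : Fin 3, RingHom.ker (φ i) < RingHom.ker (φ (i + 1)) := fun i => by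
    refine lt_of_le_of_ne (fun f hf => ?_) fun h => ?_
    · rw [RingHom.mem_ker] at hf ⊢
      rw [← hc, AlgHom.comp_apply, hf, map_zero]
    · have : MvPolynomial.X i ∈ RingHom.ker (φ (i + 1)) := by simp [φ, RingHom.mem_ker]
      rw [← h] at this
      simp [φ, RingHom.mem_ker] at this
  have h3 : RingHom.ker (φ 3) ≤
      Ideal.span (Set.range (MvPolynomial.X : Fin 3 → MvPolynomial (Fin 3) ℂ)) := fun f hf => by
    rw [mem_origin]
    have e : (MvPolynomial.constantCoeff : MvPolynomial (Fin 3) ℂ →+* ℂ).comp (φ 3).toRingHom =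
        MvPolynomial.constantCoeff := by
      ext j <;> simp [φ]
    rw [RingHom.mem_ker] at hf
    rw [← e]
    simp [hf]
  have a0 := Ideal.height_add_one_le_of_lt_of_isPrime (hlt 0)
  have a1 := Ideal.height_add_one_le_of_lt_of_isPrime (hlt 1)
  have a2 := Ideal.height_add_one_le_of_lt_of_isPrime (hlt 2)
  refine le_trans ?_ (a2.trans (Ideal.height_mono h3))
  calc (3 : ℕ∞) = 0 + 1 + 1 + 1 := by norm_num
    _ ≤ (RingHom.ker (φ 0)).height + 1 + 1 + 1 := by gcongr; exact zero_le
    _ ≤ (RingHom.ker (φ 1)).height + 1 + 1 := by gcongr; exact a0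
    _ ≤ _ := by gcongr; exact a1

theorem maximalIdeal_PS : IsLocalRing.maximalIdeal (PS ℂ) =
    Ideal.span (Set.range (MvPowerSeries.X : Fin 3 → PS ℂ)) := by
  refine le_antisymm (fun f hf => ?_) ?_
  · have h0 : MvPowerSeries.constantCoeff f = 0 := by
      rw [IsLocalRing.mem_maximalIdeal, mem_nonunits_iff, MvPowerSeries.isUnit_iff_constantCoeff]
        at hf
      simpa using hf
    let f0 : PS ℂ := fun d => if d 0 = 0 then 0 else f d
    let f1 : PS ℂ := fun d => if d 0 = 0 ∧ d 1 ≠ 0 then f d else 0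
    let f2 : PS ℂ := fun d => if d 0 = 0 ∧ d 1 = 0 then f d else 0
    have e : f = f0 + f1 + f2 := by
      ext d
      simp only [map_add]
      change f d = (if d 0 = 0 then 0 else f d) + (if d 0 = 0 ∧ d 1 ≠ 0 then f d else 0) +
        (if d 0 = 0 ∧ d 1 = 0 then f d else 0)
      by_cases a : d 0 = 0 <;> by_cases b : d 1 = 0 <;> simp [a, b]
    have key : ∀ (i : Fin 3) (g : PS ℂ), (∀ m : Fin 3 →₀ ℕ, m i = 0 → g m = 0) →
        g ∈ Ideal.span (Set.range (MvPowerSeries.X : Fin 3 → PS ℂ)) := fun i g hg => by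
      obtain ⟨c, rfl⟩ := MvPowerSeries.X_dvd_iff.2 hg
      exact Ideal.mul_mem_right _ _ (Ideal.subset_span ⟨i, rfl⟩)
    rw [e]
    refine add_mem (add_mem (key 0 _ fun m hm => if_pos hm) (key 1 _ fun m hm =>
      if_neg fun h => h.2 hm)) (key 2 _ fun m hm => ?_)
    by_cases h : m 0 = 0 ∧ m 1 = 0
    · have : m = 0 := by
        ext j
        fin_cases j
        exacts [h.1, h.2, hm]
      subst this
      exact (if_pos h).trans h0
    · exact if_neg h
  · rw [Ideal.span_le]
    rintro _ ⟨i, rfl⟩
    rw [SetLike.mem_coe, IsLocalRing.mem_maximalIdeal, mem_nonunits_iff,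
      MvPowerSeries.isUnit_iff_constantCoeff]
    simp

/-- `≤ 3`: Krull's height theorem for three generators; `≥ 3`: kernels of the ring maps that set the
first `i` variables to zero (e.g. `MvPowerSeries.rescale` by `0/1` vectors) are primes. -/
theorem ringKrullDim_PS : ringKrullDim (PS ℂ) = 3 := by
  refine le_antisymm ?_ ?_
  · rw [← IsLocalRing.maximalIdeal_height_eq_ringKrullDim]
    have h := Ideal.height_le_card_of_mem_minimalPrimes_span
      (p := IsLocalRing.maximalIdeal (PS ℂ))
      (Set.finite_range (MvPowerSeries.X : Fin 3 → PS ℂ)) (by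
        rw [← maximalIdeal_PS, Ideal.minimalPrimes_eq_subsingleton_self]
        rfl)
    have h2 : (Set.range (MvPowerSeries.X : Fin 3 → PS ℂ)).ncard ≤ 3 := by
      rw [← Set.image_univ]
      refine (Set.ncard_image_le Set.finite_univ).trans ?_
      simp
    have h3 : (IsLocalRing.maximalIdeal (PS ℂ)).height ≤ 3 := h.trans (by exact_mod_cast h2)
    exact WithBot.coe_le_coe.2 h3
  · have h : ∀ n : ℕ, (n : WithBot ℕ∞) ≤ ringKrullDim (MvPowerSeries (Fin n) ℂ) := fun n => by
      induction n with
      | zero => exact ringKrullDim_nonneg_of_nontrivial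
      | succ n ih =>
        rw [ringKrullDim_eq_of_ringEquiv (MvPowerSeries.finSuccEquiv ℂ n).toRingEquiv]
        refine le_trans ?_ ringKrullDim_succ_le_ringKrullDim_powerseries
        push_cast
        gcongr
    exact h 3

theorem isAdicComplete_PS : IsAdicComplete (IsLocalRing.maximalIdeal (PS ℂ)) (PS ℂ) := by
  rw [maximalIdeal_PS]
  infer_instance

end Crest.Agent.R169
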