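import Crest.Agent.R169.CFree
import Crest.Agent.R169.CDim

/-! # R169 task C57: the graded example -/

set_option autoImplicit false

namespace Crest.Agent.R169
open Module

/-- a homogeneous element of positive degree has a power in `(X) T`: take the degree `n d` component
of a monic equation `a^n + ∑ ιA(f_i) a^(n-i) = 0` (`ιA` maps forms of degree `e` to `𝒜 e`). -/
theorem irrelevant_nil (T : Type) [CommRing T] [Algebra ℂ T] (𝒜 : ℕ → Submodule ℂ T)
    [GradedAlgebra 𝒜] (ιA : MvPolynomial (Fin 3) ℂ →ₐ[ℂ] T) (hfin : ιA.toRingHom.Finite)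
    (hX : ∀ i, ιA (MvPolynomial.X i) ∈ 𝒜 1) :
    (HomogeneousIdeal.irrelevant 𝒜).toIdeal ≤
      (Ideal.span (Set.range fun i => ιA (MvPolynomial.X i))).radical := by
  set I := Ideal.span (Set.range fun i => ιA (MvPolynomial.X i)) with hI
  have hIh : I.IsHomogeneous 𝒜 := Ideal.homogeneous_span _ _ (by
    rintro _ ⟨i, rfl⟩
    exact ⟨1, hX i⟩)
  have hc : ∀ f : MvPolynomial (Fin 3) ℂ,
      ιA f - algebraMap ℂ T (MvPolynomial.constantCoeff f) ∈ I := fun f => by
    have h1 : f - MvPolynomial.C (MvPolynomial.constantCoeff f) ∈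
        Ideal.span (Set.range (MvPolynomial.X : Fin 3 → MvPolynomial (Fin 3) ℂ)) :=
      mem_origin.2 (by simp)
    have h2 := Ideal.mem_map_of_mem ιA h1
    rw [Ideal.map_span, ← Set.range_comp, map_sub, ← MvPolynomial.algebraMap_eq,
      AlgHom.commutes] at h2
    exact h2
  rw [HomogeneousIdeal.irrelevant_eq_span, Ideal.span_le]
  intro a ha
  simp only [Set.mem_iUnion] at ha
  obtain ⟨d, hd, ha⟩ := ha
  obtain ⟨p, hp, hpa⟩ := hfin.to_isIntegral a
  rw [Polynomial.eval₂_eq_sum_range, Finset.sum_range_succ, hp.coeff_natDegree, map_one,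
    one_mul] at hpa
  have h1 : ∑ i ∈ Finset.range p.natDegree, MvPolynomial.constantCoeff (p.coeff i) • a ^ i +
      a ^ p.natDegree ∈ I := by
    have : ∑ i ∈ Finset.range p.natDegree, MvPolynomial.constantCoeff (p.coeff i) • a ^ i +
        a ^ p.natDegree = -∑ i ∈ Finset.range p.natDegree,
          (ιA (p.coeff i) - algebraMap ℂ T (MvPolynomial.constantCoeff (p.coeff i))) * a ^ i := by
      simp only [sub_mul, Finset.sum_sub_distrib, Algebra.smul_def]
      exact by linear_combination hpa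
    rw [this]
    exact neg_mem (Ideal.sum_mem _ fun i _ => Ideal.mul_mem_right _ _ (hc _))
  have h2 := hIh (p.natDegree • d) h1
  rw [← GradedRing.proj_apply, map_add, map_sum, Finset.sum_eq_zero, zero_add,
    GradedRing.proj_apply, DirectSum.decompose_of_mem_same 𝒜 (SetLike.pow_mem_graded _ ha)] at h2
  · exact ⟨_, h2⟩
  · intro i hi
    rw [GradedRing.proj_apply]
    refine DirectSum.decompose_of_mem_ne 𝒜
      (Submodule.smul_mem _ _ (SetLike.pow_mem_graded i ha)) fun h => ?_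
    simp only [smul_eq_mul] at h
    exact (Finset.mem_range.1 hi).ne (Nat.eq_of_mul_eq_mul_right hd h)

/-- Sketch.  `𝔪` = irrelevant ideal = kernel of `T → 𝒜 0 = ℂ`; `𝔪 ∩ A = (X)`, and by `irrelevant_nil` it is
the only prime over `(X)`.  Dimensions: `ringKrullDim_eq_of_integral`, `height_eq_of_unique`,
`height_origin`, `IsLocalization.AtPrime.ringKrullDim_eq_height`.  `A' = Localization.AtPrime (X)`;
`T_𝔪` is finite over `A'` (an `s ∉ 𝔪` satisfies a monic equation over `A`; equivalently `s` divides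
`ιA a` for some `a ∉ (X)`: otherwise `(s) ∩ A ⊆ (X)` and going-up/lying-over for `A/((s) ∩ A) → T/(s)`
gives a prime over `(X)` containing `s`).  `exists_matrix_rep` over `A'`, then map the entries by
`A' → PS ℂ` (`IsLocalization.lift`) to contradict `NoRep`. -/
theorem S0257_of_noRep (T : Type) [CommRing T] [IsDomain T] [Algebra ℂ T] (𝒜 : ℕ → Submodule ℂ T)
    [GradedAlgebra 𝒜] (ιA : MvPolynomial (Fin 3) ℂ →ₐ[ℂ] T) (hinj : Function.Injective ιA)
    (hfin : ιA.toRingHom.Finite) (hX : ∀ i, ιA (MvPolynomial.X i) ∈ 𝒜 1)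
    (h0 : ∀ a ∈ 𝒜 0, ∃ c : ℂ, algebraMap ℂ T c = a) (h : NoRep T ιA) :
    ∃ (_ : (HomogeneousIdeal.irrelevant 𝒜).toIdeal.IsMaximal),
      Algebra.FiniteType ℂ T ∧ IsDomain T ∧ ringKrullDim T = 3 ∧
      Function.Bijective (algebraMap ℂ (T ⧸ (HomogeneousIdeal.irrelevant 𝒜).toIdeal)) ∧
      ringKrullDim (Localization.AtPrime (HomogeneousIdeal.irrelevant 𝒜).toIdeal) = 3 ∧
      ∀ (M : Type) [AddCommGroup M]
        [Module (Localization.AtPrime (HomogeneousIdeal.irrelevant 𝒜).toIdeal) M],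
        Module.Finite (Localization.AtPrime (HomogeneousIdeal.irrelevant 𝒜).toIdeal) M →
        Nontrivial M →
        ∀ rs : List (Localization.AtPrime (HomogeneousIdeal.irrelevant 𝒜).toIdeal), rs.length = 3 →
          (∀ r ∈ rs, r ∈ IsLocalRing.maximalIdeal
            (Localization.AtPrime (HomogeneousIdeal.irrelevant 𝒜).toIdeal)) →
          ¬ RingTheory.Sequence.IsRegular M rs := by
  set 𝔪 := (HomogeneousIdeal.irrelevant 𝒜).toIdeal with h𝔪
  have hne : 𝔪 ≠ ⊤ := RingHom.ker_ne_top _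
  have : Nontrivial (T ⧸ 𝔪) := Ideal.Quotient.nontrivial_iff.2 hne
  have hbij : Function.Bijective (algebraMap ℂ (T ⧸ 𝔪)) := by
    refine ⟨(algebraMap ℂ (T ⧸ 𝔪)).injective, fun z => ?_⟩
    obtain ⟨a, rfl⟩ := Ideal.Quotient.mk_surjective z
    obtain ⟨c, hc⟩ := h0 _ (DirectSum.decompose 𝒜 a 0).2
    refine ⟨c, ?_⟩
    rw [IsScalarTower.algebraMap_apply ℂ T, Ideal.Quotient.algebraMap_eq, Ideal.Quotient.eq, hc]
    change GradedRing.proj 𝒜 0 _ = 0
    rw [map_sub, GradedRing.proj_apply, GradedRing.proj_apply,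
      DirectSum.decompose_of_mem_same 𝒜 (DirectSum.decompose 𝒜 a 0).2, sub_self]
  have hmax : 𝔪.IsMaximal := Ideal.Quotient.maximal_of_isField _
    ((RingEquiv.ofBijective _ hbij).symm.toMulEquiv.isField (Field.toIsField ℂ))
  refine ⟨hmax, ?_⟩
  letI : Algebra (MvPolynomial (Fin 3) ℂ) T := ιA.toRingHom.toAlgebra
  have : IsScalarTower ℂ (MvPolynomial (Fin 3) ℂ) T :=
    .of_algebraMap_eq fun c => (ιA.commutes c).symm
  have : Module.Finite (MvPolynomial (Fin 3) ℂ) T := hfin
  set 𝔬 := Ideal.span (Set.range (MvPolynomial.X : Fin 3 → MvPolynomial (Fin 3) ℂ)) with h𝔬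
  have ho : 𝔬.IsMaximal := isMaximal_origin
  have hcomap : 𝔬 = 𝔪.comap (algebraMap (MvPolynomial (Fin 3) ℂ) T) := by
    refine ho.eq_of_le (Ideal.comap_ne_top _ hne) (Ideal.span_le.2 ?_)
    rintro _ ⟨i, rfl⟩
    exact HomogeneousIdeal.mem_irrelevant_of_mem 𝒜 one_pos (hX i)
  have hnil := irrelevant_nil T 𝒜 ιA hfin hX
  have huniq : ∀ Q : Ideal T, Q.IsPrime → Q.comap (algebraMap (MvPolynomial (Fin 3) ℂ) T) =
      𝔪.comap (algebraMap (MvPolynomial (Fin 3) ℂ) T) → Q = 𝔪 := fun Q hQ e => by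
    refine (hmax.eq_of_le hQ.ne_top (hnil.trans (hQ.radical_le_iff.2 (Ideal.span_le.2 ?_)))).symm
    rintro _ ⟨i, rfl⟩
    have : MvPolynomial.X i ∈ 𝔬 := Ideal.subset_span ⟨i, rfl⟩
    rw [hcomap, ← e] at this
    exact this
  refine ⟨.trans (S := MvPolynomial (Fin 3) ℂ) inferInstance inferInstance, inferInstance,
    (ringKrullDim_eq_of_integral hinj).trans ringKrullDim_mvPoly, hbij, ?_, ?_⟩
  · rw [IsLocalization.AtPrime.ringKrullDim_eq_height 𝔪, height_eq_of_unique hinj 𝔪 huniq,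
      ← hcomap, height_origin]
    rfl
  intro M _ _ _ _ rs hlen hrs hreg
  have : 𝔪.LiesOver 𝔬 := ⟨hcomap⟩
  letI := Localization.AtPrime.algebraOfLiesOver 𝔬 𝔪
  have : Module.Finite (Localization.AtPrime 𝔬) (Localization.AtPrime 𝔪) :=
    Localization.finite_of_primesOver_eq_singleton (by
      ext Q
      exact ⟨fun hQ => huniq Q hQ.1 (hQ.2.over.symm.trans hcomap), fun hQ => by
        rw [Set.mem_singleton_iff.1 hQ]; exact ⟨inferInstance, inferInstance⟩⟩)
  have hmap : ∀ f : MvPolynomial (Fin 3) ℂ,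
      algebraMap (Localization.AtPrime 𝔬) (Localization.AtPrime 𝔪) (algebraMap _ _ f) =
        algebraMap T _ (ιA f) := fun f => Localization.localRingHom_to_map _ _ _ _ f
  obtain ⟨N, hN, ρ, hρ⟩ := exists_matrix_rep (A := Localization.AtPrime 𝔬) (M := M)
    (fun i => algebraMap _ _ (MvPolynomial.X i : MvPolynomial (Fin 3) ℂ)) (by
      rw [← Localization.AtPrime.map_eq_maximalIdeal]
      exact (Ideal.map_span _ _).trans (congrArg Ideal.span (Set.range_comp _ _).symm)) rs hlen (fun r hr => by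
      have h1 := hrs r hr
      rw [← Localization.AtPrime.map_eq_maximalIdeal] at h1
      have h2 := Ideal.map_radical_le _ (Ideal.map_mono hnil h1)
      rw [Ideal.map_span, ← Set.range_comp] at h2
      simp only [hmap]
      exact h2) hreg
  have hu : ∀ y : 𝔬.primeCompl,
      IsUnit ((MvPolynomial.coeToMvPowerSeries.ringHom : _ →+* PS ℂ) y) := fun y => by
    rw [MvPowerSeries.isUnit_iff_constantCoeff, isUnit_iff_ne_zero]
    intro e
    exact y.2 (mem_origin.2 e)
  let ψ : Localization.AtPrime 𝔬 →+* PS ℂ := IsLocalization.lift hu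
  refine h N hN ((ψ.mapMatrix.comp ρ).comp (algebraMap T _)) fun f => ?_
  rw [RingHom.comp_apply, RingHom.comp_apply, ← hmap, hρ]
  ext1 i j
  have hψ : ψ (algebraMap _ _ f) = (f : PS ℂ) := IsLocalization.lift_eq hu f
  rw [RingHom.mapMatrix_apply, Matrix.map_apply, Matrix.smul_apply, Matrix.smul_apply, smul_eq_mul,
    smul_eq_mul, map_mul, hψ]
  simp only [Matrix.one_apply]
  split_ifs <;> simp

end Crest.Agent.R169
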