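import Crest.Agent.R169.Defs

/-! # R169 task CFree: a module of depth three over `𝔪 = (x,y,z)` is free -/

set_option autoImplicit false

namespace Crest.Agent.R169
open Module

namespace CFREE
open scoped Pointwise

variable {T : Type} [CommRing T] (y : Fin 3 → T)

def K0 (M : Type) [AddCommGroup M] [Module T M] : Prop := ∀ m : M, (∀ i, y i • m = 0) → m = 0
def K1 (M : Type) [AddCommGroup M] [Module T M] : Prop :=
  ∀ m : Fin 3 → M, (∀ i j, y i • m j = y j • m i) → ∃ a : M, ∀ i, m i = y i • a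
def curl {M : Type} [AddCommGroup M] [Module T M] (n : Fin 3 → M) : Fin 3 → M :=
  ![y 1 • n 2 - y 2 • n 1, y 2 • n 0 - y 0 • n 2, y 0 • n 1 - y 1 • n 0]
def K2 (M : Type) [AddCommGroup M] [Module T M] : Prop :=
  ∀ m : Fin 3 → M, y 0 • m 0 + y 1 • m 1 + y 2 • m 2 = 0 → ∃ n : Fin 3 → M, m = curl y n

theorem step {B C : Type} [AddCommGroup C] [Module T C] (d : B → C) {r : T}
    (hr : IsSMulRegular C r) (H : ∀ b c, d b = r • c → ∃ b', d b = r • d b') (n : ℕ) (c : C)
    (h : ∃ b, r ^ n • c = d b) : ∃ b, c = d b := by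
  induction n with
  | zero => simpa using h
  | succ n ih =>
    obtain ⟨b, hb⟩ := h
    rw [pow_succ', mul_smul] at hb
    obtain ⟨b', hb'⟩ := H b _ hb.symm
    exact ih ⟨b', hr (hb.trans hb')⟩

theorem span_ind {t : T} (ht : t ∈ Ideal.span (Set.range y)) :
    ∃ a : Fin 3 → T, t = a 0 * y 0 + a 1 * y 1 + a 2 * y 2 := by
  obtain ⟨a, ha⟩ := Ideal.mem_span_range_iff_exists_fun.1 ht
  exact ⟨a, by rw [← ha, Fin.sum_univ_three]⟩

variable {M : Type} [AddCommGroup M] [Module T M]

theorem mk_eq_zero {r : T} {m : M} :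
    (Submodule.Quotient.mk m : QuotSMulTop r M) = 0 ↔ ∃ b, r • b = m := by
  rw [Submodule.Quotient.mk_eq_zero, Submodule.mem_smul_pointwise_iff_exists]
  simp only [Submodule.mem_top, true_and]

theorem k0 {r : T} (hr : IsSMulRegular M r) {n : ℕ} (hn : r ^ n ∈ Ideal.span (Set.range y)) :
    K0 y M := by
  intro m hm
  obtain ⟨a, ha⟩ := span_ind y hn
  apply hr.pow n
  show r ^ n • m = r ^ n • (0 : M)
  rw [ha]; simp [add_smul, mul_smul, hm]

theorem k1 {r : T} (hr : IsSMulRegular M r) {n : ℕ} (hn : r ^ n ∈ Ideal.span (Set.range y))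
    (h : K0 y (QuotSMulTop r M)) : K1 y M := by
  intro m hm
  obtain ⟨a, ha⟩ := span_ind y hn
  have hr' : IsSMulRegular (Fin 3 → M) r := fun u v e => funext fun i => hr (congrFun e i)
  suffices H : ∃ b : M, m = fun i => y i • b by
    obtain ⟨b, hb⟩ := H
    exact ⟨b, fun i => congrFun hb i⟩
  refine step (fun (b : M) (i : Fin 3) => y i • b) hr' ?_ n m
    ⟨a 0 • m 0 + a 1 • m 1 + a 2 • m 2, ?_⟩
  · intro b c e
    have : (Submodule.Quotient.mk b : QuotSMulTop r M) = 0 := by
      apply h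
      intro i
      rw [← Submodule.Quotient.mk_smul, mk_eq_zero]
      exact ⟨c i, (congrFun e i).symm⟩
    obtain ⟨b', rfl⟩ := mk_eq_zero.1 this
    exact ⟨b', funext fun i => by simp [smul_comm r]⟩
  · funext i
    simp only [Pi.smul_apply, ha, add_smul, mul_smul, smul_add, hm _ i, smul_comm (y i)]

theorem k2 {r : T} (hr : IsSMulRegular M r) {n : ℕ} (hn : r ^ n ∈ Ideal.span (Set.range y))
    (h : K1 y (QuotSMulTop r M)) : K2 y M := by
  intro m hm
  obtain ⟨a, ha⟩ := span_ind y hn
  have hr' : IsSMulRegular (Fin 3 → M) r := fun u v e => funext fun i => hr (congrFun e i)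
  refine step (curl y) hr' ?_ n m
    ⟨![a 2 • m 1 - a 1 • m 2, a 0 • m 2 - a 2 • m 0, a 1 • m 0 - a 0 • m 1], ?_⟩
  · intro b c e
    have e0 : y 1 • b 2 - y 2 • b 1 = r • c 0 := congrFun e 0
    have e1 : y 2 • b 0 - y 0 • b 2 = r • c 1 := congrFun e 1
    have e2 : y 0 • b 1 - y 1 • b 0 = r • c 2 := congrFun e 2
    have q : ∀ i j (w : M), y i • b j - y j • b i = r • w →
        y i • (Submodule.Quotient.mk (b j) : QuotSMulTop r M) =
          y j • Submodule.Quotient.mk (b i) := by
      intro i j w hw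
      rw [← sub_eq_zero, ← Submodule.Quotient.mk_smul, ← Submodule.Quotient.mk_smul,
        ← Submodule.Quotient.mk_sub, mk_eq_zero]
      exact ⟨w, hw.symm⟩
    obtain ⟨u, hu⟩ := h (fun i => Submodule.Quotient.mk (b i)) (by
      intro i j
      fin_cases i <;> fin_cases j
      · rfl
      · exact q 0 1 _ e2
      · exact (q 2 0 _ e1).symm
      · exact (q 0 1 _ e2).symm
      · rfl
      · exact q 1 2 _ e0
      · exact q 2 0 _ e1
      · exact (q 1 2 _ e0).symm
      · rfl)
    obtain ⟨u, rfl⟩ := Submodule.Quotient.mk_surjective _ u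
    have : ∀ i, ∃ w, r • w = b i - y i • u := by
      intro i
      rw [← mk_eq_zero, Submodule.Quotient.mk_sub, Submodule.Quotient.mk_smul, sub_eq_zero]
      exact hu i
    choose w hw using this
    have hb : ∀ i, b i = y i • u + r • w i := fun i => by rw [hw]; abel
    refine ⟨w, funext fun i => ?_⟩
    fin_cases i <;> simp [curl, hb] <;> module
  · funext i
    fin_cases i
    · simp only [curl, ha]
      simp
      linear_combination (norm := module) a 0 • hm
    · simp only [curl, ha]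
      simp
      linear_combination (norm := module) a 1 • hm
    · simp only [curl, ha]
      simp
      linear_combination (norm := module) a 2 • hm

end CFREE

/-- Sketch (Koszul chase, for `T`-modules `M`; `x_i` acting through `algebraMap`).
`K0 M`: `(∀ i, x_i m = 0) → m = 0`.  `K1 M`: `(∀ i j, x_i m_j = x_j m_i) → ∃ m, ∀ i, m_i = x_i m`.
`K2 M`: `∑ x_i m_i = 0 → ∃ n₀ n₁ n₂, m = (x₁n₂ - x₂n₁, x₂n₀ - x₀n₂, x₀n₁ - x₁n₀)`.
Each `x_i` kills cocycles modulo coboundaries (explicit homotopies), hence so does `r^n` for `r ∈ rs`.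
If `r` is `M`-regular: `K0 M` holds; `K0 (M/rM) → K1 M`; `K1 (M/rM) → K2 M`
(if `r c` is a coboundary `d b`, then `b̄` is a cocycle in `M/rM`, so `b = d a + r b'` and `c = d b'`;
induct on `n`).  So `K2 M` holds, which makes `𝔪 ⊗ M → M` injective (every element is
`∑ x_i ⊗ m_i`), and `Module.free_of_maximalIdeal_rTensor_injective` makes `M` free over `A`, of
rank `N > 0`; `ρ t = LinearMap.toMatrix b b (t • ·)`. -/
theorem exists_matrix_rep {A T M : Type} [CommRing A] [IsLocalRing A] [IsNoetherianRing A]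
    [CommRing T] [Algebra A T] [Module.Finite A T] [AddCommGroup M] [Module T M]
    [Module.Finite T M] [Nontrivial M] (x : Fin 3 → A)
    (hx : IsLocalRing.maximalIdeal A = Ideal.span (Set.range x)) (rs : List T)
    (hlen : rs.length = 3)
    (hnil : ∀ r ∈ rs, ∃ n : ℕ, r ^ n ∈ Ideal.span (Set.range fun i => algebraMap A T (x i)))
    (hreg : RingTheory.Sequence.IsRegular M rs) :
    ∃ N : ℕ, 0 < N ∧ ∃ ρ : T →+* Matrix (Fin N) (Fin N) A,
      ∀ a, ρ (algebraMap A T a) = a • 1 := by
  classical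
  obtain ⟨r1, r2, r3, rfl⟩ : ∃ r1 r2 r3, rs = [r1, r2, r3] := List.length_eq_three.1 hlen
  have hw := hreg.toIsWeaklyRegular
  rw [RingTheory.Sequence.isWeaklyRegular_cons_iff, RingTheory.Sequence.isWeaklyRegular_cons_iff,
    RingTheory.Sequence.isWeaklyRegular_cons_iff] at hw
  obtain ⟨h1, h2, h3, -⟩ := hw
  obtain ⟨n1, e1⟩ := hnil r1 (by simp)
  obtain ⟨n2, e2⟩ := hnil r2 (by simp)
  obtain ⟨n3, e3⟩ := hnil r3 (by simp)
  have hK : CFREE.K2 (fun i => algebraMap A T (x i)) M :=
    CFREE.k2 _ h1 e1 (CFREE.k1 _ h2 e2 (CFREE.k0 _ h3 e3))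
  let _ : Module A M := Module.compHom M (algebraMap A T)
  have hs : ∀ (a : A) (m : M), a • m = algebraMap A T a • m := fun _ _ => rfl
  have : IsScalarTower A T M := ⟨fun a t m => by rw [hs, Algebra.smul_def, mul_smul]⟩
  have : Module.Finite A M := Module.Finite.trans T M
  have : Module.FinitePresentation A M := Module.finitePresentation_of_finite A M
  let X : Fin 3 → IsLocalRing.maximalIdeal A := fun i =>
    ⟨x i, by rw [hx]; exact Ideal.subset_span ⟨i, rfl⟩⟩
  have hsw : ∀ i j (n : M), X i ⊗ₜ[A] (x j • n) = X j ⊗ₜ[A] (x i • n) := by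
    intro i j n
    rw [← TensorProduct.smul_tmul, ← TensorProduct.smul_tmul]
    congr 1
    exact Subtype.ext (mul_comm _ _)
  have hgen : ∀ z : TensorProduct A (IsLocalRing.maximalIdeal A) M, ∃ m : Fin 3 → M,
      z = X 0 ⊗ₜ[A] m 0 + X 1 ⊗ₜ[A] m 1 + X 2 ⊗ₜ[A] m 2 := by
    intro z
    induction z using TensorProduct.induction_on with
    | zero => exact ⟨0, by simp⟩
    | tmul a m =>
      obtain ⟨c, hc⟩ := CFREE.span_ind x (t := a.1) (by rw [← hx]; exact a.2)
      have : a = c 0 • X 0 + c 1 • X 1 + c 2 • X 2 := Subtype.ext hc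
      refine ⟨fun i => c i • m, ?_⟩
      rw [this]
      simp only [TensorProduct.add_tmul, TensorProduct.smul_tmul]
    | add z w hz hw =>
      obtain ⟨m, rfl⟩ := hz
      obtain ⟨m', rfl⟩ := hw
      exact ⟨m + m', by simp only [Pi.add_apply, TensorProduct.tmul_add]; abel⟩
  have hinj : Function.Injective ((IsLocalRing.maximalIdeal A).subtype.rTensor M) := by
    rw [injective_iff_map_eq_zero]
    intro z hz
    obtain ⟨m, rfl⟩ := hgen z
    have e := congrArg (TensorProduct.lid A M) hz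
    simp only [map_add, LinearMap.rTensor_tmul, TensorProduct.lid_tmul, map_zero] at e
    obtain ⟨n, rfl⟩ := hK m e
    simp only [CFREE.curl, ← hs, Matrix.cons_val_zero, Matrix.cons_val_one, Matrix.cons_val,
      TensorProduct.tmul_sub]
    rw [hsw 0 1, hsw 0 2, hsw 1 2]
    abel
  have : Module.Free A M := Module.free_of_maximalIdeal_rTensor_injective hinj
  let b := Module.finBasis A M
  refine ⟨finrank A M, (Module.finrank_pos_iff_of_free A M).2 inferInstance,
    ((LinearMap.toMatrixAlgEquiv b).toAlgHom.comp (Algebra.lsmul A A M)).toRingHom, fun a => ?_⟩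
  have := ((LinearMap.toMatrixAlgEquiv b).toAlgHom.comp (Algebra.lsmul A A M)).commutes
    (A := T) a
  rw [← Algebra.algebraMap_eq_smul_one]
  exact this

end Crest.Agent.R169
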