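import Crest.Agent.R169.EAlg

/-! # R169 task CT: the graded ring `T = ⊕ R₀(n) tⁿ ⊆ K[t]` -/

set_option autoImplicit false

namespace Crest.Agent.R169
open Module

section CTaux
variable {K : Type} [Field K] [Algebra ℂ K]

/-- the graded ring inside `K[X]` -/
private noncomputable def ctT (M : Model ℂ K) : Subalgebra ℂ (Polynomial K) where
  carrier := {f | ∀ n : ℕ, f.coeff n ∈ exR0 M n}
  mul_mem' := by
    intro f g hf hg n
    rw [Polynomial.coeff_mul]
    refine Submodule.sum_mem _ (fun ij hij => ?_)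
    have := exR0_mul M (hf ij.1) (hg ij.2)
    rwa [← Nat.cast_add, Finset.HasAntidiagonal.mem_antidiagonal.1 hij] at this
  add_mem' := by
    intro f g hf hg n
    rw [Polynomial.coeff_add]
    exact Submodule.add_mem _ (hf n) (hg n)
  algebraMap_mem' := by
    intro c n
    rw [Polynomial.algebraMap_apply, Polynomial.coeff_C]
    split_ifs with h
    · subst h
      exact (mem_exR0_zero M).2 ⟨c, rfl⟩
    · exact Submodule.zero_mem _

private noncomputable def ctEl (M : Model ℂ K) (n : ℕ) (a : K) (ha : a ∈ exR0 M n) : ctT M :=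
  ⟨Polynomial.monomial n a, fun m => by
    rw [Polynomial.coeff_monomial]
    split_ifs with h
    · subst h; exact ha
    · exact Submodule.zero_mem _⟩

private theorem ctEl_coe (M : Model ℂ K) (n : ℕ) (a : K) (ha : a ∈ exR0 M n) :
    (ctEl M n a ha : Polynomial K) = Polynomial.monomial n a := rfl

private theorem ct_sum (M : Model ℂ K) (f : ctT M) :
    f = ∑ n ∈ (f : Polynomial K).support, ctEl M n ((f : Polynomial K).coeff n) (f.2 n) := by
  apply Subtype.ext
  rw [AddSubmonoidClass.coe_finsetSum]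
  exact Polynomial.as_sum_support _

private noncomputable def ctA (M : Model ℂ K) (n : ℕ) : Submodule ℂ (ctT M) where
  carrier := {f | ∀ m ≠ n, (f : Polynomial K).coeff m = 0}
  zero_mem' := fun m _ => by simp
  add_mem' := fun {f g} hf hg m hm => by
    rw [Subalgebra.coe_add, Polynomial.coeff_add, hf m hm, hg m hm, add_zero]
  smul_mem' := fun c f hf m hm => by
    rw [Subalgebra.coe_smul, Polynomial.coeff_smul, hf m hm, smul_zero]

private theorem ctEl_mem (M : Model ℂ K) (n : ℕ) (a : K) (ha : a ∈ exR0 M n) :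
    ctEl M n a ha ∈ ctA M n := fun m hm => by
  rw [ctEl_coe, Polynomial.coeff_monomial, if_neg (Ne.symm hm)]

private theorem ct_internal (M : Model ℂ K) : DirectSum.IsInternal (ctA M) := by
  apply DirectSum.isInternal_submodule_of_iSupIndep_of_iSup_eq_top
  · intro n
    rw [Submodule.disjoint_def]
    intro f hf hf'
    have h0 : (f : Polynomial K).coeff n = 0 := by
      let W : Submodule ℂ (ctT M) :=
        { carrier := {f | (f : Polynomial K).coeff n = 0}
          zero_mem' := by simp
          add_mem' := fun {f g} hf hg => by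
            change ((f + g : ctT M) : Polynomial K).coeff n = 0
            rw [Subalgebra.coe_add, Polynomial.coeff_add, hf, hg, add_zero]
          smul_mem' := fun c f hf => by
            change ((c • f : ctT M) : Polynomial K).coeff n = 0
            rw [Subalgebra.coe_smul, Polynomial.coeff_smul, hf, smul_zero] }
      have hle : (⨆ j, ⨆ (_ : j ≠ n), ctA M j) ≤ W :=
        iSup_le fun j => iSup_le fun hj g hg => hg n (Ne.symm hj)
      exact hle hf'
    apply Subtype.ext
    ext m
    by_cases hm : m = n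
    · rw [hm, h0]; simp
    · rw [hf m hm]; simp
  · rw [eq_top_iff]
    intro f _
    rw [ct_sum M f]
    exact Submodule.sum_mem _ (fun n _ => Submodule.mem_iSup_of_mem n (ctEl_mem M n _ _))

@[reducible] private noncomputable def ctGr (M : Model ℂ K) : GradedAlgebra (ctA M) :=
  { (ct_internal M).chooseDecomposition with
    one_mem := fun m hm => by
      rw [Subalgebra.coe_one, Polynomial.coeff_one, if_neg hm]
    mul_mem := fun i j f g hf hg m hm => by
      rw [Subalgebra.coe_mul, Polynomial.coeff_mul]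
      refine Finset.sum_eq_zero (fun ij hij => ?_)
      have h := Finset.HasAntidiagonal.mem_antidiagonal.1 hij
      by_cases h1 : ij.1 = i
      · rw [hg ij.2 (by omega), mul_zero]
      · rw [hf ij.1 h1, zero_mul] }

private noncomputable def ctι (M : Model ℂ K) (L : NN) : MvPolynomial (Fin 3) ℂ →ₐ[ℂ] ctT M :=
  MvPolynomial.aeval (fun i => ctEl M 1 (lf M L i) (lf_mem M L i))

private theorem ctι_hom (M : Model ℂ K) (L : NN) {e : ℕ} {F : MvPolynomial (Fin 3) ℂ}
    (hF : F.IsHomogeneous e) : (ctι M L F : Polynomial K) =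
      Polynomial.monomial e (MvPolynomial.aeval (lf M L) F) := by
  have h1 : (ctι M L F : Polynomial K) =
      MvPolynomial.aeval (fun i => Polynomial.monomial 1 (lf M L i)) F := by
    have := MvPolynomial.map_aeval (fun i => ctEl M 1 (lf M L i) (lf_mem M L i))
      ((ctT M).val : ctT M →+* Polynomial K) F
    exact this
  rw [h1]
  conv_lhs => rw [F.as_sum]
  conv_rhs => rw [F.as_sum]
  rw [map_sum, map_sum, map_sum]
  refine Finset.sum_congr rfl (fun d hd => ?_)
  have hdeg : ∑ i, d i = e := by
    have := hF (MvPolynomial.mem_support_iff.1 hd)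
    rw [← this, Finsupp.weight_apply, Finsupp.sum_fintype _ _ (by simp)]
    simp
  rw [MvPolynomial.aeval_monomial, MvPolynomial.aeval_monomial, Finsupp.prod_fintype _ _ (by simp),
    Finsupp.prod_fintype _ _ (by simp), Polynomial.algebraMap_apply, ← hdeg]
  simp only [Fin.prod_univ_three, Fin.sum_univ_three, Polynomial.monomial_pow,
    Polynomial.monomial_mul_monomial, Polynomial.C_mul_monomial, one_mul]

end CTaux

/-- Sketch.  `T = {f : K[X] | ∀ n, f.coeff n ∈ exR0 M n}` as a `Subalgebra ℂ K[X]` (`exR0_mul`),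
`𝒜 n = {f | ∀ m ≠ n, coeff m = 0}` (`GradedAlgebra.ofAlgHom` or `DirectSum.Decomposition.ofAddHom`, or
`DirectSum.IsInternal.chooseDecomposition`), `ιA (X i) = monomial 1 (lf M L i)`, so
`coeff n (ιA F) = aeval lf (homogeneousComponent n F)`: injective by `aeval_lf_ne`; finite by
`exR0_eq_gen` (generators `monomial g.1.2 (mon g.1.1)`, `g : Gen L`).  A ring map `ρ` gives the
`MonRep` `Θ a = ρ (monomial m (mon a))` if `Mon a m` (`0` otherwise). -/
theorem exists_T {K : Type} [Field K] [Algebra ℂ K] (M : Model ℂ K) (L : NN)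
    (hno : ∀ N : ℕ, 0 < N → IsEmpty (MonRep ℂ L N)) :
    ∃ (T : Type) (_ : CommRing T) (_ : IsDomain T) (_ : Algebra ℂ T) (𝒜 : ℕ → Submodule ℂ T)
      (_ : GradedAlgebra 𝒜) (ιA : MvPolynomial (Fin 3) ℂ →ₐ[ℂ] T),
      Function.Injective ιA ∧ ιA.toRingHom.Finite ∧ (∀ i, ιA (MvPolynomial.X i) ∈ 𝒜 1) ∧
      (∀ a ∈ 𝒜 0, ∃ c : ℂ, algebraMap ℂ T c = a) ∧ NoRep T ιA := by
  classical
  have hD : (L.D : ℂ) ≠ 0 := Nat.cast_ne_zero.2 L.D_pos.ne'
  refine ⟨ctT M, inferInstance, inferInstance, inferInstance, ctA M, ctGr M, ctι M L, ?_, ?_, ?_,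
    ?_, ?_⟩
  · rw [injective_iff_map_eq_zero]
    intro F hF
    have h1 : ∑ n ∈ Finset.range (F.totalDegree + 1), Polynomial.monomial n
        (MvPolynomial.aeval (lf M L) (MvPolynomial.homogeneousComponent n F)) = 0 := by
      have h2 := congrArg (fun t : ctT M => (t : Polynomial K)) hF
      rw [← MvPolynomial.sum_homogeneousComponent F, map_sum] at h2
      simp only [AddSubmonoidClass.coe_finsetSum, ZeroMemClass.coe_zero] at h2
      rw [← h2]
      exact Finset.sum_congr rfl (fun n _ =>
        (ctι_hom M L (MvPolynomial.homogeneousComponent_isHomogeneous n F)).symm)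
    rw [← MvPolynomial.sum_homogeneousComponent F]
    refine Finset.sum_eq_zero (fun n hn => ?_)
    by_contra h0
    apply aeval_lf_ne M L hD (MvPolynomial.homogeneousComponent_isHomogeneous n F) h0
    have h3 := congrArg (fun f : Polynomial K => f.coeff n) h1
    simp only [Polynomial.finsetSum_coeff, Polynomial.coeff_monomial, Finset.sum_ite_eq', hn,
      if_true, Polynomial.coeff_zero] at h3
    exact h3
  · let _ : Algebra (MvPolynomial (Fin 3) ℂ) (ctT M) := (ctι M L).toRingHom.toAlgebra
    have hsm : ∀ (F : MvPolynomial (Fin 3) ℂ) (t : ctT M), F • t = ctι M L F * t := fun _ _ => rfl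
    let γ : Gen L → ctT M := fun g => ctEl M g.1.2.toNat (M.mon g.1.1) (by
      rw [Int.toNat_of_nonneg g.2.1.nonneg]; exact mon_mem_exR0 M g.2.1)
    refine ⟨Submodule.fg_def.2 ⟨Set.range γ, Set.finite_range γ, ?_⟩⟩
    rw [eq_top_iff]
    intro f _
    rw [ct_sum M f]
    refine Submodule.sum_mem _ (fun n _ => ?_)
    have key : ∀ a ∈ exR0 M n, ∃ t ∈ Submodule.span (MvPolynomial (Fin 3) ℂ) (Set.range γ),
        (t : Polynomial K) = Polynomial.monomial n a := by
      intro a ha
      rw [exR0_eq_gen M L hD] at ha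
      induction ha using Submodule.span_induction with
      | mem a ha =>
        obtain ⟨g, e, F, hF, he, rfl⟩ := ha
        refine ⟨F • γ g, Submodule.smul_mem _ _ (Submodule.subset_span ⟨g, rfl⟩), ?_⟩
        have h0 := g.2.1.nonneg
        rw [hsm, Subalgebra.coe_mul, ctι_hom M L hF, ctEl_coe, Polynomial.monomial_mul_monomial,
          show e + g.1.2.toNat = n by omega]
      | zero => exact ⟨0, Submodule.zero_mem _, by simp⟩
      | add x y _ _ hx hy =>
        obtain ⟨t, ht, h1⟩ := hx
        obtain ⟨t', ht', h2⟩ := hy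
        exact ⟨t + t', Submodule.add_mem _ ht ht', by rw [Subalgebra.coe_add, h1, h2, map_add]⟩
      | smul c x _ hx =>
        obtain ⟨t, ht, h1⟩ := hx
        refine ⟨(MvPolynomial.C c : MvPolynomial (Fin 3) ℂ) • t, Submodule.smul_mem _ _ ht, ?_⟩
        rw [hsm, Subalgebra.coe_mul, ctι_hom M L (MvPolynomial.isHomogeneous_C _ c), h1,
          Polynomial.monomial_mul_monomial, zero_add, MvPolynomial.aeval_C, Algebra.smul_def]
    obtain ⟨t, ht, h1⟩ := key _ (f.2 n)
    have : ctEl M n ((f : Polynomial K).coeff n) (f.2 n) = t := Subtype.ext h1.symm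
    rw [this]; exact ht
  · intro i
    rw [ctι, MvPolynomial.aeval_X]
    exact ctEl_mem M 1 _ _
  · intro a ha
    obtain ⟨c, hc⟩ := (mem_exR0_zero M).1 (a.2 0)
    refine ⟨c, Subtype.ext ?_⟩
    rw [Subalgebra.coe_algebraMap, Polynomial.algebraMap_apply, hc]
    ext m
    rw [Polynomial.coeff_C]
    split_ifs with h
    · rw [h]
    · exact (ha m h).symm
  · intro N hN ρ hρ
    let el : ∀ (a : Ex) (m : ℤ), Mon a m → ctT M := fun a m h => ctEl M m.toNat (M.mon a) (by
      rw [Int.toNat_of_nonneg h.nonneg]; exact mon_mem_exR0 M h)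
    have hel : ∀ a m (h : Mon a m), (el a m h : Polynomial K) = Polynomial.monomial m.toNat (M.mon a) :=
      fun _ _ _ => rfl
    let Θ : Ex → Matrix (Fin N) (Fin N) (PS ℂ) := fun a =>
      if h : ∃ m, Mon a m then ρ (el a h.choose h.choose_spec) else 0
    have hΘ : ∀ a m (h : Mon a m), Θ a = ρ (el a m h) := by
      intro a m h
      have h' : ∃ m, Mon a m := ⟨m, h⟩
      simp only [Θ, dif_pos h']
      congr 1
      apply Subtype.ext
      have h2 := h'.choose_spec.deg_unique h
      change Polynomial.monomial h'.choose.toNat (M.mon a) = Polynomial.monomial m.toNat (M.mon a)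
      rw [h2]
    refine (hno N hN).false ⟨Θ, ?_, ?_, ?_, ?_⟩
    · intro q c m hc hr
      have hpos : ∀ e f, Pos (c + e7 e f) := by
        intro e f x
        have := hc x
        simp only [e7, Pi.add_apply, Pi.single_apply]
        split_ifs <;> omega
      obtain ⟨v1, v2⟩ := vs_quad q
      have m0 : Mon (c + e7 (quad q 0) (quad q 1)) m := ⟨hpos _ _, hr⟩
      have m1 : Mon (c + e7 (quad q 2) (quad q 3)) m :=
        ⟨hpos _ _, fun i => by rw [vs_add, v1, ← vs_add]; exact hr i⟩
      have m2 : Mon (c + e7 (quad q 4) (quad q 5)) m :=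
        ⟨hpos _ _, fun i => by rw [vs_add, v2, ← vs_add]; exact hr i⟩
      rw [hΘ _ _ m0, hΘ _ _ m1, hΘ _ _ m2, ← map_add]
      congr 1
      apply Subtype.ext
      rw [Subalgebra.coe_add, hel _ _ m0, hel _ _ m1, hel _ _ m2, M.tri q c m hc hr, map_add]
    · intro a b s t ha hb
      rw [hΘ _ _ ha, hΘ _ _ hb, hΘ _ _ (ha.add hb), ← map_mul]
      congr 1
      apply Subtype.ext
      have := ha.nonneg
      have := hb.nonneg
      rw [Subalgebra.coe_mul, hel _ _ ha, hel _ _ hb, hel _ _ (ha.add hb),
        Polynomial.monomial_mul_monomial, M.mon_add,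
        show (s + t).toNat = s.toNat + t.toNat by omega]
    · rw [hΘ _ _ (mon_zero_iff.2 rfl), ← map_one ρ]
      congr 1
      apply Subtype.ext
      rw [hel _ _ (mon_zero_iff.2 rfl), M.mon_zero]; rfl
    · intro i
      rw [← MvPolynomial.coe_X, ← hρ]
      have h1 : ctι M L (MvPolynomial.X i) = ∑ γ ∈ (L.ℓ i).support.attach,
          (L.ℓ i γ.1) • el γ.1 1 (L.supp i γ.1 γ.2) := by
        apply Subtype.ext
        rw [ctι, MvPolynomial.aeval_X, ctEl_coe, AddSubmonoidClass.coe_finsetSum, lf, Finsupp.sum,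
          map_sum, ← Finset.sum_attach]
        refine Finset.sum_congr rfl (fun γ _ => ?_)
        rw [AddSubgroupClass.coe_zsmul, hel _ _ (L.supp i γ.1 γ.2), ← zsmul_eq_mul, map_zsmul]; rfl
      rw [h1, map_sum, Finsupp.sum, ← Finset.sum_attach]
      refine Finset.sum_congr rfl (fun γ _ => ?_)
      rw [map_zsmul, hΘ _ _ (L.supp i γ.1 γ.2)]

end Crest.Agent.R169
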