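import Mathlib

/-!
# Row 169 (no small Cohen–Macaulay modules): definitions

Everything is phrased with *families* `N : ℤ → Submodule k V` (= graded torsion-free modules,
dehomogenised at `z = 1`).  `AA k t` = polynomials in `x,y` of total degree `≤ t`
(= degree `t` part of `A = k[x,y,z]`), inside `KA k = k(x,y)`.
-/

set_option autoImplicit false

namespace Crest.Agent.R169
open Module

abbrev P2 (k : Type) [Field k] := MvPolynomial (Fin 2) k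
abbrev KA (k : Type) [Field k] := FractionRing (P2 k)

/-- polynomials of total degree `≤ t` inside `k(x,y)` -/
def AA (k : Type) [Field k] (t : ℤ) : Submodule k (KA k) where
  carrier := {a | ∃ f : P2 k, algebraMap (P2 k) (KA k) f = a ∧ (f = 0 ∨ (f.totalDegree : ℤ) ≤ t)}
  zero_mem' := ⟨0, map_zero _, Or.inl rfl⟩
  add_mem' := by
    rintro _ _ ⟨f, rfl, hf⟩ ⟨g, rfl, hg⟩
    refine ⟨f + g, map_add _ _ _, ?_⟩
    rcases hf with rfl | hf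
    · simpa using hg
    rcases hg with rfl | hg
    · right; simpa using hf
    right
    have := MvPolynomial.totalDegree_add f g
    have h2 : ((f + g).totalDegree : ℤ) ≤ max (f.totalDegree : ℤ) (g.totalDegree : ℤ) := by
      exact_mod_cast this
    exact h2.trans (max_le hf hg)
  smul_mem' := by
    rintro c _ ⟨f, rfl, hf⟩
    refine ⟨c • f, by rw [Algebra.smul_def, Algebra.smul_def, map_mul,
      ← IsScalarTower.algebraMap_apply], ?_⟩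
    rcases hf with rfl | hf
    · left; simp
    right
    have : ((c • f).totalDegree : ℤ) ≤ f.totalDegree := by
      exact_mod_cast MvPolynomial.totalDegree_smul_le c f
    exact this.trans hf

/-- the variables `x, y` in `k(x,y)` -/
noncomputable def xA (k : Type) [Field k] (i : Fin 2) : KA k :=
  algebraMap (P2 k) (KA k) (MvPolynomial.X i)

/-- dehomogenisation `X ↦ x, Y ↦ y, Z ↦ 1` -/
noncomputable def deh {k : Type} [Field k] : MvPolynomial (Fin 3) k →ₐ[k] KA k :=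
  MvPolynomial.aeval ![xA k 0, xA k 1, 1]

abbrev Fam (k V : Type) [Field k] [AddCommGroup V] [Module k V] := ℤ → Submodule k V

section fam
variable {k : Type} [Field k] {V V' : Type} [AddCommGroup V] [Module k V]
  [AddCommGroup V'] [Module k V']

/-- `N` is a graded module over the graded ring `S` -/
def IsMod {L : Type} [CommRing L] [Algebra k L] [Module L V] (S : Fam k L) (N : Fam k V) : Prop :=
  ∀ s t : ℤ, ∀ a ∈ S s, ∀ v ∈ N t, a • v ∈ N (s + t)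

/-- the graded `S`-module generated by `w i` placed in degree `b i` -/
def gen {L : Type} [CommRing L] [Algebra k L] [Module L V] (S : Fam k L) {ι : Type}
    (w : ι → V) (b : ι → ℤ) : Fam k V :=
  fun t => Submodule.span k {v | ∃ i, ∃ a ∈ S (t - b i), v = a • w i}

/-- finitely generated over `A` -/
def IsLat [Module (KA k) V] (N : Fam k V) : Prop :=
  ∃ (m : ℕ) (w : Fin m → V) (b : Fin m → ℤ), N = gen (AA k) w b

/-- the `k(x,y)`-span of a family -/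
noncomputable def spanF [Module (KA k) V] (N : Fam k V) : Submodule (KA k) V :=
  Submodule.span (KA k) (⋃ t, (N t : Set V))

def Full [Module (KA k) V] (N : Fam k V) : Prop := spanF N = ⊤

noncomputable def hf (N : Fam k V) (t : ℤ) : ℚ := (finrank k (N t) : ℚ)

def HasHP (h : ℤ → ℚ) (a b c : ℚ) : Prop :=
  ∃ t0 : ℤ, ∀ t ≥ t0, h t = a * (t : ℚ) ^ 2 + b * t + c

noncomputable def hp (h : ℤ → ℚ) : ℚ × ℚ × ℚ :=
  Classical.epsilon (fun x : ℚ × ℚ × ℚ => HasHP h x.1 x.2.1 x.2.2)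

/-- coefficients of the Hilbert polynomial `ha t² + hb t + hc` -/
noncomputable def ha (N : Fam k V) : ℚ := (hp (hf N)).1
noncomputable def hb (N : Fam k V) : ℚ := (hp (hf N)).2.1
noncomputable def hc (N : Fam k V) : ℚ := (hp (hf N)).2.2
noncomputable def hP (N : Fam k V) (t : ℚ) : ℚ := ha N * t ^ 2 + hb N * t + hc N
/-- minimum value of the Hilbert polynomial -/
noncomputable def disc (N : Fam k V) : ℚ := hc N - hb N ^ 2 / (4 * ha N)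

/-- `N ∩ W` -/
def cut {L : Type} [CommRing L] [Algebra k L] [Module L V] [IsScalarTower k L V]
    (N : Fam k V) (W : Submodule L V) : Fam k V := fun t => N t ⊓ W.restrictScalars k

def fmap {L : Type} [CommRing L] [Algebra k L] [Module L V] [IsScalarTower k L V]
    [Module L V'] [IsScalarTower k L V'] (f : V →ₗ[L] V') (N : Fam k V) : Fam k V' :=
  fun t => (N t).map (f.restrictScalars k)

def fcomap {L : Type} [CommRing L] [Algebra k L] [Module L V] [IsScalarTower k L V]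
    [Module L V'] [IsScalarTower k L V'] (f : V →ₗ[L] V') (N : Fam k V') : Fam k V :=
  fun t => (N t).comap (f.restrictScalars k)

/-- shift `N(e)` -/
def sh (N : Fam k V) (e : ℤ) : Fam k V := fun t => N (t + e)

/-- `N^ι` -/
def piF (N : Fam k V) (ι : Type) : Fam k (ι → V) := fun t => Submodule.pi Set.univ (fun _ => N t)

/-- the free module `⊕ A(-b i)` -/
noncomputable def freeF (k : Type) [Field k] {ι : Type} (b : ι → ℤ) : Fam k (ι → KA k) :=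
  fun t => Submodule.pi Set.univ (fun i => AA k (t - b i))

/-- `N / z N` has no `x`-torsion -/
def SatX [Module (KA k) V] (N : Fam k V) : Prop :=
  ∀ (t : ℤ) (j : ℕ) (ξ : V), ξ ∈ N (t + 1) → (xA k 0 ^ j) • ξ ∈ N (t + j) → ξ ∈ N t

/-- `N` has depth `≥ 2` along `(x, y)` -/
def SatXY [Module (KA k) V] (N : Fam k V) : Prop :=
  ∀ (t : ℤ) (ξ : V), xA k 0 • ξ ∈ N (t + 1) → xA k 1 • ξ ∈ N (t + 1) → ξ ∈ N t

def EvLe (N N' : Fam k V) : Prop := ∃ t0 : ℤ, ∀ t ≥ t0, N t ≤ N' t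
def EvEq (N N' : Fam k V) : Prop := ∃ t0 : ℤ, ∀ t ≥ t0, N t = N' t

/-- every element of `N'` is pushed into `N` by two coprime forms (`N'/N` has codimension `≥ 2`) -/
def Cop [Module (KA k) V] (N' N : Fam k V) : Prop :=
  ∀ t : ℤ, ∀ ξ ∈ N' t, ∃ (f g : P2 k) (e : ℤ), f ≠ 0 ∧ IsRelPrime f g ∧ (g.totalDegree : ℤ) ≤ e ∧
    algebraMap (P2 k) (KA k) f • ξ ∈ N (t + f.totalDegree) ∧
    algebraMap (P2 k) (KA k) g • ξ ∈ N (t + e)

/-- the `A`-dual `Hom_A(N, A(-3))` with respect to a pairing -/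
def dual [Module (KA k) V] [Module (KA k) V'] [IsScalarTower k (KA k) V']
    (β : V →ₗ[KA k] V' →ₗ[KA k] KA k) (N : Fam k V) : Fam k V' := fun t =>
  { carrier := {φ | ∀ s : ℤ, ∀ ξ ∈ N s, β ξ φ ∈ AA k (s + t - 3)}
    zero_mem' := fun s ξ _ => by rw [map_zero]; exact Submodule.zero_mem _
    add_mem' := fun {a b} ha hb s ξ hξ => by
      rw [map_add]; exact Submodule.add_mem _ (ha s ξ hξ) (hb s ξ hξ)
    smul_mem' := fun c a ha s ξ hξ => by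
      have : β ξ (c • a) = c • β ξ a := by
        rw [← algebraMap_smul (KA k) c a, map_smul, algebraMap_smul]
      rw [this]; exact Submodule.smul_mem _ _ (ha s ξ hξ) }

def Perfect {F : Type} [Field F] [Module F V] [Module F V'] (β : V →ₗ[F] V' →ₗ[F] F) : Prop :=
  FiniteDimensional F V ∧ FiniteDimensional F V' ∧ (∀ ξ, (∀ φ, β ξ φ = 0) → ξ = 0) ∧
    (∀ φ, (∀ ξ, β ξ φ = 0) → φ = 0)

end fam

/-- A height one homogeneous prime of `k[x,y,z]`, seen as a valuation ring `O` of `k(x,y)`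
and a weight `θ` (`θ = 1` at an irreducible `π ∈ k[x,y]`; `θ = 1/x` at the line at infinity). -/
structure Place (k : Type) [Field k] where
  O : ValuationSubring (KA k)
  θ : KA k
  θ_ne : θ ≠ 0
  mem : ∀ t : ℤ, ∀ a ∈ AA k t, θ ^ t * a ∈ O
  clear : ∀ (t : ℤ) (a : KA k), θ ^ t * a ∈ O →
    ∃ (e : ℤ) (f : KA k), f ∈ AA k e ∧ f ≠ 0 ∧ (θ ^ e * f)⁻¹ ∈ O ∧ f * a ∈ AA k (t + e)

/-- `N' ⊆ N` after localising at each place of `Pl` -/
def LocLE {k : Type} [Field k] {V : Type} [AddCommGroup V] [Module k V] [Module (KA k) V]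
    (Pl : Set (Place k)) (N' N : Fam k V) : Prop :=
  ∀ P ∈ Pl, ∀ t : ℤ, ∀ ξ ∈ N' t, ∃ (e : ℤ) (f : KA k), f ∈ AA k e ∧ f ≠ 0 ∧
    (P.θ ^ e * f)⁻¹ ∈ P.O ∧ f • ξ ∈ N (t + e)

/-- `Pl` is the set of all places: local containment gives `Cop`, and gcd's exist. -/
structure PlaceSys (k : Type) [Field k] (Pl : Set (Place k)) : Prop where
  cop : ∀ (V : Type) [AddCommGroup V] [Module k V] [Module (KA k) V] [IsScalarTower k (KA k) V]
    (N' N : Fam k V), IsMod (AA k) N → LocLE Pl N' N → Cop N' N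
  gcd : ∀ (ι : Type) [Fintype ι] (a : ι → KA k) (b : ι → ℤ), (∃ i, a i ≠ 0) →
    ∃ (γ : KA k) (e : ℤ), γ ≠ 0 ∧ (∀ i, a i / γ ∈ AA k (b i - e)) ∧
      ∀ P ∈ Pl, ∃ i, a i ≠ 0 ∧ (P.θ ^ (b i - e) * (a i / γ))⁻¹ ∈ P.O

/-- `(γ, e)` describes the reflexive hull `γ A(-e)` of the determinant of `N ⊆ k(x,y)^y` -/
def DetGcd {k : Type} [Field k] (Pl : Set (Place k)) {y : ℕ} (N : Fam k (Fin y → KA k))
    (γ : KA k) (e : ℤ) : Prop :=
  γ ≠ 0 ∧
  (∀ (n : Fin y → Fin y → KA k) (s : Fin y → ℤ), (∀ i, n i ∈ N (s i)) →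
    (Matrix.of n).det / γ ∈ AA k (∑ i, s i - e)) ∧
  ∀ P ∈ Pl, ∃ (n : Fin y → Fin y → KA k) (s : Fin y → ℤ), (∀ i, n i ∈ N (s i)) ∧
    (Matrix.of n).det ≠ 0 ∧ (P.θ ^ (∑ i, s i - e) * ((Matrix.of n).det / γ))⁻¹ ∈ P.O

/-- a free presentation `0 → ⊕ A(-b' j) → ⊕ A(-b i) → gen w b → 0` -/
structure Syz {k : Type} [Field k] {V : Type} [AddCommGroup V] [Module (KA k) V] {m m' : ℕ}
    (w : Fin m → V) (b : Fin m → ℤ) (φ : Matrix (Fin m) (Fin m') (KA k)) (b' : Fin m' → ℤ) :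
    Prop where
  deg : ∀ i j, φ i j ∈ AA k (b' j - b i)
  rel : ∀ j, ∑ i, φ i j • w i = 0
  inj : ∀ ζ : Fin m' → KA k, φ.mulVec ζ = 0 → ζ = 0
  ex : ∀ (t : ℤ) (η : Fin m → KA k), (∀ i, η i ∈ AA k (t - b i)) → ∑ i, η i • w i = 0 →
    ∃ ζ : Fin m' → KA k, (∀ j, ζ j ∈ AA k (t - b' j)) ∧ η = φ.mulVec ζ

/-- first-order certificate for a free presentation which is split off the vertex -/
structure ResData {k : Type} [Field k] {V : Type} [AddCommGroup V] [Module (KA k) V] {m m' : ℕ}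
    (w : Fin m → V) (b : Fin m → ℤ) (φ : Matrix (Fin m) (Fin m') (KA k)) (b' : Fin m' → ℤ)
    (M0 : ℕ) (ψ : Fin 3 → Matrix (Fin m') (Fin m) (KA k)) : Prop where
  deg : ∀ i j, φ i j ∈ AA k (b' j - b i)
  rel : ∀ j, ∑ i, φ i j • w i = 0
  card : m = m' + finrank (KA k) V
  ψdeg : ∀ l j i, ψ l j i ∈ AA k (M0 + b i - b' j)
  ψ0 : ψ 0 * φ = (xA k 0 ^ M0) • (1 : Matrix (Fin m') (Fin m') (KA k))
  ψ1 : ψ 1 * φ = (xA k 1 ^ M0) • (1 : Matrix (Fin m') (Fin m') (KA k))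
  ψ2 : ψ 2 * φ = 1

/-- first-order certificate for a stable quotient of `A`-rank `y` and degree `≤ D` -/
def Cert {k : Type} [Field k] {m m' y : ℕ} {ι : Type} (b : Fin m → ℤ)
    (φ : Matrix (Fin m) (Fin m') (KA k)) (θ : ι → Matrix (Fin m) (Fin m) (KA k))
    (I : Fin y → Fin m) (D : ℤ) : Prop :=
  ∃ (h : KA k) (H : Matrix (Fin y) (Fin m) (KA k)) (v : (Fin y → Fin m) → KA k),
    h ≠ 0 ∧ h ∈ AA k (D + ∑ i, b (I i)) ∧
    (∀ i j, H i j ∈ AA k (D + ∑ i, b (I i) + b j - b (I i))) ∧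
    H.submatrix id I = h • (1 : Matrix (Fin y) (Fin y) (KA k)) ∧ H * φ = 0 ∧
    (∀ l, h • (H * θ l) = (H * θ l).submatrix id I * H) ∧
    ∀ J : Fin y → Fin m, v J ∈ AA k (D + ∑ i, b (J i)) ∧
      h * (H.submatrix id J).det = h ^ y * v J

/-! ### graded domains finite over `A` -/

/-- A graded domain `R = ⊕ R t` finite over `A`, dehomogenised inside its degree-zero fraction
field `K`. -/
structure Base (k K : Type) [Field k] [Field K] [Algebra k K] [Algebra (KA k) K]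
    [IsScalarTower k (KA k) K] where
  R : Fam k K
  mul : ∀ s t : ℤ, ∀ a ∈ R s, ∀ b ∈ R t, a * b ∈ R (s + t)
  A_le : ∀ t : ℤ, ∀ a ∈ AA k t, algebraMap (KA k) K a ∈ R t
  lat : IsLat R
  full : Full R

section base
variable {k K : Type} [Field k] [Field K] [Algebra k K] [Algebra (KA k) K]
    [IsScalarTower k (KA k) K]

/-- the variables `x, y` in `K` -/
noncomputable def xK (k K : Type) [Field k] [Field K] [Algebra (KA k) K] (i : Fin 2) : K :=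
  algebraMap (KA k) K (xA k i)

/-- `r = [K : k(x,y)]` -/
noncomputable def rk (k K : Type) [Field k] [Field K] [Algebra (KA k) K] : ℚ :=
  (finrank (KA k) K : ℚ)

/-- finitely generated graded `R`-module -/
def RLat (B : Base k K) {V : Type} [AddCommGroup V] [Module k V] [Module (KA k) V] [Module K V]
    (N : Fam k V) : Prop := IsLat N ∧ IsMod B.R N

/-- near-semistability delivered by Langton's argument -/
def Semi (k K : Type) [Field k] [Field K] [Algebra k K] [Algebra (KA k) K] {ρ : ℕ}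
    (E : Fam k (Fin ρ → K)) : Prop :=
  ∀ W : Submodule K (Fin ρ → K), hb (cut E W) ≤ (finrank K W : ℚ) * hb E / ρ +
    (finrank K W : ℚ) * (ρ - finrank K W) * rk k K / (2 * ρ)

/-- the conductor `(N' : ξ)` of `ξ` (placed in degree `b`) -/
def colon (B : Base k K) {V : Type} [AddCommGroup V] [Module k V] [Module K V]
    [IsScalarTower k K V] (N' : Fam k V) (ξ : V) (b : ℤ) : Fam k K := fun t =>
  B.R t ⊓ (N' (t + b)).comap ((LinearMap.toSpanSingleton K V ξ).restrictScalars k)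

/-- `N' + R ξ` with `ξ` in degree `b` -/
def adjoin1 (B : Base k K) {V : Type} [AddCommGroup V] [Module k V] [Module K V]
    [IsScalarTower k K V] (N' : Fam k V) (ξ : V) (b : ℤ) : Fam k V := fun t =>
  N' t ⊔ (B.R (t - b)).map ((LinearMap.toSpanSingleton K V ξ).restrictScalars k)

/-- homogeneous prime ideal -/
structure IsPrimeFam (B : Base k K) (𝔭 : Fam k K) : Prop where
  mod : IsMod B.R 𝔭
  le : 𝔭 ≤ B.R
  one : (1 : K) ∉ 𝔭 0
  prime : ∀ s t : ℤ, ∀ a ∈ B.R s, ∀ b ∈ B.R t, a * b ∈ 𝔭 (s + t) → a ∈ 𝔭 s ∨ b ∈ 𝔭 t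

/-- pairing `(a,b) ↦ lam (a b)` on `K` -/
noncomputable def pair1 (lam : K →ₗ[KA k] KA k) : K →ₗ[KA k] K →ₗ[KA k] KA k :=
  (LinearMap.mul (KA k) K).compr₂ lam

/-- pairing `(ξ,φ) ↦ lam (∑ ξ i φ i)` on `K^ρ` -/
noncomputable def pairV (lam : K →ₗ[KA k] KA k) (ρ : ℕ) :
    (Fin ρ → K) →ₗ[KA k] (Fin ρ → K) →ₗ[KA k] KA k :=
  LinearMap.mk₂ (KA k) (fun ξ φ => lam (∑ i, ξ i * φ i))
    (fun a b c => by simp [add_mul, Finset.sum_add_distrib])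
    (fun c a b => by simp [Finset.mul_sum])
    (fun a b c => by simp [mul_add, Finset.sum_add_distrib])
    (fun c a b => by simp [Finset.mul_sum])

/-- degree `d` part of the localisation `R[1/g]`, `g ∈ R c` -/
def Loc (B : Base k K) (g : K) (c : ℤ) (d : ℤ) : Set K :=
  {a | ∃ j : ℕ, g ^ j * a ∈ B.R (d + j * c)}

end base

/-- A smooth polarised surface in characteristic `p` with `K_X = κ L`, given by charts with
étale coordinates `u, v`. -/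
structure Setup (k K : Type) [Field k] [Field K] [Algebra k K] [Algebra (KA k) K]
    [IsScalarTower k (KA k) K] (p : ℕ) extends Base k K where
  perf : ∀ c : k, ∃ d : k, d ^ p = c
  κ : ℤ
  t0 : ℤ
  ht0 : 2 * t0 = κ * (1 - p)
  σ : ℚ
  hpR : HasHP (hf R) (rk k K / 2) (-(rk k K * κ / 2)) (rk k K * κ ^ 2 / 8 - σ / 8)
  nα : ℕ
  nα_pos : 0 < nα
  c : ℕ
  g : Fin nα → K
  g_mem : ∀ α, g α ∈ R c
  g_ne : ∀ α, g α ≠ 0
  cover : ∃ M : ℕ, ∀ ℓ ∈ ({1, xK k K 0, xK k K 1} : Set K), ∃ a : Fin nα → K,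
    (∀ α, a α ∈ R (M - c)) ∧ ℓ ^ M = ∑ α, g α * a α
  τ : Fin nα → K
  u : Fin nα → K
  v : Fin nα → K
  ε : Fin nα → K
  τ_ne : ∀ α, τ α ≠ 0
  ε_ne : ∀ α, ε α ≠ 0
  τ_mem : ∀ α, τ α ∈ Loc toBase (g α) c 1
  τ_inv : ∀ α, (τ α)⁻¹ ∈ Loc toBase (g α) c (-1)
  u_mem : ∀ α, u α ∈ Loc toBase (g α) c 0
  v_mem : ∀ α, v α ∈ Loc toBase (g α) c 0
  ε_mem : ∀ α, ε α ∈ Loc toBase (g α) c κ
  ε_inv : ∀ α, (ε α)⁻¹ ∈ Loc toBase (g α) c (-κ)
  span : ∀ α, ∀ a ∈ Loc toBase (g α) c 0, ∃ f : Fin p × Fin p → K,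
    (∀ ij, f ij ∈ Loc toBase (g α) c 0) ∧
      a = ∑ ij : Fin p × Fin p, f ij ^ p * (u α ^ (ij.1 : ℕ) * v α ^ (ij.2 : ℕ))
  D : Fin 2 → Derivation k K K
  c' : ℕ
  D_mem : ∀ i t, ∀ a ∈ R t, D i a ∈ R (t + c')
  j0 : K
  j0_ne : j0 ≠ 0
  jac : ∀ α, D 0 (u α) * D 1 (v α) - D 1 (u α) * D 0 (v α) = j0 * ε α

section frob
variable {k K : Type} [Field k] [Field K] [Algebra k K] [Algebra (KA k) K]
    [IsScalarTower k (KA k) K]

/-- Frobenius pull-back of a family along a `p`-semilinear map `φ` -/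
def Fr (B : Base k K) (p : ℕ) {V : Type} [AddCommGroup V] [Module k V] [Module K V]
    (φ : V → V) (N : Fam k V) : Fam k V := fun t =>
  Submodule.span k {z | ∃ s : ℤ, ∃ a ∈ B.R (t - p * s), ∃ ξ ∈ N s, z = a • φ ξ}

def fr1 (p : ℕ) : K → K := fun a => a ^ p
def frV (p ρ : ℕ) : (Fin ρ → K) → (Fin ρ → K) := fun ξ i => ξ i ^ p

/-- `φ` behaves like the coordinatewise Frobenius -/
structure IsFrob (K : Type) [Field K] (p : ℕ) {V : Type} [AddCommGroup V] [Module K V]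
    (φ : V → V) : Prop where
  add : ∀ a b, φ (a + b) = φ a + φ b
  smul : ∀ (c : K) a, φ (c • a) = c ^ p • φ a
  ind : ∀ (ι : Type) [Fintype ι] (β : ι → K), (∀ c : ι → K, ∑ i, c i ^ p * β i = 0 → c = 0) →
    ∀ ζ : ι → V, ∑ i, β i • φ (ζ i) = 0 → ζ = 0
  full : Submodule.span K (Set.range φ) = ⊤

def FrW (p : ℕ) {ρ : ℕ} (W : Submodule K (Fin ρ → K)) : Submodule K (Fin ρ → K) :=
  Submodule.span K (frV p ρ '' (W : Set (Fin ρ → K)))

/-- iterated Frobenius pull-back in `K^ρ` -/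
def FrI (B : Base k K) (p : ℕ) {ρ : ℕ} (e : ℕ) (N : Fam k (Fin ρ → K)) : Fam k (Fin ρ → K) :=
  (Fr B p (frV p ρ))^[e] N

variable {p : ℕ}
/-- normalised coefficients: `P_N(s + κ/2) + rank · σ/8 = ha s² + dd s + cc` -/
noncomputable def dd (S : Setup k K p) {V : Type} [AddCommGroup V] [Module k V] (N : Fam k V) : ℚ :=
  hb N + ha N * S.κ
noncomputable def cc (S : Setup k K p) {V : Type} [AddCommGroup V] [Module k V] (N : Fam k V) : ℚ :=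
  hc N + hb N * S.κ / 2 + ha N * S.κ ^ 2 / 4 + ha N * S.σ / (4 * rk k K)

/-- `Ψ_N(s) = dim (F^*N)_{ps+t0} - p² dim N_s` -/
noncomputable def Psi (S : Setup k K p) {V : Type} [AddCommGroup V] [Module k V] [Module K V]
    (φ : V → V) (N : Fam k V) (s : ℤ) : ℚ :=
  hf (Fr S.toBase p φ N) (p * s + S.t0) - (p : ℚ) ^ 2 * hf N s

/-- `dim (R/F^*𝔭)_{ps+t0} - p² dim (R/𝔭)_s` -/
noncomputable def psi0 (S : Setup k K p) (𝔭 : Fam k K) (s : ℤ) : ℚ :=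
  hf S.R (p * s + S.t0) - hf (Fr S.toBase p (fr1 p) 𝔭) (p * s + S.t0) -
    (p : ℚ) ^ 2 * (hf S.R s - hf 𝔭 s)

/-- all Frobenius pull-backs have normalised slopes of subs `≤ lp`, of quotients `≥ lm` -/
def Hyp (S : Setup k K p) {ρ : ℕ} (N : Fam k (Fin ρ → K)) (lm lp : ℚ) : Prop :=
  ∀ (e : ℕ) (W : Submodule K (Fin ρ → K)),
    dd S (cut (FrI S.toBase p e N) W) ≤ (p : ℚ) ^ e * lp * finrank K W ∧
    (p : ℚ) ^ e * lm * ((ρ : ℚ) - finrank K W) ≤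
      (p : ℚ) ^ e * dd S N - dd S (cut (FrI S.toBase p e N) W)

/-- the local basis `τ^t u^i v^j` of `K` over `K^p` on the chart `α` -/
noncomputable def bas (S : Setup k K p) (α : Fin S.nα) (t : ℤ) (ij : Fin p × Fin p) : K :=
  S.τ α ^ t * (S.u α ^ (ij.1 : ℕ) * S.v α ^ (ij.2 : ℕ))

/-- a Cartier operator adapted to the charts -/
structure IsCart (S : Setup k K p) (Φ : K →+ K) : Prop where
  lin : ∀ a b, Φ (a ^ p * b) = a * Φ b
  val : ∀ α (i j : Fin p), Φ (S.ε α * (S.u α ^ (i : ℕ) * S.v α ^ (j : ℕ))) =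
    if (i : ℕ) + 1 = p ∧ (j : ℕ) + 1 = p then S.ε α else 0

end frob

/-- `K` with scalars acting through Frobenius (`F_* K`) -/
def Tw (K : Type) (_p : ℕ) : Type := K

namespace Tw
variable (K : Type) [Field K] (p : ℕ)
instance : AddCommGroup (Tw K p) := inferInstanceAs (AddCommGroup K)
/-- identity `K → Tw K p` -/
def mk : K ≃+ Tw K p := AddEquiv.refl K
variable [ExpChar K p]
noncomputable instance (S : Type) [Field S] [Algebra S K] : Module S (Tw K p) :=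
  Module.compHom K ((frobenius K p).comp (algebraMap S K))
variable {K p}
theorem smul_mk {S : Type} [Field S] [Algebra S K] (c : S) (a : K) :
    c • mk K p a = mk K p (algebraMap S K c ^ p * a) := rfl
instance (S S' : Type) [Field S] [Field S'] [Algebra S K] [Algebra S' K] [Algebra S S']
    [IsScalarTower S S' K] : IsScalarTower S S' (Tw K p) := ⟨fun c d a => by
  obtain ⟨a, rfl⟩ := (mk K p).surjective a
  rw [smul_mk, smul_mk, smul_mk, Algebra.smul_def, map_mul (algebraMap S' K),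
    ← IsScalarTower.algebraMap_apply, mul_pow, mul_assoc]⟩
end Tw

/-- `j ↦ N (p j + t0)` as a family in `F_* K` -/
noncomputable def twF {k K : Type} [Field k] [Field K] [Algebra k K] (p : ℕ) [ExpChar K p]
    (N : Fam k K) (t0 : ℤ) : Fam k (Tw K p) := fun j =>
  { carrier := {z | (Tw.mk K p).symm z ∈ N (p * j + t0)}
    zero_mem' := by simp
    add_mem' := fun {a b} ha hb => by
      simp only [Set.mem_ofPred_eq, map_add] at *; exact Submodule.add_mem _ ha hb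
    smul_mem' := fun c z hz => by
      obtain ⟨a, rfl⟩ := (Tw.mk K p).surjective z
      simp only [Set.mem_ofPred_eq, Tw.smul_mk, AddEquiv.symm_apply_apply] at *
      rw [← map_pow, ← Algebra.smul_def]; exact Submodule.smul_mem _ _ hz }

/-! ### filtrations on `k[[X,Y,Z]]^N` -/

abbrev PS (k : Type) [Field k] := MvPowerSeries (Fin 3) k

/-- a representation of `⊕ R t` by matrices over `k[[X,Y,Z]]`, scalar on `A` -/
structure Rep {k K : Type} [Field k] [Field K] [Algebra k K] [Algebra (KA k) K]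
    [IsScalarTower k (KA k) K] (B : Base k K) (N : ℕ) where
  Θ : ℤ → K → Matrix (Fin N) (Fin N) (PS k)
  add : ∀ t, ∀ a ∈ B.R t, ∀ b ∈ B.R t, Θ t (a + b) = Θ t a + Θ t b
  smul : ∀ t (c : k), ∀ a ∈ B.R t, Θ t (c • a) = c • Θ t a
  mul : ∀ s t, ∀ a ∈ B.R s, ∀ b ∈ B.R t, Θ (s + t) (a * b) = Θ s a * Θ t b
  one : Θ 0 1 = 1
  hx : ∀ i : Fin 2, Θ 1 (xK k K i) = (MvPowerSeries.X i.castSucc : PS k) • 1
  hz : Θ 1 1 = (MvPowerSeries.X 2 : PS k) • 1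

/-- vectors of order `≥ t` -/
def ordF (k : Type) [Field k] (N : ℕ) : Fam k (Fin N → PS k) := fun t =>
  { carrier := {m | ∀ i, ∀ d : Fin 3 →₀ ℕ, (d.degree : ℤ) < t → MvPowerSeries.coeff d (m i) = 0}
    zero_mem' := fun i d _ => by simp
    add_mem' := fun {a b} ha hb i d hd => by simp [ha i d hd, hb i d hd]
    smul_mem' := fun c a ha i d hd => by simp [ha i d hd] }

structure XFil {k : Type} [Field k] {N : ℕ} (F : Fam k (Fin N → PS k)) : Prop where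
  anti : ∀ t, F (t + 1) ≤ F t
  xs : ∀ (i : Fin 3) t, ∀ m ∈ F t, (MvPowerSeries.X i : PS k) • m ∈ F (t + 1)
  bd : ∃ c : ℕ, ∀ t, ordF k N (t + c) ≤ F t ∧ F t ≤ ordF k N (t - c)

/-- `dim F t / F (t+1)` -/
noncomputable def gF {k : Type} [Field k] {N : ℕ} (F : Fam k (Fin N → PS k)) (t : ℤ) : ℚ :=
  (finrank k ((F t).map (F (t + 1)).mkQ) : ℚ)

structure GoodFil {k K : Type} [Field k] [Field K] [Algebra k K] [Algebra (KA k) K]
    [IsScalarTower k (KA k) K] {B : Base k K} {N : ℕ} (ϱ : Rep B N)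
    (F : Fam k (Fin N → PS k)) : Prop where
  xfil : XFil F
  stab : ∀ s t, ∀ a ∈ B.R s, ∀ m ∈ F t, (ϱ.Θ s a).mulVec m ∈ F (s + t)
  sat : ∀ (e : ℕ) (t : ℤ) (f : MvPolynomial (Fin 3) k), f ≠ 0 → f.IsHomogeneous e →
    ∀ m, (f : PS k) • m ∈ F (t + e) → m ∈ F t

/-! ### the example: Kummer cover of the quintic del Pezzo surface, exponent 7

Edges of `K_5`: `0=12, 1=13, 2=14, 3=15, 4=23, 5=24, 6=25, 7=34, 8=35, 9=45`; points
`(x₁,…,x₅) = (∞, x, y, 1, 0)`; `r e` is a 7-th root of the Plücker coordinate `p e`. -/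

abbrev Ex := Fin 10 → ℤ

def vs (a : Ex) : Fin 5 → ℤ :=
  ![a 0 + a 1 + a 2 + a 3, a 0 + a 4 + a 5 + a 6, a 1 + a 4 + a 7 + a 8, a 2 + a 5 + a 7 + a 9,
    a 3 + a 6 + a 8 + a 9]

/-- `a` is a `2m`-regular (virtual) multigraph on `K_5` -/
def Reg (a : Ex) (m : ℤ) : Prop := ∀ i, vs a i = 2 * m
def Pos (a : Ex) : Prop := ∀ e, 0 ≤ a e
/-- monomial of degree `m` -/
def Mon (a : Ex) (m : ℤ) : Prop := Pos a ∧ Reg a m

/-- the five Plücker relations `p_A p_A' = p_B p_B' + p_C p_C'` : `(A,A',B,B',C,C')` -/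
def quad : Fin 5 → Fin 6 → Fin 10 :=
  ![![1, 5, 0, 7, 2, 4], ![1, 6, 0, 8, 3, 4], ![2, 6, 0, 9, 3, 5], ![2, 8, 1, 9, 3, 7],
    ![5, 8, 4, 9, 6, 7]]

def e7 (e f : Fin 10) : Ex := Pi.single e 7 + Pi.single f 7

/-- the trinomial relations -/
def Tri {B : Type} [AddCommGroup B] (Θ : Ex → B) : Prop :=
  ∀ (q : Fin 5) (c : Ex) (m : ℤ), Pos c → Reg (c + e7 (quad q 0) (quad q 1)) m →
    Θ (c + e7 (quad q 0) (quad q 1)) =
      Θ (c + e7 (quad q 2) (quad q 3)) + Θ (c + e7 (quad q 4) (quad q 5))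

/-- standard (non-crossing) monomials -/
def Std (a : Ex) : Prop := ∀ q : Fin 5, a (quad q 0) < 7 ∨ a (quad q 1) < 7

/-- non-crossing multigraphs -/
def NC (n : Ex) : Prop := ∀ q : Fin 5, n (quad q 0) = 0 ∨ n (quad q 1) = 0

/-- number of non-crossing multigraphs with (near-diagonal) degree sequence `d` -/
def hcnt (d : Fin 5 → ℤ) : ℤ :=
  (d 1 + 1) * (d 2 + 1) -
    ((d 0 + d 1 + d 2 - d 3 - d 4) / 2 * ((d 0 + d 1 + d 2 - d 3 - d 4) / 2 + 1) / 2 +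
     (d 1 + d 2 + d 3 - d 0 - d 4) / 2 * ((d 1 + d 2 + d 3 - d 0 - d 4) / 2 + 1) / 2 +
     (d 1 + d 2 + d 4 - d 0 - d 3) / 2 * ((d 1 + d 2 + d 4 - d 0 - d 3) / 2 + 1) / 2)

/-- the residue vector in `[0,6]^10` with free part `z` (edges `4,…,8`) and `vs ≡ 2m (mod 7)` -/
def resV (m : ℤ) (z : Fin 5 → Fin 7) : Ex :=
  ![(2 * m - z 0 - z 1 - z 2) % 7, (2 * m - z 0 - z 3 - z 4) % 7, (z 0 + z 2 + z 4 - m) % 7,
    (z 0 + z 1 + z 3 - m) % 7, (z 0 : ℤ), (z 1 : ℤ), (z 2 : ℤ), (z 3 : ℤ), (z 4 : ℤ),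
    (3 * m - z 0 - z 1 - z 2 - z 3 - z 4) % 7]

/-- vector supported on the constant edges `0,1,2,3,9` with the same vertex sums as `single e 1` -/
def gam : Fin 10 → Ex :=
  ![![1, 0, 0, 0, 0, 0, 0, 0, 0, 0], ![0, 1, 0, 0, 0, 0, 0, 0, 0, 0],
    ![0, 0, 1, 0, 0, 0, 0, 0, 0, 0], ![0, 0, 0, 1, 0, 0, 0, 0, 0, 0],
    ![1, 1, -1, -1, 0, 0, 0, 0, 0, 1], ![1, 0, 0, -1, 0, 0, 0, 0, 0, 1],
    ![1, 0, -1, 0, 0, 0, 0, 0, 0, 1], ![0, 1, 0, -1, 0, 0, 0, 0, 0, 1],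
    ![0, 1, -1, 0, 0, 0, 0, 0, 0, 1], ![0, 0, 0, 0, 0, 0, 0, 0, 0, 1]]

def cx : Fin 10 → ℤ := ![0, 0, 0, 0, 1, 1, 1, 0, 0, 0]
def cy : Fin 10 → ℤ := ![0, 0, 0, 0, -1, 0, 0, 1, 1, 0]

structure Model (k K : Type) [Field k] [Field K] [Algebra k K] where
  r : Fin 10 → K
  ne : ∀ e, r e ≠ 0
  r0 : r 0 = 1
  r1 : r 1 = 1
  r2 : r 2 = 1
  r3 : r 3 = 1
  r9 : r 9 = 1
  rel5 : r 5 ^ 7 = r 6 ^ 7 - 1
  rel7 : r 7 ^ 7 = r 8 ^ 7 - 1
  rel4 : r 4 ^ 7 = r 6 ^ 7 - r 8 ^ 7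
  indep : LinearIndependent k (fun z : (ℕ × ℕ) × (Fin 7 × Fin 7 × Fin 7) =>
    r 6 ^ z.1.1 * r 8 ^ z.1.2 * (r 4 ^ (z.2.1 : ℕ) * r 5 ^ (z.2.2.1 : ℕ) * r 7 ^ (z.2.2.2 : ℕ)))
  frac : ∀ z : K, ∃ a ∈ Algebra.adjoin k (Set.range r), ∃ b ∈ Algebra.adjoin k (Set.range r),
    b ≠ 0 ∧ z = a / b
  δ : Fin 2 → Derivation k K K
  δ0 : ∀ e, r e ^ 6 * δ 0 (r e) = (cx e : K)
  δ1 : ∀ e, r e ^ 6 * δ 1 (r e) = (cy e : K)

noncomputable def Model.mon {k K : Type} [Field k] [Field K] [Algebra k K] (M : Model k K)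
    (a : Ex) : K := ∏ e, M.r e ^ a e

/-- formal integer combination supported on monomials of degree `m` -/
def Supp (f : Ex →₀ ℤ) (m : ℤ) : Prop := ∀ a ∈ f.support, Mon a m

/-- an integral Noether normalisation by three linear forms -/
structure NN where
  ℓ : Fin 3 → (Ex →₀ ℤ)
  supp : ∀ i, Supp (ℓ i) 1
  D : ℕ
  D_pos : 0 < D
  t1 : ℕ
  t1_ge : 11 ≤ t1
  cert : ∀ a, Mon a t1 → ∃ f : Fin 3 → (Ex →₀ ℤ), (∀ i, Supp (f i) (t1 - 1)) ∧
    ∀ (B : Type) [AddCommGroup B] (Θ : Ex → B), Tri Θ →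
      (D : ℤ) • Θ a = ∑ i, (ℓ i).sum fun γ z => (f i).sum fun b z' => (z * z') • Θ (γ + b)

/-- a representation of the monomial algebra by matrices over `k[[X,Y,Z]]` -/
structure MonRep (k : Type) [Field k] (L : NN) (N : ℕ) where
  Θ : Ex → Matrix (Fin N) (Fin N) (PS k)
  tri : Tri Θ
  mul : ∀ (a b : Ex) (s t : ℤ), Mon a s → Mon b t → Θ (a + b) = Θ a * Θ b
  one : Θ 0 = 1
  lin : ∀ i : Fin 3, ((L.ℓ i).sum fun γ z => z • Θ γ) = (MvPowerSeries.X i : PS k) • 1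

section ex
variable {k K : Type} [Field k] [Field K] [Algebra k K]

/-- the linear forms in the model -/
noncomputable def lf (M : Model k K) (L : NN) (i : Fin 3) : K :=
  (L.ℓ i).sum fun γ z => (z : K) * M.mon γ

/-- the un-normalised graded ring -/
noncomputable def exR0 (M : Model k K) : Fam k K := fun t =>
  Submodule.span k {z | ∃ a, Mon a t ∧ z = M.mon a}

/-- the graded ring, normalised by `Z = ℓ₂` -/
noncomputable def exR (M : Model k K) (L : NN) : Fam k K := fun t =>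
  Submodule.span k {z | ∃ a, Mon a t ∧ z = M.mon a / lf M L 2 ^ t}

/-- the `k(x,y)`-algebra structure is `x = ℓ₀/ℓ₂`, `y = ℓ₁/ℓ₂` -/
def Compat [Algebra (KA k) K] (M : Model k K) (L : NN) : Prop :=
  lf M L 2 ≠ 0 ∧ ∀ i : Fin 2, xK k K i = lf M L i.castSucc / lf M L 2

/-- index set of the `A`-module generators -/
def Gen (L : NN) : Type := {z : Ex × ℤ // Mon z.1 z.2 ∧ z.2 < L.t1}

noncomputable def genμ (M : Model k K) (L : NN) (z : Gen L) : K :=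
  M.mon z.1.1 / lf M L 2 ^ z.1.2

end ex

/-! chart tables (checked by computer algebra) -/

/-- the 15 nodes: pairs of disjoint edges -/
def cEd : Fin 15 → Fin 10 × Fin 10 :=
  ![(0, 7), (0, 8), (0, 9), (1, 5), (1, 6), (1, 9), (2, 4), (2, 6), (2, 8), (3, 4), (3, 5), (3, 7), (4, 9), (5, 8), (6, 7)]
/-- exponent of the coordinate `u` (weight 0, entry 1 at the first edge, 0 at the second) -/
def cU : Fin 15 → Ex :=
  ![![1, 0, 0, -1, 0, -1, 0, 0, 0, 1],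
    ![1, 0, -1, 0, 0, 0, -1, 0, 0, 1],
    ![1, -1, 0, 0, 0, 0, -1, 0, 1, 0],
    ![0, 1, 0, -1, 0, 0, 0, -1, 0, 1],
    ![0, 1, -1, 0, 0, 0, 0, 0, -1, 1],
    ![-1, 1, 0, 0, 0, 0, 1, 0, -1, 0],
    ![0, 0, 1, -1, 0, 0, 0, -1, 1, 0],
    ![0, -1, 1, 0, 0, 0, 0, 0, 1, -1],
    ![-1, 0, 1, 0, 0, 0, 1, 0, 0, -1],
    ![0, 0, -1, 1, 0, 0, 0, 1, -1, 0],
    ![0, -1, 0, 1, 0, 0, 0, 1, 0, -1],
    ![-1, 0, 0, 1, 0, 1, 0, 0, 0, -1],
    ![-1, 0, 0, 1, 1, 0, 0, 0, -1, 0],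
    ![-1, 0, 0, 1, 0, 1, 0, 0, 0, -1],
    ![-1, 0, 1, 0, 0, 0, 1, 0, 0, -1]]
/-- exponent of the coordinate `v` -/
def cV : Fin 15 → Ex :=
  ![![0, 0, 0, 0, 0, -1, 1, 1, -1, 0],
    ![0, 0, 0, 0, 0, 1, -1, -1, 1, 0],
    ![0, 0, 0, 0, 1, 0, -1, -1, 0, 1],
    ![0, 0, 0, 0, 0, 1, -1, -1, 1, 0],
    ![0, 0, 0, 0, 0, -1, 1, 1, -1, 0],
    ![0, 0, 0, 0, 1, -1, 0, 0, -1, 1],
    ![0, 0, 0, 0, 1, 0, -1, -1, 0, 1],
    ![0, 0, 0, 0, -1, 0, 1, 1, 0, -1],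
    ![0, 0, 0, 0, -1, 1, 0, 0, 1, -1],
    ![0, 0, 0, 0, 1, -1, 0, 0, -1, 1],
    ![0, 0, 0, 0, -1, 1, 0, 0, 1, -1],
    ![0, 0, 0, 0, -1, 0, 1, 1, 0, -1],
    ![0, 1, -1, 0, 0, 0, 0, 0, -1, 1],
    ![0, -1, 1, 0, 0, 0, 0, 0, 1, -1],
    ![0, -1, 0, 1, 0, 0, 0, 1, 0, -1]]
/-- unit `w₁`, `w₁^7 = s₀ u^7 + s₁ v^7 + s₂` with `s = cS1` -/
def cW1 : Fin 15 → Ex :=
  ![![0, 0, 1, -1, 0, -1, 1, 0, 0, 0],
    ![0, 0, -1, 1, 0, 1, -1, 0, 0, 0],
    ![0, -1, 0, 1, 1, 0, -1, 0, 0, 0],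
    ![0, 0, 1, -1, 0, 0, 0, -1, 1, 0],
    ![0, 0, -1, 1, 0, 0, 0, 1, -1, 0],
    ![-1, 0, 0, 1, 1, 0, 0, 0, -1, 0],
    ![0, 1, 0, -1, 0, 0, 0, -1, 0, 1],
    ![0, -1, 0, 1, 0, 0, 0, 1, 0, -1],
    ![-1, 0, 0, 1, 0, 1, 0, 0, 0, -1],
    ![0, 1, -1, 0, 0, 0, 0, 0, -1, 1],
    ![0, -1, 1, 0, 0, 0, 0, 0, 1, -1],
    ![-1, 0, 1, 0, 0, 0, 1, 0, 0, -1],
    ![-1, 1, 0, 0, 0, 0, 1, 0, -1, 0],
    ![-1, 0, 1, 0, 0, 0, 1, 0, 0, -1],
    ![-1, 0, 0, 1, 0, 1, 0, 0, 0, -1]]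
/-- unit `w₂` -/
def cW2 : Fin 15 → Ex :=
  ![![0, 0, 0, 0, 1, -1, 0, 0, -1, 1],
    ![0, 0, 0, 0, 1, 0, -1, -1, 0, 1],
    ![0, 0, 0, 0, 0, 1, -1, -1, 1, 0],
    ![0, 0, 0, 0, 1, 0, -1, -1, 0, 1],
    ![0, 0, 0, 0, 1, -1, 0, 0, -1, 1],
    ![0, 0, 0, 0, 0, -1, 1, 1, -1, 0],
    ![0, 0, 0, 0, 0, 1, -1, -1, 1, 0],
    ![0, 0, 0, 0, -1, 1, 0, 0, 1, -1],
    ![0, 0, 0, 0, -1, 0, 1, 1, 0, -1],
    ![0, 0, 0, 0, 0, -1, 1, 1, -1, 0],
    ![0, 0, 0, 0, -1, 0, 1, 1, 0, -1],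
    ![0, 0, 0, 0, -1, 1, 0, 0, 1, -1],
    ![0, 0, -1, 1, 0, 0, 0, 1, -1, 0],
    ![0, -1, 0, 1, 0, 0, 0, 1, 0, -1],
    ![0, -1, 1, 0, 0, 0, 0, 0, 1, -1]]
/-- unit `w₃` -/
def cW3 : Fin 15 → Ex :=
  ![![0, 1, 0, -1, 0, -1, 1, 0, -1, 1],
    ![0, 1, -1, 0, 0, 1, -1, -1, 0, 1],
    ![0, -1, 1, 0, 1, 0, -1, -1, 1, 0],
    ![1, 0, 0, -1, 0, 0, -1, -1, 1, 1],
    ![1, 0, -1, 0, 0, -1, 0, 1, -1, 1],
    ![-1, 0, 1, 0, 1, -1, 1, 0, -1, 0],
    ![1, 0, 0, -1, 0, 0, -1, -1, 1, 1],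
    ![1, -1, 0, 0, -1, 0, 0, 1, 1, -1],
    ![-1, 1, 0, 0, -1, 1, 1, 0, 0, -1],
    ![1, 0, -1, 0, 0, -1, 0, 1, -1, 1],
    ![1, -1, 0, 0, -1, 0, 0, 1, 1, -1],
    ![-1, 1, 0, 0, -1, 1, 1, 0, 0, -1],
    ![-1, 1, -1, 1, 0, 1, 0, 0, -1, 0],
    ![-1, -1, 1, 1, 1, 0, 0, 0, 0, -1],
    ![-1, -1, 1, 1, 1, 0, 0, 0, 0, -1]]
/-- signs for `w₁` -/
def cS1 : Fin 15 → Fin 3 → ℤ :=
  ![![1, 0, 1],
    ![-1, 0, 1],
    ![-1, 0, 1],
    ![1, 0, 1],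
    ![-1, 0, 1],
    ![1, 0, -1],
    ![1, 0, -1],
    ![1, 0, -1],
    ![1, 0, -1],
    ![-1, 0, 1],
    ![1, 0, 1],
    ![1, 0, 1],
    ![1, 0, 1],
    ![1, 0, 1],
    ![1, 0, -1]]
/-- signs for `w₂` -/
def cS2 : Fin 15 → Fin 3 → ℤ :=
  ![![0, -1, 1],
    ![0, 1, -1],
    ![0, 1, 1],
    ![0, 1, -1],
    ![0, -1, 1],
    ![0, -1, 1],
    ![0, 1, 1],
    ![0, 1, 1],
    ![0, 1, -1],
    ![0, -1, 1],
    ![0, 1, -1],
    ![0, 1, 1],
    ![0, -1, 1],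
    ![0, 1, -1],
    ![0, 1, 1]]
/-- signs for `w₃` -/
def cS3 : Fin 15 → Fin 3 → ℤ :=
  ![![1, -1, 1],
    ![1, 1, -1],
    ![-1, 1, 1],
    ![1, -1, 1],
    ![1, 1, -1],
    ![1, 1, -1],
    ![1, -1, -1],
    ![-1, 1, 1],
    ![1, 1, -1],
    ![-1, -1, 1],
    ![-1, 1, -1],
    ![1, 1, 1],
    ![1, -1, 1],
    ![1, -1, 1],
    ![1, -1, -1]]
/-- a weight-0 vector `a` equals `a e • cU + a f • cV + a (cK 0) • cW1 + a (cK 1) • cW2 + a (cK 2) • cW3`, `(e,f) = cEd` -/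
def cK : Fin 15 → Fin 3 → Fin 10 :=
  ![![2, 4, 1],
    ![3, 4, 1],
    ![3, 5, 2],
    ![2, 4, 0],
    ![3, 4, 0],
    ![3, 7, 2],
    ![1, 5, 0],
    ![3, 5, 0],
    ![3, 7, 1],
    ![1, 6, 0],
    ![2, 6, 0],
    ![2, 8, 1],
    ![6, 7, 5],
    ![6, 7, 4],
    ![5, 8, 4]]
/-- a pentagon (degree 1) avoiding the two edges of the node -/
def cT : Fin 15 → Ex :=
  ![![0, 1, 0, 1, 1, 1, 0, 0, 0, 1],
    ![0, 1, 0, 1, 1, 1, 0, 0, 0, 1],
    ![0, 1, 0, 1, 0, 1, 1, 1, 0, 0],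
    ![1, 0, 0, 1, 1, 0, 0, 1, 0, 1],
    ![1, 0, 0, 1, 1, 0, 0, 1, 0, 1],
    ![1, 0, 0, 1, 0, 1, 0, 1, 1, 0],
    ![1, 0, 0, 1, 0, 1, 0, 1, 1, 0],
    ![1, 0, 0, 1, 1, 0, 0, 1, 0, 1],
    ![1, 0, 0, 1, 1, 0, 0, 1, 0, 1],
    ![1, 1, 0, 0, 0, 1, 0, 0, 1, 1],
    ![1, 0, 1, 0, 1, 0, 0, 0, 1, 1],
    ![1, 0, 1, 0, 1, 0, 0, 0, 1, 1],
    ![1, 0, 0, 1, 0, 1, 0, 1, 1, 0],
    ![1, 0, 0, 1, 1, 0, 0, 1, 0, 1],
    ![1, 0, 1, 0, 1, 0, 0, 0, 1, 1]]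
/-- degree 3, positive exactly off the two edges of the node -/
def cG : Fin 15 → Ex :=
  ![![0, 3, 2, 1, 2, 2, 2, 0, 1, 2],
    ![0, 3, 1, 2, 2, 2, 2, 1, 0, 2],
    ![0, 2, 2, 2, 1, 3, 2, 1, 2, 0],
    ![3, 0, 2, 1, 2, 0, 1, 2, 2, 2],
    ![3, 0, 1, 2, 2, 1, 0, 2, 2, 2],
    ![2, 0, 2, 2, 1, 2, 1, 2, 3, 0],
    ![3, 2, 0, 1, 0, 2, 1, 2, 2, 2],
    ![3, 1, 0, 2, 1, 2, 0, 2, 2, 2],
    ![2, 2, 0, 2, 2, 1, 1, 2, 0, 3],
    ![3, 2, 1, 0, 0, 1, 2, 2, 2, 2],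
    ![3, 1, 2, 0, 1, 0, 2, 2, 2, 2],
    ![2, 2, 2, 0, 2, 1, 1, 0, 2, 3],
    ![2, 1, 1, 2, 0, 2, 2, 3, 2, 0],
    ![2, 2, 1, 1, 2, 0, 2, 2, 0, 3],
    ![2, 2, 1, 1, 2, 2, 0, 0, 2, 3]]
/-- regular of degree 5 (`= κ`), zero at the two edges of the node; `= cU + cV - 7 n + 6` -/
def cE : Fin 15 → Ex :=
  ![![0, 6, 6, -2, 6, -3, 7, 0, -2, 7],
    ![0, 6, -2, 6, 6, 7, -3, -2, 0, 7],
    ![0, -2, 6, 6, 7, 6, -3, -2, 7, 0],
    ![6, 0, 6, -2, 6, 0, -2, -3, 7, 7],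
    ![6, 0, -2, 6, 6, -2, 0, 7, -3, 7],
    ![-2, 0, 6, 6, 7, -2, 7, 6, -3, 0],
    ![6, 6, 0, -2, 0, 6, -2, -3, 7, 7],
    ![6, -2, 0, 6, -2, 6, 0, 7, 7, -3],
    ![-2, 6, 0, 6, -2, 7, 7, 6, 0, -3],
    ![6, 6, -2, 0, 0, -2, 6, 7, -3, 7],
    ![6, -2, 6, 0, -2, 0, 6, 7, 7, -3],
    ![-2, 6, 6, 0, -2, 7, 7, 0, 6, -3],
    ![-2, 7, -2, 7, 0, 6, 6, 6, -3, 0],
    ![-2, -2, 7, 7, 6, 0, 6, 6, 0, -3],
    ![-2, -2, 7, 7, 6, 6, 0, 0, 6, -3]]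
/-- sign of the Jacobian -/
def cSg : Fin 15 → ℤ := ![-1, 1, 1, 1, -1, -1, 1, 1, 1, -1, 1, 1, -1, 1, 1]

/-- the concrete affine coordinate ring; variables `0..4` are `r 4, r 5, r 6, r 7, r 8` -/
noncomputable def idP (k : Type) [CommRing k] : Ideal (MvPolynomial (Fin 5) k) :=
  Ideal.span {MvPolynomial.X 1 ^ 7 - (MvPolynomial.X 2 ^ 7 - 1),
    MvPolynomial.X 3 ^ 7 - (MvPolynomial.X 4 ^ 7 - 1),
    MvPolynomial.X 0 ^ 7 - (MvPolynomial.X 2 ^ 7 - MvPolynomial.X 4 ^ 7)}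

abbrev PP (k : Type) [CommRing k] := MvPolynomial (Fin 5) k ⧸ idP k
abbrev KK (k : Type) [CommRing k] := FractionRing (PP k)

noncomputable def rKK (k : Type) [Field k] : Fin 10 → KK k := fun e =>
  algebraMap (PP k) (KK k) (Ideal.Quotient.mk (idP k)
    (![1, 1, 1, 1, MvPolynomial.X 0, MvPolynomial.X 1, MvPolynomial.X 2, MvPolynomial.X 3,
      MvPolynomial.X 4, 1] e))

/-! ### ultraproducts of fields -/

def nullI {J : Type} (U : Ultrafilter J) (K : J → Type) [∀ j, Field (K j)] : Ideal (∀ j, K j) where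
  carrier := {x | ∀ᶠ j in U, x j = 0}
  zero_mem' := Filter.Eventually.of_forall fun _ => rfl
  add_mem' := fun {a b} ha hb => by
    filter_upwards [ha, hb] with j h1 h2; simp [h1, h2]
  smul_mem' := fun c a ha => by
    filter_upwards [ha] with j h1; simp [h1]

instance {J : Type} (U : Ultrafilter J) (K : J → Type) [∀ j, Field (K j)] :
    (nullI U K).IsMaximal := by
  rw [Ideal.isMaximal_iff]
  refine ⟨fun h => ?_, fun I x hI hx hxI => ?_⟩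
  · have h' : ∀ᶠ j in U, (1 : ∀ j, K j) j = 0 := h
    obtain ⟨j, hj⟩ := h'.exists
    exact one_ne_zero hj
  · have h1 : ∀ᶠ j in U, x j ≠ 0 := by
      have : ¬ ∀ᶠ j in U, x j = 0 := hx
      exact Ultrafilter.eventually_not.2 this
    have h2 : (1 - x⁻¹ * x) ∈ nullI U K := by
      show ∀ᶠ j in U, (1 - x⁻¹ * x) j = 0
      filter_upwards [h1] with j hj
      simp [hj]
    have := I.add_mem (hI h2) (I.mul_mem_left x⁻¹ hxI)
    simpa using this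

def UP {J : Type} (U : Ultrafilter J) (K : J → Type) [∀ j, Field (K j)] : Type :=
  (∀ j, K j) ⧸ nullI U K

noncomputable instance {J : Type} (U : Ultrafilter J) (K : J → Type) [∀ j, Field (K j)] :
    Field (UP U K) := Ideal.Quotient.field (nullI U K)

noncomputable def UP.mk {J : Type} (U : Ultrafilter J) (K : J → Type) [∀ j, Field (K j)] :
    (∀ j, K j) →+* UP U K := Ideal.Quotient.mk (nullI U K)

theorem UP.mk_surj {J : Type} (U : Ultrafilter J) (K : J → Type) [∀ j, Field (K j)] :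
    Function.Surjective (UP.mk U K) := Ideal.Quotient.mk_surjective

theorem UP.mk_eq {J : Type} {U : Ultrafilter J} {K : J → Type} [∀ j, Field (K j)]
    {x y : ∀ j, K j} : UP.mk U K x = UP.mk U K y ↔ ∀ᶠ j in U, x j = y j := by
  have : UP.mk U K x = UP.mk U K y ↔ x - y ∈ nullI U K := Ideal.Quotient.eq
  rw [this]
  show (∀ᶠ j in U, (x - y) j = 0) ↔ _
  simp [sub_eq_zero]

/-- first-order description of a reflexive `R`-lattice `gen AA w b` in `K^ρ`, where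
`R = gen AA μ e` -/
structure EData {k K : Type} [Field k] [Field K] [Algebra (KA k) K] {ι : Type} (μ : ι → K)
    (e : ι → ℤ) {ρ m m' : ℕ} (w : Fin m → Fin ρ → K) (b : Fin m → ℤ)
    (φ : Matrix (Fin m) (Fin m') (KA k)) (b' : Fin m' → ℤ) (M0 : ℕ)
    (ψ : Fin 3 → Matrix (Fin m') (Fin m) (KA k)) (θ : ι → Matrix (Fin m) (Fin m) (KA k)) :
    Prop where
  res : ResData w b φ b' M0 ψ
  θdeg : ∀ l i j, θ l j i ∈ AA k (e l + b i - b j)
  θrel : ∀ l i, μ l • w i = ∑ j, θ l j i • w j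
  span : Submodule.span K (Set.range w) = ⊤

/-- `Sp` is compatible with constants and with `x, y` -/
structure SpOK {J : Type} (U : Ultrafilter J) (k K : J → Type) [∀ j, Field (k j)]
    [∀ j, Field (K j)] [∀ j, Algebra (k j) (K j)] [∀ j, Algebra (KA (k j)) (K j)]
    (K' : Type) [Field K'] [Algebra (UP U k) K'] [Algebra (KA (UP U k)) K']
    (Sp : K' →+* UP U K) : Prop where
  hk : ∀ c : ∀ j, k j, Sp (algebraMap (UP U k) K' (UP.mk U k c)) =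
    UP.mk U K (fun j => algebraMap (k j) (K j) (c j))
  hx : ∀ i : Fin 2, Sp (xK (UP U k) K' i) = UP.mk U K (fun j => xK (k j) (K j) i)

/-- no representation of `T` by matrices over `ℂ[[X,Y,Z]]` that is scalar on `A` -/
def NoRep (T : Type) [CommRing T] [Algebra ℂ T] (ιA : MvPolynomial (Fin 3) ℂ →ₐ[ℂ] T) : Prop :=
  ∀ (N : ℕ), 0 < N → ∀ ρ : T →+* Matrix (Fin N) (Fin N) (PS ℂ),
    (∀ f, ρ (ιA f) = (f : PS ℂ) • 1) → False

/-! ### uniqueness of Hilbert coefficients -/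

theorem HasHP.unique {h : ℤ → ℚ} {a b c a' b' c' : ℚ} (h1 : HasHP h a b c)
    (h2 : HasHP h a' b' c') : a = a' ∧ b = b' ∧ c = c' := by
  obtain ⟨s, hs⟩ := h1
  obtain ⟨s', hs'⟩ := h2
  have key : ∀ t ≥ max s s', (a - a') * (t : ℚ) ^ 2 + (b - b') * t + (c - c') = 0 := by
    intro t ht
    have e1 := hs t (le_trans (le_max_left _ _) ht)
    have e2 := hs' t (le_trans (le_max_right _ _) ht)
    linarith
  have k0 := key (max s s') le_rfl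
  have k1 := key (max s s' + 1) (by omega)
  have k2 := key (max s s' + 2) (by omega)
  push_cast at k0 k1 k2
  have ea : a - a' = 0 := by linarith
  have eb : b - b' = 0 := by rw [ea] at k0 k1; linarith
  have ec : c - c' = 0 := by rw [ea, eb] at k0; linarith
  exact ⟨by linarith, by linarith, by linarith⟩

theorem HasHP.coeffs {k : Type} [Field k] {V : Type} [AddCommGroup V] [Module k V] {N : Fam k V}
    {a b c : ℚ} (h : HasHP (hf N) a b c) : ha N = a ∧ hb N = b ∧ hc N = c :=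
  HasHP.unique (Classical.epsilon_spec (p := fun x : ℚ × ℚ × ℚ => HasHP (hf N) x.1 x.2.1 x.2.2)
    ⟨(a, b, c), h⟩) h

end Crest.Agent.R169
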