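import Crest.Agent.R169.Defs

/-! # R169: further definitions for the example -/

set_option autoImplicit false

namespace Crest.Agent.R169
open Module

/-- the three Kummer relations; `r 0, …, r 4` are the edges `4, …, 8` -/
structure Kum {L : Type} [CommRing L] (r : Fin 5 → L) : Prop where
  rel5 : r 1 ^ 7 = r 2 ^ 7 - 1
  rel7 : r 3 ^ 7 = r 4 ^ 7 - 1
  rel4 : r 0 ^ 7 = r 2 ^ 7 - r 4 ^ 7

abbrev KI := (ℕ × ℕ) × (Fin 7 × Fin 7 × Fin 7)

/-- the monomial basis of the affine coordinate ring -/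
def kb {L : Type} [CommRing L] (r : Fin 5 → L) (z : KI) : L :=
  r 2 ^ z.1.1 * r 4 ^ z.1.2 * (r 0 ^ (z.2.1 : ℕ) * r 1 ^ (z.2.2.1 : ℕ) * r 3 ^ (z.2.2.2 : ℕ))

/-- the five non-constant roots -/
def r5 {L : Type} (r : Fin 10 → L) : Fin 5 → L := ![r 4, r 5, r 6, r 7, r 8]

section
variable {k K : Type} [Field k] [Field K] [Algebra k K]

noncomputable def exg (M : Model k K) (L : NN) (α : Fin 15) : K := M.mon (cG α) / lf M L 2 ^ 3
noncomputable def exτ (M : Model k K) (L : NN) (α : Fin 15) : K := M.mon (cT α) / lf M L 2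
noncomputable def exu (M : Model k K) (α : Fin 15) : K := M.mon (cU α)
noncomputable def exv (M : Model k K) (α : Fin 15) : K := M.mon (cV α)
noncomputable def exε (M : Model k K) (L : NN) (α : Fin 15) : K :=
  (cSg α : K) * M.mon (cE α) / lf M L 2 ^ 5
noncomputable def exD (M : Model k K) (L : NN) (i : Fin 2) : Derivation k K K :=
  (M.mon (fun _ => 7) / lf M L 2 ^ 14) • M.δ i
noncomputable def exj0 (M : Model k K) (L : NN) : K :=
  (M.mon (fun _ => 7) / lf M L 2 ^ 14) ^ 2 * M.mon (fun _ => -6) * lf M L 2 ^ 5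

end

end Crest.Agent.R169
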