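import Crest.Agent.R169.Defs

/-! # R169: further definitions (filtrations, localised modules, ultraproducts) -/

set_option autoImplicit false

namespace Crest.Agent.R169
open Module

/-- dehomogenised component of degree `j` of a power series -/
noncomputable def top (k : Type) [Field k] (j : ℤ) : PS k →ₗ[k] KA k :=
  if 0 ≤ j then ∑ d ∈ Finset.finsuppAntidiag (Finset.univ : Finset (Fin 3)) j.toNat,
    (MvPowerSeries.coeff d).smulRight (xA k 0 ^ d 0 * xA k 1 ^ d 1) else 0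

noncomputable def topV (k : Type) [Field k] (N : ℕ) (j : ℤ) :
    (Fin N → PS k) →ₗ[k] (Fin N → KA k) := (top k j).compLeft (Fin N)

/-- the leading forms in degree `j` of `F (j + i)` -/
noncomputable def UF {k : Type} [Field k] {N : ℕ} (F : Fam k (Fin N → PS k)) (i : ℤ) :
    Fam k (Fin N → KA k) := fun j => (F (j + i) ⊓ ordF k N j).map (topV k N j)

/-- an embedding of `gr_F` as a full family in `K^ρ` -/
structure Emb {k K : Type} [Field k] [Field K] [Algebra k K] [Algebra (KA k) K]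
    [IsScalarTower k (KA k) K] {B : Base k K} {N : ℕ} (ϱ : Rep B N) (F : Fam k (Fin N → PS k))
    {ρ : ℕ} (π : ℤ → (Fin N → PS k) →ₗ[k] (Fin ρ → K)) : Prop where
  ker : ∀ t, ∀ m ∈ F t, π t m = 0 ↔ m ∈ F (t + 1)
  equiv : ∀ s t, ∀ a ∈ B.R s, ∀ m ∈ F t, π (s + t) ((ϱ.Θ s a).mulVec m) = a • π t m
  full : Full (fun t => (F t).map (π t))

/-- degree `d` part of `N[1/g]`, `deg g = c` -/
def LocM {k K V : Type} [Field k] [Field K] [AddCommGroup V] [Module k V] [Module K V]
    (N : Fam k V) (g : K) (c : ℤ) (d : ℤ) : Set V :=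
  {ξ | ∃ j : ℕ, g ^ j • ξ ∈ N (d + j * c)}

/-- the coordinatewise action of a derivation -/
def DV {k K : Type} [Field k] [Field K] [Algebra k K] (D : Derivation k K K) {ρ : ℕ}
    (ξ : Fin ρ → K) : Fin ρ → K := fun i => D (ξ i)

/-- `𝕂(x,y) → ∏ k_j(x,y) / U` identifies `AA t` with the ultraproduct of the `AA t` -/
structure SpAOK {J : Type} (U : Ultrafilter J) (k : J → Type) [∀ j, Field (k j)]
    (SpA : KA (UP U k) →+* UP U (fun j => KA (k j))) : Prop where
  down : ∀ t, ∀ a ∈ AA (UP U k) t, ∃ a' : ∀ j, KA (k j), (∀ j, a' j ∈ AA (k j) t) ∧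
    SpA a = UP.mk U _ a'
  up : ∀ t (a' : ∀ j, KA (k j)), (∀ᶠ j in U, a' j ∈ AA (k j) t) →
    ∃ a ∈ AA (UP U k) t, SpA a = UP.mk U _ a'
  hx : ∀ i, SpA (xA (UP U k) i) = UP.mk U _ (fun j => xA (k j) i)
  hk : ∀ c : ∀ j, k j, SpA (algebraMap (UP U k) (KA (UP U k)) (UP.mk U k c)) =
    UP.mk U _ (fun j => algebraMap (k j) (KA (k j)) (c j))

end Crest.Agent.R169
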