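import Crest.Agent.R169.EHP
import Crest.Agent.R169.A0
import Crest.Agent.R169.AHP

/-! # R169 task EAlg: the three linear forms are algebraically independent -/

set_option autoImplicit false

namespace Crest.Agent.R169
open Module

variable {k K : Type} [Field k] [Field K] [Algebra k K]

theorem EAlg_scale {e : ℕ} {F : MvPolynomial (Fin 3) k} (hF : F.IsHomogeneous e) (x : Fin 3 → K)
    (c : K) : MvPolynomial.aeval (fun i => c * x i) F = c ^ e * MvPolynomial.aeval x F := by
  rw [F.as_sum, map_sum, map_sum, Finset.mul_sum]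
  refine Finset.sum_congr rfl fun s hs => ?_
  rw [MvPolynomial.aeval_monomial, MvPolynomial.aeval_monomial,
    Finsupp.prod_fintype _ _ (by simp), Finsupp.prod_fintype _ _ (by simp), Fin.prod_univ_three,
    Fin.prod_univ_three, ← A0_hom_deg hF hs]
  ring

instance EAlg_fin (s : ℕ) :
    FiniteDimensional k (MvPolynomial.homogeneousSubmodule (Fin 3) k s) :=
  Module.Finite.iff_fg.2 (MvPolynomial.homogeneousSubmodule_fg (Fin 3) k s)

theorem EAlg_finrank (s : ℕ) :
    (finrank k (MvPolynomial.homogeneousSubmodule (Fin 3) k s) : ℚ) =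
      ((s : ℚ) + 1) * (s + 2) / 2 := by
  have h1 : (MvPolynomial.homogeneousSubmodule (Fin 3) k s).map (deh (k := k)).toLinearMap =
      AA k s := by
    ext a
    constructor
    · rintro ⟨f, hf, rfl⟩
      exact deh_mem hf
    · intro ha
      obtain ⟨f, hf, rfl⟩ := deh_surj ha
      exact ⟨f, hf, rfl⟩
  have h2 : Function.Injective ((deh (k := k)).toLinearMap.domRestrict
      (MvPolynomial.homogeneousSubmodule (Fin 3) k s)) := by
    rw [injective_iff_map_eq_zero]
    intro f hf
    exact Subtype.ext (deh_inj f.2 hf)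
  have h3 := LinearMap.finrank_range_of_inj h2
  rw [LinearMap.range_domRestrict, h1] at h3
  rw [← h3, finrank_AA (by omega)]
  push_cast
  ring

theorem EAlg_sup_le {V ι : Type} [AddCommGroup V] [Module k V] (W : ι → Submodule k V)
    [∀ i, FiniteDimensional k (W i)] (S : Finset ι) :
    finrank k (S.sup W : Submodule k V) ≤ ∑ i ∈ S, finrank k (W i) := by
  classical
  induction S using Finset.induction_on with
  | empty => simp
  | insert a S ha ih =>
    rw [Finset.sup_insert, Finset.sum_insert ha]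
    exact (Submodule.finrank_add_le_finrank_add_finrank _ _).trans (by omega)

theorem EAlg_image {V : Type} [AddCommGroup V] [Module k V]
    (ev : MvPolynomial (Fin 3) k →ₗ[k] V) {e : ℕ} {F : MvPolynomial (Fin 3) k}
    (hF : F.IsHomogeneous e) (h0 : F ≠ 0) (hev : ∀ G, ev (F * G) = 0) (s : ℕ) :
    (finrank k ((MvPolynomial.homogeneousSubmodule (Fin 3) k s).map ev) : ℚ) ≤ e * (s + 2) := by
  have h := LinearMap.finrank_range_add_finrank_ker
    (ev.domRestrict (MvPolynomial.homogeneousSubmodule (Fin 3) k s))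
  rw [LinearMap.range_domRestrict, LinearMap.ker_domRestrict,
    ← Submodule.finrank_map_subtype_eq (MvPolynomial.homogeneousSubmodule (Fin 3) k s),
    Submodule.map_comap_subtype] at h
  have hq : (finrank k ((MvPolynomial.homogeneousSubmodule (Fin 3) k s).map ev) : ℚ) +
      finrank k (MvPolynomial.homogeneousSubmodule (Fin 3) k s ⊓ LinearMap.ker ev :
        Submodule k _) = ((s : ℚ) + 1) * (s + 2) / 2 := by
    rw [← EAlg_finrank (k := k) s]; exact_mod_cast h
  have hn : (0 : ℚ) ≤ finrank k (MvPolynomial.homogeneousSubmodule (Fin 3) k s ⊓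
    LinearMap.ker ev : Submodule k _) := Nat.cast_nonneg _
  have hs0 : (0 : ℚ) ≤ s := Nat.cast_nonneg _
  have he0 : (0 : ℚ) ≤ e := Nat.cast_nonneg _
  rcases lt_or_ge s e with hse | hse
  · have : (s : ℚ) + 1 ≤ e := by exact_mod_cast hse
    nlinarith
  · obtain ⟨d, rfl⟩ := Nat.exists_eq_add_of_le hse
    have hle : (MvPolynomial.homogeneousSubmodule (Fin 3) k d).map (LinearMap.mulLeft k F) ≤
        MvPolynomial.homogeneousSubmodule (Fin 3) k (e + d) ⊓ LinearMap.ker ev := by
      rintro _ ⟨G, hG, rfl⟩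
      exact ⟨hF.mul hG, hev G⟩
    have h1 := Submodule.finrank_mono hle
    have hinj : Function.Injective (LinearMap.mulLeft k F) := fun a b hab =>
      mul_left_cancel₀ h0 hab
    rw [← LinearEquiv.finrank_eq (Submodule.equivMapOfInjective _ hinj _)] at h1
    have h2 : ((d : ℚ) + 1) * (d + 2) / 2 ≤ finrank k
        (MvPolynomial.homogeneousSubmodule (Fin 3) k (e + d) ⊓ LinearMap.ker ev :
          Submodule k _) := by
      rw [← EAlg_finrank (k := k) d]; exact_mod_cast h1
    have hd0 : (0 : ℚ) ≤ d := Nat.cast_nonneg _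
    push_cast at hq ⊢
    nlinarith

/-- Otherwise `aeval lf` kills `F · A_{s-e}` inside `A_s`, so its image on forms of degree `s` has
dimension `≤ dim A_s - dim A_{s-e} ≤ e (s+1)`, and `exR0_eq_gen` makes `dim R₀(t) = O(t)`,
contradicting `hasHP_exR0`.  (`dim A_s` via `deh_inj/deh_surj/finrank_AA`.) -/
theorem aeval_lf_ne (M : Model k K) (L : NN) (hD : (L.D : k) ≠ 0) {e : ℕ}
    {F : MvPolynomial (Fin 3) k} (hF : F.IsHomogeneous e) (h0 : F ≠ 0) :
    MvPolynomial.aeval (lf M L) F ≠ 0 := by
  intro hz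
  have := Fintype.ofFinite (Gen L)
  set ev := (MvPolynomial.aeval (R := k) (lf M L)).toLinearMap with hev
  have hI := EAlg_image ev hF h0 (fun G => by
    show MvPolynomial.aeval (lf M L) (F * G) = 0
    rw [map_mul, hz, zero_mul])
  have hb : ∀ t : ℤ, 0 ≤ t → hf (exR0 M) t ≤ Fintype.card (Gen L) * (e * (t + 2)) := by
    intro t ht
    let W : Gen L → Submodule k K := fun g =>
      ((MvPolynomial.homogeneousSubmodule (Fin 3) k (t - g.1.2).toNat).map ev).map
        (LinearMap.mulRight k (M.mon g.1.1))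
    have hle : exR0 M t ≤ Finset.univ.sup W := by
      rw [exR0_eq_gen M L hD, Submodule.span_le]
      rintro _ ⟨g, e', G, hG, he', rfl⟩
      refine (Finset.le_sup (f := W) (Finset.mem_univ g)) ⟨_, ⟨G, ?_, rfl⟩, rfl⟩
      have : (t - g.1.2).toNat = e' := by omega
      rw [this]
      exact hG
    have h1 := (Submodule.finrank_mono hle).trans (EAlg_sup_le W Finset.univ)
    have h2 : ∀ g, (finrank k (W g) : ℚ) ≤ e * (t + 2) := by
      intro g
      have h3 : finrank k (W g) ≤ finrank k
          ((MvPolynomial.homogeneousSubmodule (Fin 3) k (t - g.1.2).toNat).map ev) :=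
        Submodule.finrank_map_le _ _
      have h4 := hI (t - g.1.2).toNat
      have h5 : 0 ≤ g.1.2 := g.2.1.nonneg
      have h6 : (((t - g.1.2).toNat : ℕ) : ℚ) ≤ t := by
        have : (((t - g.1.2).toNat : ℕ) : ℤ) ≤ t := by omega
        exact_mod_cast this
      have h7 : (finrank k (W g) : ℚ) ≤ finrank k
          ((MvPolynomial.homogeneousSubmodule (Fin 3) k (t - g.1.2).toNat).map ev) := by
        exact_mod_cast h3
      have he0 : (0 : ℚ) ≤ e := Nat.cast_nonneg _
      nlinarith
    calc hf (exR0 M) t ≤ ∑ g, (finrank k (W g) : ℚ) := by unfold hf; exact_mod_cast h1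
      _ ≤ ∑ _g : Gen L, (e : ℚ) * (t + 2) := Finset.sum_le_sum fun g _ => h2 g
      _ = _ := by simp
  have H' : HasHP (fun t : ℤ => (Fintype.card (Gen L) : ℚ) * (e * (t + 2))) 0
      (Fintype.card (Gen L) * e) (Fintype.card (Gen L) * e * 2) := ⟨0, fun t _ => by ring⟩
  have := ((hasHP_exR0 M).le H' ⟨0, hb⟩).1
  norm_num at this

theorem lf_ne (M : Model k K) (L : NN) (hD : (L.D : k) ≠ 0) : lf M L 2 ≠ 0 := by
  have := aeval_lf_ne M L hD (MvPolynomial.isHomogeneous_X k (2 : Fin 3)) (MvPolynomial.X_ne_zero _)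
  simpa using this

/-- `aeval ![ℓ₀/ℓ₂, ℓ₁/ℓ₂] : k[x,y] → K` is injective (homogenise), extend to the fraction field
(`IsFractionRing.lift`) and use `RingHom.toAlgebra`. -/
theorem exists_compat (M : Model k K) (L : NN) (hD : (L.D : k) ≠ 0) :
    ∃ (_ : Algebra (KA k) K), IsScalarTower k (KA k) K ∧ Compat M L := by
  have hZ := lf_ne M L hD
  let ψ : P2 k →ₐ[k] K := MvPolynomial.aeval fun i : Fin 2 => lf M L i.castSucc / lf M L 2
  let d : MvPolynomial (Fin 3) k →ₐ[k] P2 k :=
    MvPolynomial.aeval ![MvPolynomial.X 0, MvPolynomial.X 1, 1]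
  have hd : ∀ F, algebraMap (P2 k) (KA k) (d F) = deh F := by
    intro F
    have : (IsScalarTower.toAlgHom k (P2 k) (KA k)).comp d = deh := by
      ext i
      fin_cases i <;> simp [d, deh, xA]
    exact AlgHom.congr_fun this F
  have hψd : ∀ F, ψ (d F) = MvPolynomial.aeval (fun i => (lf M L 2)⁻¹ * lf M L i) F := by
    intro F
    have : ψ.comp d = MvPolynomial.aeval (fun i => (lf M L 2)⁻¹ * lf M L i) := by
      ext i
      fin_cases i <;> simp [d, ψ, div_eq_inv_mul, hZ]
    exact AlgHom.congr_fun this F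
  have hinj : Function.Injective ψ.toRingHom := by
    rw [injective_iff_map_eq_zero]
    intro f hf
    by_contra hf0
    obtain ⟨F, hF, hFf⟩ := deh_surj (poly_mem_AA f)
    have h1 : d F = f := A0_inj (by rw [hd, hFf])
    have hF0 : F ≠ 0 := by rintro rfl; exact hf0 (by rw [← h1, map_zero])
    have h2 : ψ (d F) = 0 := by rw [h1]; exact hf
    rw [hψd, EAlg_scale hF] at h2
    exact (mul_ne_zero (pow_ne_zero _ (inv_ne_zero hZ)) (aeval_lf_ne M L hD hF hF0)) h2
  let φ : KA k →+* K := IsFractionRing.lift hinj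
  let alg : Algebra (KA k) K := φ.toAlgebra
  refine ⟨alg, IsScalarTower.of_algebraMap_eq fun c => ?_, hZ, fun i => ?_⟩
  · show algebraMap k K c = φ (algebraMap k (KA k) c)
    rw [IsScalarTower.algebraMap_apply k (P2 k) (KA k), IsFractionRing.lift_algebraMap]
    exact (ψ.commutes c).symm
  · show φ (algebraMap (P2 k) (KA k) (MvPolynomial.X i)) = _
    rw [IsFractionRing.lift_algebraMap]
    simp [ψ]

end Crest.Agent.R169
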