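import Crest.Agent.R169.EAlg
import Crest.Agent.R169.AHilb

/-! # R169 task EBase: the example as a `Base` -/

set_option autoImplicit false

namespace Crest.Agent.R169
open Module

variable {k K : Type} [Field k] [Field K] [Algebra k K] [Algebra (KA k) K]
  [IsScalarTower k (KA k) K]

theorem algebraMap_deh (M : Model k K) (L : NN) (hC : Compat M L) {e : ℕ}
    {F : MvPolynomial (Fin 3) k} (hF : F.IsHomogeneous e) :
    algebraMap (KA k) K (deh F) = MvPolynomial.aeval (lf M L) F / lf M L 2 ^ e := by
  have hZ := hC.1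
  have h0 : algebraMap (KA k) K (xA k 0) = lf M L 0 / lf M L 2 := hC.2 0
  have h1 : algebraMap (KA k) K (xA k 1) = lf M L 1 / lf M L 2 := hC.2 1
  have : (IsScalarTower.toAlgHom k (KA k) K).comp deh =
      MvPolynomial.aeval (fun i => (lf M L 2)⁻¹ * lf M L i) := by
    ext i
    fin_cases i <;> simp [deh, h0, h1, div_eq_inv_mul, hZ]
  have h := AlgHom.congr_fun this F
  rw [EAlg_scale hF] at h
  rw [div_eq_inv_mul, ← inv_pow, ← h]
  rfl

/-- from `exR0_eq_gen`, `deh_surj`, `deh_mem` -/
theorem exR_eq_gen (M : Model k K) (L : NN) (hC : Compat M L) (hD : (L.D : k) ≠ 0) :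
    exR M L = gen (AA k) (genμ M L) (fun g => g.1.2) := by
  have hZ := hC.1
  funext t
  apply le_antisymm
  · intro z hz
    rw [mem_exR M L hZ, exR0_eq_gen M L hD] at hz
    have key : ∀ w ∈ Submodule.span k {z | ∃ (g : Gen L) (e : ℕ) (F : MvPolynomial (Fin 3) k),
        F.IsHomogeneous e ∧ (e : ℤ) + g.1.2 = t ∧
          z = MvPolynomial.aeval (lf M L) F * M.mon g.1.1},
        w / lf M L 2 ^ t ∈ gen (AA k) (genμ M L) (fun g => g.1.2) t := by
      intro w hw
      induction hw using Submodule.span_induction with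
      | zero => simp
      | add x y _ _ hx hy => rw [add_div]; exact Submodule.add_mem _ hx hy
      | smul c x _ hx => rw [smul_div_assoc]; exact Submodule.smul_mem _ _ hx
      | mem x hx =>
        obtain ⟨g, e, F, hF, he, rfl⟩ := hx
        refine Submodule.subset_span ⟨g, deh F, ?_, ?_⟩
        · have : t - g.1.2 = e := by omega
          show deh F ∈ AA k (t - g.1.2)
          rw [this]; exact deh_mem hF
        · rw [Algebra.smul_def, algebraMap_deh M L hC hF, genμ, ← he, zpow_add₀ hZ, zpow_natCast]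
          field_simp
    have h := key _ hz
    rwa [mul_div_cancel_left₀ _ (zpow_ne_zero t hZ)] at h
  · refine Submodule.span_le.2 ?_
    rintro _ ⟨g, a, ha, rfl⟩
    by_cases ha0 : a = 0
    · rw [ha0, zero_smul]; exact Submodule.zero_mem _
    obtain ⟨e, he⟩ := Int.eq_ofNat_of_zero_le (AA_nonneg ha ha0)
    rw [he] at ha
    obtain ⟨F, hF, rfl⟩ := deh_surj ha
    have ht : t = e + g.1.2 := by
      have : t - g.1.2 = e := he
      omega
    show _ ∈ exR M L t
    rw [mem_exR M L hZ, Algebra.smul_def, algebraMap_deh M L hC hF, genμ]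
    have : lf M L 2 ^ t * (MvPolynomial.aeval (lf M L) F / lf M L 2 ^ e *
        (M.mon g.1.1 / lf M L 2 ^ g.1.2)) = MvPolynomial.aeval (lf M L) F * M.mon g.1.1 := by
      rw [ht, zpow_add₀ hZ, zpow_natCast]
      have := zpow_ne_zero g.1.2 hZ
      field_simp
    rw [this, ht]
    exact exR0_mul M (aeval_lf_mem M L hF) (mon_mem_exR0 M g.2.1)

theorem EBase_one (M : Model k K) (L : NN) (hZ : lf M L 2 ≠ 0) : (1 : K) ∈ exR M L 0 := by
  rw [mem_exR M L hZ, zpow_zero, mul_one, mem_exR0_zero]
  exact ⟨1, map_one _⟩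

/-- `K' = spanF exR` is a finite-dimensional `k(x,y)`-subalgebra of a field, hence a field; it contains
`r e = mon (single e 1 - gam e + 1) / mon 1` (both monomials of degree 2), so all of `K` (`M.frac`). -/
theorem exR_full (M : Model k K) (L : NN) (hC : Compat M L) (hD : (L.D : k) ≠ 0) :
    Full (exR M L) := by
  have hZ := hC.1
  have hlat : IsLat (exR M L) := by rw [exR_eq_gen M L hC hD]; exact gen_isLat _ _
  have hfin := hlat.finite_spanF
  have hmul : ∀ x y : K, x ∈ spanF (exR M L) → y ∈ spanF (exR M L) → x * y ∈ spanF (exR M L) := by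
    intro x y hx hy
    induction hx using Submodule.span_induction with
    | zero => simp
    | add a b _ _ ha hb => rw [add_mul]; exact Submodule.add_mem _ ha hb
    | smul c a _ ha => rw [smul_mul_assoc]; exact Submodule.smul_mem _ _ ha
    | mem a ha =>
      obtain ⟨s, hs⟩ := Set.mem_iUnion.1 ha
      induction hy using Submodule.span_induction with
      | zero => simp
      | add a b _ _ ha hb => rw [mul_add]; exact Submodule.add_mem _ ha hb
      | smul c a _ ha => rw [mul_smul_comm]; exact Submodule.smul_mem _ _ ha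
      | mem b hb =>
        obtain ⟨t, ht⟩ := Set.mem_iUnion.1 hb
        exact A1_mem_spanF (exR_mul M L hZ s t a hs b ht)
  let S : Subalgebra (KA k) K :=
    (spanF (exR M L)).toSubalgebra (A1_mem_spanF (EBase_one M L hZ)) hmul
  have hSfin : FiniteDimensional (KA k) S := hfin
  have hinv : ∀ x ∈ S, x⁻¹ ∈ S := by
    intro x hx
    have halg : IsAlgebraic (KA k) (⟨x, hx⟩ : S) := Algebra.IsAlgebraic.isAlgebraic _
    exact S.inv_mem_of_algebraic (x := ⟨x, hx⟩) (halg.algHom S.val)
  have hr : ∀ e, M.r e ∈ S := by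
    intro e
    have m1 : Mon (fun _ => 1) 2 := ⟨fun _ => zero_le_one, by simpa using reg_const 1⟩
    have m3 : Mon (Pi.single e 1 - gam e + fun _ => 1) 2 := by
      refine ⟨fun f => ?_, fun i => ?_⟩
      · revert e f; decide
      · rw [vs_add, vs_sub, vs_gam, sub_self, zero_add]
        exact m1.2 i
    have a1 : M.mon (fun _ => 1) / lf M L 2 ^ (2 : ℤ) ∈ S :=
      A1_mem_spanF (t := 2) (Submodule.subset_span ⟨_, m1, rfl⟩)
    have a3 : M.mon (Pi.single e 1 - gam e + fun _ => 1) / lf M L 2 ^ (2 : ℤ) ∈ S :=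
      A1_mem_spanF (t := 2) (Submodule.subset_span ⟨_, m3, rfl⟩)
    have := S.mul_mem a3 (hinv _ a1)
    rw [M.mon_add, M.mon_sub, M.mon_gam, M.mon_single] at this
    have hne := M.mon_ne (fun _ => 1)
    have hz2 := zpow_ne_zero (2 : ℤ) hZ
    convert this using 1
    field_simp
  have hadj : Algebra.adjoin k (Set.range M.r) ≤ S.restrictScalars k :=
    Algebra.adjoin_le (by rintro _ ⟨e, rfl⟩; exact hr e)
  rw [Full, eq_top_iff]
  intro z _
  obtain ⟨a, ha, b, hb, -, rfl⟩ := M.frac z
  rw [div_eq_mul_inv]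
  exact S.mul_mem (hadj ha) (hinv _ (hadj hb))

theorem genμ_span (M : Model k K) (L : NN) (hC : Compat M L) (hD : (L.D : k) ≠ 0) :
    Submodule.span (KA k) (Set.range (genμ M L)) = ⊤ := by
  have h := exR_full M L hC hD
  rwa [Full, exR_eq_gen M L hC hD, spanF_gen] at h

theorem exists_base (M : Model k K) (L : NN) (hC : Compat M L) (hD : (L.D : k) ≠ 0) :
    ∃ B : Base k K, B.R = exR M L := by
  have hlat : IsLat (exR M L) := by rw [exR_eq_gen M L hC hD]; exact gen_isLat _ _
  refine ⟨{ R := exR M L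
            mul := exR_mul M L hC.1
            A_le := fun t a ha => ?_
            lat := hlat
            full := exR_full M L hC hD }, rfl⟩
  have := hlat.isMod t 0 a ha 1 (EBase_one M L hC.1)
  rwa [add_zero, ← Algebra.algebraMap_eq_smul_one] at this

theorem hasHP_exR (M : Model k K) (L : NN) (hC : Compat M L) :
    HasHP (hf (exR M L)) (1715 / 2) (-(8575 / 2)) 4802 := by
  rw [hf_exR M L hC.1]
  exact hasHP_exR0 M

/-- `IsLat.two_ha` -/
theorem rk_ex (M : Model k K) (L : NN) (hC : Compat M L) (hD : (L.D : k) ≠ 0) :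
    finrank (KA k) K = 1715 := by
  have hlat : IsLat (exR M L) := by rw [exR_eq_gen M L hC hD]; exact gen_isLat _ _
  have h := hlat.two_ha
  have hF : spanF (exR M L) = ⊤ := exR_full M L hC hD
  rw [(hasHP_exR M L hC).coeffs.1, hF, finrank_top] at h
  have : (finrank (KA k) K : ℚ) = 1715 := by rw [← h]; norm_num
  exact_mod_cast this

end Crest.Agent.R169
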