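import Crest.Agent.R169.Defs2

/-! # R169 task EBasic: monomials, the graded ring `exR0` -/

set_option autoImplicit false

namespace Crest.Agent.R169
open Module

theorem vs_add (a b : Ex) : vs (a + b) = vs a + vs b := by
  funext i; fin_cases i <;> simp [vs] <;> ring

theorem vs_sub (a b : Ex) : vs (a - b) = vs a - vs b := by
  funext i; fin_cases i <;> simp [vs] <;> ring

theorem vs_zsmul (n : ℤ) (a : Ex) : vs (n • a) = n • vs a := by
  funext i; fin_cases i <;> simp [vs] <;> ring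

theorem vs_gam (e : Fin 10) : vs (gam e) = vs (Pi.single e 1) := by
  revert e; decide

theorem gam_ge (e f : Fin 10) : -1 ≤ gam e f := by
  revert e f; decide

theorem Reg.add {a b : Ex} {s t : ℤ} (ha : Reg a s) (hb : Reg b t) : Reg (a + b) (s + t) := by
  intro i; rw [vs_add, Pi.add_apply, ha i, hb i]; ring

theorem Reg.sub {a b : Ex} {s t : ℤ} (ha : Reg a s) (hb : Reg b t) : Reg (a - b) (s - t) := by
  intro i; rw [vs_sub, Pi.sub_apply, ha i, hb i]; ring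

theorem Reg.zsmul {a : Ex} {s : ℤ} (ha : Reg a s) (n : ℤ) : Reg (n • a) (n * s) := by
  intro i; rw [vs_zsmul, Pi.smul_apply, ha i, smul_eq_mul]; ring

theorem reg_const (n : ℤ) : Reg (fun _ => n) (2 * n) := by
  intro i; fin_cases i <;> simp [vs] <;> ring

theorem Mon.add {a b : Ex} {s t : ℤ} (ha : Mon a s) (hb : Mon b t) : Mon (a + b) (s + t) := by
  exact ⟨fun e => add_nonneg (ha.1 e) (hb.1 e), ha.2.add hb.2⟩

theorem Mon.nonneg {a : Ex} {s : ℤ} (ha : Mon a s) : 0 ≤ s := by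
  have h := ha.2 0
  have h0 := ha.1 0
  have h1 := ha.1 1
  have h2 := ha.1 2
  have h3 := ha.1 3
  simp [vs] at h
  omega

theorem Mon.le_two_mul {a : Ex} {s : ℤ} (ha : Mon a s) (e : Fin 10) : a e ≤ 2 * s := by
  have v0 := ha.2 0
  have v1 := ha.2 1
  have v2 := ha.2 2
  have v3 := ha.2 3
  have h0 := ha.1 0
  have h1 := ha.1 1
  have h2 := ha.1 2
  have h3 := ha.1 3
  have h4 := ha.1 4
  have h5 := ha.1 5
  have h6 := ha.1 6
  have h7 := ha.1 7
  have h8 := ha.1 8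
  have h9 := ha.1 9
  simp [vs] at v0 v1 v2 v3
  fin_cases e <;> simp <;> omega

theorem mon_zero_iff {a : Ex} : Mon a 0 ↔ a = 0 := by
  constructor
  · intro h
    funext e
    have := h.le_two_mul e
    have := h.1 e
    simp only [Pi.zero_apply]; omega
  · rintro rfl
    exact ⟨fun _ => le_rfl, fun i => by fin_cases i <;> simp [vs]⟩

theorem Mon.deg_unique {a : Ex} {s t : ℤ} (ha : Mon a s) (hb : Mon a t) : s = t := by
  have := ha.2 0
  have := hb.2 0
  omega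

theorem finite_mon (m : ℤ) : {a : Ex | Mon a m}.Finite := by
  refine (Set.finite_Icc (0 : Ex) (fun _ => 2 * m)).subset fun a ha => ⟨ha.1, ?_⟩
  exact fun e => Mon.le_two_mul ha e

instance (L : NN) : Finite (Gen L) := by
  have : {z : Ex × ℤ | Mon z.1 z.2 ∧ z.2 < L.t1}.Finite := by
    refine ((Set.finite_Icc (0 : Ex) (fun _ => 2 * L.t1)).prod
      (Set.finite_Icc (0 : ℤ) (L.t1 : ℤ))).subset
      fun z hz => ⟨⟨hz.1.1, fun e => ?_⟩, ⟨hz.1.nonneg, hz.2.le⟩⟩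
    have := hz.1.le_two_mul e
    have := hz.2
    show z.1 e ≤ 2 * (L.t1 : ℤ)
    omega
  exact this.to_subtype

/-- the three pairs of a Plücker relation have the same vertex sums -/
theorem vs_quad (q : Fin 5) : vs (e7 (quad q 2) (quad q 3)) = vs (e7 (quad q 0) (quad q 1)) ∧
    vs (e7 (quad q 4) (quad q 5)) = vs (e7 (quad q 0) (quad q 1)) := by
  revert q; decide

namespace EBASIC

def GG : Fin 22 → Ex := ![![0,0,0,2,1,1,0,1,0,0], ![0,0,1,1,1,0,1,1,0,0], ![0,0,1,1,1,1,0,0,1,0],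
  ![0,0,1,1,2,0,0,0,0,1], ![0,0,2,0,1,0,1,0,1,0], ![0,1,0,1,0,1,1,1,0,0], ![0,1,0,1,0,2,0,0,1,0],
  ![0,1,0,1,1,1,0,0,0,1], ![0,1,1,0,0,0,2,1,0,0], ![0,1,1,0,0,1,1,0,1,0], ![0,1,1,0,1,0,1,0,0,1],
  ![0,2,0,0,0,1,1,0,0,1], ![1,0,0,1,0,0,1,2,0,0], ![1,0,0,1,0,1,0,1,1,0], ![1,0,0,1,1,0,0,1,0,1],
  ![1,0,1,0,0,0,1,1,1,0], ![1,0,1,0,0,1,0,0,2,0], ![1,0,1,0,1,0,0,0,1,1], ![1,1,0,0,0,0,1,1,0,1],
  ![1,1,0,0,0,1,0,0,1,1], ![1,1,0,0,1,0,0,0,0,2], ![2,0,0,0,0,0,0,1,1,1]]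

def YY : Fin 15 → Fin 5 → ℤ := ![![-1,-1,1,1,1], ![1,1,-1,-1,1], ![-1,1,1,1,-1], ![1,-1,-1,1,1],
  ![1,1,1,-1,-1], ![-1,1,-1,1,1], ![1,-1,1,-1,1], ![1,-1,1,1,-1], ![-1,1,1,-1,1], ![1,1,-1,1,-1],
  ![0,0,0,0,1], ![0,0,0,1,0], ![0,0,1,0,0], ![0,1,0,0,0], ![1,0,0,0,0]]

def ew (y : Fin 5 → ℤ) : Ex := ![y 0 + y 1, y 0 + y 2, y 0 + y 3, y 0 + y 4, y 1 + y 2, y 1 + y 3,
  y 1 + y 4, y 2 + y 3, y 2 + y 4, y 3 + y 4]

theorem chk : ∀ b0 b1 b2 b3 b4 b5 b6 b7 b8 b9 : Bool,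
    (∃ g : Fin 22, ∀ e, GG g e = 0 ∨ ![b0, b1, b2, b3, b4, b5, b6, b7, b8, b9] e = true) ∨
    (∃ j : Fin 15, ∀ e, ![b0, b1, b2, b3, b4, b5, b6, b7, b8, b9] e = false ∨ ew (YY j) e ≤ 0) := by
  decide +kernel

theorem gg : ∀ g : Fin 22, (∀ e, 0 ≤ GG g e ∧ GG g e ≤ 2) ∧ ∀ i, vs (GG g) i = 2 * 1 := by
  decide +kernel

theorem yy : ∀ j : Fin 15, YY j 0 + YY j 1 + YY j 2 + YY j 3 + YY j 4 = 1 ∧
    ∀ e, ew (YY j) e ≤ 2 := by
  decide +kernel

end EBASIC

/-- Sketch: let `S = {e | 2 ≤ a e}`.  A finite check over the `2^10` sets `S` (`decide +kernel` on a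
Boolean reformulation; the 22 degree-one monomials are the 12 pentagons and the 10 triangle +
doubled opposite edge, entries `≤ 2`): either some degree-one `γ` is supported in `S`, or there is
`y ∈ {-1,0,1}^5` with `∑ y > 0` and `y i + y j ≤ 0` on all edges `ij ∈ S`.  In the second case
`2 m ≤ 2 m ∑ y = ∑_e a e (y i + y j) ≤ 20`. -/
theorem gen_red {a : Ex} {m : ℤ} (hm : 11 ≤ m) (ha : Mon a m) :
    ∃ γ, Mon γ 1 ∧ Mon (a - γ) (m - 1) := by
  have hb : ∀ e : Fin 10, ![decide (2 ≤ a 0), decide (2 ≤ a 1), decide (2 ≤ a 2), decide (2 ≤ a 3),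
      decide (2 ≤ a 4), decide (2 ≤ a 5), decide (2 ≤ a 6), decide (2 ≤ a 7), decide (2 ≤ a 8),
      decide (2 ≤ a 9)] e = decide (2 ≤ a e) := by
    intro e; fin_cases e <;> rfl
  rcases EBASIC.chk (decide (2 ≤ a 0)) (decide (2 ≤ a 1)) (decide (2 ≤ a 2)) (decide (2 ≤ a 3))
      (decide (2 ≤ a 4)) (decide (2 ≤ a 5)) (decide (2 ≤ a 6)) (decide (2 ≤ a 7))
      (decide (2 ≤ a 8)) (decide (2 ≤ a 9)) with ⟨g, hg⟩ | ⟨j, hj⟩
  · have h1 : Mon (EBASIC.GG g) 1 := ⟨fun e => ((EBASIC.gg g).1 e).1, (EBASIC.gg g).2⟩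
    refine ⟨_, h1, fun e => ?_, ha.2.sub h1.2⟩
    have h2 := ((EBASIC.gg g).1 e).2
    have h3 := ha.1 e
    have h4 := hg e
    rw [hb, decide_eq_true_eq] at h4
    rw [Pi.sub_apply]
    omega
  · exfalso
    obtain ⟨h1, h2⟩ := EBASIC.yy j
    generalize EBASIC.YY j = y at hj h1 h2
    have key : ∀ e, a e * EBASIC.ew y e ≤ 2 := by
      intro e
      have h3 := ha.1 e
      have h4 := hj e
      have h5 := h2 e
      rw [hb, decide_eq_false_iff_not] at h4
      rcases h4 with h4 | h4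
      · have : a e = 0 ∨ a e = 1 := by omega
        rcases this with h | h <;> rw [h] <;> omega
      · nlinarith
    have v0 := ha.2 0
    have v1 := ha.2 1
    have v2 := ha.2 2
    have v3 := ha.2 3
    have v4 := ha.2 4
    have k0 := key 0
    have k1 := key 1
    have k2 := key 2
    have k3 := key 3
    have k4 := key 4
    have k5 := key 5
    have k6 := key 6
    have k7 := key 7
    have k8 := key 8
    have k9 := key 9
    simp [vs] at v0 v1 v2 v3 v4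
    simp [EBASIC.ew] at k0 k1 k2 k3 k4 k5 k6 k7 k8 k9
    have : 2 * m = a 0 * (y 0 + y 1) + a 1 * (y 0 + y 2) + a 2 * (y 0 + y 3) + a 3 * (y 0 + y 4)
        + a 4 * (y 1 + y 2) + a 5 * (y 1 + y 3) + a 6 * (y 1 + y 4) + a 7 * (y 2 + y 3)
        + a 8 * (y 2 + y 4) + a 9 * (y 3 + y 4) := by
      linear_combination (-2 * m) * h1 - y 0 * v0 - y 1 * v1 - y 2 * v2 - y 3 * v3 - y 4 * v4
    linarith

variable {k K : Type} [Field k] [Field K] [Algebra k K]

theorem Model.mon_add (M : Model k K) (a b : Ex) : M.mon (a + b) = M.mon a * M.mon b := by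
  simp only [Model.mon, Pi.add_apply, zpow_add₀ (M.ne _), Finset.prod_mul_distrib]

theorem Model.mon_zero (M : Model k K) : M.mon 0 = 1 := by
  simp [Model.mon]

theorem Model.mon_ne (M : Model k K) (a : Ex) : M.mon a ≠ 0 := by
  exact Finset.prod_ne_zero_iff.2 fun e _ => zpow_ne_zero _ (M.ne e)

theorem Model.mon_sub (M : Model k K) (a b : Ex) : M.mon (a - b) = M.mon a / M.mon b := by
  rw [eq_div_iff (M.mon_ne b), ← M.mon_add, sub_add_cancel]

theorem Model.mon_zsmul (M : Model k K) (n : ℤ) (a : Ex) : M.mon (n • a) = M.mon a ^ n := by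
  simp only [Model.mon, Pi.smul_apply, smul_eq_mul, mul_comm n, zpow_mul, Finset.prod_zpow]

theorem Model.mon_single (M : Model k K) (e : Fin 10) (n : ℤ) :
    M.mon (Pi.single e n) = M.r e ^ n := by
  unfold Model.mon
  rw [Finset.prod_eq_single e (fun b _ hb => by simp [Pi.single_eq_of_ne hb]) (by simp)]
  simp

theorem Model.mon_gam (M : Model k K) (e : Fin 10) : M.mon (gam e) = 1 := by
  fin_cases e <;> simp [Model.mon, Fin.prod_univ_succ, gam, M.r0, M.r1, M.r2, M.r3, M.r9]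

theorem Model.mon_eq (M : Model k K) (a : Ex) :
    M.mon a = M.r 4 ^ a 4 * M.r 5 ^ a 5 * M.r 6 ^ a 6 * M.r 7 ^ a 7 * M.r 8 ^ a 8 := by
  simp [Model.mon, Fin.prod_univ_succ, M.r0, M.r1, M.r2, M.r3, M.r9, mul_assoc]

theorem Model.kum (M : Model k K) : Kum (r5 M.r) := by
  exact ⟨M.rel5, M.rel7, M.rel4⟩

theorem Model.indep' (M : Model k K) : LinearIndependent k (kb (r5 M.r)) := by
  exact M.indep

theorem Model.tri (M : Model k K) : Tri M.mon := by
  intro q c m _ _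
  have key : M.mon (e7 (quad q 0) (quad q 1)) =
      M.mon (e7 (quad q 2) (quad q 3)) + M.mon (e7 (quad q 4) (quad q 5)) := by
    simp only [e7, M.mon_add, M.mon_single]
    have h5 := M.rel5
    have h7 := M.rel7
    have h4 := M.rel4
    fin_cases q <;> simp [quad, M.r0, M.r1, M.r2, M.r3, M.r9, zpow_ofNat]
    · linear_combination h5 - h7 - h4
    · linear_combination - h4
    · linear_combination - h5
    · linear_combination - h7
    · linear_combination M.r 8 ^ 7 * h5 - M.r 6 ^ 7 * h7 - h4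
  rw [M.mon_add, M.mon_add, M.mon_add, key, mul_add]

theorem mon_mem_exR0 (M : Model k K) {a : Ex} {t : ℤ} (h : Mon a t) : M.mon a ∈ exR0 M t := by
  exact Submodule.subset_span ⟨a, h, rfl⟩

theorem exR0_mul (M : Model k K) {s t : ℤ} {a b : K} (ha : a ∈ exR0 M s) (hb : b ∈ exR0 M t) :
    a * b ∈ exR0 M (s + t) := by
  have := Submodule.mul_mem_mul ha hb
  unfold exR0 at this
  rw [Submodule.span_mul_span] at this
  refine Submodule.span_le.2 ?_ this
  rintro _ ⟨_, ⟨x, hx, rfl⟩, _, ⟨y, hy, rfl⟩, rfl⟩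
  exact Submodule.subset_span ⟨x + y, hx.add hy, (M.mon_add x y).symm⟩

theorem exR0_pow (M : Model k K) {s : ℤ} {a : K} (ha : a ∈ exR0 M s) (n : ℕ) :
    a ^ n ∈ exR0 M (n * s) := by
  induction n with
  | zero => simpa [M.mon_zero] using mon_mem_exR0 M (mon_zero_iff.2 rfl)
  | succ n ih =>
    have := exR0_mul M ih ha
    rw [pow_succ]
    convert this using 2
    push_cast; ring

theorem exR0_neg (M : Model k K) {t : ℤ} (h : t < 0) : exR0 M t = ⊥ := by
  unfold exR0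
  rw [Submodule.span_eq_bot]
  rintro _ ⟨a, ha, rfl⟩
  have := ha.nonneg
  omega

theorem mem_exR0_zero (M : Model k K) {z : K} : z ∈ exR0 M 0 ↔ ∃ c : k, algebraMap k K c = z := by
  have : {z | ∃ a, Mon a 0 ∧ z = M.mon a} = {(1 : K)} := by
    ext z
    simp [mon_zero_iff, M.mon_zero]
  unfold exR0
  rw [this, Submodule.mem_span_singleton]
  simp [Algebra.smul_def]

instance exR0_fin (M : Model k K) (t : ℤ) : FiniteDimensional k (exR0 M t) := by
  unfold exR0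
  refine FiniteDimensional.span_of_finite k (((finite_mon t).image M.mon).subset ?_)
  rintro _ ⟨a, ha, rfl⟩
  exact ⟨a, ha, rfl⟩

theorem lf_mem (M : Model k K) (L : NN) (i : Fin 3) : lf M L i ∈ exR0 M 1 := by
  refine Submodule.sum_mem _ fun γ hγ => ?_
  simp only [← zsmul_eq_mul]
  exact zsmul_mem (mon_mem_exR0 M (L.supp i γ hγ)) _

theorem aeval_lf_mem (M : Model k K) (L : NN) {e : ℕ} {F : MvPolynomial (Fin 3) k}
    (hF : F.IsHomogeneous e) : MvPolynomial.aeval (lf M L) F ∈ exR0 M e := by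
  rw [F.as_sum, map_sum]
  refine Submodule.sum_mem _ fun d hd => ?_
  have hdeg : d 0 + d 1 + d 2 = e := by
    have := hF (MvPolynomial.mem_support_iff.1 hd)
    have h2 : Finsupp.degree d = e := by rw [Finsupp.degree_eq_weight_one]; exact this
    rwa [Finsupp.degree_eq_sum, Fin.sum_univ_three] at h2
  rw [MvPolynomial.aeval_monomial, Finsupp.prod_fintype _ _ (fun _ => pow_zero _),
    Fin.prod_univ_three, ← Algebra.smul_def]
  refine Submodule.smul_mem _ _ ?_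
  have := exR0_mul M (exR0_mul M (exR0_pow M (lf_mem M L 0) (d 0))
    (exR0_pow M (lf_mem M L 1) (d 1))) (exR0_pow M (lf_mem M L 2) (d 2))
  convert this using 2
  rw [← hdeg]; push_cast; ring

theorem exR_eq_map (M : Model k K) (L : NN) (t : ℤ) :
    exR M L t = (exR0 M t).map (LinearMap.mulLeft k (lf M L 2 ^ t)⁻¹) := by
  unfold exR exR0
  rw [Submodule.map_span]
  congr 1
  ext z
  constructor
  · rintro ⟨a, ha, rfl⟩
    exact ⟨_, ⟨a, ha, rfl⟩, by simp [div_eq_inv_mul]⟩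
  · rintro ⟨_, ⟨a, ha, rfl⟩, rfl⟩
    exact ⟨a, ha, by simp [div_eq_inv_mul]⟩

theorem mem_exR (M : Model k K) (L : NN) (hZ : lf M L 2 ≠ 0) {t : ℤ} {z : K} :
    z ∈ exR M L t ↔ lf M L 2 ^ t * z ∈ exR0 M t := by
  have h := zpow_ne_zero t hZ
  rw [exR_eq_map, Submodule.mem_map]
  constructor
  · rintro ⟨y, hy, rfl⟩
    rwa [LinearMap.mulLeft_apply, mul_inv_cancel_left₀ h]
  · intro hz
    exact ⟨_, hz, by rw [LinearMap.mulLeft_apply, inv_mul_cancel_left₀ h]⟩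

theorem hf_exR (M : Model k K) (L : NN) (hZ : lf M L 2 ≠ 0) : hf (exR M L) = hf (exR0 M) := by
  funext t
  unfold hf
  rw [exR_eq_map]
  congr 1
  refine (LinearEquiv.finrank_eq (Submodule.equivMapOfInjective _ ?_ _)).symm
  exact mul_right_injective₀ (inv_ne_zero (zpow_ne_zero t hZ))

theorem exR_mul (M : Model k K) (L : NN) (hZ : lf M L 2 ≠ 0) (s t : ℤ) :
    ∀ a ∈ exR M L s, ∀ b ∈ exR M L t, a * b ∈ exR M L (s + t) := by
  intro a ha b hb
  rw [mem_exR M L hZ] at ha hb ⊢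
  have := exR0_mul M ha hb
  rw [zpow_add₀ hZ]
  convert this using 1
  ring

theorem exR_mono (M : Model k K) (L : NN) (hZ : lf M L 2 ≠ 0) {s t : ℤ} (h : s ≤ t) :
    exR M L s ≤ exR M L t := by
  intro z hz
  rw [mem_exR M L hZ] at hz ⊢
  obtain ⟨n, rfl⟩ := Int.le.dest h
  have := exR0_mul M hz (exR0_pow M (lf_mem M L 2) n)
  rw [mul_one] at this
  rw [zpow_add₀ hZ, zpow_natCast]
  convert this using 1
  ring

end Crest.Agent.R169
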