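import Crest.Agent.R169.EBasic

/-! # R169 task EChart: the 15 affine charts -/

set_option autoImplicit false

namespace Crest.Agent.R169
open Module

theorem cG_mon (α : Fin 15) : Mon (cG α) 3 := by
  unfold Mon Pos Reg
  revert α
  decide

theorem cG_pos (α : Fin 15) (e : Fin 10) :
    (e = (cEd α).1 ∨ e = (cEd α).2 → cG α e = 0) ∧
    (e ≠ (cEd α).1 → e ≠ (cEd α).2 → 1 ≤ cG α e) ∧ cG α e ≤ 3 := by
  revert α e
  decide

private theorem echart_tab (α : Fin 15) :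
    (Reg (cU α) 0 ∧ cU α (cEd α).1 = 1 ∧ cU α (cEd α).2 = 0) ∧
    (Reg (cV α) 0 ∧ cV α (cEd α).1 = 0 ∧ cV α (cEd α).2 = 1) ∧
    (Reg (cW1 α) 0 ∧ cW1 α (cEd α).1 = 0 ∧ cW1 α (cEd α).2 = 0) ∧
    (Reg (cW2 α) 0 ∧ cW2 α (cEd α).1 = 0 ∧ cW2 α (cEd α).2 = 0) ∧
    (Reg (cW3 α) 0 ∧ cW3 α (cEd α).1 = 0 ∧ cW3 α (cEd α).2 = 0) ∧
    (Reg (cT α) 1 ∧ cT α (cEd α).1 = 0 ∧ cT α (cEd α).2 = 0) ∧
    (Reg (cE α) 5 ∧ cE α (cEd α).1 = 0 ∧ cE α (cEd α).2 = 0) ∧ (cSg α = 1 ∨ cSg α = -1) := by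
  unfold Reg
  revert α
  decide

set_option maxHeartbeats 4000000 in
private theorem echart_dec (α : Fin 15) {a : Ex} (ha : Reg a 0) :
    a = a (cEd α).1 • cU α + a (cEd α).2 • cV α + a (cK α 0) • cW1 α + a (cK α 1) • cW2 α +
      a (cK α 2) • cW3 α := by
  have h0 : a 0 + a 1 + a 2 + a 3 = 2 * 0 := ha 0
  have h1 : a 0 + a 4 + a 5 + a 6 = 2 * 0 := ha 1
  have h2 : a 1 + a 4 + a 7 + a 8 = 2 * 0 := ha 2
  have h3 : a 2 + a 5 + a 7 + a 9 = 2 * 0 := ha 3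
  have h4 : a 3 + a 6 + a 8 + a 9 = 2 * 0 := ha 4
  funext e
  fin_cases α <;> fin_cases e <;>
    simp [cEd, cU, cV, cW1, cW2, cW3, cK] <;> omega

variable {k K : Type} [Field k] [Field K] [Algebra k K] [Algebra (KA k) K]
  [IsScalarTower k (KA k) K]

/-- add `j • cG α` for `j` large -/
theorem mon_mem_loc (M : Model k K) (L : NN) (hZ : lf M L 2 ≠ 0) (B : Base k K)
    (hB : B.R = exR M L) (α : Fin 15) {a : Ex} {d : ℤ} (ha : Reg a d) (h1 : 0 ≤ a (cEd α).1)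
    (h2 : 0 ≤ a (cEd α).2) : M.mon a / lf M L 2 ^ d ∈ Loc B (exg M L α) (3 : ℕ) d := by
  obtain ⟨j, hj⟩ : ∃ j : ℕ, ∀ e, -(j : ℤ) ≤ a e := by
    refine ⟨∑ e, (a e).natAbs, fun e => ?_⟩
    have := Finset.single_le_sum (f := fun e => (a e).natAbs) (fun _ _ => Nat.zero_le _)
      (Finset.mem_univ e)
    omega
  refine ⟨j, ?_⟩
  rw [hB]
  refine Submodule.subset_span ⟨a + (j : ℤ) • cG α, ⟨fun e => ?_, ?_⟩, ?_⟩
  · obtain ⟨g1, g2, -⟩ := cG_pos α e
    have h3 := hj e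
    simp only [Pi.add_apply, Pi.smul_apply, smul_eq_mul]
    by_cases he : e = (cEd α).1 ∨ e = (cEd α).2
    · rw [g1 he]
      rcases he with rfl | rfl <;> omega
    · push Not at he
      have := g2 he.1 he.2
      nlinarith [Int.natCast_nonneg j]
  · exact ha.add ((cG_mon α).2.zsmul j)
  · rw [exg, M.mon_add, M.mon_zsmul, zpow_add₀ hZ, zpow_natCast,
      show ((j : ℤ) * ((3 : ℕ) : ℤ)) = ((3 * j : ℕ) : ℤ) by push_cast; ring, zpow_natCast, div_pow,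
      ← pow_mul]
    field_simp

theorem loc_sub_span (M : Model k K) (L : NN) (hZ : lf M L 2 ≠ 0) (B : Base k K)
    (hB : B.R = exR M L) (α : Fin 15) {d : ℤ} {z : K} (hz : z ∈ Loc B (exg M L α) (3 : ℕ) d) :
    z ∈ Submodule.span k {z | ∃ a : Ex, Reg a d ∧ 0 ≤ a (cEd α).1 ∧ 0 ≤ a (cEd α).2 ∧
      z = M.mon a / lf M L 2 ^ d} := by
  obtain ⟨j, hj⟩ := hz
  rw [hB] at hj
  have hg : exg M L α ≠ 0 := div_ne_zero (M.mon_ne _) (pow_ne_zero _ hZ)
  have h1 : z = (exg M L α ^ j)⁻¹ * (exg M L α ^ j * z) := by field_simp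
  rw [h1]
  generalize exg M L α ^ j * z = y at hj
  induction hj using Submodule.span_induction with
  | mem y hy =>
    obtain ⟨a, ha, rfl⟩ := hy
    obtain ⟨g1, -, -⟩ := cG_pos α (cEd α).1
    obtain ⟨g2, -, -⟩ := cG_pos α (cEd α).2
    refine Submodule.subset_span ⟨a - (j : ℤ) • cG α, ?_, ?_, ?_, ?_⟩
    · have := ha.2.sub ((cG_mon α).2.zsmul j)
      rwa [show d + (j : ℤ) * ((3 : ℕ) : ℤ) - j * 3 = d by push_cast; ring] at this
    · simpa [g1 (Or.inl rfl)] using ha.1 _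
    · simpa [g2 (Or.inr rfl)] using ha.1 _
    · have := M.mon_ne (cG α)
      rw [exg, M.mon_sub, M.mon_zsmul, zpow_add₀ hZ, zpow_natCast,
        show ((j : ℤ) * ((3 : ℕ) : ℤ)) = ((3 * j : ℕ) : ℤ) by push_cast; ring, zpow_natCast,
        div_pow, ← pow_mul]
      field_simp
  | zero => rw [mul_zero]; exact Submodule.zero_mem _
  | add x y _ _ hx hy => rw [mul_add]; exact Submodule.add_mem _ hx hy
  | smul c x _ hx => rw [mul_smul_comm]; exact Submodule.smul_mem _ c hx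

private theorem echart_neg {B : Base k K} {g : K} {c d : ℤ} {a : K} (h : a ∈ Loc B g c d) :
    -a ∈ Loc B g c d := by
  obtain ⟨j, hj⟩ := h
  exact ⟨j, by rw [mul_neg]; exact Submodule.neg_mem _ hj⟩

private theorem echart_pow_mul {B : Base k K} {g : K} {c : ℤ} (hg : g ∈ B.R c) (j : ℕ) {t : ℤ}
    {a : K} (h : a ∈ B.R t) : g ^ j * a ∈ B.R (t + j * c) := by
  induction j with
  | zero => simpa using h
  | succ j ih =>
    have := B.mul _ _ _ hg _ ih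
    rwa [← mul_assoc, ← pow_succ', show c + (t + j * c) = t + ((j + 1 : ℕ) : ℤ) * c by
      push_cast; ring] at this

private theorem echart_add {B : Base k K} {g : K} {c d : ℤ} (hg : g ∈ B.R c) {a b : K}
    (ha : a ∈ Loc B g c d) (hb : b ∈ Loc B g c d) : a + b ∈ Loc B g c d := by
  obtain ⟨i, hi⟩ := ha
  obtain ⟨j, hj⟩ := hb
  refine ⟨i + j, ?_⟩
  rw [mul_add]
  refine Submodule.add_mem _ ?_ ?_
  · have := echart_pow_mul hg j hi
    rwa [← mul_assoc, ← pow_add, add_comm j i,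
      show d + i * c + j * c = d + ((i + j : ℕ) : ℤ) * c by push_cast; ring] at this
  · have := echart_pow_mul hg i hj
    rwa [← mul_assoc, ← pow_add,
      show d + j * c + i * c = d + ((i + j : ℕ) : ℤ) * c by push_cast; ring] at this

private theorem echart_mul {B : Base k K} {g : K} {c : ℤ} {a b : K}
    (ha : a ∈ Loc B g c 0) (hb : b ∈ Loc B g c 0) : a * b ∈ Loc B g c 0 := by
  obtain ⟨i, hi⟩ := ha
  obtain ⟨j, hj⟩ := hb
  refine ⟨i + j, ?_⟩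
  have := B.mul _ _ _ hi _ hj
  rwa [show g ^ i * a * (g ^ j * b) = g ^ (i + j) * (a * b) by ring,
    show 0 + i * c + (0 + j * c) = 0 + ((i + j : ℕ) : ℤ) * c by push_cast; ring] at this

private theorem echart_smul {B : Base k K} {g : K} {c d : ℤ} (x : k) {a : K}
    (ha : a ∈ Loc B g c d) : x • a ∈ Loc B g c d := by
  obtain ⟨i, hi⟩ := ha
  exact ⟨i, by rw [mul_smul_comm]; exact Submodule.smul_mem _ x hi⟩

private theorem echart_zero {B : Base k K} {g : K} {c d : ℤ} : (0 : K) ∈ Loc B g c d :=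
  ⟨0, by rw [mul_zero]; exact Submodule.zero_mem _⟩

omit [Algebra (KA k) K] [IsScalarTower k (KA k) K] in
private theorem echart_mon7 (M : Model k K) (a : Ex) : M.mon a ^ 7 =
    (M.r 6 ^ 7 - M.r 8 ^ 7) ^ a 4 * (M.r 6 ^ 7 - 1) ^ a 5 * (M.r 6 ^ 7) ^ a 6 *
      (M.r 8 ^ 7 - 1) ^ a 7 * (M.r 8 ^ 7) ^ a 8 := by
  have h : ∀ (x : K) (n : ℤ), (x ^ n) ^ 7 = (x ^ 7) ^ n := fun x n => by
    rw [← zpow_natCast, ← zpow_natCast, ← zpow_mul, ← zpow_mul, mul_comm]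
  rw [M.mon_eq, ← M.rel4, ← M.rel5, ← M.rel7]
  simp only [mul_pow, h]

set_option maxHeartbeats 4000000 in
omit [Algebra (KA k) K] [IsScalarTower k (KA k) K] in
private theorem echart_w7 (M : Model k K) (α : Fin 15) :
    M.mon (cW1 α) ^ 7 = (cS1 α 0 : K) * M.mon (cU α) ^ 7 + (cS1 α 1 : K) * M.mon (cV α) ^ 7 +
      (cS1 α 2 : K) ∧
    M.mon (cW2 α) ^ 7 = (cS2 α 0 : K) * M.mon (cU α) ^ 7 + (cS2 α 1 : K) * M.mon (cV α) ^ 7 +
      (cS2 α 2 : K) ∧
    M.mon (cW3 α) ^ 7 = (cS3 α 0 : K) * M.mon (cU α) ^ 7 + (cS3 α 1 : K) * M.mon (cV α) ^ 7 +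
      (cS3 α 2 : K) := by
  have h4 : M.r 6 ^ 7 - M.r 8 ^ 7 ≠ 0 := M.rel4 ▸ pow_ne_zero 7 (M.ne 4)
  have h5 : M.r 6 ^ 7 - 1 ≠ 0 := M.rel5 ▸ pow_ne_zero 7 (M.ne 5)
  have h7 : M.r 8 ^ 7 - 1 ≠ 0 := M.rel7 ▸ pow_ne_zero 7 (M.ne 7)
  have h6 : M.r 6 ^ 7 ≠ 0 := pow_ne_zero 7 (M.ne 6)
  have h8 : M.r 8 ^ 7 ≠ 0 := pow_ne_zero 7 (M.ne 8)
  simp only [echart_mon7]
  generalize M.r 6 ^ 7 = X at *
  generalize M.r 8 ^ 7 = Y at *
  fin_cases α <;> refine ⟨?_, ?_, ?_⟩ <;>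
    simp [cU, cV, cW1, cW2, cW3, cS1, cS2, cS3] <;> field_simp <;> ring

theorem chart_units (M : Model k K) (L : NN) (hZ : lf M L 2 ≠ 0) (B : Base k K)
    (hB : B.R = exR M L) (α : Fin 15) :
    exg M L α ∈ B.R (3 : ℕ) ∧ exg M L α ≠ 0 ∧ exτ M L α ≠ 0 ∧ exε M L α ≠ 0 ∧
    exτ M L α ∈ Loc B (exg M L α) (3 : ℕ) 1 ∧ (exτ M L α)⁻¹ ∈ Loc B (exg M L α) (3 : ℕ) (-1) ∧
    exu M α ∈ Loc B (exg M L α) (3 : ℕ) 0 ∧ exv M α ∈ Loc B (exg M L α) (3 : ℕ) 0 ∧
    exε M L α ∈ Loc B (exg M L α) (3 : ℕ) 5 ∧ (exε M L α)⁻¹ ∈ Loc B (exg M L α) (3 : ℕ) (-5) := by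
  obtain ⟨⟨u1, u2, u3⟩, ⟨v1, v2, v3⟩, -, -, -, ⟨t1, t2, t3⟩, ⟨e1, e2, e3⟩, hs⟩ := echart_tab α
  have hτ := mon_mem_loc M L hZ B hB α t1 t2.ge t3.ge
  have hτ' := mon_mem_loc M L hZ B hB α (t1.zsmul (-1)) (by simp [t2]) (by simp [t3])
  have hu := mon_mem_loc M L hZ B hB α u1 (by omega) u3.ge
  have hv := mon_mem_loc M L hZ B hB α v1 v2.ge (by omega)
  have hε := mon_mem_loc M L hZ B hB α e1 e2.ge e3.ge
  have hε' := mon_mem_loc M L hZ B hB α (e1.zsmul (-1)) (by simp [e2]) (by simp [e3])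
  rw [M.mon_zsmul] at hτ' hε'
  have hsg : (cSg α : K) ≠ 0 := by rcases hs with h | h <;> simp [h]
  refine ⟨?_, div_ne_zero (M.mon_ne _) (pow_ne_zero _ hZ), div_ne_zero (M.mon_ne _) hZ,
    div_ne_zero (mul_ne_zero hsg (M.mon_ne _)) (pow_ne_zero _ hZ), by simpa [exτ] using hτ, ?_,
    by simpa [exu] using hu, by simpa [exv] using hv, ?_, ?_⟩
  · rw [hB]
    exact Submodule.subset_span ⟨cG α, cG_mon α, by rw [exg, zpow_natCast]⟩
  · have h : (exτ M L α)⁻¹ = M.mon (cT α) ^ (-1 : ℤ) / lf M L 2 ^ (-1 * 1 : ℤ) := by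
      simp [exτ, div_eq_mul_inv, mul_comm]
    rw [h]; exact hτ'
  · have h5 : lf M L 2 ^ (5 : ℤ) = lf M L 2 ^ 5 := zpow_natCast _ 5
    rw [h5] at hε
    rcases hs with h | h
    · simpa [exε, h] using hε
    · have := echart_neg hε
      simpa [exε, h, neg_div] using this
  · have h5 : M.mon (cE α) ^ (-1 : ℤ) / lf M L 2 ^ (-1 * 5 : ℤ) =
        (M.mon (cE α) / lf M L 2 ^ 5)⁻¹ := by
      have : lf M L 2 ^ (-1 * 5 : ℤ) = (lf M L 2 ^ 5)⁻¹ := by
        rw [show (-1 * 5 : ℤ) = -((5 : ℕ) : ℤ) by norm_num, zpow_neg, zpow_natCast]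
      rw [this, zpow_neg_one, inv_div, div_eq_mul_inv, div_eq_mul_inv, inv_inv, mul_comm]
    rw [h5] at hε'
    rcases hs with h | h
    · have h6 : exε M L α = M.mon (cE α) / lf M L 2 ^ 5 := by simp [exε, h]
      rw [h6]; exact hε'
    · have h6 : exε M L α = -(M.mon (cE α) / lf M L 2 ^ 5) := by simp [exε, h, neg_div]
      rw [h6, inv_neg]; exact echart_neg hε'

/-- Let `B₀ = Loc 0` (a subring) and `B' = ∑ B₀^p u^i v^j` (`i,j < p`): a subring (`u^p ∈ B₀^p`), stable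
under `k` (perfect), containing `u, v` and `B₀^p`.  For `Reg a 0`: `a = a e • cU + a f • cV +
∑ a (cK α i) • cW_i` (15 cases, `omega`), `w_i = mon (cW_i α)` and `w_i⁻¹` lie in `B₀` (`cW_i` vanishes
at the two edges), `w_i^7 = s₀ u^7 + s₁ v^7 + s₂` with `s = cS_i α` (field identities from
`rel4, rel5, rel7`: write `mon (7 • c) ` via `mon_eq`, `field_simp`, `ring`), and `w^n = (w^7)^a (w^b)^p` with
`n = 7a + pb`, `a ≥ 0`. -/
theorem chart_span (M : Model k K) (L : NN) (hZ : lf M L 2 ≠ 0) (B : Base k K)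
    (hB : B.R = exR M L) (p : ℕ) [Fact p.Prime] [CharP K p] (hp7 : p ≠ 7)
    (perf : ∀ c : k, ∃ d : k, d ^ p = c) (α : Fin 15) :
    ∀ a ∈ Loc B (exg M L α) (3 : ℕ) 0, ∃ f : Fin p × Fin p → K,
      (∀ ij, f ij ∈ Loc B (exg M L α) (3 : ℕ) 0) ∧
        a = ∑ ij : Fin p × Fin p, f ij ^ p * (exu M α ^ (ij.1 : ℕ) * exv M α ^ (ij.2 : ℕ)) := by
  classical
  have hp : p.Prime := Fact.out
  obtain ⟨hg, -, -, -, -, -, hu, hv, -, -⟩ := chart_units M L hZ B hB α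
  set L0 := Loc B (exg M L α) ((3 : ℕ) : ℤ) 0 with hL0
  have h1 : (1 : K) ∈ L0 := by
    have := mon_mem_loc M L hZ B hB α (a := 0) (d := 0) (fun i => by fin_cases i <;> rfl)
      le_rfl le_rfl
    rwa [M.mon_zero, zpow_zero, div_one] at this
  have hpow : ∀ a ∈ L0, ∀ n : ℕ, a ^ n ∈ L0 := by
    intro a ha n
    induction n with
    | zero => simpa using h1
    | succ n ih => rw [pow_succ]; exact echart_mul ih ha
  let G : Set K := {exu M α, exv M α} ∪ {z | ∃ b ∈ L0, z = b ^ p}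
  -- every element of the adjoined algebra has the required form
  have hA : ∀ a ∈ Algebra.adjoin k G, ∃ f : Fin p × Fin p → K, (∀ ij, f ij ∈ L0) ∧
      a = ∑ ij : Fin p × Fin p, f ij ^ p * (exu M α ^ (ij.1 : ℕ) * exv M α ^ (ij.2 : ℕ)) := by
    intro a ha
    have ha' : a ∈ Submodule.span k (Submonoid.closure G : Set K) := by
      rw [← Algebra.adjoin_eq_span]; exact ha
    clear ha
    induction ha' using Submodule.span_induction with
    | mem a ha =>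
      have hterm : ∃ b ∈ L0, ∃ i j : ℕ, a = b ^ p * (exu M α ^ i * exv M α ^ j) := by
        induction ha using Submonoid.closure_induction with
        | mem x hx =>
          rcases hx with (rfl | rfl) | ⟨b, hb, rfl⟩
          · exact ⟨1, h1, 1, 0, by simp⟩
          · exact ⟨1, h1, 0, 1, by simp⟩
          · exact ⟨b, hb, 0, 0, by simp⟩
        | one => exact ⟨1, h1, 0, 0, by simp⟩
        | mul x y _ _ hx hy =>
          obtain ⟨b, hb, i, j, rfl⟩ := hx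
          obtain ⟨b', hb', i', j', rfl⟩ := hy
          exact ⟨b * b', echart_mul hb hb', i + i', j + j', by ring⟩
      obtain ⟨b, hb, i, j, rfl⟩ := hterm
      let ij0 : Fin p × Fin p := (⟨i % p, Nat.mod_lt _ hp.pos⟩, ⟨j % p, Nat.mod_lt _ hp.pos⟩)
      refine ⟨Pi.single ij0 (b * exu M α ^ (i / p) * exv M α ^ (j / p)), fun ij => ?_, ?_⟩
      · rw [Pi.single_apply]
        split_ifs
        · exact echart_mul (echart_mul hb (hpow _ hu _)) (hpow _ hv _)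
        · exact echart_zero
      · rw [Finset.sum_eq_single ij0]
        · rw [Pi.single_eq_same]
          conv_lhs => rw [← Nat.div_add_mod i p, ← Nat.div_add_mod j p]
          simp only [ij0]
          ring
        · intro ij _ hij
          rw [Pi.single_eq_of_ne hij, zero_pow hp.ne_zero, zero_mul]
        · intro h; exact absurd (Finset.mem_univ _) h
    | zero => exact ⟨0, fun _ => echart_zero, by simp [hp.ne_zero]⟩
    | add x y _ _ hx hy =>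
      obtain ⟨f, hf, rfl⟩ := hx
      obtain ⟨f', hf', rfl⟩ := hy
      refine ⟨f + f', fun ij => echart_add hg (hf ij) (hf' ij), ?_⟩
      rw [← Finset.sum_add_distrib]
      refine Finset.sum_congr rfl (fun ij _ => ?_)
      rw [Pi.add_apply, add_pow_char, add_mul]
    | smul c x _ hx =>
      obtain ⟨f, hf, rfl⟩ := hx
      obtain ⟨d, rfl⟩ := perf c
      refine ⟨fun ij => d • f ij, fun ij => echart_smul d (hf ij), ?_⟩
      rw [Finset.smul_sum]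
      refine Finset.sum_congr rfl (fun ij _ => ?_)
      rw [smul_pow, smul_mul_assoc]
  have huA : exu M α ∈ Algebra.adjoin k G := Algebra.subset_adjoin (Or.inl (Or.inl rfl))
  have hvA : exv M α ∈ Algebra.adjoin k G := Algebra.subset_adjoin (Or.inl (Or.inr rfl))
  have hcop : IsCoprime (7 : ℤ) (p : ℤ) := by
    have : Nat.Coprime 7 p := (Nat.coprime_primes (by norm_num) hp).2 hp7.symm
    exact_mod_cast Nat.isCoprime_iff_coprime.2 this
  have hw : ∀ (c : Ex) (s : Fin 3 → ℤ), Reg c 0 → c (cEd α).1 = 0 → c (cEd α).2 = 0 →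
      M.mon c ^ 7 = (s 0 : K) * M.mon (cU α) ^ 7 + (s 1 : K) * M.mon (cV α) ^ 7 + (s 2 : K) →
      ∀ n : ℤ, M.mon c ^ n ∈ Algebra.adjoin k G := by
    intro c s hc hc1 hc2 h7 n
    obtain ⟨x, y, hxy⟩ := hcop
    have hp0 : (p : ℤ) ≠ 0 := by exact_mod_cast hp.ne_zero
    have ha0 : 0 ≤ (n * x) % p := Int.emod_nonneg _ hp0
    have hn : n = ((7 * ((n * x) % p).toNat : ℕ) : ℤ) + (n * y + 7 * ((n * x) / p)) * (p : ℕ) := by
      push_cast
      rw [Int.toNat_of_nonneg ha0]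
      have := Int.mul_ediv_add_emod (n * x) p
      linear_combination (-n) * hxy - 7 * this
    have hmem : M.mon c ^ (n * y + 7 * ((n * x) / p)) ∈ L0 := by
      have := mon_mem_loc M L hZ B hB α (hc.zsmul (n * y + 7 * ((n * x) / p)))
        (by simp [hc1]) (by simp [hc2])
      rwa [mul_zero, M.mon_zsmul, zpow_zero, div_one] at this
    rw [hn, zpow_add₀ (M.mon_ne c), zpow_natCast, pow_mul, zpow_mul, zpow_natCast]
    refine Subalgebra.mul_mem _ (Subalgebra.pow_mem _ ?_ _)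
      (Algebra.subset_adjoin (Or.inr ⟨_, hmem, rfl⟩))
    rw [h7]
    exact Subalgebra.add_mem _ (Subalgebra.add_mem _
      (Subalgebra.mul_mem _ (intCast_mem _ _) (Subalgebra.pow_mem _ huA _))
      (Subalgebra.mul_mem _ (intCast_mem _ _) (Subalgebra.pow_mem _ hvA _))) (intCast_mem _ _)
  intro a ha
  apply hA
  have ha' := loc_sub_span M L hZ B hB α ha
  refine (Submodule.span_le (p := (Algebra.adjoin k G).toSubmodule)).2 ?_ ha'
  rintro _ ⟨c, hc, hc1, hc2, rfl⟩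
  obtain ⟨-, -, ⟨a1, a2, a3⟩, ⟨b1, b2, b3⟩, ⟨c1, c2, c3⟩, -⟩ := echart_tab α
  obtain ⟨w1, w2, w3⟩ := echart_w7 M α
  change M.mon c / lf M L 2 ^ (0 : ℤ) ∈ Algebra.adjoin k G
  rw [zpow_zero, div_one, echart_dec α hc]
  simp only [M.mon_add, M.mon_zsmul]
  refine Subalgebra.mul_mem _ (Subalgebra.mul_mem _ (Subalgebra.mul_mem _
    (Subalgebra.mul_mem _ ?_ ?_) (hw _ _ a1 a2 a3 w1 _)) (hw _ _ b1 b2 b3 w2 _))
    (hw _ _ c1 c2 c3 w3 _)
  · rw [← Int.toNat_of_nonneg hc1, zpow_natCast]; exact Subalgebra.pow_mem _ huA _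
  · rw [← Int.toNat_of_nonneg hc2, zpow_natCast]; exact Subalgebra.pow_mem _ hvA _

end Crest.Agent.R169
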