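import Crest.Agent.R169.EBasic

/-! # R169 task ECount1: counting non-crossing multigraphs on five points -/

set_option autoImplicit false

namespace Crest.Agent.R169
open Module

theorem ECount1_tri (N : ℕ) (B : ℤ) (hB : 0 ≤ B) :
    2 * ∑ i ∈ Finset.range N, max (B - i) 0 =
      B * (B + 1) - max (B - N) 0 * (max (B - N) 0 + 1) := by
  induction N with
  | zero => simp [max_eq_left hB]
  | succ N ih =>
    rw [Finset.sum_range_succ, mul_add, ih]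
    push_cast
    rcases le_or_gt B N with h | h
    · rw [max_eq_right (by omega : B - N ≤ 0), max_eq_right (by omega : B - (N + 1) ≤ 0)]; ring
    · rw [max_eq_left (by omega : 0 ≤ B - N), max_eq_left (by omega : 0 ≤ B - (N + 1))]; ring

theorem ECount1_tri' (N : ℕ) (B : ℤ) (hB : 0 ≤ B) (hN : B ≤ N) :
    ∑ i ∈ Finset.range N, max (B - i) 0 = B * (B + 1) / 2 := by
  have h := ECount1_tri N B hB
  rw [max_eq_right (by omega : B - N ≤ 0)] at h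
  omega

theorem ECount1_tri'' (N : ℕ) (B : ℤ) (hB : 0 ≤ B) (hN : B ≤ N) :
    ∑ i ∈ Finset.range N, max (i - (N - 1 - B)) 0 = B * (B + 1) / 2 := by
  rw [← ECount1_tri' N B hB hN, ← Finset.sum_range_reflect]
  refine Finset.sum_congr rfl fun i hi => ?_
  have := Finset.mem_range.mp hi
  congr 1
  omega

theorem ECount1_small (N : ℕ) (δ : ℤ) (hδ : δ ≤ 3) (hN : 3 ≤ N) :
    ∑ i ∈ Finset.range N, (if (i : ℤ) < δ then 1 - δ + 2 * i else 0) = 0 := by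
  obtain ⟨N', rfl⟩ := Nat.exists_eq_add_of_le hN
  rw [Finset.sum_range_add, Finset.sum_eq_zero (s := Finset.range N')]
  · simp only [Finset.sum_range_succ, Finset.sum_range_zero]
    push_cast
    split_ifs <;> omega
  · intro i _
    rw [if_neg]
    push_cast
    omega

/-- the multigraph with degrees `d` and out-degrees `α, β` -/
def ECount1_g (d : Fin 5 → ℤ) (S α β : ℤ) : Ex :=
  let n9 := S - d 0 - α - β
  let c3 := d 2 - β
  let c4 := d 3 - n9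
  let n4 := min α c3
  let n7 := min β c4
  let n5 := min (α - n4) (c4 - n7)
  ![d 1 - α, c3 - n4, c4 - n7 - n5, d 0 - (d 1 - α) - (c3 - n4) - (c4 - n7 - n5), n4, n5,
    α - n4 - n5, n7, β - n7, n9]

theorem ECount1_pos {n : Ex} : Pos n ↔ 0 ≤ n 0 ∧ 0 ≤ n 1 ∧ 0 ≤ n 2 ∧ 0 ≤ n 3 ∧ 0 ≤ n 4 ∧ 0 ≤ n 5 ∧
    0 ≤ n 6 ∧ 0 ≤ n 7 ∧ 0 ≤ n 8 ∧ 0 ≤ n 9 := by
  refine ⟨fun h => ⟨h 0, h 1, h 2, h 3, h 4, h 5, h 6, h 7, h 8, h 9⟩, ?_⟩
  rintro ⟨h0, h1, h2, h3, h4, h5, h6, h7, h8, h9⟩ e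
  fin_cases e <;> assumption

theorem ECount1_vs {n : Ex} {d : Fin 5 → ℤ} : vs n = d ↔
    n 0 + n 1 + n 2 + n 3 = d 0 ∧ n 0 + n 4 + n 5 + n 6 = d 1 ∧ n 1 + n 4 + n 7 + n 8 = d 2 ∧
    n 2 + n 5 + n 7 + n 9 = d 3 ∧ n 3 + n 6 + n 8 + n 9 = d 4 := by
  refine ⟨fun h => ⟨congrFun h 0, congrFun h 1, congrFun h 2, congrFun h 3, congrFun h 4⟩, ?_⟩
  rintro ⟨h0, h1, h2, h3, h4⟩
  funext i
  fin_cases i <;> assumption

theorem ECount1_nc {n : Ex} : NC n ↔ (n 1 = 0 ∨ n 5 = 0) ∧ (n 1 = 0 ∨ n 6 = 0) ∧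
    (n 2 = 0 ∨ n 6 = 0) ∧ (n 2 = 0 ∨ n 8 = 0) ∧ (n 5 = 0 ∨ n 8 = 0) := by
  refine ⟨fun h => ⟨h 0, h 1, h 2, h 3, h 4⟩, ?_⟩
  rintro ⟨h0, h1, h2, h3, h4⟩ q
  fin_cases q <;> assumption

theorem ECount1_ext {n n' : Ex} (h : n 0 = n' 0 ∧ n 1 = n' 1 ∧ n 2 = n' 2 ∧ n 3 = n' 3 ∧
    n 4 = n' 4 ∧ n 5 = n' 5 ∧ n 6 = n' 6 ∧ n 7 = n' 7 ∧ n 8 = n' 8 ∧ n 9 = n' 9) : n = n' := by
  obtain ⟨h0, h1, h2, h3, h4, h5, h6, h7, h8, h9⟩ := h
  funext e
  fin_cases e <;> assumption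

theorem ECount1_val (d : Fin 5 → ℤ) (S α β : ℤ) : ∃ n4 n5 n7 : ℤ,
    n4 = min α (d 2 - β) ∧ n7 = min β (d 3 - (S - d 0 - α - β)) ∧
    n5 = min (α - n4) (d 3 - (S - d 0 - α - β) - n7) ∧
    ECount1_g d S α β 0 = d 1 - α ∧ ECount1_g d S α β 1 = d 2 - β - n4 ∧
    ECount1_g d S α β 2 = d 3 - (S - d 0 - α - β) - n7 - n5 ∧
    ECount1_g d S α β 3 = d 0 - (d 1 - α) - (d 2 - β - n4) - (d 3 - (S - d 0 - α - β) - n7 - n5) ∧
    ECount1_g d S α β 4 = n4 ∧ ECount1_g d S α β 5 = n5 ∧ ECount1_g d S α β 6 = α - n4 - n5 ∧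
    ECount1_g d S α β 7 = n7 ∧ ECount1_g d S α β 8 = β - n7 ∧
    ECount1_g d S α β 9 = S - d 0 - α - β :=
  ⟨_, _, _, rfl, rfl, rfl, rfl, rfl, rfl, rfl, rfl, rfl, rfl, rfl, rfl, rfl⟩

theorem ECount1_mem (d : Fin 5 → ℤ) (S α β : ℤ) (hS : d 0 + d 1 + d 2 + d 3 + d 4 = S + S)
    (h1 : 0 ≤ α) (h2 : α ≤ d 1) (h3 : 0 ≤ β) (h4 : β ≤ d 2) (h5 : 0 ≤ S - d 0 - α - β)
    (h6 : S - d 0 - α - β ≤ d 3) (h7 : S - d 0 - α - β ≤ d 4) (h8 : d 1 - d 0 ≤ α)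
    (h9 : d 1 + d 2 - d 0 ≤ 2 * α + β) :
    Pos (ECount1_g d S α β) ∧ vs (ECount1_g d S α β) = d ∧ NC (ECount1_g d S α β) := by
  obtain ⟨n4, n5, n7, e4, e7, e5, g0, g1, g2, g3, g4, g5, g6, g7, g8, g9⟩ := ECount1_val d S α β
  rw [ECount1_pos, ECount1_vs, ECount1_nc, g0, g1, g2, g3, g4, g5, g6, g7, g8, g9]
  clear g0 g1 g2 g3 g4 g5 g6 g7 g8 g9
  rcases min_cases α (d 2 - β) with ⟨a, a'⟩ | ⟨a, a'⟩ <;>
  rcases min_cases β (d 3 - (S - d 0 - α - β)) with ⟨b, b'⟩ | ⟨b, b'⟩ <;>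
  rcases min_cases (α - n4) (d 3 - (S - d 0 - α - β) - n7) with ⟨c, c'⟩ | ⟨c, c'⟩ <;>
  rw [a] at e4 <;> rw [b] at e7 <;> rw [c] at e5 <;> clear a b c <;> omega

theorem ECount1_inv {d : Fin 5 → ℤ} {S : ℤ} {n : Ex} (hS : d 0 + d 1 + d 2 + d 3 + d 4 = S + S)
    (hp : Pos n) (hv : vs n = d) (hn : NC n) :
    ECount1_g d S (n 4 + n 5 + n 6) (n 7 + n 8) = n := by
  rw [ECount1_pos] at hp
  rw [ECount1_vs] at hv
  rw [ECount1_nc] at hn
  obtain ⟨n4, n5, n7, e4, e7, e5, g0, g1, g2, g3, g4, g5, g6, g7, g8, g9⟩ :=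
    ECount1_val d S (n 4 + n 5 + n 6) (n 7 + n 8)
  apply ECount1_ext
  rw [g0, g1, g2, g3, g4, g5, g6, g7, g8, g9]
  clear g0 g1 g2 g3 g4 g5 g6 g7 g8 g9
  have k4 : n4 = n 4 := by omega
  have k7 : n7 = n 7 := by omega
  have k5 : n5 = n 5 := by omega
  omega

/-- Sketch.  With `S = (∑ d)/2`, the map `n ↦ (α, β) = (n 4 + n 5 + n 6, n 7 + n 8)` is a bijection onto
`{(α,β) : 0 ≤ α ≤ d 1, 0 ≤ β ≤ d 2, 0 ≤ S - d 0 - α - β ≤ min (d 3) (d 4), d 1 - d 0 ≤ α,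
d 1 + d 2 - d 0 ≤ 2α + β}` (parenthesis matching; inverse: `n 0 = d 1 - α`, `c₃ = d 2 - β`,
`n 9 = S - d 0 - α - β`, `c₄ = d 3 - n 9`, `n 4 = min α c₃`, `n 1 = c₃ - n 4`, `n 7 = min β c₄`,
`n 5 = min (α - n 4) (c₄ - n 7)`, `n 2 = c₄ - n 7 - n 5`, `n 8 = β - n 7`, `n 6 = α - n 4 - n 5`,
`n 3 = d 0 - n 0 - n 1 - n 2`; all checks by `omega`).  Count the region column by column
(piecewise linear in `α`), or as rectangle minus corners.  Checked numerically for all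
`min d ≥ 3`. -/
theorem count_nc (d : Fin 5 → ℤ) (hlo : ∀ i, 10 ≤ d i) (hnear : ∀ i j, d i ≤ d j + 3)
    (hev : Even (d 0 + d 1 + d 2 + d 3 + d 4)) :
    (({n : Ex | Pos n ∧ vs n = d ∧ NC n}.ncard : ℕ) : ℤ) = hcnt d := by
  classical
  obtain ⟨S, hS⟩ := hev
  have l0 := hlo 0; have l1 := hlo 1; have l2 := hlo 2; have l3 := hlo 3; have l4 := hlo 4
  have n01 := hnear 0 1; have n02 := hnear 0 2; have n03 := hnear 0 3; have n04 := hnear 0 4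
  have n10 := hnear 1 0; have n12 := hnear 1 2; have n13 := hnear 1 3; have n14 := hnear 1 4
  have n20 := hnear 2 0; have n21 := hnear 2 1; have n23 := hnear 2 3; have n24 := hnear 2 4
  have n30 := hnear 3 0; have n31 := hnear 3 1; have n32 := hnear 3 2; have n34 := hnear 3 4
  have n40 := hnear 4 0; have n41 := hnear 4 1; have n42 := hnear 4 2; have n43 := hnear 4 3
  obtain ⟨N, hN⟩ : ∃ N : ℕ, (N : ℤ) = d 1 + 1 := ⟨(d 1 + 1).toNat, by omega⟩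
  set A : ℤ := S - d 3 - d 4 with hA
  set B : ℤ := S - d 0 - d 4 with hB
  set C : ℤ := S - d 0 - d 3 with hC
  let col : ℕ → Finset ℤ := fun α => if (α : ℤ) < d 1 - d 0 then ∅ else
    Finset.Icc (max (B - α) 0 + max (C - α) 0) (d 2 - max (α - (N - 1 - A)) 0)
  let F : Finset (Σ _ : ℕ, ℤ) := (Finset.range N).sigma col
  have memF : ∀ z : (Σ _ : ℕ, ℤ), z ∈ F ↔ (z.1 : ℤ) ≤ d 1 ∧ 0 ≤ z.2 ∧ z.2 ≤ d 2 ∧
      0 ≤ S - d 0 - z.1 - z.2 ∧ S - d 0 - z.1 - z.2 ≤ d 3 ∧ S - d 0 - z.1 - z.2 ≤ d 4 ∧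
      d 1 - d 0 ≤ z.1 ∧ d 1 + d 2 - d 0 ≤ 2 * z.1 + z.2 := by
    rintro ⟨α, β⟩
    simp only [F, col, Finset.mem_sigma, Finset.mem_range]
    split_ifs with h
    · simp only [Finset.notMem_empty, and_false, false_iff]
      omega
    · rw [Finset.mem_Icc]
      omega
  have hset : {n : Ex | Pos n ∧ vs n = d ∧ NC n} =
      ↑(F.image fun z => ECount1_g d S z.1 z.2) := by
    ext n
    rw [Finset.coe_image, Set.mem_image]
    constructor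
    · rintro ⟨hp, hv, hn⟩
      have hi := ECount1_inv hS hp hv hn
      rw [ECount1_pos] at hp
      rw [ECount1_vs] at hv
      rw [ECount1_nc] at hn
      obtain ⟨α, hα⟩ : ∃ α : ℕ, (α : ℤ) = n 4 + n 5 + n 6 := ⟨(n 4 + n 5 + n 6).toNat, by omega⟩
      refine ⟨⟨α, n 7 + n 8⟩, ?_, by simp only [hα]; exact hi⟩
      rw [Finset.mem_coe, memF]
      simp only [hα]
      omega
    · rintro ⟨z, hz, rfl⟩
      obtain ⟨h2, h3, h4, h5, h6, h7, h8, h9⟩ := (memF z).mp hz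
      exact ECount1_mem d S z.1 z.2 hS (by omega) h2 h3 h4 h5 h6 h7 h8 h9
  rw [hset, Set.ncard_coe_finset, Finset.card_image_of_injOn, Finset.card_sigma]
  · push_cast
    have e : ∀ α ∈ Finset.range N, (((col α).card : ℕ) : ℤ) =
        (d 2 + 1) - max (α - (N - 1 - A)) 0 - max (B - α) 0 - max (C - α) 0 -
          (if (α : ℤ) < d 1 - d 0 then 1 - (d 1 - d 0) + 2 * α else 0) := by
      intro α hα
      have := Finset.mem_range.mp hα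
      simp only [col]
      split_ifs with h
      · rw [Finset.card_empty]; omega
      · rw [Int.card_Icc]; omega
    rw [Finset.sum_congr rfl e]
    simp only [Finset.sum_sub_distrib]
    rw [ECount1_tri'' N A (by omega) (by omega), ECount1_tri' N B (by omega) (by omega),
      ECount1_tri' N C (by omega) (by omega), ECount1_small N _ (by omega) (by omega),
      Finset.sum_const, Finset.card_range, nsmul_eq_mul, hN]
    unfold hcnt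
    rw [show (d 0 + d 1 + d 2 - d 3 - d 4) / 2 = A by omega,
      show (d 1 + d 2 + d 3 - d 0 - d 4) / 2 = B by omega,
      show (d 1 + d 2 + d 4 - d 0 - d 3) / 2 = C by omega]
    ring
  · rintro ⟨α, β⟩ - ⟨α', β'⟩ - h
    obtain ⟨n4, n5, n7, -, -, -, g0, -, -, -, -, -, -, -, -, g9⟩ := ECount1_val d S α β
    obtain ⟨n4', n5', n7', -, -, -, g0', -, -, -, -, -, -, -, -, g9'⟩ := ECount1_val d S α' β'
    have h0 := congrFun h 0
    have h9 := congrFun h 9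
    simp only at h0 h9
    rw [g0, g0'] at h0
    rw [g9, g9'] at h9
    have e1 : α = α' := by omega
    have e2 : β = β' := by omega
    subst e1 e2
    rfl

end Crest.Agent.R169
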