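import Crest.Agent.R169.EBasic

/-! # R169 task ECount2: the sum over residues -/

set_option autoImplicit false

namespace Crest.Agent.R169
open Module

def EC2_T (x : ℕ) : ℕ := x * (x + 1) / 2

def EC2_h5 (d0 d1 d2 d3 d4 : ℕ) : ℕ :=
  (d1 + 1) * (d2 + 1) - (EC2_T ((d0 + d1 + d2 - d3 - d4) / 2) + EC2_T ((d1 + d2 + d3 - d0 - d4) / 2)
    + EC2_T ((d1 + d2 + d4 - d0 - d3) / 2))

def EC2_r (m a b c d e r0 r1 r2 r3 r9 : ℕ) : ℕ :=
  EC2_h5 ((2 * m - (r0 + r1 + r2 + r3)) / 7) ((2 * m - (r0 + a + b + c)) / 7)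
    ((2 * m - (r1 + a + d + e)) / 7) ((2 * m - (r2 + b + d + r9)) / 7)
    ((2 * m - (r3 + c + e + r9)) / 7)

def EC2_h (m a b c d e : ℕ) : ℕ :=
  EC2_r m a b c d e ((2 * m - a - b - c) % 7) ((2 * m - a - d - e) % 7) ((a + c + e + 6 * m) % 7)
    ((a + b + d + 6 * m) % 7) ((3 * m - a - b - c - d - e) % 7)

def EC2_s (f : ℕ → ℕ) : ℕ := f 0 + f 1 + f 2 + f 3 + f 4 + f 5 + f 6

def EC2_S (m : ℕ) : ℕ :=
  EC2_s fun a => EC2_s fun b => EC2_s fun c => EC2_s fun d => EC2_s fun e => EC2_h m a b c d e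

def EC2_f (x : ℕ) (f : ℕ → ℕ) : ℕ := @Nat.rec (fun _ => ℕ) (f 0) (fun n _ => f n.succ) x

def EC2F_T (x : ℕ) : ℕ := EC2_f x fun x => Nat.div (Nat.mul x (Nat.succ x)) 2

def EC2F_h5 (d0 d1 d2 d3 d4 : ℕ) : ℕ :=
  EC2_f d0 fun d0 => EC2_f d1 fun d1 => EC2_f d2 fun d2 => EC2_f d3 fun d3 => EC2_f d4 fun d4 =>
  Nat.sub (Nat.mul (Nat.succ d1) (Nat.succ d2)) (Nat.add (Nat.add (EC2F_T (Nat.div (Nat.sub (Nat.sub (Nat.add (Nat.add d0 d1) d2) d3) d4) 2))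
    (EC2F_T (Nat.div (Nat.sub (Nat.sub (Nat.add (Nat.add d1 d2) d3) d0) d4) 2)))
    (EC2F_T (Nat.div (Nat.sub (Nat.sub (Nat.add (Nat.add d1 d2) d4) d0) d3) 2)))

def EC2F_r (m2 a b c d e r0 r1 r2 r3 r9 : ℕ) : ℕ :=
  EC2_f r0 fun r0 => EC2_f r1 fun r1 => EC2_f r2 fun r2 => EC2_f r3 fun r3 => EC2_f r9 fun r9 =>
  EC2F_h5 (Nat.div (Nat.sub m2 (Nat.add (Nat.add (Nat.add r0 r1) r2) r3)) 7)
    (Nat.div (Nat.sub m2 (Nat.add (Nat.add (Nat.add r0 a) b) c)) 7)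
    (Nat.div (Nat.sub m2 (Nat.add (Nat.add (Nat.add r1 a) d) e)) 7)
    (Nat.div (Nat.sub m2 (Nat.add (Nat.add (Nat.add r2 b) d) r9)) 7)
    (Nat.div (Nat.sub m2 (Nat.add (Nat.add (Nat.add r3 c) e) r9)) 7)

def EC2F_h (m2 m3 m6 a b c d e : ℕ) : ℕ :=
  EC2F_r m2 a b c d e (Nat.mod (Nat.sub (Nat.sub (Nat.sub m2 a) b) c) 7)
    (Nat.mod (Nat.sub (Nat.sub (Nat.sub m2 a) d) e) 7)
    (Nat.mod (Nat.add (Nat.add (Nat.add a c) e) m6) 7)
    (Nat.mod (Nat.add (Nat.add (Nat.add a b) d) m6) 7)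
    (Nat.mod (Nat.sub (Nat.sub (Nat.sub (Nat.sub (Nat.sub m3 a) b) c) d) e) 7)

def EC2F_s (f : ℕ → ℕ) : ℕ := Nat.add (Nat.add (Nat.add (Nat.add (Nat.add (Nat.add (f 0) (f 1)) (f 2)) (f 3)) (f 4)) (f 5)) (f 6)

def EC2F_S (m2 m3 m6 : ℕ) : ℕ :=
  EC2F_s fun a => EC2F_s fun b => EC2F_s fun c => EC2F_s fun d => EC2F_s fun e => EC2F_h m2 m3 m6 a b c d e

theorem EC2_f_eq (x : ℕ) (f : ℕ → ℕ) : EC2_f x f = f x := by cases x <;> rfl

theorem EC2F_h_eq (m a b c d e : ℕ) :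
    EC2F_h (2 * m) (3 * m) (6 * m) a b c d e = EC2_h m a b c d e := by
  simp only [EC2F_h, EC2F_r, EC2F_h5, EC2F_T, EC2_f_eq]
  rfl

theorem EC2F_S_eq (m : ℕ) : EC2F_S (2 * m) (3 * m) (6 * m) = EC2_S m := by
  simp only [EC2F_S, EC2F_h_eq]
  rfl

set_option maxRecDepth 100000 in
theorem EC2_v200 : EC2F_S 400 600 1200 = 33447302 := by decide +kernel

set_option maxRecDepth 100000 in
theorem EC2_v201 : EC2F_S 402 603 1206 = 33786872 := by decide +kernel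

set_option maxRecDepth 100000 in
theorem EC2_v202 : EC2F_S 404 606 1212 = 34128157 := by decide +kernel

set_option maxRecDepth 100000 in
theorem EC2_v203 : EC2F_S 406 609 1218 = 34471157 := by decide +kernel

set_option maxRecDepth 100000 in
theorem EC2_v204 : EC2F_S 408 612 1224 = 34815872 := by decide +kernel

set_option maxRecDepth 100000 in
theorem EC2_v205 : EC2F_S 410 615 1230 = 35162302 := by decide +kernel

set_option maxRecDepth 100000 in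
theorem EC2_v206 : EC2F_S 412 618 1236 = 35510447 := by decide +kernel

set_option maxRecDepth 100000 in
theorem EC2_v207 : EC2F_S 414 621 1242 = 35860307 := by decide +kernel

set_option maxRecDepth 100000 in
theorem EC2_v208 : EC2F_S 416 624 1248 = 36211882 := by decide +kernel

set_option maxRecDepth 100000 in
theorem EC2_v209 : EC2F_S 418 627 1254 = 36565172 := by decide +kernel

set_option maxRecDepth 100000 in
theorem EC2_v210 : EC2F_S 420 630 1260 = 36920177 := by decide +kernel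

set_option maxRecDepth 100000 in
theorem EC2_v211 : EC2F_S 422 633 1266 = 37276897 := by decide +kernel

set_option maxRecDepth 100000 in
theorem EC2_v212 : EC2F_S 424 636 1272 = 37635332 := by decide +kernel

set_option maxRecDepth 100000 in
theorem EC2_v213 : EC2F_S 426 639 1278 = 37995482 := by decide +kernel

theorem EC2_v (m : ℕ) (h1 : 200 ≤ m) (h2 : m < 214) :
    2 * (EC2_S m : ℤ) = 1715 * (m : ℤ) ^ 2 - 8575 * m + 9604 := by
  rw [← EC2F_S_eq]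
  interval_cases m
  · rw [EC2_v200]; norm_num
  · rw [EC2_v201]; norm_num
  · rw [EC2_v202]; norm_num
  · rw [EC2_v203]; norm_num
  · rw [EC2_v204]; norm_num
  · rw [EC2_v205]; norm_num
  · rw [EC2_v206]; norm_num
  · rw [EC2_v207]; norm_num
  · rw [EC2_v208]; norm_num
  · rw [EC2_v209]; norm_num
  · rw [EC2_v210]; norm_num
  · rw [EC2_v211]; norm_num
  · rw [EC2_v212]; norm_num
  · rw [EC2_v213]; norm_num

theorem EC2_T_cast (x : ℕ) : (EC2_T x : ℤ) = x * (x + 1) / 2 := by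
  unfold EC2_T; push_cast; rfl

theorem EC2_half {x y z : ℕ} (h : y + z ≤ x) :
    (((x - y - z) / 2 : ℕ) : ℤ) = ((x : ℤ) - y - z) / 2 := by omega

theorem EC2_T_le {x y z lo : ℕ} (h : x ≤ y + z + lo + 12) :
    8 * EC2_T ((x - y - z) / 2) ≤ (lo + 12) * (lo + 14) := by
  obtain ⟨A, hA⟩ : ∃ A, (x - y - z) / 2 = A := ⟨_, rfl⟩
  have h1 : 2 * A ≤ lo + 12 := by omega
  have h2 : 2 * EC2_T A ≤ A * (A + 1) := Nat.mul_div_le _ _
  have h3 : (2 * A) * (2 * A + 2) ≤ (lo + 12) * (lo + 14) := Nat.mul_le_mul h1 (by omega)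
  rw [hA]
  linarith

theorem EC2_h5_cast (d : Fin 5 → ℤ) (d0 d1 d2 d3 d4 : ℕ) (e0 : d 0 = d0) (e1 : d 1 = d1)
    (e2 : d 2 = d2) (e3 : d 3 = d3) (e4 : d 4 = d4) (lo : ℕ) (hlo : 50 ≤ lo)
    (h0 : lo ≤ d0 ∧ d0 ≤ lo + 4) (h1 : lo ≤ d1 ∧ d1 ≤ lo + 4) (h2 : lo ≤ d2 ∧ d2 ≤ lo + 4)
    (h3 : lo ≤ d3 ∧ d3 ≤ lo + 4) (h4 : lo ≤ d4 ∧ d4 ≤ lo + 4) :
    (EC2_h5 d0 d1 d2 d3 d4 : ℤ) = hcnt d := by
  unfold EC2_h5 hcnt
  have a1 := EC2_T_le (x := d0 + d1 + d2) (y := d3) (z := d4) (lo := lo) (by omega)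
  have a2 := EC2_T_le (x := d1 + d2 + d3) (y := d0) (z := d4) (lo := lo) (by omega)
  have a3 := EC2_T_le (x := d1 + d2 + d4) (y := d0) (z := d3) (lo := lo) (by omega)
  have b1 := EC2_half (x := d0 + d1 + d2) (y := d3) (z := d4) (by omega)
  have b2 := EC2_half (x := d1 + d2 + d3) (y := d0) (z := d4) (by omega)
  have b3 := EC2_half (x := d1 + d2 + d4) (y := d0) (z := d3) (by omega)
  have c1 : (lo + 1) * (lo + 1) ≤ (d1 + 1) * (d2 + 1) := Nat.mul_le_mul (by omega) (by omega)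
  have c2 : 50 * lo ≤ lo * lo := Nat.mul_le_mul_right _ hlo
  rw [Nat.cast_add, Nat.cast_add] at b1 b2 b3
  rw [e0, e1, e2, e3, e4, ← b1, ← b2, ← b3, Nat.cast_sub (by linarith), Nat.cast_add, Nat.cast_add,
    EC2_T_cast, EC2_T_cast, EC2_T_cast, Nat.cast_mul, Nat.cast_succ, Nat.cast_succ]

theorem EC2_div {m x : ℕ} (h1 : 200 ≤ m) (hx : x ≤ 24) :
    (2 * (m : ℤ) - x) / 7 = (((2 * m - x) / 7 : ℕ) : ℤ) ∧
      (2 * m - 24) / 7 ≤ (2 * m - x) / 7 ∧ (2 * m - x) / 7 ≤ (2 * m - 24) / 7 + 4 := by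
  omega

theorem EC2_h_cast (m : ℕ) (h1 : 200 ≤ m) (z : Fin 5 → Fin 7) :
    (EC2_h m (z 0) (z 1) (z 2) (z 3) (z 4) : ℤ) =
      hcnt (fun i => (2 * (m : ℤ) - vs (resV m z) i) / 7) := by
  have v0 : vs (resV m z) 0 = (2 * m - z 0 - z 1 - z 2) % 7 + (2 * m - z 0 - z 3 - z 4) % 7 +
      (z 0 + z 2 + z 4 - m) % 7 + (z 0 + z 1 + z 3 - m) % 7 := rfl
  have v1 : vs (resV m z) 1 = (2 * m - z 0 - z 1 - z 2) % 7 + z 0 + z 1 + z 2 := rfl
  have v2 : vs (resV m z) 2 = (2 * m - z 0 - z 3 - z 4) % 7 + z 0 + z 3 + z 4 := rfl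
  have v3 : vs (resV m z) 3 = (z 0 + z 2 + z 4 - m) % 7 + z 1 + z 3 +
      (3 * m - z 0 - z 1 - z 2 - z 3 - z 4) % 7 := rfl
  have v4 : vs (resV m z) 4 = (z 0 + z 1 + z 3 - m) % 7 + z 2 + z 4 +
      (3 * m - z 0 - z 1 - z 2 - z 3 - z 4) % 7 := rfl
  have l0 := (z 0).2
  have l1 := (z 1).2
  have l2 := (z 2).2
  have l3 := (z 3).2
  have l4 := (z 4).2
  generalize (z 0 : ℕ) = a at *
  generalize (z 1 : ℕ) = b at *
  generalize (z 2 : ℕ) = c at *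
  generalize (z 3 : ℕ) = d at *
  generalize (z 4 : ℕ) = e at *
  have r0 : (2 * (m : ℤ) - a - b - c) % 7 = (((2 * m - a - b - c) % 7 : ℕ) : ℤ) := by
    clear v0 v1 v2 v3 v4; omega
  have r1 : (2 * (m : ℤ) - a - d - e) % 7 = (((2 * m - a - d - e) % 7 : ℕ) : ℤ) := by
    clear v0 v1 v2 v3 v4 r0; omega
  have r2 : ((a : ℤ) + c + e - m) % 7 = (((a + c + e + 6 * m) % 7 : ℕ) : ℤ) := by
    clear v0 v1 v2 v3 v4 r0 r1; omega
  have r3 : ((a : ℤ) + b + d - m) % 7 = (((a + b + d + 6 * m) % 7 : ℕ) : ℤ) := by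
    clear v0 v1 v2 v3 v4 r0 r1 r2; omega
  have r9 : (3 * (m : ℤ) - a - b - c - d - e) % 7 =
      (((3 * m - a - b - c - d - e) % 7 : ℕ) : ℤ) := by
    clear v0 v1 v2 v3 v4 r0 r1 r2 r3
    rw [show 3 * m - a - b - c - d - e = 3 * m - (a + b + c + d + e) by
      simp only [Nat.sub_add_eq]]
    omega
  rw [r0, r1, r2, r3] at v0
  rw [r0] at v1
  rw [r1] at v2
  rw [r2, r9] at v3
  rw [r3, r9] at v4
  unfold EC2_h
  have s0 := Nat.mod_lt (2 * m - a - b - c) (show 0 < 7 by norm_num)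
  have s1 := Nat.mod_lt (2 * m - a - d - e) (show 0 < 7 by norm_num)
  have s2 := Nat.mod_lt (a + c + e + 6 * m) (show 0 < 7 by norm_num)
  have s3 := Nat.mod_lt (a + b + d + 6 * m) (show 0 < 7 by norm_num)
  have s9 := Nat.mod_lt (3 * m - a - b - c - d - e) (show 0 < 7 by norm_num)
  clear r0 r1 r2 r3 r9
  generalize (2 * m - a - b - c) % 7 = r0 at *
  generalize (2 * m - a - d - e) % 7 = r1 at *
  generalize (a + c + e + 6 * m) % 7 = r2 at *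
  generalize (a + b + d + 6 * m) % 7 = r3 at *
  generalize (3 * m - a - b - c - d - e) % 7 = r9 at *
  unfold EC2_r
  have k0 := EC2_div (x := r0 + r1 + r2 + r3) h1 (by omega)
  have k1 := EC2_div (x := r0 + a + b + c) h1 (by omega)
  have k2 := EC2_div (x := r1 + a + d + e) h1 (by omega)
  have k3 := EC2_div (x := r2 + b + d + r9) h1 (by omega)
  have k4 := EC2_div (x := r3 + c + e + r9) h1 (by omega)
  refine EC2_h5_cast _ _ _ _ _ _ ?_ ?_ ?_ ?_ ?_ ((2 * m - 24) / 7)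
    (by clear k0 k1 k2 k3 k4 v0 v1 v2 v3 v4; omega) k0.2 k1.2 k2.2 k3.2 k4.2
  · rw [← k0.1]; simp only [v0, Nat.cast_add]
  · rw [← k1.1]; simp only [v1, Nat.cast_add]
  · rw [← k2.1]; simp only [v2, Nat.cast_add]
  · rw [← k3.1]; simp only [v3, Nat.cast_add]
  · rw [← k4.1]; simp only [v4, Nat.cast_add]

theorem EC2_cons {n : ℕ} (f : (Fin (n + 1) → Fin 7) → ℕ) :
    ∑ z, f z = ∑ a : Fin 7, ∑ z : Fin n → Fin 7, f (Fin.cons a z) := by
  rw [← (Fin.consEquiv fun _ : Fin (n + 1) => Fin 7).sum_comp, Fintype.sum_prod_type]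
  rfl

theorem EC2_s_eq (f : ℕ → ℕ) : ∑ a : Fin 7, f a = EC2_s f := by
  rw [Fin.sum_univ_seven]; rfl

theorem EC2_S_eq (m : ℕ) :
    ∑ z : Fin 5 → Fin 7, EC2_h m (z 0) (z 1) (z 2) (z 3) (z 4) = EC2_S m := by
  unfold EC2_S
  rw [EC2_cons, ← EC2_s_eq]
  refine Finset.sum_congr rfl fun a _ => ?_
  rw [EC2_cons, ← EC2_s_eq]
  refine Finset.sum_congr rfl fun b _ => ?_
  rw [EC2_cons, ← EC2_s_eq]
  refine Finset.sum_congr rfl fun c _ => ?_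
  rw [EC2_cons, ← EC2_s_eq]
  refine Finset.sum_congr rfl fun d _ => ?_
  rw [EC2_cons, ← EC2_s_eq]
  refine Finset.sum_congr rfl fun e _ => ?_
  rw [Fintype.sum_unique]
  rfl

theorem EC2_nat (m : ℕ) (h1 : 200 ≤ m) (h2 : m < 214) :
    2 * ∑ z : Fin 5 → Fin 7, hcnt (fun i => (2 * (m : ℤ) - vs (resV m z) i) / 7) =
      1715 * (m : ℤ) ^ 2 - 8575 * m + 9604 := by
  rw [← EC2_v m h1 h2, ← EC2_S_eq]
  push_cast
  simp only [EC2_h_cast m h1]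

theorem EC2_tri (x : ℤ) : 2 * (x * (x + 1) / 2) = x * (x + 1) :=
  Int.mul_ediv_cancel' (even_iff_two_dvd.mp (Int.even_mul_succ_self x))

theorem EC2_shift (d : Fin 5 → ℤ) : ∃ l : ℤ, ∀ q : ℤ,
    2 * hcnt (fun i => d i + 2 * q) = 2 * hcnt d + q * l + 5 * q ^ 2 := by
  obtain ⟨A, hA⟩ : ∃ A, (d 0 + d 1 + d 2 - d 3 - d 4) / 2 = A := ⟨_, rfl⟩
  obtain ⟨B, hB⟩ : ∃ B, (d 1 + d 2 + d 3 - d 0 - d 4) / 2 = B := ⟨_, rfl⟩
  obtain ⟨C, hC⟩ : ∃ C, (d 1 + d 2 + d 4 - d 0 - d 3) / 2 = C := ⟨_, rfl⟩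
  refine ⟨4 * (d 1 + d 2 + 2) - 2 * (A + B + C) - 3, fun q => ?_⟩
  unfold hcnt
  rw [show (d 0 + 2 * q + (d 1 + 2 * q) + (d 2 + 2 * q) - (d 3 + 2 * q) - (d 4 + 2 * q)) / 2 = A + q
      by omega,
    show (d 1 + 2 * q + (d 2 + 2 * q) + (d 3 + 2 * q) - (d 0 + 2 * q) - (d 4 + 2 * q)) / 2 = B + q
      by omega,
    show (d 1 + 2 * q + (d 2 + 2 * q) + (d 4 + 2 * q) - (d 0 + 2 * q) - (d 3 + 2 * q)) / 2 = C + q
      by omega, hA, hB, hC]
  linear_combination EC2_tri A + EC2_tri B + EC2_tri C - EC2_tri (A + q) - EC2_tri (B + q) -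
    EC2_tri (C + q)

theorem EC2_resV (m q : ℤ) (z : Fin 5 → Fin 7) : resV (m + 7 * q) z = resV m z := by
  unfold resV
  rw [show (2 * (m + 7 * q) - z 0 - z 1 - z 2) % 7 = (2 * m - z 0 - z 1 - z 2) % 7 by omega,
    show (2 * (m + 7 * q) - z 0 - z 3 - z 4) % 7 = (2 * m - z 0 - z 3 - z 4) % 7 by omega,
    show (z 0 + z 2 + z 4 - (m + 7 * q)) % 7 = (z 0 + z 2 + z 4 - m) % 7 by omega,
    show (z 0 + z 1 + z 3 - (m + 7 * q)) % 7 = (z 0 + z 1 + z 3 - m) % 7 by omega,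
    show (3 * (m + 7 * q) - z 0 - z 1 - z 2 - z 3 - z 4) % 7 =
      (3 * m - z 0 - z 1 - z 2 - z 3 - z 4) % 7 by omega]

theorem EC2_poly (m : ℤ) : ∃ l : ℤ, ∀ q : ℤ,
    2 * ∑ z : Fin 5 → Fin 7, hcnt (fun i => (2 * (m + 7 * q) - vs (resV (m + 7 * q) z) i) / 7) =
    2 * ∑ z : Fin 5 → Fin 7, hcnt (fun i => (2 * m - vs (resV m z) i) / 7) + q * l +
      84035 * q ^ 2 := by
  choose l hl using fun z : Fin 5 → Fin 7 => EC2_shift (fun i => (2 * m - vs (resV m z) i) / 7)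
  refine ⟨∑ z, l z, fun q => ?_⟩
  have e : ∀ z : Fin 5 → Fin 7,
      2 * hcnt (fun i => (2 * (m + 7 * q) - vs (resV (m + 7 * q) z) i) / 7) =
      2 * hcnt (fun i => (2 * m - vs (resV m z) i) / 7) + q * l z + 5 * q ^ 2 := fun z => by
    rw [← hl z q, EC2_resV]
    congr 2
    funext i
    omega
  rw [Finset.mul_sum, Finset.mul_sum, Finset.mul_sum, Finset.sum_congr rfl fun z _ => e z,
    Finset.sum_add_distrib, Finset.sum_add_distrib, Finset.sum_const, Finset.card_univ,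
    Fintype.card_fun, Fintype.card_fin, Fintype.card_fin, nsmul_eq_mul]
  push_cast
  ring

/-- True for every integer `m` (checked numerically).  Sketch: `m = 7 q + m₀`; `resV m = resV m₀`,
`(2m - v)/7 = 2q + (2m₀ - v)/7` (exact divisions), and for `∑ d` even
`8 hcnt d` is a quadratic polynomial `Q d`, so `hcnt (d + 2q) = hcnt d + q · lin d + (5/2) q²`
(work it out); it remains to evaluate `∑_z hcnt d_z` and `∑_z lin d_z` for the 7 values `m₀`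
(`7^5` terms each: rewrite as nested `List.range 7`/`Nat` folds and use `decide +kernel`, or use
moments). -/
theorem sum_hcnt (m : ℤ) :
    ((∑ z : Fin 5 → Fin 7, hcnt (fun i => (2 * m - vs (resV m z) i) / 7) : ℤ) : ℚ) =
      1715 / 2 * (m : ℚ) ^ 2 - 8575 / 2 * m + 4802 := by
  obtain ⟨m0, q, h1, h2, rfl⟩ : ∃ (m0 : ℕ) (q : ℤ), 200 ≤ m0 ∧ m0 < 207 ∧ m = m0 + 7 * q :=
    ⟨((m - 200) % 7 + 200).toNat, (m - 200) / 7, by omega, by omega, by omega⟩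
  obtain ⟨l, hl⟩ := EC2_poly m0
  have e0 := EC2_nat m0 h1 (by omega)
  have e1 := EC2_nat (m0 + 7) (by omega) (by omega)
  have e2 := hl 1
  have e3 := hl q
  rw [mul_one] at e2
  push_cast at e1
  rw [e1, e0] at e2
  rw [e0] at e3
  generalize (∑ z : Fin 5 → Fin 7,
    hcnt (fun i => (2 * (m0 + 7 * q) - vs (resV (m0 + 7 * q) z) i) / 7)) = S at e3 ⊢
  have e4 : 2 * S = 1715 * (m0 + 7 * q) ^ 2 - 8575 * (m0 + 7 * q) + 9604 := by
    linear_combination e3 - q * e2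
  have e5 : 2 * (S : ℚ) = 1715 * (m0 + 7 * q) ^ 2 - 8575 * (m0 + 7 * q) + 9604 := by
    exact_mod_cast e4
  push_cast
  linarith

end Crest.Agent.R169
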