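import Crest.Agent.R169.EChart

/-! # R169 task ECover: the charts cover -/

set_option autoImplicit false

namespace Crest.Agent.R169
open Module

namespace ECOVER

/-- the three pairs of a Plücker relation -/
def pr (q : Fin 5) : Fin 3 → Fin 10 × Fin 10 :=
  ![(quad q 0, quad q 1), (quad q 2, quad q 3), (quad q 4, quad q 5)]

theorem chk : ∀ b0 b1 b2 b3 b4 b5 b6 b7 b8 b9 : Bool,
    (∃ j : Fin 15, ∀ e, ![b0, b1, b2, b3, b4, b5, b6, b7, b8, b9] e = false ∨
      EBASIC.ew (EBASIC.YY j) e ≤ 0) ∨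
    (∃ α : Fin 15, ∀ e, cG α e = 0 ∨ ![b0, b1, b2, b3, b4, b5, b6, b7, b8, b9] e = true) ∨
    (∃ q : Fin 5, ∃ i : Fin 3, ∀ i' : Fin 3,
      (![b0, b1, b2, b3, b4, b5, b6, b7, b8, b9] (pr q i').1 &&
        ![b0, b1, b2, b3, b4, b5, b6, b7, b8, b9] (pr q i').2) = decide (i' = i)) := by
  decide +kernel

theorem pr_ne : ∀ (q : Fin 5) (i : Fin 3), (pr q i).1 ≠ (pr q i).2 := by decide

theorem vs_pr : ∀ (q : Fin 5) (i i' : Fin 3),
    vs (e7 (pr q i).1 (pr q i).2) = vs (e7 (pr q i').1 (pr q i').2) := by decide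

variable {k K : Type} [Field k] [Field K] [Algebra k K]

/-- the degree `t` part of the ideal generated by the `mon (cG α)` -/
def II (M : Model k K) (t : ℤ) : Submodule k K where
  carrier := {z | ∃ a : Fin 15 → K, (∀ α, a α ∈ exR0 M (t - 3)) ∧ z = ∑ α, M.mon (cG α) * a α}
  zero_mem' := ⟨0, fun _ => Submodule.zero_mem _, by simp⟩
  add_mem' := by
    rintro _ _ ⟨a, ha, rfl⟩ ⟨b, hb, rfl⟩
    exact ⟨a + b, fun α => Submodule.add_mem _ (ha α) (hb α), by
      simp [mul_add, Finset.sum_add_distrib]⟩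
  smul_mem' := by
    rintro c _ ⟨a, ha, rfl⟩
    exact ⟨c • a, fun α => Submodule.smul_mem _ c (ha α), by
      simp [Finset.smul_sum]⟩

theorem II_mul (M : Model k K) {s t : ℤ} {z w : K} (hz : z ∈ II M s) (hw : w ∈ exR0 M t) :
    z * w ∈ II M (s + t) := by
  obtain ⟨a, ha, rfl⟩ := hz
  refine ⟨fun α => a α * w, fun α => ?_, by simp [Finset.sum_mul, mul_assoc]⟩
  have := exR0_mul M (ha α) hw
  rwa [show s - 3 + t = s + t - 3 by ring] at this

def Nil (M : Model k K) (d : ℤ) (z : K) : Prop :=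
  z ∈ exR0 M d ∧ ∃ n : ℕ, z ^ n ∈ II M (n * d)

theorem Nil.mono {M : Model k K} {d : ℤ} {z : K} (hz : z ∈ exR0 M d) {n m : ℕ} (h : n ≤ m)
    (hn : z ^ n ∈ II M (n * d)) : z ^ m ∈ II M (m * d) := by
  obtain ⟨j, rfl⟩ := Nat.exists_eq_add_of_le h
  have := II_mul M hn (exR0_pow M hz j)
  rwa [← pow_add, show (n : ℤ) * d + j * d = ((n + j : ℕ) : ℤ) * d by push_cast; ring] at this

theorem Nil.add {M : Model k K} {d : ℤ} {z w : K} (hz : Nil M d z) (hw : Nil M d w) :
    Nil M d (z + w) := by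
  obtain ⟨hz, n, hn⟩ := hz
  obtain ⟨hw, m, hm⟩ := hw
  refine ⟨Submodule.add_mem _ hz hw, n + m, ?_⟩
  rw [add_pow]
  refine Submodule.sum_mem _ fun i hi => ?_
  have hi' : i ≤ n + m := Nat.lt_succ_iff.1 (Finset.mem_range.1 hi)
  rw [mul_comm (z ^ i * w ^ (n + m - i)), ← nsmul_eq_mul ((n + m).choose i)]
  refine nsmul_mem (S := II M (((n + m : ℕ) : ℤ) * d)) ?_ _
  rcases le_or_gt n i with h | h
  · have := II_mul M (Nil.mono hz h hn) (exR0_pow M hw (n + m - i))
    rwa [show (i : ℤ) * d + ((n + m - i : ℕ) : ℤ) * d = ((n + m : ℕ) : ℤ) * d by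
      rw [Nat.cast_sub hi']; ring] at this
  · have := II_mul M (Nil.mono hw (show m ≤ n + m - i by omega) hm) (exR0_pow M hz i)
    rwa [mul_comm (w ^ (n + m - i)), show ((n + m - i : ℕ) : ℤ) * d + (i : ℤ) * d = ((n + m : ℕ) : ℤ) * d by
      rw [Nat.cast_sub hi']; ring] at this

theorem Nil.zsmul {M : Model k K} {d : ℤ} {z : K} (hz : Nil M d z) (c : ℤ) :
    Nil M d ((c : K) * z) := by
  obtain ⟨hz, n, hn⟩ := hz
  refine ⟨by rw [← zsmul_eq_mul]; exact zsmul_mem hz c, n, ?_⟩
  rw [mul_pow, ← Int.cast_pow, ← zsmul_eq_mul]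
  exact zsmul_mem hn _

theorem Nil.zero (M : Model k K) (d : ℤ) : Nil M d 0 :=
  ⟨Submodule.zero_mem _, 1, by simp⟩

theorem Nil.sub {M : Model k K} {d : ℤ} {z w : K} (hz : Nil M d z) (hw : Nil M d w) :
    Nil M d (z - w) := by
  have := hz.add (hw.zsmul (-1))
  simpa [sub_eq_add_neg] using this

theorem Nil.of_pow {M : Model k K} {d : ℤ} {z : K} (hz : z ∈ exR0 M d) (j : ℕ)
    (h : Nil M (j * d) (z ^ j)) : Nil M d z := by
  obtain ⟨-, n, hn⟩ := h
  refine ⟨hz, j * n, ?_⟩
  rwa [← pow_mul, show (n : ℤ) * (j * d) = ((j * n : ℕ) : ℤ) * d by push_cast; ring] at hn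

theorem tri3 (M : Model k K) (q : Fin 5) (c : Ex) :
    M.mon (c + e7 (pr q 0).1 (pr q 0).2) =
      M.mon (c + e7 (pr q 1).1 (pr q 1).2) + M.mon (c + e7 (pr q 2).1 (pr q 2).2) := by
  have key : M.mon (e7 (quad q 0) (quad q 1)) =
      M.mon (e7 (quad q 2) (quad q 3)) + M.mon (e7 (quad q 4) (quad q 5)) := by
    simp only [e7, M.mon_add, M.mon_single]
    have h5 := M.rel5
    have h7 := M.rel7
    have h4 := M.rel4
    fin_cases q <;> simp [quad, M.r0, M.r1, M.r2, M.r3, M.r9, zpow_ofNat]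
    · linear_combination h5 - h7 - h4
    · linear_combination - h4
    · linear_combination - h5
    · linear_combination - h7
    · linear_combination M.r 8 ^ 7 * h5 - M.r 6 ^ 7 * h7 - h4
  show M.mon (c + e7 (quad q 0) (quad q 1)) =
    M.mon (c + e7 (quad q 2) (quad q 3)) + M.mon (c + e7 (quad q 4) (quad q 5))
  rw [M.mon_add, M.mon_add, M.mon_add, key, mul_add]

theorem e7_bd {e f : Fin 10} (hef : e ≠ f) (g : Fin 10) :
    0 ≤ e7 e f g ∧ e7 e f g ≤ 7 ∧ (g = e ∨ g = f → e7 e f g = 7) ∧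
      (g ≠ e → g ≠ f → e7 e f g = 0) := by
  simp only [e7, Pi.add_apply, Pi.single_apply]
  by_cases h1 : g = e <;> by_cases h2 : g = f
  · exact absurd (h1.symm.trans h2) hef
  · simp [h1, hef]
  · simp [h2, hef.symm]
  · simp [h1, h2]

theorem nil_mon (M : Model k K) (N : ℕ) : ∀ (a : Ex) (m : ℤ), 0 < m → Mon a m →
    (Finset.univ.filter fun e => a e = 0).card = N → Nil M m (M.mon a) := by
  induction N using Nat.strong_induction_on with
  | _ N ih =>
  intro a m hm ha hN
  have hb : ∀ e : Fin 10, ![decide (0 < a 0), decide (0 < a 1), decide (0 < a 2), decide (0 < a 3),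
      decide (0 < a 4), decide (0 < a 5), decide (0 < a 6), decide (0 < a 7), decide (0 < a 8),
      decide (0 < a 9)] e = decide (0 < a e) := by
    intro e; fin_cases e <;> rfl
  rcases chk (decide (0 < a 0)) (decide (0 < a 1)) (decide (0 < a 2)) (decide (0 < a 3))
      (decide (0 < a 4)) (decide (0 < a 5)) (decide (0 < a 6)) (decide (0 < a 7))
      (decide (0 < a 8)) (decide (0 < a 9)) with ⟨j, hj⟩ | ⟨α, hα⟩ | ⟨q, i, hq⟩
  · exfalso
    obtain ⟨h1, -⟩ := EBASIC.yy j
    generalize EBASIC.YY j = y at hj h1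
    have key : ∀ e, a e * EBASIC.ew y e ≤ 0 := by
      intro e
      have h3 := ha.1 e
      have h4 := hj e
      rw [hb, decide_eq_false_iff_not] at h4
      rcases h4 with h4 | h4
      · have : a e = 0 := by omega
        rw [this, zero_mul]
      · exact mul_nonpos_of_nonneg_of_nonpos h3 h4
    have v0 := ha.2 0
    have v1 := ha.2 1
    have v2 := ha.2 2
    have v3 := ha.2 3
    have v4 := ha.2 4
    have k0 := key 0
    have k1 := key 1
    have k2 := key 2
    have k3 := key 3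
    have k4 := key 4
    have k5 := key 5
    have k6 := key 6
    have k7 := key 7
    have k8 := key 8
    have k9 := key 9
    simp only [vs, Matrix.cons_val] at v0 v1 v2 v3 v4
    simp only [EBASIC.ew, Matrix.cons_val] at k0 k1 k2 k3 k4 k5 k6 k7 k8 k9
    have : 2 * m = a 0 * (y 0 + y 1) + a 1 * (y 0 + y 2) + a 2 * (y 0 + y 3) + a 3 * (y 0 + y 4)
        + a 4 * (y 1 + y 2) + a 5 * (y 1 + y 3) + a 6 * (y 1 + y 4) + a 7 * (y 2 + y 3)
        + a 8 * (y 2 + y 4) + a 9 * (y 3 + y 4) := by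
      linear_combination (-2 * m) * h1 - y 0 * v0 - y 1 * v1 - y 2 * v2 - y 3 * v3 - y 4 * v4
    linarith
  · refine Nil.of_pow (mon_mem_exR0 M ha) 3 ⟨exR0_pow M (mon_mem_exR0 M ha) 3, 1, ?_⟩
    have hmon : Mon ((3 : ℤ) • a - cG α) (3 * m - 3) := by
      refine ⟨fun e => ?_, (ha.2.zsmul 3).sub (cG_mon α).2⟩
      have h1 := hα e
      rw [hb, decide_eq_true_eq] at h1
      have h2 := (cG_pos α e).2.2
      have h3 := ha.1 e
      simp only [Pi.sub_apply, Pi.smul_apply, smul_eq_mul]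
      omega
    refine ⟨Pi.single α (M.mon ((3 : ℤ) • a - cG α)), fun β => ?_, ?_⟩
    · rw [Pi.single_apply]
      split_ifs
      · have := mon_mem_exR0 M hmon
        convert this using 2
        push_cast; ring
      · exact Submodule.zero_mem _
    · rw [Finset.sum_eq_single α (fun β _ hβ => by simp [Pi.single_eq_of_ne hβ]) (by simp),
        Pi.single_eq_same, ← M.mon_add, add_sub_cancel, M.mon_zsmul, pow_one]
      exact (zpow_natCast _ 3).symm
  · simp only [hb] at hq
    have hi := hq i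
    simp only [decide_true, Bool.and_eq_true, decide_eq_true_eq] at hi
    set c : Ex := (8 : ℤ) • a - e7 (pr q i).1 (pr q i).2 with hc
    have hcpos : ∀ e, 0 ≤ c e ∧ (0 < a e → 0 < c e) := by
      intro e
      obtain ⟨g1, g2, g3, g4⟩ := e7_bd (pr_ne q i) e
      have h3 := ha.1 e
      simp only [hc, Pi.sub_apply, Pi.smul_apply, smul_eq_mul]
      by_cases he : e = (pr q i).1 ∨ e = (pr q i).2
      · have : 0 < a e := by rcases he with rfl | rfl; exacts [hi.1, hi.2]
        omega
      · push Not at he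
        have := g4 he.1 he.2
        omega
    have hmon : ∀ i', Mon (c + e7 (pr q i').1 (pr q i').2) (8 * m) := by
      intro i'
      refine ⟨fun e => add_nonneg (hcpos e).1 (e7_bd (pr_ne q i') e).1, fun v => ?_⟩
      have := ha.2.zsmul 8 v
      rw [vs_add, vs_pr q i' i, ← vs_add, hc, sub_add_cancel]
      exact this
    have hnil : ∀ i', i' ≠ i → Nil M (8 * m) (M.mon (c + e7 (pr q i').1 (pr q i').2)) := by
      intro i' hi'
      refine ih _ ?_ _ _ (by omega) (hmon i') rfl
      rw [← hN]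
      have h1 := hq i'
      rw [decide_eq_false hi', Bool.and_eq_false_iff, decide_eq_false_iff_not,
        decide_eq_false_iff_not] at h1
      refine Finset.card_lt_card ⟨fun e he => ?_, fun hsub => ?_⟩
      · simp only [Finset.mem_filter, Finset.mem_univ, true_and, Pi.add_apply] at he ⊢
        have h2 := hcpos e
        have h3 := (e7_bd (pr_ne q i') e).1
        have h4 := ha.1 e
        omega
      · have hx : ∀ e, e = (pr q i').1 ∨ e = (pr q i').2 → 0 < a e := by
          intro e he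
          by_contra h
          have h4 := ha.1 e
          have h5 := hsub (show e ∈ Finset.univ.filter fun e => a e = 0 by
            simp only [Finset.mem_filter, Finset.mem_univ, true_and]; omega)
          simp only [Finset.mem_filter, Finset.mem_univ, true_and, Pi.add_apply] at h5
          have h2 := hcpos e
          have h3 := (e7_bd (pr_ne q i') e).2.2.1 he
          omega
        rcases h1 with h1 | h1
        · exact h1 (hx _ (Or.inl rfl))
        · exact h1 (hx _ (Or.inr rfl))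
    have h8 : M.mon a ^ 8 = M.mon (c + e7 (pr q i).1 (pr q i).2) := by
      rw [hc, sub_add_cancel, M.mon_zsmul]
      exact (zpow_natCast _ 8).symm
    refine Nil.of_pow (mon_mem_exR0 M ha) 8 ?_
    rw [h8, show ((8 : ℕ) : ℤ) = 8 from rfl]
    have ht := tri3 M q c
    clear_value c
    obtain rfl | rfl | rfl : i = 0 ∨ i = 1 ∨ i = 2 := by omega
    · rw [ht]
      exact (hnil 1 (by decide)).add (hnil 2 (by decide))
    · rw [← sub_eq_iff_eq_add] at ht
      rw [← ht]
      exact (hnil 0 (by decide)).sub (hnil 2 (by decide))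
    · rw [← sub_eq_iff_eq_add'] at ht
      rw [← ht]
      exact (hnil 0 (by decide)).sub (hnil 1 (by decide))

theorem nil_lf (M : Model k K) (L : NN) (i : Fin 3) : Nil M 1 (lf M L i) := by
  unfold lf Finsupp.sum
  refine Finset.sum_induction _ (Nil M 1) (fun _ _ => Nil.add) (Nil.zero M 1) fun γ hγ => ?_
  exact (nil_mon M _ γ 1 one_pos (L.supp i γ hγ) rfl).zsmul _

end ECOVER

section
variable {k K : Type} [Field k] [Field K] [Algebra k K]

/-- Call `z ∈ R₀(d)` *nil* if `z^n ∈ I(n d)` for some `n`, `I(t) = ∑_α mon (cG α) R₀(t-3)`; nil elements of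
the same degree are closed under `+`, integer multiples.  Claim: every monomial `a` whose support contains
the support of a degree-one monomial is nil.  Downward induction on the support `Σ`: a finite check
over the `2^10` supports (`decide +kernel`) shows that either `Σ` contains the complement of a node
`cEd α` (then `3a - cG α` is a monomial), or for some `q` exactly one of the three pairs of `quad q`
lies in `Σ`; then `M.tri` with `c = 8a - e7 (pair)` writes `mon (8a)` as `±` two monomials with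
strictly larger support. -/
theorem cover0 (M : Model k K) (L : NN) : ∃ n : ℕ, ∀ i : Fin 3, ∃ a : Fin 15 → K,
    (∀ α, a α ∈ exR0 M ((n : ℤ) - 3)) ∧ lf M L i ^ n = ∑ α, M.mon (cG α) * a α := by
  choose n hn using fun i => (ECOVER.nil_lf M L i).2
  refine ⟨∑ i, n i, fun i => ?_⟩
  have := ECOVER.Nil.mono (lf_mem M L i)
    (Finset.single_le_sum (f := n) (fun _ _ => Nat.zero_le _) (Finset.mem_univ i)) (hn i)
  rw [mul_one] at this
  exact this
end

variable {k K : Type} [Field k] [Field K] [Algebra k K] [Algebra (KA k) K]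
  [IsScalarTower k (KA k) K]

theorem ex_cover (M : Model k K) (L : NN) (hC : Compat M L) :
    ∃ n : ℕ, ∀ ℓ ∈ ({1, xK k K 0, xK k K 1} : Set K), ∃ a : Fin 15 → K,
      (∀ α, a α ∈ exR M L ((n : ℤ) - (3 : ℕ))) ∧ ℓ ^ n = ∑ α, exg M L α * a α := by
  have hZ : lf M L 2 ≠ 0 := hC.1
  obtain ⟨n, hn⟩ := cover0 M L
  have key : ∀ i : Fin 3, ∃ a : Fin 15 → K, (∀ α, a α ∈ exR M L ((n : ℤ) - (3 : ℕ))) ∧
      (lf M L i / lf M L 2) ^ n = ∑ α, exg M L α * a α := by
    intro i
    obtain ⟨a, ha, h⟩ := hn i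
    refine ⟨fun α => a α / lf M L 2 ^ ((n : ℤ) - (3 : ℕ)), fun α => ?_, ?_⟩
    · rw [mem_exR M L hZ, mul_div_cancel₀ _ (zpow_ne_zero _ hZ)]
      exact ha α
    · rw [div_pow, h, Finset.sum_div]
      refine Finset.sum_congr rfl fun α _ => ?_
      rw [exg, zpow_sub₀ hZ, zpow_natCast, zpow_natCast]
      field_simp
  refine ⟨n, fun ℓ hℓ => ?_⟩
  rcases hℓ with rfl | rfl | rfl
  · have := key 2
    rwa [div_self hZ] at this
  · rw [hC.2 0]; exact key _
  · rw [hC.2 1]; exact key _

end Crest.Agent.R169
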