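import Crest.Agent.R169.EInd
import Crest.Agent.R169.ECount1
import Crest.Agent.R169.ECount2

/-! # R169 task EHP: the Hilbert polynomial of the example -/

set_option autoImplicit false

namespace Crest.Agent.R169
open Module

theorem EHP_val (m : ℤ) (z : Fin 5 → Fin 7) :
    resV m z 0 = (2 * m - z 0 - z 1 - z 2) % 7 ∧ resV m z 1 = (2 * m - z 0 - z 3 - z 4) % 7 ∧
    resV m z 2 = (z 0 + z 2 + z 4 - m) % 7 ∧ resV m z 3 = (z 0 + z 1 + z 3 - m) % 7 ∧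
    resV m z 4 = z 0 ∧ resV m z 5 = z 1 ∧ resV m z 6 = z 2 ∧ resV m z 7 = z 3 ∧
    resV m z 8 = z 4 ∧ resV m z 9 = (3 * m - z 0 - z 1 - z 2 - z 3 - z 4) % 7 :=
  ⟨rfl, rfl, rfl, rfl, rfl, rfl, rfl, rfl, rfl, rfl⟩

theorem EHP_bd (m : ℤ) (z : Fin 5 → Fin 7) (e : Fin 10) : 0 ≤ resV m z e ∧ resV m z e < 7 := by
  obtain ⟨h0, h1, h2, h3, h4, h5, h6, h7, h8, h9⟩ := EHP_val m z
  have l0 := (z 0).2
  have l1 := (z 1).2
  have l2 := (z 2).2
  have l3 := (z 3).2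
  have l4 := (z 4).2
  have : ∀ x : ℤ, 0 ≤ x % 7 ∧ x % 7 < 7 := fun x => by omega
  fin_cases e
  · exact h0 ▸ this _
  · exact h1 ▸ this _
  · exact h2 ▸ this _
  · exact h3 ▸ this _
  · show 0 ≤ resV m z 4 ∧ resV m z 4 < 7
    rw [h4]; clear h0 h1 h2 h3 h9; omega
  · show 0 ≤ resV m z 5 ∧ resV m z 5 < 7
    rw [h5]; clear h0 h1 h2 h3 h9; omega
  · show 0 ≤ resV m z 6 ∧ resV m z 6 < 7
    rw [h6]; clear h0 h1 h2 h3 h9; omega
  · show 0 ≤ resV m z 7 ∧ resV m z 7 < 7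
    rw [h7]; clear h0 h1 h2 h3 h9; omega
  · show 0 ≤ resV m z 8 ∧ resV m z 8 < 7
    rw [h8]; clear h0 h1 h2 h3 h9; omega
  · exact h9 ▸ this _

theorem EHP_vs (a : Ex) : vs a 0 = a 0 + a 1 + a 2 + a 3 ∧ vs a 1 = a 0 + a 4 + a 5 + a 6 ∧
    vs a 2 = a 1 + a 4 + a 7 + a 8 ∧ vs a 3 = a 2 + a 5 + a 7 + a 9 ∧
    vs a 4 = a 3 + a 6 + a 8 + a 9 := ⟨rfl, rfl, rfl, rfl, rfl⟩

theorem EHP_div (m : ℤ) (z : Fin 5 → Fin 7) (i : Fin 5) :
    vs (resV m z) i + 7 * ((2 * m - vs (resV m z) i) / 7) = 2 * m := by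
  have key : (2 * m - vs (resV m z) i) % 7 = 0 := by
    obtain ⟨h0, h1, h2, h3, h4, h5, h6, h7, h8, h9⟩ := EHP_val m z
    obtain ⟨v0, v1, v2, v3, v4⟩ := EHP_vs (resV m z)
    fin_cases i
    · show (2 * m - vs (resV m z) 0) % 7 = 0
      rw [v0, h0, h1, h2, h3]; clear h0 h1 h2 h3 h4 h5 h6 h7 h8 h9 v0 v1 v2 v3 v4; omega
    · show (2 * m - vs (resV m z) 1) % 7 = 0
      rw [v1, h0, h4, h5, h6]; clear h0 h1 h2 h3 h4 h5 h6 h7 h8 h9 v0 v1 v2 v3 v4; omega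
    · show (2 * m - vs (resV m z) 2) % 7 = 0
      rw [v2, h1, h4, h7, h8]; clear h0 h1 h2 h3 h4 h5 h6 h7 h8 h9 v0 v1 v2 v3 v4; omega
    · show (2 * m - vs (resV m z) 3) % 7 = 0
      rw [v3, h2, h5, h7, h9]; clear h0 h1 h2 h3 h4 h5 h6 h7 h8 h9 v0 v1 v2 v3 v4; omega
    · show (2 * m - vs (resV m z) 4) % 7 = 0
      rw [v4, h3, h6, h8, h9]; clear h0 h1 h2 h3 h4 h5 h6 h7 h8 h9 v0 v1 v2 v3 v4; omega
  omega

theorem EHP_vs_bd (m : ℤ) (z : Fin 5 → Fin 7) (i : Fin 5) :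
    0 ≤ vs (resV m z) i ∧ vs (resV m z) i ≤ 24 := by
  obtain ⟨v0, v1, v2, v3, v4⟩ := EHP_vs (resV m z)
  have b0 := EHP_bd m z 0; have b1 := EHP_bd m z 1; have b2 := EHP_bd m z 2
  have b3 := EHP_bd m z 3; have b4 := EHP_bd m z 4; have b5 := EHP_bd m z 5
  have b6 := EHP_bd m z 6; have b7 := EHP_bd m z 7; have b8 := EHP_bd m z 8
  have b9 := EHP_bd m z 9
  fin_cases i
  · show 0 ≤ vs (resV m z) 0 ∧ vs (resV m z) 0 ≤ 24
    omega
  · show 0 ≤ vs (resV m z) 1 ∧ vs (resV m z) 1 ≤ 24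
    omega
  · show 0 ≤ vs (resV m z) 2 ∧ vs (resV m z) 2 ≤ 24
    omega
  · show 0 ≤ vs (resV m z) 3 ∧ vs (resV m z) 3 ≤ 24
    omega
  · show 0 ≤ vs (resV m z) 4 ∧ vs (resV m z) 4 ≤ 24
    omega

/-- the residues of the edges `4, …, 8` -/
def EHP_z (a : Ex) (i : Fin 5) : Fin 7 :=
  ⟨(a (![4, 5, 6, 7, 8] i) % 7).toNat, by omega⟩

theorem EHP_z_val (a : Ex) (i : Fin 5) : ((EHP_z a i : ℕ) : ℤ) = a (![4, 5, 6, 7, 8] i) % 7 := by
  show (((a (![4, 5, 6, 7, 8] i) % 7).toNat : ℕ) : ℤ) = _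
  omega

theorem EHP_res {a : Ex} {m : ℤ} (ha : Reg a m) (e : Fin 10) : resV m (EHP_z a) e = a e % 7 := by
  obtain ⟨a0, a1, a2, a3, a4⟩ := EInd_reg ha
  obtain ⟨h0, h1, h2, h3, h4, h5, h6, h7, h8, h9⟩ := EHP_val m (EHP_z a)
  have z0 : ((EHP_z a 0 : ℕ) : ℤ) = a 4 % 7 := EHP_z_val a 0
  have z1 : ((EHP_z a 1 : ℕ) : ℤ) = a 5 % 7 := EHP_z_val a 1
  have z2 : ((EHP_z a 2 : ℕ) : ℤ) = a 6 % 7 := EHP_z_val a 2
  have z3 : ((EHP_z a 3 : ℕ) : ℤ) = a 7 % 7 := EHP_z_val a 3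
  have z4 : ((EHP_z a 4 : ℕ) : ℤ) = a 8 % 7 := EHP_z_val a 4
  rw [z0] at h0 h1 h2 h3 h4 h9
  rw [z1] at h0 h3 h5 h9
  rw [z2] at h0 h2 h6 h9
  rw [z3] at h1 h3 h7 h9
  rw [z4] at h1 h2 h8 h9
  clear z0 z1 z2 z3 z4
  fin_cases e
  · refine h0.trans ?_
    show _ = a 0 % 7
    clear h0 h1 h2 h3 h4 h5 h6 h7 h8 h9 a0 a2 a3 a4
    omega
  · refine h1.trans ?_
    show _ = a 1 % 7
    clear h0 h1 h2 h3 h4 h5 h6 h7 h8 h9 a0 a1 a3 a4
    omega
  · refine h2.trans ?_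
    show _ = a 2 % 7
    clear h0 h1 h2 h3 h4 h5 h6 h7 h8 h9
    have e : a 2 = a 4 + a 6 + a 8 - m := by omega
    clear a0 a1 a2 a3 a4
    omega
  · refine h3.trans ?_
    show _ = a 3 % 7
    clear h0 h1 h2 h3 h4 h5 h6 h7 h8 h9
    have e : a 3 = a 4 + a 5 + a 7 - m := by omega
    clear a0 a1 a2 a3 a4
    omega
  · exact h4
  · exact h5
  · exact h6
  · exact h7
  · exact h8
  · refine h9.trans ?_
    show _ = a 9 % 7
    clear h0 h1 h2 h3 h4 h5 h6 h7 h8 h9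
    have e : a 9 = 3 * m - a 4 - a 5 - a 6 - a 7 - a 8 := by omega
    clear a0 a1 a2 a3 a4
    omega

theorem EHP_fiber (m : ℤ) (z : Fin 5 → Fin 7) :
    {a : Ex | (Mon a m ∧ Std a) ∧ EHP_z a = z} = (fun n : Ex => resV m z + (7 : ℤ) • n) ''
      {n : Ex | Pos n ∧ vs n = (fun i => (2 * m - vs (resV m z) i) / 7) ∧ NC n} := by
  ext a
  constructor
  · rintro ⟨⟨ha, hs⟩, rfl⟩
    obtain ⟨hp, hn⟩ := EInd_div ha.1 hs
    have e : resV m (EHP_z a) + (7 : ℤ) • (fun e => a e / 7) = a := by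
      funext e
      show resV m (EHP_z a) e + 7 * (a e / 7) = a e
      rw [EHP_res ha.2]
      omega
    refine ⟨fun e => a e / 7, ⟨hp, ?_, hn⟩, e⟩
    funext i
    have h1 := ha.2 i
    rw [← e, vs_add, vs_zsmul, Pi.add_apply, Pi.smul_apply, smul_eq_mul] at h1
    omega
  · rintro ⟨n, ⟨hp, hv, hn⟩, rfl⟩
    refine ⟨⟨⟨fun e => ?_, fun i => ?_⟩, fun q => ?_⟩, ?_⟩
    · have := EHP_bd m z e
      have := hp e
      show 0 ≤ resV m z e + 7 * n e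
      omega
    · rw [vs_add, vs_zsmul, hv]
      exact EHP_div m z i
    · have h0 := EHP_bd m z (quad q 0)
      have h1 := EHP_bd m z (quad q 1)
      have := hn q
      show resV m z (quad q 0) + 7 * n (quad q 0) < 7 ∨ resV m z (quad q 1) + 7 * n (quad q 1) < 7
      omega
    · funext i
      apply Fin.ext
      have h1 := EHP_z_val (resV m z + (7 : ℤ) • n) i
      have h2 : resV m z (![4, 5, 6, 7, 8] i) = z i := by fin_cases i <;> rfl
      have h3 := (z i).2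
      rw [Pi.add_apply, Pi.smul_apply, smul_eq_mul, h2] at h1
      show (EHP_z (resV m z + (7 : ℤ) • n) i : ℕ) = z i
      omega

/-- `a ↦ (z, n)`, `z i = a (4+i) % 7`, `n = a / 7`, `a = resV m z + 7 n` is a bijection from the standard
monomials of degree `m` to `Σ z, {n | Pos n ∧ vs n = d_z ∧ NC n}`, `d_z i = (2m - vs (resV m z) i)/7`
(`0 ≤ resV ≤ 6`, `7 ∣ 2m - vs (resV m z) i`; `d_z` is near-diagonal with even sum). -/
theorem ncard_std {m : ℤ} (hm : 50 ≤ m) : (({a : Ex | Mon a m ∧ Std a}.ncard : ℕ) : ℚ) =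
    1715 / 2 * (m : ℚ) ^ 2 - 8575 / 2 * m + 4802 := by
  classical
  have hfin : {a : Ex | Mon a m ∧ Std a}.Finite := (finite_mon m).subset fun a ha => ha.1
  rw [← sum_hcnt m, Set.ncard_eq_toFinset_card _ hfin,
    Finset.card_eq_sum_card_fiberwise (f := EHP_z) (t := Finset.univ) (fun _ _ => Finset.mem_univ _)]
  have key : ∀ z : Fin 5 → Fin 7, (((hfin.toFinset.filter fun a => EHP_z a = z).card : ℕ) : ℤ) =
      hcnt (fun i => (2 * m - vs (resV m z) i) / 7) := by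
    intro z
    rw [← count_nc, ← Set.ncard_coe_finset, Finset.coe_filter]
    · simp only [Set.Finite.mem_toFinset, Set.mem_ofPred_eq]
      rw [EHP_fiber, Set.ncard_image_of_injective]
      intro n n' h
      exact smul_right_injective Ex (by norm_num : (7 : ℤ) ≠ 0) (add_left_cancel h)
    · intro i
      have := EHP_vs_bd m z i
      omega
    · intro i j
      have h1 := EHP_vs_bd m z i
      have h2 := EHP_vs_bd m z j
      have h3 := EHP_div m z i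
      have h4 := EHP_div m z j
      generalize (2 * m - vs (resV m z) i) / 7 = x at *
      generalize (2 * m - vs (resV m z) j) / 7 = y at *
      omega
    · have h0 := EHP_div m z 0
      have h1 := EHP_div m z 1
      have h2 := EHP_div m z 2
      have h3 := EHP_div m z 3
      have h4 := EHP_div m z 4
      obtain ⟨v0, v1, v2, v3, v4⟩ := EHP_vs (resV m z)
      generalize (2 * m - vs (resV m z) 0) / 7 = x0 at *
      generalize (2 * m - vs (resV m z) 1) / 7 = x1 at *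
      generalize (2 * m - vs (resV m z) 2) / 7 = x2 at *
      generalize (2 * m - vs (resV m z) 3) / 7 = x3 at *
      generalize (2 * m - vs (resV m z) 4) / 7 = x4 at *
      rw [Int.even_iff]
      omega
  rw [← Finset.sum_congr rfl fun z _ => key z]
  push_cast
  rfl

variable {k K : Type} [Field k] [Field K] [Algebra k K]

theorem hasHP_exR0 (M : Model k K) : HasHP (hf (exR0 M)) (1715 / 2) (-(8575 / 2)) 4802 := by
  refine ⟨50, fun t ht => ?_⟩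
  rw [hf_exR0, ncard_std ht]; ring

end Crest.Agent.R169
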