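import Crest.Agent.R169.EStr
import Crest.Agent.R169.ECount1

/-! # R169 task EInd: standard monomials are linearly independent -/

set_option autoImplicit false

namespace Crest.Agent.R169
open Module

/-- the leading index of a monomial -/
def lead (a : Ex) : (ℤ × ℤ) × (ℤ × ℤ × ℤ) :=
  ((a 6 + 7 * (a 4 / 7) + 7 * (a 5 / 7), a 8 + 7 * (a 7 / 7)), (a 4 % 7, a 5 % 7, a 7 % 7))

theorem EInd_reg {a : Ex} {m : ℤ} (h : Reg a m) :
    a 0 + a 1 + a 2 + a 3 = 2 * m ∧ a 0 + a 4 + a 5 + a 6 = 2 * m ∧ a 1 + a 4 + a 7 + a 8 = 2 * m ∧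
    a 2 + a 5 + a 7 + a 9 = 2 * m ∧ a 3 + a 6 + a 8 + a 9 = 2 * m :=
  ⟨h 0, h 1, h 2, h 3, h 4⟩

theorem EInd_div {a : Ex} (hp : Pos a) (hs : Std a) :
    Pos (fun e => a e / 7) ∧ NC (fun e => a e / 7) := by
  refine ⟨fun e => ?_, fun q => ?_⟩
  · have := hp e
    show 0 ≤ a e / 7
    omega
  · have h0 := hp (quad q 0)
    have h1 := hp (quad q 1)
    have := hs q
    show a (quad q 0) / 7 = 0 ∨ a (quad q 1) / 7 = 0
    omega

/-- Write `a = ρ + 7 n`.  The residues of edges `4..8` agree, hence all residues (vertex sums mod 7),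
hence the degree sequences of `n`; a non-crossing multigraph is determined by its degrees and the
out-degrees `n 4 + n 5 + n 6`, `n 7 + n 8` (`omega` after case splits). -/
theorem lead_inj {a b : Ex} {m : ℤ} (ha : Mon a m ∧ Std a) (hb : Mon b m ∧ Std b)
    (h : lead a = lead b) : a = b := by
  simp only [lead, Prod.mk.injEq] at h
  obtain ⟨⟨h1, h2⟩, r4, r5, r7⟩ := h
  obtain ⟨a0, a1, a2, a3, a4⟩ := EInd_reg ha.1.2
  obtain ⟨b0, b1, b2, b3, b4⟩ := EInd_reg hb.1.2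
  have r6 : a 6 % 7 = b 6 % 7 := by omega
  have r8 : a 8 % 7 = b 8 % 7 := by omega
  have r0 : a 0 % 7 = b 0 % 7 := by omega
  have r1 : a 1 % 7 = b 1 % 7 := by omega
  have s23 : (a 2 + a 3) % 7 = (b 2 + b 3) % 7 := by omega
  have s29 : (a 2 + a 9) % 7 = (b 2 + b 9) % 7 := by omega
  have s39 : (a 3 + a 9) % 7 = (b 3 + b 9) % 7 := by omega
  have r2 : a 2 % 7 = b 2 % 7 := by
    clear a0 a1 a2 a3 a4 b0 b1 b2 b3 b4 h1 h2 r0 r1 r4 r5 r6 r7 r8
    omega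
  have r3 : a 3 % 7 = b 3 % 7 := by
    clear a0 a1 a2 a3 a4 b0 b1 b2 b3 b4 h1 h2 r0 r1 r4 r5 r6 r7 r8
    omega
  have r9 : a 9 % 7 = b 9 % 7 := by
    clear a0 a1 a2 a3 a4 b0 b1 b2 b3 b4 h1 h2 r0 r1 r4 r5 r6 r7 r8
    omega
  obtain ⟨pa, na⟩ := EInd_div ha.1.1 ha.2
  obtain ⟨pb, nb⟩ := EInd_div hb.1.1 hb.2
  have hv : vs (fun e => b e / 7) = vs (fun e => a e / 7) := by
    rw [ECount1_vs]
    refine ⟨?_, ?_, ?_, ?_, ?_⟩
    · show b 0 / 7 + b 1 / 7 + b 2 / 7 + b 3 / 7 = a 0 / 7 + a 1 / 7 + a 2 / 7 + a 3 / 7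
      omega
    · show b 0 / 7 + b 4 / 7 + b 5 / 7 + b 6 / 7 = a 0 / 7 + a 4 / 7 + a 5 / 7 + a 6 / 7
      omega
    · show b 1 / 7 + b 4 / 7 + b 7 / 7 + b 8 / 7 = a 1 / 7 + a 4 / 7 + a 7 / 7 + a 8 / 7
      omega
    · show b 2 / 7 + b 5 / 7 + b 7 / 7 + b 9 / 7 = a 2 / 7 + a 5 / 7 + a 7 / 7 + a 9 / 7
      omega
    · show b 3 / 7 + b 6 / 7 + b 8 / 7 + b 9 / 7 = a 3 / 7 + a 6 / 7 + a 8 / 7 + a 9 / 7
      omega
  obtain ⟨d, hd⟩ : ∃ d, vs (fun e => a e / 7) = d := ⟨_, rfl⟩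
  rw [hd] at hv
  obtain ⟨d0, d1, d2, d3, d4⟩ := ECount1_vs.mp hd
  have hS : d 0 + d 1 + d 2 + d 3 + d 4 = (a 0 / 7 + a 1 / 7 + a 2 / 7 + a 3 / 7 + a 4 / 7 + a 5 / 7
      + a 6 / 7 + a 7 / 7 + a 8 / 7 + a 9 / 7) + (a 0 / 7 + a 1 / 7 + a 2 / 7 + a 3 / 7 + a 4 / 7 +
      a 5 / 7 + a 6 / 7 + a 7 / 7 + a 8 / 7 + a 9 / 7) := by
    rw [← d0, ← d1, ← d2, ← d3, ← d4]; ring
  have ea := ECount1_inv hS pa hd na
  have eb := ECount1_inv hS pb hv nb
  have e1 : b 4 / 7 + b 5 / 7 + b 6 / 7 = a 4 / 7 + a 5 / 7 + a 6 / 7 := by omega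
  have e2 : b 7 / 7 + b 8 / 7 = a 7 / 7 + a 8 / 7 := by omega
  simp only [e1, e2] at ea eb
  have e := ea.symm.trans eb
  have hr : ∀ i, a i % 7 = b i % 7 := fun i => by fin_cases i <;> assumption
  funext i
  have h1 : a i / 7 = b i / 7 := congrFun e i
  have h2 := hr i
  omega

variable {k K : Type} [Field k] [Field K] [Algebra k K]

theorem EInd_tri {ι α V : Type} [LinearOrder α] [AddCommGroup V] [Module k V] (v : ι → V)
    (L : ι → α) (φ : ι → V →ₗ[k] k) (h1 : ∀ a, φ a (v a) ≠ 0)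
    (h2 : ∀ a b, b ≠ a → L b ≤ L a → φ a (v b) = 0) : LinearIndependent k v := by
  classical
  rw [linearIndependent_iff']
  intro s g hsum i hi
  by_contra hg
  obtain ⟨a, ha, hmax⟩ := Finset.exists_max_image (s.filter fun j => g j ≠ 0) L
    ⟨i, Finset.mem_filter.mpr ⟨hi, hg⟩⟩
  obtain ⟨has, hga⟩ := Finset.mem_filter.mp ha
  have := congrArg (φ a) hsum
  rw [map_sum, map_zero, Finset.sum_eq_single a] at this
  · rw [map_smul, smul_eq_mul] at this
    exact mul_ne_zero hga (h1 a) this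
  · intro b hb hba
    by_cases hgb : g b = 0
    · simp [hgb]
    · rw [map_smul, h2 a b hba (hmax b (Finset.mem_filter.mpr ⟨hb, hgb⟩)), smul_zero]
  · exact fun h => absurd has h

theorem EInd_ext {ι V B : Type} [AddCommGroup V] [Module k V] [AddCommGroup B] [Module k B]
    {v : ι → V} (hv : LinearIndependent k v) (w : ι → B) :
    ∃ T : V →ₗ[k] B, ∀ i, T (v i) = w i := by
  obtain ⟨T, hT⟩ := LinearMap.exists_extend ((Finsupp.linearCombination k w).comp hv.repr)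
  refine ⟨T, fun i => ?_⟩
  have := LinearMap.congr_fun hT ⟨v i, Submodule.subset_span (Set.mem_range_self i)⟩
  simp only [LinearMap.comp_apply, Submodule.subtype_apply] at this
  rw [this, hv.repr_eq_single i _ rfl]
  simp

open Polynomial in
theorem EInd_fun (M : Model k K) (z : (ℕ × ℕ) × (Fin 7 × Fin 7 × Fin 7)) :
    ∃ φ : K →ₗ[k] k, ∀ (P : k[X][X]) (ρ : Fin 7 × Fin 7 × Fin 7),
      φ (P.aevalAeval (M.r 8) (M.r 6) *
        (M.r 4 ^ (ρ.1 : ℕ) * M.r 5 ^ (ρ.2.1 : ℕ) * M.r 7 ^ (ρ.2.2 : ℕ))) =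
      if ρ = z.2 then (P.coeff z.1.1).coeff z.1.2 else 0 := by
  classical
  obtain ⟨φ, hφ⟩ := EInd_ext M.indep (fun z' => if z' = z then (1 : k) else 0)
  refine ⟨φ, fun P ρ => ?_⟩
  induction P using Polynomial.induction_on' with
  | add p q hp hq =>
    rw [map_add, add_mul, map_add, hp, hq]
    split_ifs <;> simp
  | monomial n q =>
    induction q using Polynomial.induction_on' with
    | add p q hp hq =>
      rw [map_add, map_add, add_mul, map_add, hp, hq]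
      split_ifs <;> simp
    | monomial l c =>
      have e : (monomial n (monomial l c) : k[X][X]).aevalAeval (M.r 8) (M.r 6) *
          (M.r 4 ^ (ρ.1 : ℕ) * M.r 5 ^ (ρ.2.1 : ℕ) * M.r 7 ^ (ρ.2.2 : ℕ)) =
          c • (M.r 6 ^ n * M.r 8 ^ l *
            (M.r 4 ^ (ρ.1 : ℕ) * M.r 5 ^ (ρ.2.1 : ℕ) * M.r 7 ^ (ρ.2.2 : ℕ))) := by
        rw [← C_mul_X_pow_eq_monomial, map_mul, map_pow, aevalAeval_C, aevalAeval_Y,
          aeval_monomial, Algebra.smul_def]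
        ring
      rw [e, map_smul, hφ ((n, l), ρ)]
      obtain ⟨⟨z1, z2⟩, z3⟩ := z
      simp only [coeff_monomial, Prod.mk.injEq, smul_eq_mul]
      by_cases h1 : n = z1 <;> by_cases h2 : l = z2 <;> by_cases h3 : ρ = z3 <;>
        simp [h1, h2, h3, coeff_monomial]

open Polynomial in
/-- the polynomial attached to a monomial -/
theorem EInd_poly (M : Model k K) {a : Ex} (ha : Pos a) :
    ∃ (Mo : k[X][X]) (q : k[X]) (ρ : Fin 7 × Fin 7 × Fin 7), Mo.Monic ∧ q.Monic ∧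
      ((Mo.natDegree : ℤ), (q.natDegree : ℤ)) = (lead a).1 ∧
      (((ρ.1 : ℕ) : ℤ), ((ρ.2.1 : ℕ) : ℤ), ((ρ.2.2 : ℕ) : ℤ)) = (lead a).2 ∧
      M.mon a = (Mo * C q).aevalAeval (M.r 8) (M.r 6) *
        (M.r 4 ^ (ρ.1 : ℕ) * M.r 5 ^ (ρ.2.1 : ℕ) * M.r 7 ^ (ρ.2.2 : ℕ)) := by
  have split : ∀ e, ∃ (n : ℕ) (ρ : Fin 7), a e = ((7 * n + (ρ : ℕ) : ℕ) : ℤ) := fun e => by
    have := ha e
    refine ⟨(a e / 7).toNat, ⟨(a e % 7).toNat, by omega⟩, ?_⟩
    push_cast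
    omega
  obtain ⟨n4, ρ4, e4⟩ := split 4
  obtain ⟨n5, ρ5, e5⟩ := split 5
  obtain ⟨n7, ρ7, e7⟩ := split 7
  obtain ⟨u, e6⟩ := Int.eq_ofNat_of_zero_le (ha 6)
  obtain ⟨v, e8⟩ := Int.eq_ofNat_of_zero_le (ha 8)
  have m1 : (X ^ 7 - C (X ^ 7) : k[X][X]).Monic := monic_X_pow_sub_C _ (by norm_num)
  have m2 : (X ^ 7 - C 1 : k[X][X]).Monic := monic_X_pow_sub_C _ (by norm_num)
  have m3 : (X ^ 7 - C 1 : k[X]).Monic := monic_X_pow_sub_C _ (by norm_num)
  have l4 := ρ4.2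
  have l5 := ρ5.2
  have l7 := ρ7.2
  refine ⟨X ^ u * (X ^ 7 - C (X ^ 7)) ^ n4 * (X ^ 7 - C 1) ^ n5, X ^ v * (X ^ 7 - C 1) ^ n7,
    (ρ4, ρ5, ρ7), ((monic_X_pow u).mul (m1.pow n4)).mul (m2.pow n5),
    (monic_X_pow v).mul (m3.pow n7), ?_, ?_, ?_⟩
  · rw [(((monic_X_pow u).mul (m1.pow n4))).natDegree_mul (m2.pow n5),
      (monic_X_pow u).natDegree_mul (m1.pow n4), (monic_X_pow v).natDegree_mul (m3.pow n7),
      m1.natDegree_pow, m2.natDegree_pow, m3.natDegree_pow, natDegree_X_pow, natDegree_X_pow,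
      natDegree_X_pow_sub_C, natDegree_X_pow_sub_C, natDegree_X_pow_sub_C]
    simp only [lead, Prod.mk.injEq]
    push_cast at e4 e5 e7 ⊢
    omega
  · simp only [lead, Prod.mk.injEq]
    push_cast at e4 e5 e7 ⊢
    omega
  · rw [M.mon_eq, e4, e5, e6, e7, e8]
    simp only [zpow_natCast, map_mul, map_pow, map_sub, aevalAeval_Y, aevalAeval_X, map_one]
    rw [← M.rel4, ← M.rel5, ← M.rel7]
    ring

/-- `mon a = r6^{a 6} r8^{a 8} (r6^7 - r8^7)^{a4/7} (r6^7 - 1)^{a5/7} (r8^7 - 1)^{a7/7} r4^. r5^. r7^.`: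
it is `P_a(r6, r8) · r4^i r5^j r7^l` with `P_a` a polynomial whose lex-leading monomial has exponent
`(lead a).1` and coefficient `1` (`MonomialOrder.lex`, `MonomialOrder.degree_mul`, or work in
`k[r8][r6]`: monic in `r6` up to the factor in `r8`).  By `M.indep`, polynomials in `(r6, r8)` times
distinct `r4^i r5^j r7^l` are independent; triangularity and `lead_inj` finish. -/
theorem std_indep (M : Model k K) (m : ℤ) :
    LinearIndependent k (fun a : {a : Ex // Mon a m ∧ Std a} => M.mon a.1) := by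
  choose Mo q ρ hMo hq hd hρ hm using
    fun a : {a : Ex // Mon a m ∧ Std a} => EInd_poly M a.2.1.1
  choose φ hφ using EInd_fun M
  refine EInd_tri _ (fun a => toLex ((Mo a).natDegree, (q a).natDegree))
    (fun a => φ (((Mo a).natDegree, (q a).natDegree), ρ a)) (fun a => ?_) (fun a b hba hle => ?_)
  · rw [hm, hφ, if_pos rfl, Polynomial.coeff_mul_C, (hMo a).coeff_natDegree, one_mul,
      (hq a).coeff_natDegree]
    exact one_ne_zero
  · rw [hm, hφ]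
    split_ifs with h
    swap
    · rfl
    simp only at h ⊢
    rw [Polynomial.coeff_mul_C]
    rcases Prod.Lex.toLex_le_toLex.mp hle with h1 | ⟨h1, h2⟩
    · rw [Polynomial.coeff_eq_zero_of_natDegree_lt h1]; simp
    · simp only at h1 h2
      rw [← h1, (hMo b).coeff_natDegree, one_mul]
      refine Polynomial.coeff_eq_zero_of_natDegree_lt (lt_of_le_of_ne h2 fun h3 => hba ?_)
      refine Subtype.ext (lead_inj b.2 a.2 (Prod.ext ?_ ?_))
      · rw [← hd, ← hd, h1, h3]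
      · rw [← hρ, ← hρ, h]

theorem hf_exR0 (M : Model k K) (m : ℤ) :
    hf (exR0 M) m = ({a : Ex | Mon a m ∧ Std a}.ncard : ℚ) := by
  have hfin : {a : Ex | Mon a m ∧ Std a}.Finite := (finite_mon m).subset fun a ha => ha.1
  have : Finite {a : Ex // Mon a m ∧ Std a} := hfin
  have := Fintype.ofFinite {a : Ex // Mon a m ∧ Std a}
  have e : {z | ∃ a, (Mon a m ∧ Std a) ∧ z = M.mon a} =
      Set.range (fun a : {a : Ex // Mon a m ∧ Std a} => M.mon a.1) := by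
    ext z
    exact ⟨fun ⟨a, ha, h⟩ => ⟨⟨a, ha⟩, h.symm⟩, fun ⟨a, h⟩ => ⟨a.1, a.2, h.symm⟩⟩
  unfold hf
  rw [exR0_eq_span_std, e, finrank_span_eq_card (std_indep M m), ← Nat.card_eq_fintype_card]
  rfl

/-- a `ℤ`-linear relation that holds in a characteristic zero model holds universally
(`straighten` every term, `std_indep`) -/
theorem universal [CharZero k] (M : Model k K) {f : Ex →₀ ℤ} {m : ℤ} (hf' : Supp f m)
    (h0 : (f.sum fun a z => z • M.mon a) = 0) (B : Type) [AddCommGroup B] (Θ : Ex → B)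
    (hΘ : Tri Θ) : (f.sum fun a z => z • Θ a) = 0 := by
  classical
  choose g hg1 hg2 using fun a : f.support => straighten (hf' a.1 a.2)
  have key : ∀ (B : Type) [AddCommGroup B] (Θ : Ex → B), Tri Θ →
      (f.sum fun a z => z • Θ a) =
        Finsupp.linearCombination ℤ Θ (∑ a : f.support, f a.1 • g a) := by
    intro B _ Θ hΘ
    rw [map_sum, Finsupp.sum, ← Finset.sum_coe_sort]
    refine Finset.sum_congr rfl fun a _ => ?_
    rw [map_smul, Finsupp.linearCombination_apply, ← hg2 a B Θ hΘ]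
  have hli : LinearIndepOn ℤ M.mon {a : Ex | Mon a m ∧ Std a} :=
    (std_indep M m).restrict_scalars' ℤ
  have hz := linearIndepOn_iff.mp hli (∑ a : f.support, f a.1 • g a)
    (Submodule.sum_mem _ fun a _ => Submodule.smul_mem _ _
      ((Finsupp.mem_supported ℤ _).mpr fun b hb => hg1 a b hb))
    (by rw [← key K M.mon M.tri, h0])
  rw [key B Θ hΘ, hz, map_zero]

/-- a map on monomials satisfying the trinomial relations extends linearly to `exR0 M m` -/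
theorem exists_lin_ext (M : Model k K) (m : ℤ) (B : Type) [AddCommGroup B] [Module k B]
    (Θ : Ex → B) (hΘ : Tri Θ) : ∃ T : K →ₗ[k] B, ∀ a, Mon a m → T (M.mon a) = Θ a := by
  obtain ⟨T, hT⟩ := EInd_ext (std_indep M m) (fun a => Θ a.1)
  refine ⟨T, fun a ha => ?_⟩
  obtain ⟨g, hg1, hg2⟩ := straighten ha
  rw [hg2 K M.mon M.tri, hg2 B Θ hΘ, Finsupp.sum, Finsupp.sum, map_sum]
  refine Finset.sum_congr rfl fun b hb => ?_
  rw [map_zsmul, hT ⟨b, hg1 b hb⟩]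

end Crest.Agent.R169
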