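import Crest.Agent.R169.EBasic

/-! # R169 task EJac: derivations and Jacobians -/

set_option autoImplicit false

namespace Crest.Agent.R169
open Module

variable {k K : Type} [Field k] [Field K] [Algebra k K]

theorem EJ_prod (D : Derivation k K K) {ι : Type} (S : Finset ι) (f g : ι → K)
    (h : ∀ i ∈ S, D (f i) = f i * g i) : D (∏ i ∈ S, f i) = (∏ i ∈ S, f i) * ∑ i ∈ S, g i := by
  classical
  induction S using Finset.induction_on with
  | empty => simp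
  | insert i S hi ih =>
    rw [Finset.prod_insert hi, Finset.sum_insert hi, Derivation.leibniz,
      ih fun j hj => h j (Finset.mem_insert_of_mem hj), h i (Finset.mem_insert_self _ _)]
    simp only [smul_eq_mul]
    ring

theorem EJ_mon (M : Model k K) (D : Derivation k K K) (c : Fin 10 → ℤ)
    (hc : ∀ e, M.r e ^ 6 * D (M.r e) = (c e : K)) (a : Ex) :
    D (M.mon a) = M.mon a * ∑ e, ((a e * c e : ℤ) : K) / M.r e ^ 7 := by
  refine EJ_prod D _ _ _ fun e _ => ?_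
  have h0 := M.ne e
  rw [Derivation.leibniz_zpow, zpow_sub_one₀ h0]
  push_cast
  rw [← hc e]
  simp only [smul_eq_mul, zsmul_eq_mul]
  field_simp

/-- logarithmic derivative: `δ (r e) = c e · r e / r e ^ 7` -/
theorem δ_mon (M : Model k K) (a : Ex) :
    M.δ 0 (M.mon a) = M.mon a * ∑ e, ((a e * cx e : ℤ) : K) / M.r e ^ 7 ∧
    M.δ 1 (M.mon a) = M.mon a * ∑ e, ((a e * cy e : ℤ) : K) / M.r e ^ 7 :=
  ⟨EJ_mon M _ _ M.δ0 a, EJ_mon M _ _ M.δ1 a⟩

theorem EJ_gam (e : Fin 10) : 0 ≤ gam e e := by revert e; decide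

theorem EJ_term (M : Model k K) {a : Ex} {t : ℤ} (ha : Mon a t) (e : Fin 10) :
    M.mon (fun _ => 7) * M.mon a / M.r e ^ 7 ∈ exR0 M (t + 14) := by
  have hm : Mon (a + (fun _ => 7) - (7 : ℤ) • Pi.single e 1 + (7 : ℤ) • gam e) (t + 14) := by
    constructor
    · intro f
      have h1 := ha.1 f
      have h2 := gam_ge e f
      by_cases hf : f = e
      · subst hf
        have := EJ_gam f
        simp only [Pi.add_apply, Pi.sub_apply, Pi.smul_apply, Pi.single_eq_same, smul_eq_mul]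
        omega
      · simp only [Pi.add_apply, Pi.sub_apply, Pi.smul_apply, Pi.single_eq_of_ne hf, smul_eq_mul]
        omega
    · intro i
      have h1 := ha.2 i
      have h2 := reg_const 7 i
      rw [vs_add, vs_sub, vs_add, vs_zsmul, vs_zsmul, vs_gam]
      simp only [Pi.add_apply, Pi.sub_apply]
      omega
  have := mon_mem_exR0 M hm
  rw [M.mon_add, M.mon_sub, M.mon_add, M.mon_zsmul, M.mon_zsmul, M.mon_gam, M.mon_single] at this
  simp only [zpow_one, one_zpow, mul_one] at this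
  rw [mul_comm]
  exact_mod_cast this

theorem EJ_int {t : ℤ} (M : Model k K) (n : ℤ) {z : K} (hz : z ∈ exR0 M t) :
    (n : K) * z ∈ exR0 M t := by
  rw [← zsmul_eq_mul]; exact zsmul_mem hz n

/-- `mon 7 · mon a / r e ^ 7 = mon (a + 7 - 7 single e + 7 gam e)`, a monomial of degree `t + 14`
(for `e ∈ 4..8`; `cx e = cy e = 0` otherwise) -/
theorem δ_exR0 (M : Model k K) (i : Fin 2) {t : ℤ} {z : K} (hz : z ∈ exR0 M t) :
    M.mon (fun _ => 7) * M.δ i z ∈ exR0 M (t + 14) := by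
  induction hz using Submodule.span_induction with
  | mem z hz =>
    obtain ⟨a, ha, rfl⟩ := hz
    have key : ∀ c : Fin 10 → ℤ, M.mon (fun _ => 7) *
        (M.mon a * ∑ e, ((a e * c e : ℤ) : K) / M.r e ^ 7) ∈ exR0 M (t + 14) := fun c => by
      rw [Finset.mul_sum, Finset.mul_sum]
      refine Submodule.sum_mem _ fun e _ => ?_
      have := EJ_int M (a e * c e) (EJ_term M ha e)
      convert this using 1
      ring
    fin_cases i
    · exact (δ_mon M a).1 ▸ key cx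
    · exact (δ_mon M a).2 ▸ key cy
  | zero => simp
  | add x y _ _ hx hy => rw [map_add, mul_add]; exact Submodule.add_mem _ hx hy
  | smul c x _ hx =>
    rw [Derivation.map_smul, mul_smul_comm]; exact Submodule.smul_mem _ _ hx

/-- quotient rule for `z / Z^t` -/
theorem exD_mem (M : Model k K) (L : NN) (hZ : lf M L 2 ≠ 0) (i : Fin 2) (t : ℤ) :
    ∀ a ∈ exR M L t, exD M L i a ∈ exR M L (t + (15 : ℕ)) := by
  intro a ha
  rw [mem_exR M L hZ] at ha ⊢
  have h1 := exR0_mul M (lf_mem M L 2) (δ_exR0 M i ha)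
  have h2 := EJ_int M t (exR0_mul M ha (δ_exR0 M i (lf_mem M L 2)))
  rw [show 1 + (t + 14) = t + (15 : ℕ) by push_cast; ring] at h1
  rw [show t + (1 + 14) = t + (15 : ℕ) by push_cast; ring] at h2
  convert Submodule.sub_mem _ h1 h2 using 1
  rw [Derivation.leibniz, Derivation.leibniz_zpow, zpow_sub_one₀ hZ, zpow_add₀ hZ, zpow_natCast]
  simp only [exD, Derivation.smul_apply, smul_eq_mul, zsmul_eq_mul]
  field_simp
  ring

theorem exj0_ne (M : Model k K) (L : NN) (hZ : lf M L 2 ≠ 0) : exj0 M L ≠ 0 := by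
  have h1 := M.mon_ne (fun _ => 7)
  have h2 := M.mon_ne (fun _ => -6)
  unfold exj0
  positivity

/-- the exponent `-n` -/
def EJ_n (α : Fin 15) : Ex := fun e => (cE α e - 6 - cU α e - cV α e) / 7

theorem EJ_n_spec (α : Fin 15) : (fun _ => -6) + cE α = cU α + cV α + (7 : ℤ) • EJ_n α := by
  funext e
  simp only [Pi.add_apply, Pi.smul_apply, smul_eq_mul]
  revert α e
  decide

theorem EJ_core (X Y : K) (hX : X ≠ 0) (hY : Y ≠ 0) (h4 : X - Y ≠ 0) (h5 : X - 1 ≠ 0)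
    (h7 : Y - 1 ≠ 0) (α : Fin 15) :
    ((cU α 4 : K) / (X - Y) + (cU α 5 : K) / (X - 1) + (cU α 6 : K) / X) *
      (-(cV α 4 : K) / (X - Y) + (cV α 7 : K) / (Y - 1) + (cV α 8 : K) / Y) -
    (-(cU α 4 : K) / (X - Y) + (cU α 7 : K) / (Y - 1) + (cU α 8 : K) / Y) *
      ((cV α 4 : K) / (X - Y) + (cV α 5 : K) / (X - 1) + (cV α 6 : K) / X) =
    (cSg α : K) * ((X - Y) ^ EJ_n α 4 * (X - 1) ^ EJ_n α 5 * X ^ EJ_n α 6 * (Y - 1) ^ EJ_n α 7 *
      Y ^ EJ_n α 8) := by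
  fin_cases α <;> simp [cU, cV, cE, cSg, EJ_n] <;> field_simp <;> ring

/-- `δ₀u δ₁v - δ₁u δ₀v = cSg · mon (cE - 6)`; `cE - 6 = cU + cV - 7 n` for an integer vector `n`, so
after `δ_mon` this is an identity of rational functions in `X = r6^7, Y = r8^7`
(`r4^7 = X - Y, r5^7 = X - 1, r7^7 = Y - 1`, all nonzero): 15 cases. -/
theorem ex_jac (M : Model k K) (L : NN) (hZ : lf M L 2 ≠ 0) (α : Fin 15) :
    exD M L 0 (exu M α) * exD M L 1 (exv M α) - exD M L 1 (exu M α) * exD M L 0 (exv M α) =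
      exj0 M L * exε M L α := by
  have hp : ∀ e, M.r e ^ 7 ≠ 0 := fun e => pow_ne_zero _ (M.ne e)
  have hx : ∀ a : Ex, ∑ e, ((a e * cx e : ℤ) : K) / M.r e ^ 7 =
      (a 4 : K) / M.r 4 ^ 7 + (a 5 : K) / M.r 5 ^ 7 + (a 6 : K) / M.r 6 ^ 7 := fun a => by
    simp [Fin.sum_univ_succ, cx, add_assoc]
  have hy : ∀ a : Ex, ∑ e, ((a e * cy e : ℤ) : K) / M.r e ^ 7 =
      -(a 4 : K) / M.r 4 ^ 7 + (a 7 : K) / M.r 7 ^ 7 + (a 8 : K) / M.r 8 ^ 7 := fun a => by
    simp [Fin.sum_univ_succ, cy, add_assoc]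
  have core := EJ_core (M.r 6 ^ 7) (M.r 8 ^ 7) (hp 6) (hp 8) (M.rel4 ▸ hp 4) (M.rel5 ▸ hp 5)
    (M.rel7 ▸ hp 7) α
  rw [← M.rel4, ← M.rel5, ← M.rel7] at core
  have hn : M.mon ((7 : ℤ) • EJ_n α) = (M.r 4 ^ 7) ^ EJ_n α 4 * (M.r 5 ^ 7) ^ EJ_n α 5 *
      (M.r 6 ^ 7) ^ EJ_n α 6 * (M.r 7 ^ 7) ^ EJ_n α 7 * (M.r 8 ^ 7) ^ EJ_n α 8 := by
    rw [M.mon_eq]
    simp only [Pi.smul_apply, smul_eq_mul, zpow_mul, zpow_ofNat]
  have hE : M.mon (fun _ => -6) * M.mon (cE α) =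
      M.mon (cU α) * M.mon (cV α) * M.mon ((7 : ℤ) • EJ_n α) := by
    rw [← M.mon_add, ← M.mon_add, ← M.mon_add, EJ_n_spec]
  rw [← hn] at core
  simp only [exD, exu, exv, exj0, exε, Derivation.smul_apply, smul_eq_mul]
  rw [(δ_mon M _).1, (δ_mon M _).1, (δ_mon M _).2, (δ_mon M _).2, hx, hx, hy, hy]
  set c := M.mon (fun _ => 7) / lf M L 2 ^ 14
  have h5 : lf M L 2 ^ 5 ≠ 0 := pow_ne_zero _ hZ
  have e1 : c ^ 2 * M.mon (fun _ => -6) * lf M L 2 ^ 5 *
      ((cSg α : K) * M.mon (cE α) / lf M L 2 ^ 5) =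
      c ^ 2 * (cSg α : K) * (M.mon (fun _ => -6) * M.mon (cE α)) := by
    field_simp
  rw [e1, hE]
  linear_combination c ^ 2 * M.mon (cU α) * M.mon (cV α) * core

end Crest.Agent.R169
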