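import Crest.Agent.R169.Defs2

/-! # R169 task EKum: the Kummer extension has degree `7³` -/

set_option autoImplicit false

namespace Crest.Agent.R169
open Module

namespace EKUM
open Polynomial

theorem rm_pow {R : Type} [CommRing R] [IsDomain R] {p : R[X]} (hp : p ≠ 0) (x : R) (n : ℕ) :
    rootMultiplicity x (p ^ n) = n * rootMultiplicity x p := by
  induction n with
  | zero => rw [pow_zero, ← C_1, rootMultiplicity_C]; simp
  | succ n ih =>
    rw [pow_succ, rootMultiplicity_mul (mul_ne_zero (pow_ne_zero _ hp) hp), ih]; ring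

theorem rm_one {R : Type} [CommRing R] [IsDomain R] (h7 : (7 : R) ≠ 0) {x : R} (hx : x ≠ 0) :
    rootMultiplicity x (X ^ 7 - C (x ^ 7)) = 1 := by
  have e : (X ^ 7 - C (x ^ 7) : R[X]) = (X ^ 6 + X ^ 5 * C x + X ^ 4 * C x ^ 2 + X ^ 3 * C x ^ 3
      + X ^ 2 * C x ^ 4 + X * C x ^ 5 + C x ^ 6) * (X - C x) ^ 1 := by
    rw [map_pow]; ring
  have hne : eval x (X ^ 6 + X ^ 5 * C x + X ^ 4 * C x ^ 2 + X ^ 3 * C x ^ 3
      + X ^ 2 * C x ^ 4 + X * C x ^ 5 + C x ^ 6 : R[X]) ≠ 0 := by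
    have : eval x (X ^ 6 + X ^ 5 * C x + X ^ 4 * C x ^ 2 + X ^ 3 * C x ^ 3
      + X ^ 2 * C x ^ 4 + X * C x ^ 5 + C x ^ 6 : R[X]) = 7 * x ^ 6 := by
      simp; ring
    rw [this]; exact mul_ne_zero h7 (pow_ne_zero _ hx)
  have h0 : (X ^ 6 + X ^ 5 * C x + X ^ 4 * C x ^ 2 + X ^ 3 * C x ^ 3
      + X ^ 2 * C x ^ 4 + X * C x ^ 5 + C x ^ 6 : R[X]) ≠ 0 := by
    intro h; rw [h] at hne; simp at hne
  rw [e, rootMultiplicity_mul_X_sub_C_pow h0, rootMultiplicity_eq_zero hne]

theorem key {R : Type} [CommRing R] [IsDomain R] {x : R} {a b b' p q : R[X]}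
    (ha : rootMultiplicity x a = 1) (hb : b.eval x ≠ 0) (hb' : b'.eval x ≠ 0) (hp : p ≠ 0)
    (hq : q ≠ 0) {i i' : Fin 7} (h : a ^ (i : ℕ) * b * q ^ 7 = p ^ 7 * (a ^ (i' : ℕ) * b')) :
    i = i' := by
  have a0 : a ≠ 0 := by rintro rfl; simp at ha
  have b0 : b ≠ 0 := by rintro rfl; simp at hb
  have b0' : b' ≠ 0 := by rintro rfl; simp at hb'
  have e := congrArg (rootMultiplicity x) h
  rw [rootMultiplicity_mul (mul_ne_zero (mul_ne_zero (pow_ne_zero _ a0) b0) (pow_ne_zero _ hq)),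
    rootMultiplicity_mul (mul_ne_zero (pow_ne_zero _ a0) b0),
    rootMultiplicity_mul (mul_ne_zero (pow_ne_zero _ hp) (mul_ne_zero (pow_ne_zero _ a0) b0')),
    rootMultiplicity_mul (mul_ne_zero (pow_ne_zero _ a0) b0'), rm_pow a0, rm_pow a0, rm_pow hp,
    rm_pow hq, ha, rootMultiplicity_eq_zero hb, rootMultiplicity_eq_zero hb'] at e
  apply Fin.ext
  have := i.2
  have := i'.2
  omega

variable {κ : Type} [Field κ]

noncomputable def a0 (κ : Type) [Field κ] : κ[X][X] := X ^ 7 - C (X ^ 7)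
noncomputable def a1 (κ : Type) [Field κ] : κ[X][X] := X ^ 7 - C (1 ^ 7)
noncomputable def a3 (κ : Type) [Field κ] : κ[X][X] := C (X ^ 7 - C (1 ^ 7))

theorem u_ne : (X ^ 7 - C (1 ^ 7) : κ[X]) ≠ 0 := X_pow_sub_C_ne_zero (by norm_num) _

theorem a0_monic : (a0 κ).Monic := monic_X_pow_sub_C _ (by norm_num)
theorem a1_monic : (a1 κ).Monic := monic_X_pow_sub_C _ (by norm_num)
theorem a3_ne : a3 κ ≠ 0 := by unfold a3; exact C_ne_zero.2 u_ne

noncomputable def aa (κ : Type) [Field κ] (g : Fin 7 × Fin 7 × Fin 7) : κ[X][X] :=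
  a0 κ ^ (g.1 : ℕ) * a1 κ ^ (g.2.1 : ℕ) * a3 κ ^ (g.2.2 : ℕ)

theorem step1 (h7 : (7 : κ) ≠ 0) {g h : Fin 7 × Fin 7 × Fin 7} {p q : κ[X][X]} (hp : p ≠ 0)
    (hq : q ≠ 0) (e : aa κ g * q ^ 7 = p ^ 7 * aa κ h) : g = h := by
  have h7' : (7 : κ[X]) ≠ 0 := by
    have : (7 : κ[X]) = C 7 := rfl
    rw [this]; exact C_ne_zero.2 h7
  have hu : (X ^ 7 - 1 : κ[X]) ≠ 0 := by simpa using (u_ne (κ := κ))
  have hu' : (1 - X ^ 7 : κ[X]) ≠ 0 := by
    intro h; apply hu; linear_combination -h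
  obtain ⟨i, j, l⟩ := g
  obtain ⟨i', j', l'⟩ := h
  unfold aa at e
  simp only at e
  have e1 : i = i' := by
    refine key (x := (X : κ[X])) (a := a0 κ) (b := a1 κ ^ (j : ℕ) * a3 κ ^ (l : ℕ))
      (b' := a1 κ ^ (j' : ℕ) * a3 κ ^ (l' : ℕ)) (rm_one h7' X_ne_zero) ?_ ?_ hp hq ?_
    · simp [a1, a3, hu]
    · simp [a1, a3, hu]
    · linear_combination e
  have e2 : j = j' := by
    refine key (x := (1 : κ[X])) (a := a1 κ) (b := a0 κ ^ (i : ℕ) * a3 κ ^ (l : ℕ))
      (b' := a0 κ ^ (i' : ℕ) * a3 κ ^ (l' : ℕ)) (rm_one h7' one_ne_zero) ?_ ?_ hp hq ?_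
    · simp [a0, a3, hu, hu']
    · simp [a0, a3, hu, hu']
    · linear_combination e
  have e3 : l = l' := by
    have e' := congrArg leadingCoeff e
    simp only [leadingCoeff_mul, leadingCoeff_pow, a0_monic.leadingCoeff, a1_monic.leadingCoeff,
      a3, leadingCoeff_C, one_pow, one_mul] at e'
    refine key (x := (1 : κ)) (a := X ^ 7 - C (1 ^ 7)) (b := 1) (b' := 1)
      (rm_one h7 one_ne_zero) (by simp) (by simp) (leadingCoeff_ne_zero.2 hp)
      (leadingCoeff_ne_zero.2 hq) ?_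
    simp only [one_pow, mul_one]
    exact e'
  rw [e1, e2, e3]

/-- independence of radicals -/
theorem kummer {F Ω ι : Type} [Field F] [Field Ω] [Algebra F Ω] [IsGalois F Ω]
    (hμ : ∀ z : Ω, z ^ 7 = 1 → z ∈ Set.range (algebraMap F Ω)) (m : ι → Ω) (h0 : ∀ g, m g ≠ 0)
    (h7 : ∀ g, m g ^ 7 ∈ Set.range (algebraMap F Ω))
    (hd : ∀ g h, m g / m h ∈ Set.range (algebraMap F Ω) → g = h) : LinearIndependent F m := by
  have hz : ∀ g (σ : Ω ≃ₐ[F] Ω), (σ (m g) / m g) ^ 7 = 1 := by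
    intro g σ
    obtain ⟨c, hc⟩ := h7 g
    rw [div_pow, ← map_pow, ← hc, AlgEquiv.commutes, div_self]
    rw [hc]; exact pow_ne_zero _ (h0 g)
  let χ : ι → ((Ω ≃ₐ[F] Ω) →* Ω) := fun g =>
    { toFun := fun σ => σ (m g) / m g
      map_one' := by simp [h0 g]
      map_mul' := fun σ τ => by
        obtain ⟨c, hc⟩ := hμ _ (hz g τ)
        have e : τ (m g) = algebraMap F Ω c * m g := by rw [hc]; field_simp [h0 g]
        rw [AlgEquiv.mul_apply, ← hc, e, map_mul, AlgEquiv.commutes]; ring }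
  have hχ : Function.Injective χ := by
    intro g h e
    apply hd
    rw [InfiniteGalois.mem_range_algebraMap_iff_fixed]
    intro σ
    have e' : σ (m g) / m g = σ (m h) / m h := DFunLike.congr_fun e σ
    have hs : σ (m h) ≠ 0 := by simp [h0 h]
    rw [map_div₀, div_eq_div_iff hs (h0 h)]
    rw [div_eq_div_iff (h0 g) (h0 h)] at e'
    linear_combination e'
  have hli := (linearIndependent_monoidHom (Ω ≃ₐ[F] Ω) Ω).comp χ hχ
  rw [linearIndependent_iff'] at hli ⊢
  intro s c hc i hi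
  have := hli s (fun g => c g • m g) ?_ i hi
  · simpa [h0 i] using this
  · funext σ
    have e := congrArg σ hc
    rw [map_sum, map_zero] at e
    rw [Finset.sum_apply, Pi.zero_apply, ← e]
    refine Finset.sum_congr rfl fun g _ => ?_
    have : (χ g) σ = σ (m g) / m g := rfl
    simp only [Function.comp, Pi.smul_apply, smul_eq_mul, map_smul, this]
    rw [smul_mul_assoc, mul_div_cancel₀ _ (h0 g)]

theorem li_pow (R : Type) [CommRing R] : LinearIndependent R (fun n : ℕ => (X : R[X]) ^ n) := by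
  have := (basisMonomials R).linearIndependent
  convert this using 1
  funext n
  simp [X_pow_eq_monomial]

end EKUM

/-- Sketch.  Let `k̄` be an algebraic closure of `k`, `F = k̄(s,t) = FractionRing (MvPolynomial (Fin 2) k̄)`,
`Ω = AlgebraicClosure F`, `r 2 = s`, `r 4 = t`, and `r 0, r 1, r 3` seventh roots of
`a₀ = s⁷ - t⁷`, `a₁ = s⁷ - 1`, `a₃ = t⁷ - 1`.  (1) `a₀^i a₁^j a₃^l` (`i,j,l ∈ ℤ`) is a seventh power in `F` only if
`7 ∣ i, j, l` (multiplicity of the primes `s - t`, `s - 1`, `t - 1`: each divides exactly one `a`,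
exactly once since `7 ≠ 0`).  (2) The `343` elements `r0^i r1^j r3^l` are `F`-independent: in a
shortest relation containing indices `g ≠ h`, `ρ = r^g / r^h ∉ F` by (1), `ρ` is separable
(`ρ⁷ ∈ F`), so some `σ ∈ Aut(Ω/F)` moves it; `σ` multiplies each monomial by a seventh root of
unity, which lies in `k̄ ⊆ F`; subtract to get a shorter relation.  (3) `s^a t^b` are
`k`-independent in `F`; combine (`linearIndependent_smul`). -/
theorem exists_kum (k : Type) [Field k] (h7 : (7 : k) ≠ 0) :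
    ∃ (Ω : Type) (_ : Field Ω) (_ : Algebra k Ω) (r : Fin 5 → Ω),
      Kum r ∧ LinearIndependent k (kb r) := by
  classical
  let κ := AlgebraicClosure k
  have h7κ : (7 : κ) ≠ 0 := by
    have : (7 : κ) = algebraMap k κ 7 := (map_ofNat _ _).symm
    rw [this]; exact (map_ne_zero _).2 h7
  let A := Polynomial (Polynomial κ)
  let F := FractionRing A
  let Ω := SeparableClosure F
  have iA : Function.Injective (algebraMap A F) := IsFractionRing.injective A F
  let φ : A →+* Ω := (algebraMap F Ω).comp (algebraMap A F)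
  have iφ : Function.Injective φ := (algebraMap F Ω).injective.comp iA
  let ψ : κ →+* Ω := φ.comp (Polynomial.C.comp Polynomial.C)
  have : NeZero ((7 : ℕ) : Ω) := ⟨by
    have : ((7 : ℕ) : Ω) = ψ 7 := by rw [map_ofNat]; rfl
    rw [this]; exact (map_ne_zero _).2 h7κ⟩
  obtain ⟨r0, hr0⟩ := IsSepClosed.exists_pow_nat_eq (φ (EKUM.a0 κ)) 7
  obtain ⟨r1, hr1⟩ := IsSepClosed.exists_pow_nat_eq (φ (EKUM.a1 κ)) 7
  obtain ⟨r3, hr3⟩ := IsSepClosed.exists_pow_nat_eq (φ (EKUM.a3 κ)) 7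
  let m : Fin 7 × Fin 7 × Fin 7 → Ω := fun g => r0 ^ (g.1 : ℕ) * r1 ^ (g.2.1 : ℕ) * r3 ^ (g.2.2 : ℕ)
  have hm7 : ∀ g, m g ^ 7 = φ (EKUM.aa κ g) := by
    intro g
    simp only [m, EKUM.aa, map_mul, map_pow, ← hr0, ← hr1, ← hr3]; ring
  have haa : ∀ g, EKUM.aa κ g ≠ 0 := fun g =>
    mul_ne_zero (mul_ne_zero (pow_ne_zero _ EKUM.a0_monic.ne_zero)
      (pow_ne_zero _ EKUM.a1_monic.ne_zero)) (pow_ne_zero _ EKUM.a3_ne)
  have hm0 : ∀ g, m g ≠ 0 := by
    intro g h
    have := hm7 g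
    rw [h, zero_pow (by norm_num)] at this
    exact haa g (iφ (by rw [← this, map_zero]))
  have hli : LinearIndependent F m := by
    refine EKUM.kummer ?_ m hm0 (fun g => ⟨_, (hm7 g).symm⟩) ?_
    · intro z hz
      let _ : Algebra κ Ω := ψ.toAlgebra
      have hint : IsIntegral κ z :=
        ⟨Polynomial.X ^ 7 - Polynomial.C 1, Polynomial.monic_X_pow_sub_C _ (by norm_num), by
          simp [hz]⟩
      obtain ⟨c, hc⟩ := minpoly.mem_range_of_degree_eq_one κ z
        (IsAlgClosed.degree_eq_one_of_irreducible κ (minpoly.irreducible hint))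
      exact ⟨algebraMap A F (Polynomial.C (Polynomial.C c)), hc⟩
    · rintro g h ⟨c, hc⟩
      obtain ⟨p, q, hq, rfl⟩ := IsFractionRing.div_surjective (A := A) c
      have hq0 : q ≠ 0 := nonZeroDivisors.ne_zero hq
      have hq1 : φ q ≠ 0 := fun h => hq0 (iφ (by rw [h, map_zero]))
      have e : φ p / φ q = m g / m h := by rw [← hc, map_div₀]; rfl
      rw [div_eq_div_iff hq1 (hm0 h)] at e
      have hp0 : p ≠ 0 := by
        rintro rfl
        rw [map_zero, zero_mul] at e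
        exact mul_ne_zero (hm0 g) hq1 e.symm
      refine EKUM.step1 h7κ hp0 hq0 (iφ ?_)
      rw [map_mul, map_mul, map_pow, map_pow, ← hm7, ← hm7, ← mul_pow, ← mul_pow, e]
  have hb : LinearIndependent k (fun z : ℕ × ℕ =>
      algebraMap A F (Polynomial.X ^ z.1 * Polynomial.C Polynomial.X ^ z.2)) := by
    have h1 := linearIndependent_smul (EKUM.li_pow κ) (EKUM.li_pow (Polynomial κ))
    have h2 := h1.comp (Equiv.prodComm ℕ ℕ) (Equiv.injective _)
    rw [linearIndependent_iff'] at h2 ⊢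
    intro s c hc i hi
    have := h2 s (fun z => algebraMap k κ (c z)) ?_ i hi
    · exact (map_eq_zero _).1 this
    · apply iA
      rw [map_zero, ← hc, map_sum]
      refine Finset.sum_congr rfl fun z _ => ?_
      rw [Algebra.smul_def (c z)]
      have : algebraMap k F (c z) =
        algebraMap A F (Polynomial.C (Polynomial.C (algebraMap k κ (c z)))) := rfl
      rw [this, ← map_mul]
      congr 1
      simp only [Function.comp, Equiv.prodComm_apply, Prod.fst_swap, Prod.snd_swap]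
      rw [Polynomial.smul_eq_C_mul, Algebra.smul_def, Polynomial.algebraMap_apply,
        Polynomial.algebraMap_apply, map_pow]
      simp only [Algebra.algebraMap_self, RingHom.id_apply]
      ring
  refine ⟨Ω, inferInstance, inferInstance,
    ![r0, r1, φ Polynomial.X, r3, φ (Polynomial.C Polynomial.X)], ⟨?_, ?_, ?_⟩, ?_⟩
  · simp [hr1, EKUM.a1]
  · simp [hr3, EKUM.a3]
  · simp [hr0, EKUM.a0]
  · have := linearIndependent_smul hb hli
    have e : kb ![r0, r1, φ Polynomial.X, r3, φ (Polynomial.C Polynomial.X)] = fun p : KI =>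
        algebraMap A F (Polynomial.X ^ p.1.1 * Polynomial.C Polynomial.X ^ p.1.2) • m p.2 := by
      funext z
      simp only [kb, m, Algebra.smul_def, map_mul, map_pow]
      rfl
    rw [e]
    exact this

end Crest.Agent.R169
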