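import Crest.Agent.R169.EKum
import Crest.Agent.R169.EBasic

/-! # R169 task EModel: normal forms, lifting of ring maps, existence of models -/

set_option autoImplicit false

namespace Crest.Agent.R169
open Module

namespace EMODEL

def Good {k : Type} [CommRing k]
    (F : ∀ (L : Type) [CommRing L], (k →+* L) → (Fin 5 → L) → L) : Prop :=
  ∃ c : KI →₀ k, ∀ (L : Type) [CommRing L] (σ : k →+* L) (r' : Fin 5 → L), Kum r' →
    F L σ r' = c.sum fun z a => σ a * kb r' z

variable {k : Type} [CommRing k]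

theorem Good.congr {F G : ∀ (L : Type) [CommRing L], (k →+* L) → (Fin 5 → L) → L} (h : Good F)
    (e : ∀ (L : Type) [CommRing L] (σ : k →+* L) (r' : Fin 5 → L), Kum r' →
      G L σ r' = F L σ r') : Good G := by
  obtain ⟨c, hc⟩ := h
  exact ⟨c, fun L _ σ r' hr => (e L σ r' hr).trans (hc L σ r' hr)⟩

theorem Good.add {F G : ∀ (L : Type) [CommRing L], (k →+* L) → (Fin 5 → L) → L} (h : Good F)
    (h' : Good G) : Good (fun L _ σ r' => F L σ r' + G L σ r') := by
  obtain ⟨c, hc⟩ := h
  obtain ⟨c', hc'⟩ := h'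
  refine ⟨c + c', fun L _ σ r' hr => ?_⟩
  rw [Finsupp.sum_add_index' (by simp) (fun _ _ _ => by rw [map_add, add_mul])]
  simp only [hc L σ r' hr, hc' L σ r' hr]

theorem good_basis (z : KI) (a : k) : Good (fun L _ (σ : k →+* L) r' => σ a * kb r' z) :=
  ⟨Finsupp.single z a, fun L _ σ r' _ => by rw [Finsupp.sum_single_index (by simp)]⟩

theorem good_step (z : KI) (a : k) (i : Fin 5) :
    Good (fun L _ (σ : k →+* L) r' => σ a * kb r' z * r' i) := by
  obtain ⟨⟨p, q⟩, u, v, w⟩ := z
  have two : ∀ (z1 z2 : KI), (∀ (L : Type) [CommRing L] (r' : Fin 5 → L), Kum r' →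
      kb r' ((p, q), u, v, w) * r' i = kb r' z1 - kb r' z2) →
      Good (fun L _ (σ : k →+* L) r' => σ a * kb r' ((p, q), u, v, w) * r' i) := by
    intro z1 z2 h
    refine ((good_basis z1 a).add (good_basis z2 (-a))).congr fun L _ σ r' hr => ?_
    rw [mul_assoc, h L r' hr, map_neg]; ring
  have one : ∀ (z1 : KI), (∀ (L : Type) [CommRing L] (r' : Fin 5 → L), Kum r' →
      kb r' ((p, q), u, v, w) * r' i = kb r' z1) →
      Good (fun L _ (σ : k →+* L) r' => σ a * kb r' ((p, q), u, v, w) * r' i) := by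
    intro z1 h
    refine (good_basis z1 a).congr fun L _ σ r' hr => ?_
    rw [mul_assoc, h L r' hr]
  fin_cases i
  · by_cases h : (u : ℕ) + 1 < 7
    · exact one ((p, q), ⟨u + 1, h⟩, v, w) fun L _ r' _ => by simp [kb]; ring
    · have hu : (u : ℕ) = 6 := by have := u.2; omega
      refine two ((p + 7, q), 0, v, w) ((p, q + 7), 0, v, w) fun L _ r' hr => ?_
      simp [kb, hu]
      linear_combination (r' 2 ^ p * r' 4 ^ q * r' 1 ^ (v : ℕ) * r' 3 ^ (w : ℕ)) * hr.rel4
  · by_cases h : (v : ℕ) + 1 < 7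
    · exact one ((p, q), u, ⟨v + 1, h⟩, w) fun L _ r' _ => by simp [kb]; ring
    · have hu : (v : ℕ) = 6 := by have := v.2; omega
      refine two ((p + 7, q), u, 0, w) ((p, q), u, 0, w) fun L _ r' hr => ?_
      simp [kb, hu]
      linear_combination (r' 2 ^ p * r' 4 ^ q * r' 0 ^ (u : ℕ) * r' 3 ^ (w : ℕ)) * hr.rel5
  · exact one ((p + 1, q), u, v, w) fun L _ r' _ => by simp [kb]; ring
  · by_cases h : (w : ℕ) + 1 < 7
    · exact one ((p, q), u, v, ⟨w + 1, h⟩) fun L _ r' _ => by simp [kb]; ring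
    · have hu : (w : ℕ) = 6 := by have := w.2; omega
      refine two ((p, q + 7), u, v, 0) ((p, q), u, v, 0) fun L _ r' hr => ?_
      simp [kb, hu]
      linear_combination (r' 2 ^ p * r' 4 ^ q * r' 0 ^ (u : ℕ) * r' 1 ^ (v : ℕ)) * hr.rel7
  · exact one ((p, q + 1), u, v, w) fun L _ r' _ => by simp [kb]; ring

theorem good_mul (c : KI →₀ k) (i : Fin 5) :
    Good (fun L _ (σ : k →+* L) r' => (c.sum fun z a => σ a * kb r' z) * r' i) := by
  induction c using Finsupp.induction_linear with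
  | zero => exact ⟨0, fun L _ σ r' _ => by simp⟩
  | add f g hf hg =>
    refine (hf.add hg).congr fun L _ σ r' _ => ?_
    rw [Finsupp.sum_add_index' (by simp) (fun _ _ _ => by rw [map_add, add_mul]), add_mul]
  | single z a =>
    refine (good_step z a i).congr fun L _ σ r' _ => ?_
    rw [Finsupp.sum_single_index (by simp)]

end EMODEL

/-- normal form modulo the Kummer relations (induction on `f`; the span of `kb` is stable under
multiplication by each variable, universally in `L`) -/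
theorem kum_normal {k : Type} [CommRing k] (f : MvPolynomial (Fin 5) k) : ∃ c : KI →₀ k,
    ∀ (L : Type) [CommRing L] (σ : k →+* L) (r' : Fin 5 → L), Kum r' →
      MvPolynomial.eval₂ σ r' f = c.sum fun z a => σ a * kb r' z := by
  show EMODEL.Good (fun L _ (σ : k →+* L) r' => MvPolynomial.eval₂ σ r' f)
  induction f using MvPolynomial.induction_on with
  | C a =>
    exact (EMODEL.good_basis ((0, 0), 0, 0, 0) a).congr fun L _ σ r' _ => by simp [kb]
  | add p q hp hq =>
    exact (hp.add hq).congr fun L _ σ r' _ => by rw [MvPolynomial.eval₂_add]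
  | mul_X p i hp =>
    obtain ⟨c, hc⟩ := hp
    refine (EMODEL.good_mul c i).congr fun L _ σ r' hr => ?_
    rw [MvPolynomial.eval₂_mul, MvPolynomial.eval₂_X]
    exact congrArg (· * r' i) (hc L σ r' hr)

/-- Sketch: by `kum_normal` and independence, `aeval r f = 0 → eval₂ σ r' f = 0`; so `eval₂ σ r'`
descends to `A = range (aeval r)`, `K` is the fraction field of `A` (`hfrac`), and nonzero elements
go to units: `IsLocalization.lift`. -/
theorem kum_lift {k K : Type} [Field k] [Field K] [Algebra k K] {r : Fin 5 → K} (hr : Kum r)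
    (hind : LinearIndependent k (kb r))
    (hfrac : ∀ z : K, ∃ f g : MvPolynomial (Fin 5) k, MvPolynomial.aeval r g ≠ 0 ∧
      z = MvPolynomial.aeval r f / MvPolynomial.aeval r g)
    (L : Type) [CommRing L] (σ : k →+* L) (r' : Fin 5 → L) (hr' : Kum r')
    (hunit : ∀ g : MvPolynomial (Fin 5) k, MvPolynomial.aeval r g ≠ 0 →
      IsUnit (MvPolynomial.eval₂ σ r' g)) :
    ∃ Sp : K →+* L, (∀ c, Sp (algebraMap k K c) = σ c) ∧ ∀ i, Sp (r i) = r' i := by
  let φ := MvPolynomial.aeval (R := k) r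
  have hker : RingHom.ker φ.rangeRestrict.toRingHom ≤
      RingHom.ker (MvPolynomial.eval₂Hom σ r') := by
    intro f hf
    have hf0 : MvPolynomial.aeval r f = 0 := congrArg Subtype.val (RingHom.mem_ker.1 hf)
    obtain ⟨c, hc⟩ := kum_normal f
    have e := hc K (algebraMap k K) r hr
    rw [← MvPolynomial.aeval_def, hf0] at e
    have : c = 0 := by
      apply linearIndependent_iff.1 hind
      rw [Finsupp.linearCombination_apply, e]
      simp only [Algebra.smul_def]
    rw [RingHom.mem_ker, MvPolynomial.coe_eval₂Hom, hc L σ r' hr', this, Finsupp.sum_zero_index]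
  have hsurj : Function.Surjective φ.rangeRestrict.toRingHom := φ.rangeRestrict_surjective
  let ψ : φ.range →+* L := φ.rangeRestrict.toRingHom.liftOfSurjective hsurj ⟨_, hker⟩
  have hψ : ∀ f, ψ (φ.rangeRestrict f) = MvPolynomial.eval₂ σ r' f := fun f =>
    RingHom.liftOfSurjective_comp_apply _ hsurj ⟨_, hker⟩ f
  have : IsFractionRing φ.range K := IsFractionRing.of_field _ _ fun z => by
    obtain ⟨f, g, _, rfl⟩ := hfrac z
    exact ⟨φ.rangeRestrict f, φ.rangeRestrict g, rfl⟩
  have hu : ∀ y : nonZeroDivisors φ.range, IsUnit (ψ y) := by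
    rintro ⟨y, hy⟩
    obtain ⟨g, rfl⟩ := φ.rangeRestrict_surjective y
    rw [hψ]
    refine hunit g fun h => nonZeroDivisors.ne_zero hy (Subtype.ext h)
  have hS : ∀ f, IsLocalization.lift (S := K) hu (φ f) = MvPolynomial.eval₂ σ r' f := fun f => by
    rw [← hψ]
    exact IsLocalization.lift_eq hu (φ.rangeRestrict f)
  refine ⟨IsLocalization.lift (S := K) hu, fun c => ?_, fun i => ?_⟩
  · simpa [φ] using hS (MvPolynomial.C c)
  · simpa [φ] using hS (MvPolynomial.X i)

theorem Model.frac5 {k K : Type} [Field k] [Field K] [Algebra k K] (M : Model k K) (z : K) :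
    ∃ f g : MvPolynomial (Fin 5) k, MvPolynomial.aeval (r5 M.r) g ≠ 0 ∧
      z = MvPolynomial.aeval (r5 M.r) f / MvPolynomial.aeval (r5 M.r) g := by
  have hle : Algebra.adjoin k (Set.range M.r) ≤ (MvPolynomial.aeval (R := k) (r5 M.r)).range := by
    refine Algebra.adjoin_le ?_
    rintro _ ⟨e, rfl⟩
    have h : ∀ i, r5 M.r i ∈ (MvPolynomial.aeval (R := k) (r5 M.r)).range := fun i =>
      ⟨MvPolynomial.X i, MvPolynomial.aeval_X _ _⟩
    have h1 := (MvPolynomial.aeval (R := k) (r5 M.r)).range.one_mem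
    fin_cases e
    · exact M.r0 ▸ h1
    · exact M.r1 ▸ h1
    · exact M.r2 ▸ h1
    · exact M.r3 ▸ h1
    · exact h 0
    · exact h 1
    · exact h 2
    · exact h 3
    · exact h 4
    · exact M.r9 ▸ h1
  obtain ⟨a, ha, b, hb, hb0, rfl⟩ := M.frac z
  obtain ⟨f, rfl⟩ := hle ha
  obtain ⟨g, rfl⟩ := hle hb
  exact ⟨f, g, hb0, rfl⟩

theorem Model.lift {k K : Type} [Field k] [Field K] [Algebra k K] (M : Model k K)
    (L : Type) [Field L] (σ : k →+* L) (r' : Fin 5 → L) (hr' : Kum r')
    (hind : ∀ c : KI →₀ k, (c.sum fun z a => σ a * kb r' z) = 0 → c = 0) :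
    ∃ Sp : K →+* L, (∀ c, Sp (algebraMap k K c) = σ c) ∧ ∀ i, Sp (r5 M.r i) = r' i := by
  refine kum_lift M.kum M.indep' M.frac5 L σ r' hr' fun g hg => Ne.isUnit fun h => hg ?_
  obtain ⟨c, hc⟩ := kum_normal g
  have : c = 0 := hind c (by rw [← hc L σ r' hr', h])
  rw [MvPolynomial.aeval_def, hc K _ _ M.kum, this, Finsupp.sum_zero_index]

theorem EMODEL.exists_der {k K : Type} [Field k] [Field K] [Algebra k K] {r : Fin 5 → K}
    (hr : Kum r) (hind : LinearIndependent k (kb r))
    (hfrac : ∀ z : K, ∃ f g : MvPolynomial (Fin 5) k, MvPolynomial.aeval r g ≠ 0 ∧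
      z = MvPolynomial.aeval r f / MvPolynomial.aeval r g) (h0 : ∀ i, r i ≠ 0)
    (c : Fin 5 → K) (h5 : c 1 = c 2) (h7 : c 3 = c 4) (h4 : c 0 = c 2 - c 4) :
    ∃ δ : Derivation k K K, ∀ i, r i ^ 6 * δ (r i) = c i := by
  let r' : Fin 5 → TrivSqZeroExt K K := fun i =>
    TrivSqZeroExt.inl (r i) + TrivSqZeroExt.inr (c i / r i ^ 6)
  have f1 : ∀ i, (r' i).fst = r i := fun i => by simp [r']
  have f2 : ∀ i, (r' i).snd = c i / r i ^ 6 := fun i => by simp [r']
  have g1 : ∀ i, (r' i ^ 7).fst = r i ^ 7 := fun i => by rw [TrivSqZeroExt.fst_pow, f1]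
  have g2 : ∀ i, (r' i ^ 7).snd = 7 * c i := fun i => by
    have := h0 i
    rw [TrivSqZeroExt.snd_pow, f1, f2, smul_eq_mul, nsmul_eq_mul]
    show ((7 : ℕ) : K) * (r i ^ 6 * (c i / r i ^ 6)) = _
    rw [mul_div_cancel₀ _ (pow_ne_zero _ this), Nat.cast_ofNat]
  have hr' : Kum r' := by
    refine ⟨TrivSqZeroExt.ext ?_ ?_, TrivSqZeroExt.ext ?_ ?_, TrivSqZeroExt.ext ?_ ?_⟩
    · rw [TrivSqZeroExt.fst_sub, g1, g1, hr.rel5]; rfl
    · rw [TrivSqZeroExt.snd_sub, g2, g2, h5]; simp
    · rw [TrivSqZeroExt.fst_sub, g1, g1, hr.rel7]; rfl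
    · rw [TrivSqZeroExt.snd_sub, g2, g2, h7]; simp
    · rw [TrivSqZeroExt.fst_sub, g1, g1, g1, hr.rel4]
    · rw [TrivSqZeroExt.snd_sub, g2, g2, g2, h4]; ring
  let σ : k →+* TrivSqZeroExt K K := (TrivSqZeroExt.inlHom K K).comp (algebraMap k K)
  let π : TrivSqZeroExt K K →+* K := (TrivSqZeroExt.fstHom K K K).toRingHom
  have hπ : ∀ g : MvPolynomial (Fin 5) k,
      (MvPolynomial.eval₂ σ r' g).fst = MvPolynomial.aeval r g := by
    intro g
    have := MvPolynomial.eval₂_comp_left π σ r' g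
    rw [MvPolynomial.aeval_def]
    refine this.trans ?_
    congr 1
    funext i
    exact f1 i
  obtain ⟨Sp, hc, hi⟩ := kum_lift hr hind hfrac _ σ r' hr' fun g hg => by
    rw [TrivSqZeroExt.isUnit_iff_isUnit_fst, hπ]; exact hg.isUnit
  have hS : ∀ g : MvPolynomial (Fin 5) k,
      (π.comp Sp) (MvPolynomial.aeval r g) = MvPolynomial.aeval r g := by
    intro g
    rw [MvPolynomial.aeval_def, MvPolynomial.eval₂_comp_left]
    congr 1
    · ext a
      simp only [RingHom.comp_apply, hc]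
      rfl
    · funext i
      simp only [Function.comp, RingHom.comp_apply, hi]
      exact f1 i
  have hid : ∀ z, (Sp z).fst = z := by
    intro z
    obtain ⟨f, g, _, rfl⟩ := hfrac z
    show (π.comp Sp) _ = _
    rw [map_div₀, hS, hS]
  have hmul : ∀ a b, (Sp (a * b)).snd = a * (Sp b).snd + b * (Sp a).snd := by
    intro a b
    rw [map_mul, TrivSqZeroExt.snd_mul, hid, hid]
    simp [mul_comm]
  let D : K →ₗ[k] K :=
    { toFun := fun z => (Sp z).snd
      map_add' := fun a b => by rw [map_add, TrivSqZeroExt.snd_add]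
      map_smul' := fun a b => by
        rw [Algebra.smul_def, hmul, hc, RingHom.id_apply, Algebra.smul_def]
        have : (σ a).snd = 0 := rfl
        rw [this, mul_zero, add_zero] }
  refine ⟨Derivation.mk' D hmul, fun i => ?_⟩
  show r i ^ 6 * (Sp (r i)).snd = c i
  have := h0 i
  rw [hi, f2]
  field_simp

/-- Sketch: `K = IntermediateField.adjoin k (range r)` for `r` from `exists_kum`;
`M.r = ![1,1,1,1,r 0,…,r 4,1]`.  A derivation with `δ (r i) = c i / r i ^ 6` is the second
component of the `kum_lift` to `L = TrivSqZeroExt K K`, `r' i = (r i, c i / r i ^ 6)`: `r' i ^ 7 =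
(r i ^ 7, 7 c i)`, and `c = cx, cy` satisfy `c 5 = c 6`, `c 7 = c 8`, `c 4 = c 6 - c 8`. -/
theorem exists_model (k : Type) [Field k] (h7 : (7 : k) ≠ 0) :
    ∃ (K : Type) (_ : Field K) (_ : Algebra k K), Nonempty (Model k K) := by
  obtain ⟨Ω, _, _, s, hs, hli⟩ := exists_kum k h7
  let K := IntermediateField.adjoin k (Set.range s)
  let r : Fin 5 → K := fun i => ⟨s i, IntermediateField.subset_adjoin _ _ ⟨i, rfl⟩⟩
  have hr : Kum r := ⟨Subtype.ext hs.rel5, Subtype.ext hs.rel7, Subtype.ext hs.rel4⟩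
  have hind : LinearIndependent k (kb r) :=
    LinearIndependent.of_comp K.val.toLinearMap (by
      convert hli using 1
      funext z
      simp [kb, r])
  have hv : ∀ g : MvPolynomial (Fin 5) k,
      K.val (MvPolynomial.aeval r g) = MvPolynomial.aeval s g := by
    intro g
    rw [← AlgHom.comp_apply, MvPolynomial.comp_aeval]
    rfl
  have hfrac : ∀ z : K, ∃ f g : MvPolynomial (Fin 5) k, MvPolynomial.aeval r g ≠ 0 ∧
      z = MvPolynomial.aeval r f / MvPolynomial.aeval r g := by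
    intro z
    obtain ⟨f, g, e⟩ := (IntermediateField.mem_adjoin_range_iff k s z.1).1 z.2
    have e' : z = MvPolynomial.aeval r f / MvPolynomial.aeval r g := by
      apply K.val.injective
      show K.val z = K.val _
      rw [map_div₀, hv, hv]; exact e
    by_cases hg : MvPolynomial.aeval r g = 0
    · exact ⟨0, 1, by simp, by rw [e', hg]; simp⟩
    · exact ⟨f, g, hg, e'⟩
  have h0 : ∀ i, r i ≠ 0 := by
    intro i
    fin_cases i
    · simpa [kb] using hind.ne_zero ((0, 0), 1, 0, 0)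
    · simpa [kb] using hind.ne_zero ((0, 0), 0, 1, 0)
    · simpa [kb] using hind.ne_zero ((1, 0), 0, 0, 0)
    · simpa [kb] using hind.ne_zero ((0, 0), 0, 0, 1)
    · simpa [kb] using hind.ne_zero ((0, 1), 0, 0, 0)
  obtain ⟨δ0, d0⟩ := EMODEL.exists_der hr hind hfrac h0 ![1, 1, 1, 0, 0] rfl rfl (by simp)
  obtain ⟨δ1, d1⟩ := EMODEL.exists_der hr hind hfrac h0 ![-1, 0, 0, 1, 1] rfl rfl (by simp)
  have hsub : ∀ g : MvPolynomial (Fin 5) k, MvPolynomial.aeval r g ∈
      Algebra.adjoin k (Set.range ![1, 1, 1, 1, r 0, r 1, r 2, r 3, r 4, 1]) := by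
    intro g
    have : MvPolynomial.aeval r g ∈ Algebra.adjoin k (Set.range r) := by
      rw [Algebra.adjoin_range_eq_range_aeval]; exact ⟨g, rfl⟩
    refine Algebra.adjoin_mono ?_ this
    rintro _ ⟨i, rfl⟩
    fin_cases i
    · exact ⟨4, rfl⟩
    · exact ⟨5, rfl⟩
    · exact ⟨6, rfl⟩
    · exact ⟨7, rfl⟩
    · exact ⟨8, rfl⟩
  refine ⟨K, inferInstance, inferInstance, ⟨
    { r := ![1, 1, 1, 1, r 0, r 1, r 2, r 3, r 4, 1]
      ne := fun e => by fin_cases e <;> first | exact one_ne_zero | exact h0 _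
      r0 := rfl
      r1 := rfl
      r2 := rfl
      r3 := rfl
      r9 := rfl
      rel5 := hr.rel5
      rel7 := hr.rel7
      rel4 := hr.rel4
      indep := hind
      frac := fun z => by
        obtain ⟨f, g, hg, e⟩ := hfrac z
        exact ⟨_, hsub f, _, hsub g, hg, e⟩
      δ := ![δ0, δ1]
      δ0 := fun e => ?_
      δ1 := fun e => ?_ }⟩⟩
  · have := d0 0
    have := d0 1
    have := d0 2
    have := d0 3
    have := d0 4
    fin_cases e <;> simp_all [cx]
  · have := d1 0
    have := d1 1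
    have := d1 2
    have := d1 3
    have := d1 4
    fin_cases e <;> simp_all [cy]

end Crest.Agent.R169
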