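import Crest.Agent.R169.EHP
import Crest.Agent.R169.EModel

/-! # R169 task ENN: Noether normalisation by three integral linear forms -/

set_option autoImplicit false

namespace Crest.Agent.R169
open Module

namespace NNA

variable {k K : Type} [Field k] [Field K] [Algebra k K]

/-- `∑ Y_i R₀(t-1)` -/
def JJ (M : Model k K) {n : ℕ} (Y : Fin n → K) (t : ℤ) : Submodule k K where
  carrier := {z | ∃ f : Fin n → K, (∀ i, f i ∈ exR0 M (t - 1)) ∧ z = ∑ i, Y i * f i}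
  zero_mem' := ⟨0, fun _ => zero_mem _, by simp⟩
  add_mem' := by
    rintro _ _ ⟨f, hf, rfl⟩ ⟨g, hg, rfl⟩
    exact ⟨f + g, fun i => add_mem (hf i) (hg i), by simp [mul_add, Finset.sum_add_distrib]⟩
  smul_mem' := by
    rintro c _ ⟨f, hf, rfl⟩
    exact ⟨c • f, fun i => Submodule.smul_mem _ _ (hf i), by simp [Finset.smul_sum]⟩

theorem mul_JJ {M : Model k K} {n : ℕ} {Y : Fin n → K} {s t : ℤ} {a z : K} (ha : a ∈ exR0 M s)
    (hz : z ∈ JJ M Y t) : a * z ∈ JJ M Y (s + t) := by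
  obtain ⟨f, hf, rfl⟩ := hz
  refine ⟨fun i => a * f i, fun i => ?_, ?_⟩
  · rw [add_sub_assoc]
    exact exR0_mul M ha (hf i)
  · rw [Finset.mul_sum]
    exact Finset.sum_congr rfl fun i _ => by ring

theorem mem_JJ {M : Model k K} {n : ℕ} (Y : Fin n → K) {t : ℤ} {f : K} (i : Fin n)
    (hf : f ∈ exR0 M (t - 1)) : Y i * f ∈ JJ M Y t := by
  refine ⟨Pi.single i f, fun j => ?_, ?_⟩
  · by_cases h : j = i
    · subst h; simpa using hf
    · simp [h]
  · rw [Finset.sum_eq_single i (fun j _ h => by simp [h]) (by simp)]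
    simp

theorem one_mem (M : Model k K) : (1 : K) ∈ exR0 M 0 := (mem_exR0_zero M).2 ⟨1, map_one _⟩

theorem ev_eq (M : Model k K) (y : Ex →₀ ℤ) :
    (y.sum fun γ c => (c : K) * M.mon γ) = Finsupp.linearCombination ℤ M.mon y := by
  simp [Finsupp.linearCombination_apply]

theorem ev_mem (M : Model k K) {y : Ex →₀ ℤ} {m : ℤ} (hy : Supp y m) :
    (y.sum fun γ c => (c : K) * M.mon γ) ∈ exR0 M m :=
  Submodule.sum_mem _ fun γ hγ => by
    beta_reduce
    rw [← zsmul_eq_mul]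
    exact zsmul_mem (mon_mem_exR0 M (hy γ hγ)) _

theorem supp_iff {y : Ex →₀ ℤ} {m : ℤ} : Supp y m ↔ y ∈ Finsupp.supported ℤ ℤ {a | Mon a m} :=
  Iff.rfl

/-- `u ≡ κ Z^s` modulo `∑ Y_i R₀(s-1)` -/
def Cg (M : Model k K) {n : ℕ} (Y : Fin n → K) (Z : K) (s : ℕ) (u : K) (κ : k) : Prop :=
  u ∈ exR0 M s ∧ u - κ • Z ^ s ∈ JJ M Y s

theorem pw {M : Model k K} {Z : K} (hZ : Z ∈ exR0 M 1) (s : ℕ) : Z ^ s ∈ exR0 M s := by
  simpa using exR0_pow M hZ s

theorem Cg.mul {M : Model k K} {n : ℕ} {Y : Fin n → K} {Z : K} (hZ : Z ∈ exR0 M 1) {s s' : ℕ}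
    {u u' : K} {κ κ' : k} (h : Cg M Y Z s u κ) (h' : Cg M Y Z s' u' κ') :
    Cg M Y Z (s + s') (u * u') (κ * κ') := by
  refine ⟨by push_cast; exact exR0_mul M h.1 h'.1, ?_⟩
  have e : u * u' - (κ * κ') • Z ^ (s + s') =
      u * (u' - κ' • Z ^ s') + κ' • (Z ^ s' * (u - κ • Z ^ s)) := by
    simp only [Algebra.smul_def, map_mul]
    ring
  rw [e]
  push_cast
  exact add_mem (mul_JJ h.1 h'.2) (Submodule.smul_mem _ _ (add_comm (s' : ℤ) s ▸
    mul_JJ (pw hZ s') h.2))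

theorem cg_pow {M : Model k K} {n : ℕ} (Y : Fin n → K) {Z : K} (hZ : Z ∈ exR0 M 1) (s : ℕ) :
    Cg M Y Z s (Z ^ s) 1 := ⟨pw hZ s, by simp⟩

theorem Cg.pow {M : Model k K} {n : ℕ} {Y : Fin n → K} {Z : K} (hZ : Z ∈ exR0 M 1)
    {u : K} {κ : k} (h : Cg M Y Z 1 u κ) (s : ℕ) : Cg M Y Z s (u ^ s) (κ ^ s) := by
  induction s with
  | zero => simpa using cg_pow Y hZ 0
  | succ s ih => rw [pow_succ, pow_succ]; exact ih.mul hZ h

theorem exists_int [CharZero k] {m : ℕ} (g : (Fin 3 → Fin m) → k) (u₀ : Fin 3 → Fin m) (hg : g u₀ ≠ 0) :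
    ∃ c : Fin 3 → ℤ, ∑ u, g u * ∏ i, (c i : k) ^ (u i : ℕ) ≠ 0 := by
  by_contra hc
  push Not at hc
  let e : (Fin 3 → Fin m) → (Fin 3 →₀ ℕ) := fun u =>
    Finsupp.equivFunOnFinite.symm fun i => (u i : ℕ)
  have he : Function.Injective e := fun u u' h => by
    funext i
    exact Fin.ext (congrFun (Finsupp.equivFunOnFinite.symm.injective h) i)
  have h0 : (∑ u, MvPolynomial.monomial (e u) (g u) : MvPolynomial (Fin 3) k) = 0 := by
    refine MvPolynomial.funext_set (fun _ => Set.range (Int.cast : ℤ → k))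
      (fun _ => Set.infinite_range_of_injective Int.cast_injective) fun x hx => ?_
    choose c hcx using fun i => hx i (Set.mem_univ i)
    rw [map_zero, map_sum, ← hc c]
    refine Finset.sum_congr rfl fun u _ => ?_
    rw [MvPolynomial.eval_monomial, Finsupp.prod_fintype _ _ (by simp)]
    simp [e, hcx]
  have h1 := congrArg (MvPolynomial.coeff (e u₀)) h0
  rw [MvPolynomial.coeff_sum, Finset.sum_eq_single u₀ (fun u _ h => by
    rw [MvPolynomial.coeff_monomial, if_neg fun h' => h (he h')]) (by simp)] at h1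
  exact hg (by simpa using h1)

theorem clear {K : Type} [Field K] [Algebra ℚ K] (M : Model ℚ K) {s : ℤ} {f : K}
    (hf : f ∈ exR0 M s) : ∃ D : ℕ, 0 < D ∧ ∀ D' : ℕ, D ∣ D' → ∃ g : Ex →₀ ℤ, Supp g s ∧
      Finsupp.linearCombination ℤ M.mon g = (D' : ℤ) • f := by
  have e : {z | ∃ a, Mon a s ∧ z = M.mon a} = M.mon '' {a | Mon a s} := by
    ext z; simp [eq_comm]
  unfold exR0 at hf
  rw [e] at hf
  obtain ⟨t, ht⟩ := multiple_mem_span_of_mem_localization_span (nonZeroDivisors ℤ) ℚ _ f hf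
  refine ⟨(t : ℤ).natAbs, Int.natAbs_pos.2 (nonZeroDivisors.coe_ne_zero t), fun D' hD => ?_⟩
  obtain ⟨E, hE⟩ := Int.natAbs_dvd.1 (Int.natCast_dvd_natCast.2 hD)
  have : (D' : ℤ) • f ∈ Submodule.span ℤ (M.mon '' {a | Mon a s}) := by
    rw [hE, mul_comm, mul_smul]
    exact Submodule.smul_mem _ _ ht
  exact (Finsupp.mem_span_image_iff_linearCombination ℤ).1 this

theorem step [CharZero k] (M : Model k K) {n : ℕ} (hn : 3 ≤ n)
    (y : Fin (n + 1) → (Ex →₀ ℤ)) (hy : ∀ i, Supp (y i) 1) (t1 : ℤ)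
    (h : ∀ t ≥ t1, ∀ z ∈ exR0 M t, ∃ f : Fin (n + 1) → K, (∀ i, f i ∈ exR0 M (t - 1)) ∧
      z = ∑ i, ((y i).sum fun γ c => (c : K) * M.mon γ) * f i) :
    ∃ (y' : Fin n → (Ex →₀ ℤ)) (t2 : ℤ), (∀ i, Supp (y' i) 1) ∧
      ∀ t ≥ t2, ∀ z ∈ exR0 M t, ∃ f : Fin n → K, (∀ i, f i ∈ exR0 M (t - 1)) ∧
        z = ∑ i, ((y' i).sum fun γ c => (c : K) * M.mon γ) * f i := by
  set Y : Fin (n + 1) → K := fun i => (y i).sum fun γ c => (c : K) * M.mon γ with hY
  have hYm : ∀ i, Y i ∈ exR0 M 1 := fun i => ev_mem M (hy i)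
  set Z := Y (Fin.last n) with hZ
  have hZm : Z ∈ exR0 M 1 := hYm _
  obtain ⟨t0, ht0⟩ := hasHP_exR0 M
  obtain ⟨m, hm0, hm1⟩ : ∃ m : ℕ, t0 ≤ m ∧ 20000 ≤ m := ⟨max t0.toNat 20000, by omega, by omega⟩
  let ι : Fin 3 → Fin n := Fin.castLE hn
  let v : (Fin 3 → Fin m) → K := fun u =>
    Y (ι 0).castSucc ^ (u 0 : ℕ) * Y (ι 1).castSucc ^ (u 1 : ℕ) * Y (ι 2).castSucc ^ (u 2 : ℕ) *
      Z ^ (3 * m - (u 0 + u 1 + u 2))
  have hd : ∀ u : Fin 3 → Fin m, (u 0 : ℕ) + u 1 + u 2 + (3 * m - (u 0 + u 1 + u 2)) = 3 * m :=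
    fun u => by have := (u 0).2; have := (u 1).2; have := (u 2).2; omega
  have hv : ∀ u, v u ∈ exR0 M ((3 * m : ℕ) : ℤ) := fun u => by
    rw [← hd u]
    rw [Nat.cast_add, Nat.cast_add, Nat.cast_add]
    exact exR0_mul M (exR0_mul M (exR0_mul M (pw (hYm _) _) (pw (hYm _) _)) (pw (hYm _) _))
      (pw hZm _)
  have hli : ¬ LinearIndependent k fun u => (⟨v u, hv u⟩ : exR0 M ((3 * m : ℕ) : ℤ)) := fun hl => by
    have h1 := hl.fintype_card_le_finrank
    have h2 := ht0 ((3 * m : ℕ) : ℤ) (by push_cast; omega)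
    have h3 : ((Fintype.card (Fin 3 → Fin m) : ℕ) : ℚ) ≤ hf (exR0 M) ((3 * m : ℕ) : ℤ) :=
      Nat.cast_le.2 h1
    rw [h2] at h3
    simp only [Fintype.card_pi, Fintype.card_fin, Finset.prod_const, Finset.card_univ] at h3
    push_cast at h3
    have h4 : (20000 : ℚ) ≤ m := by exact_mod_cast hm1
    nlinarith [mul_le_mul_of_nonneg_right h4 (sq_nonneg (m : ℚ))]
  obtain ⟨g, hg, u₀, hu₀⟩ := Fintype.not_linearIndependent_iff.1 hli
  have hg' : ∑ u, g u • v u = 0 := by simpa using congrArg Subtype.val hg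
  obtain ⟨c, hc⟩ := exists_int g u₀ hu₀
  let c' : Fin n → ℤ := fun i => if h : (i : ℕ) < 3 then c ⟨i, h⟩ else 0
  have hc' : ∀ i, c' (ι i) = c i := fun i => dif_pos i.2
  let y' : Fin n → (Ex →₀ ℤ) := fun i => y i.castSucc - c' i • y (Fin.last n)
  set Y' : Fin n → K := fun i => (y' i).sum fun γ c => (c : K) * M.mon γ with hY'
  have hYY : ∀ i, Y' i = Y i.castSucc - (c' i : K) * Z := fun i => by
    simp only [hY', hZ, hY, ev_eq, y', map_sub, map_zsmul, zsmul_eq_mul]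
  have hcg : ∀ i, Cg M Y' Z 1 (Y (ι i).castSucc) (c i : k) := fun i => ⟨hYm _, by
    have := mem_JJ Y' (t := 1) (ι i) (one_mem M)
    rw [mul_one, hYY, hc'] at this
    simpa [Algebra.smul_def] using this⟩
  have hvJ : ∀ u, v u - (∏ i, (c i : k) ^ (u i : ℕ)) • Z ^ (3 * m) ∈ JJ M Y' ((3 * m : ℕ) : ℤ) :=
    fun u => by
      have := (((((hcg 0).pow hZm (u 0)).mul hZm ((hcg 1).pow hZm (u 1))).mul hZm
        ((hcg 2).pow hZm (u 2))).mul hZm (cg_pow Y' hZm (3 * m - (u 0 + u 1 + u 2)))).2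
      rw [hd, mul_one] at this
      rw [Fin.prod_univ_three]
      exact this
  have hZJ : Z ^ (3 * m) ∈ JJ M Y' ((3 * m : ℕ) : ℤ) := by
    have := Submodule.sum_mem (JJ M Y' ((3 * m : ℕ) : ℤ)) (t := Finset.univ)
      fun u _ => Submodule.smul_mem _ (g u) (hvJ u)
    have e : ∑ u, g u • (v u - (∏ i, (c i : k) ^ (u i : ℕ)) • Z ^ (3 * m)) =
        -((∑ u, g u * ∏ i, (c i : k) ^ (u i : ℕ)) • Z ^ (3 * m)) := by
      rw [Finset.sum_smul, ← zero_sub, ← hg', ← Finset.sum_sub_distrib]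
      exact Finset.sum_congr rfl fun u _ => by rw [smul_sub, smul_smul]
    rw [e, neg_mem_iff] at this
    exact (Submodule.smul_mem_iff _ hc).1 this
  refine ⟨y', t1 + (3 * m : ℕ), fun i => supp_iff.2 (sub_mem (supp_iff.1 (hy _))
    (Submodule.smul_mem _ _ (supp_iff.1 (hy _)))), fun t ht z hz => ?_⟩
  have key : ∀ j : ℕ, j ≤ 3 * m → ∃ w ∈ exR0 M (t - j), z - Z ^ j * w ∈ JJ M Y' t := fun j hj => by
    induction j with
    | zero => exact ⟨z, by simpa using hz, by simp⟩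
    | succ j ih =>
      obtain ⟨w, hw, hzw⟩ := ih (by omega)
      obtain ⟨f, hf, rfl⟩ := h (t - j) (by omega) w hw
      refine ⟨f (Fin.last n) + ∑ i, c' i • f i.castSucc, ?_, ?_⟩
      · rw [Nat.cast_succ, ← sub_sub]
        exact add_mem (hf _) (Submodule.sum_mem _ fun i _ => zsmul_mem (hf _) _)
      · have h1 : Z ^ j * ∑ i, Y' i * f i.castSucc ∈ JJ M Y' (j + (t - j)) :=
          mul_JJ (pw hZm j) ⟨fun i => f i.castSucc, fun i => hf _, rfl⟩
        rw [add_sub_cancel] at h1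
        convert add_mem hzw h1 using 1
        change _ = z - Z ^ j * ∑ i, Y i * f i + _
        rw [Fin.sum_univ_castSucc]
        simp only [hYY, zsmul_eq_mul, sub_mul, Finset.sum_sub_distrib, mul_add, mul_sub, pow_succ,
          Finset.mul_sum]
        have : ∀ i, Z ^ j * Z * ((c' i : K) * f i.castSucc) =
            Z ^ j * ((c' i : K) * Z * f i.castSucc) := fun i => by ring
        simp only [this]
        ring
  obtain ⟨w, hw, hzw⟩ := key _ le_rfl
  have h2 := mul_JJ hw hZJ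
  rw [sub_add_cancel, mul_comm] at h2
  have h3 := add_mem hzw h2
  rw [sub_add_cancel] at h3
  exact h3

end NNA

open NNA

/-- One step.  If `n + 1 ≥ 4` integral linear forms `y` satisfy `R₀(t) = ∑ y_i R₀(t-1)` for all
`t ≥ t₁`, then so do `n` integral forms.  Sketch: `dim R₀(d) = O(d²)` (`hasHP_exR0`) is smaller than
the number `≥ C(d+3,3)` of monomials of degree `d` in `n+1` variables, so a nonzero homogeneous `F` of
degree `d` has `F(y) = 0`; pick integers `c` with `F(c_0,…,c_{n-1},1) ≠ 0` (`MvPolynomial.funext`-type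
lemma on the infinite set `ℤ ⊆ ℚ`, homogeneity), `y'_i = y_i - c_i y_n`; then
`y_n^d ∈ ∑ y'_i R₀(d-1)`, and iterating the hypothesis `R₀(t) = y_n^d R₀(t-d) + ∑ y'_i R₀(t-1)`
for `t ≥ t₁ + d`. -/
theorem nn_step {K : Type} [Field K] [Algebra ℚ K] (M : Model ℚ K) {n : ℕ} (hn : 3 ≤ n)
    (y : Fin (n + 1) → (Ex →₀ ℤ)) (hy : ∀ i, Supp (y i) 1) (t1 : ℤ)
    (h : ∀ t ≥ t1, ∀ z ∈ exR0 M t, ∃ f : Fin (n + 1) → K, (∀ i, f i ∈ exR0 M (t - 1)) ∧
      z = ∑ i, ((y i).sum fun γ c => (c : K) * M.mon γ) * f i) :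
    ∃ (y' : Fin n → (Ex →₀ ℤ)) (t2 : ℤ), (∀ i, Supp (y' i) 1) ∧
      ∀ t ≥ t2, ∀ z ∈ exR0 M t, ∃ f : Fin n → K, (∀ i, f i ∈ exR0 M (t - 1)) ∧
        z = ∑ i, ((y' i).sum fun γ c => (c : K) * M.mon γ) * f i := by
  exact step M hn y hy t1 h

/-- Start from all degree-one monomials (`finite_mon 1`, padded with zeros to at least 3 forms;
`gen_red`), descend to three forms by `nn_step` in a model over `ℚ`; in degree `t₁ ≥ 11` clear
denominators for the finitely many monomials (`D`), and make the identity universal by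
`universal`. -/
theorem nonempty_NN : Nonempty NN := by
  classical
  obtain ⟨K, _, _, ⟨M⟩⟩ := exists_model ℚ (by norm_num)
  have desc : ∀ N : ℕ, (∃ (y : Fin (3 + N) → (Ex →₀ ℤ)) (t1 : ℤ), (∀ i, Supp (y i) 1) ∧
      ∀ t ≥ t1, ∀ z ∈ exR0 M t, ∃ f : Fin (3 + N) → K, (∀ i, f i ∈ exR0 M (t - 1)) ∧
        z = ∑ i, ((y i).sum fun γ c => (c : K) * M.mon γ) * f i) →
      ∃ (y : Fin 3 → (Ex →₀ ℤ)) (t1 : ℤ), (∀ i, Supp (y i) 1) ∧
      ∀ t ≥ t1, ∀ z ∈ exR0 M t, ∃ f : Fin 3 → K, (∀ i, f i ∈ exR0 M (t - 1)) ∧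
        z = ∑ i, ((y i).sum fun γ c => (c : K) * M.mon γ) * f i := fun N => by
    induction N with
    | zero => exact id
    | succ N ih =>
      rintro ⟨y, t1, hy, h⟩
      exact ih (nn_step M (n := 3 + N) (by omega) y hy t1 h)
  obtain ⟨N, e, he⟩ := (finite_mon 1).fin_param
  have hem : ∀ j, Mon (e j) 1 := fun j => by
    have : e j ∈ Set.range e := ⟨j, rfl⟩
    rwa [he.2] at this
  obtain ⟨ℓ, t1, hℓ, h⟩ := desc N ⟨Fin.append (fun _ => 0) fun j => Finsupp.single (e j) 1, 11,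
    fun i => by
      refine Fin.addCases (fun i => ?_) (fun j => ?_) i
      · rw [Fin.append_left]; exact supp_iff.2 (zero_mem _)
      · rw [Fin.append_right]; exact supp_iff.2 (Finsupp.single_mem_supported _ _ (hem j)),
    fun t ht z hz => by
      refine (Submodule.span_le (p := JJ M _ t)).2 ?_ hz
      rintro _ ⟨a, ha, rfl⟩
      obtain ⟨γ, hγ, haγ⟩ := gen_red ht ha
      obtain ⟨j, rfl⟩ : γ ∈ Set.range e := by rw [he.2]; exact hγ
      have := mem_JJ (fun i : Fin (3 + N) =>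
        (Fin.append (fun _ : Fin 3 => (0 : Ex →₀ ℤ)) (fun j => Finsupp.single (e j) 1) i).sum
          fun γ c => (c : K) * M.mon γ) (Fin.natAdd 3 j) (mon_mem_exR0 M haγ)
      rw [Fin.append_right, Finsupp.sum_single_index (by simp), Int.cast_one, one_mul,
        ← M.mon_add, add_sub_cancel] at this
      exact this⟩
  obtain ⟨T, hT1, hT2⟩ : ∃ T : ℕ, t1 ≤ T ∧ 11 ≤ T := ⟨max t1.toNat 11, by omega, by omega⟩
  have : Fintype {a : Ex // Mon a T} := (finite_mon T).fintype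
  choose f hf hfe using fun a : {a : Ex // Mon a T} => h T hT1 _ (mon_mem_exR0 M a.2)
  choose D hD hDg using fun (a : {a : Ex // Mon a T}) (i : Fin 3) => clear M (hf a i)
  refine ⟨⟨ℓ, hℓ, ∏ a, ∏ i, D a i, Finset.prod_pos fun a _ => Finset.prod_pos fun i _ => hD a i,
    T, hT2, fun a ha => ?_⟩⟩
  set D' := ∏ a, ∏ i, D a i with hD'
  choose g hg hge using fun i => hDg ⟨a, ha⟩ i D'
    ((Finset.dvd_prod_of_mem _ (Finset.mem_univ i)).trans
      (Finset.dvd_prod_of_mem (fun a => ∏ i, D a i) (Finset.mem_univ _)))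
  refine ⟨g, hg, fun B _ Θ hΘ => ?_⟩
  let F : Ex →₀ ℤ := Finsupp.single a (D' : ℤ) -
    ∑ i, (ℓ i).sum fun γ z => (g i).sum fun b z' => Finsupp.single (γ + b) (z * z')
  have hF : ∀ (B : Type) [AddCommGroup B] (Θ : Ex → B), (F.sum fun a z => z • Θ a) =
      (D' : ℤ) • Θ a - ∑ i, (ℓ i).sum fun γ z => (g i).sum fun b z' => (z * z') • Θ (γ + b) :=
    fun B _ Θ => by
      rw [← Finsupp.linearCombination_apply]
      simp only [F, map_sub, map_sum, Finsupp.sum, Finsupp.linearCombination_single]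
  have hS : Supp F T := supp_iff.2 (sub_mem (Finsupp.single_mem_supported _ _ ha)
    (Submodule.sum_mem _ fun i _ => Submodule.sum_mem _ fun γ hγ =>
      Submodule.sum_mem _ fun b hb => Finsupp.single_mem_supported _ _ (by
        have := (hℓ i γ hγ).add (hg i b hb)
        rwa [add_sub_cancel] at this)))
  rw [← sub_eq_zero, ← hF]
  refine universal M hS ?_ B Θ hΘ
  rw [hF, hfe ⟨a, ha⟩, Finset.smul_sum, sub_eq_zero]
  refine Finset.sum_congr rfl fun i _ => ?_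
  rw [← mul_smul_comm, ← hge, Finsupp.linearCombination_apply, Finsupp.sum_mul]
  refine Finset.sum_congr rfl fun γ _ => ?_
  beta_reduce
  rw [Finsupp.mul_sum]
  refine Finset.sum_congr rfl fun b _ => ?_
  simp only [M.mon_add, zsmul_eq_mul, Int.cast_mul]
  ring

end Crest.Agent.R169
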