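import Crest.Agent.R169.EInd

/-! # R169 task ERep: from monomial representations to `Rep` -/

set_option autoImplicit false

namespace Crest.Agent.R169
open Module

theorem MonRep.map {k k' : Type} [Field k] [Field k'] (σ : k →+* k') {L : NN} {N : ℕ}
    (ϱ : MonRep k L N) : Nonempty (MonRep k' L N) := by
  let Φ : Matrix (Fin N) (Fin N) (PS k) →+* Matrix (Fin N) (Fin N) (PS k') :=
    (MvPowerSeries.map (σ := Fin 3) σ).mapMatrix
  refine ⟨{ Θ := fun a => Φ (ϱ.Θ a)
            tri := fun q c m h1 h2 => by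
              show Φ _ = Φ _ + Φ _
              rw [ϱ.tri q c m h1 h2, map_add]
            mul := fun a b s t ha hb => by rw [ϱ.mul a b s t ha hb, map_mul]
            one := by rw [ϱ.one, map_one]
            lin := fun i => ?_ }⟩
  have h := congrArg Φ (ϱ.lin i)
  rw [Finsupp.sum, map_sum] at h
  simp only [map_zsmul] at h
  rw [Finsupp.sum, h]
  ext1 a b
  simp only [Φ, RingHom.mapMatrix_apply, Matrix.map_apply, Matrix.smul_apply, Matrix.one_apply,
    smul_eq_mul]
  split_ifs <;> simp

variable {k K : Type} [Field k] [Field K] [Algebra k K] [Algebra (KA k) K]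
  [IsScalarTower k (KA k) K]

/-- `Θ t a = T_t (Z^t a)` with `T_t` from `exists_lin_ext M t _ ϱ.Θ`; `mul` by bilinearity on monomials;
`Z · x_i = ℓ_i`. -/
theorem MonRep.rep (M : Model k K) (L : NN) (hC : Compat M L) (B : Base k K) (hB : B.R = exR M L)
    {N : ℕ} (ϱ : MonRep k L N) : Nonempty (Rep B N) := by
  have hZ : lf M L 2 ≠ 0 := hC.1
  choose T hT using fun m : ℤ =>
    exists_lin_ext M m (Matrix (Fin N) (Fin N) (PS k)) ϱ.Θ ϱ.tri
  have hmul : ∀ s t : ℤ, ∀ a ∈ exR0 M s, ∀ b ∈ exR0 M t, T (s + t) (a * b) = T s a * T t b := by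
    intro s t a ha b hb
    induction ha using Submodule.span_induction with
    | zero => simp
    | add x y _ _ hx hy => rw [add_mul, map_add, map_add, add_mul, hx, hy]
    | smul c x _ hx => rw [smul_mul_assoc, map_smul, map_smul, smul_mul_assoc, hx]
    | mem x hx =>
      obtain ⟨a, ha, rfl⟩ := hx
      induction hb using Submodule.span_induction with
      | zero => simp
      | add x y _ _ hx hy => rw [mul_add, map_add, map_add, mul_add, hx, hy]
      | smul c x _ hx => rw [mul_smul_comm, map_smul, map_smul, mul_smul_comm, hx]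
      | mem y hy =>
        obtain ⟨b, hb, rfl⟩ := hy
        rw [← M.mon_add, hT _ _ (ha.add hb), hT _ _ ha, hT _ _ hb, ϱ.mul a b s t ha hb]
  have hlf : ∀ i : Fin 3, T 1 (lf M L i) = (MvPowerSeries.X i : PS k) • 1 := by
    intro i
    rw [← ϱ.lin i, lf, Finsupp.sum, Finsupp.sum, map_sum]
    refine Finset.sum_congr rfl fun γ hγ => ?_
    rw [← zsmul_eq_mul, map_zsmul, hT 1 γ (L.supp i γ hγ)]
  refine ⟨{ Θ := fun t a => T t (lf M L 2 ^ t * a)
            add := fun t a _ b _ => by rw [mul_add, map_add]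
            smul := fun t c a _ => by rw [mul_smul_comm, map_smul]
            mul := fun s t a ha b hb => ?_
            one := ?_
            hx := fun i => ?_
            hz := ?_ }⟩
  · rw [hB, mem_exR M L hZ] at ha hb
    rw [← hmul s t _ ha _ hb, zpow_add₀ hZ]
    congr 1
    ring
  · rw [zpow_zero, mul_one, ← M.mon_zero, hT 0 0 (mon_zero_iff.2 rfl), ϱ.one]
  · rw [hC.2 i, zpow_one, mul_div_cancel₀ _ hZ, hlf]
  · rw [zpow_one, mul_one, hlf]

end Crest.Agent.R169
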