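import Crest.Agent.R169.EBase
import Crest.Agent.R169.EJac
import Crest.Agent.R169.ECover

/-! # R169 task ESetup: the example as a `Setup` -/

set_option autoImplicit false

namespace Crest.Agent.R169
open Module

variable {k K : Type} [Field k] [Field K] [Algebra k K] [Algebra (KA k) K]
  [IsScalarTower k (KA k) K]

theorem exists_setup (M : Model k K) (L : NN) (hC : Compat M L) (hD : (L.D : k) ≠ 0)
    (B : Base k K) (hB : B.R = exR M L) (p : ℕ) [Fact p.Prime] [CharP K p] (hp2 : p ≠ 2)
    (hp7 : p ≠ 7) (perf : ∀ c : k, ∃ d : k, d ^ p = c) :
    ∃ S : Setup k K p, S.toBase = B ∧ S.σ = 4459 ∧ S.c' = 15 := by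
  have hZ : lf M L 2 ≠ 0 := hC.1
  obtain ⟨q, hq⟩ : Odd p := (Fact.out : p.Prime).odd_of_ne_two hp2
  have hrk : rk k K = 1715 := by
    unfold rk
    rw [rk_ex M L hC hD]
    norm_num
  have hu := chart_units M L hZ B hB
  refine ⟨{ toBase := B
            perf := perf
            κ := 5
            t0 := -(5 * q)
            ht0 := by rw [hq]; push_cast; ring
            σ := 4459
            hpR := ?_
            nα := 15
            nα_pos := by norm_num
            c := 3
            g := exg M L
            g_mem := fun α => (hu α).1
            g_ne := fun α => (hu α).2.1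
            cover := ?_
            τ := exτ M L
            u := exu M
            v := exv M
            ε := exε M L
            τ_ne := fun α => (hu α).2.2.1
            ε_ne := fun α => (hu α).2.2.2.1
            τ_mem := fun α => (hu α).2.2.2.2.1
            τ_inv := fun α => (hu α).2.2.2.2.2.1
            u_mem := fun α => (hu α).2.2.2.2.2.2.1
            v_mem := fun α => (hu α).2.2.2.2.2.2.2.1
            ε_mem := fun α => (hu α).2.2.2.2.2.2.2.2.1
            ε_inv := fun α => (hu α).2.2.2.2.2.2.2.2.2
            span := chart_span M L hZ B hB p hp7 perf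
            D := exD M L
            c' := 15
            D_mem := fun i t => by rw [hB]; exact exD_mem M L hZ i t
            j0 := exj0 M L
            j0_ne := exj0_ne M L hZ
            jac := ex_jac M L hZ }, rfl, rfl, rfl⟩
  · rw [hB, hrk]
    convert hasHP_exR M L hC using 1 <;> norm_num
  · rw [hB]
    exact ex_cover M L hC

end Crest.Agent.R169
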