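import Crest.Agent.R169.EBasic

/-! # R169 task EStr: straightening, and finite generation over the linear forms -/

set_option autoImplicit false

namespace Crest.Agent.R169
open Module

namespace ESTR

def wt (a : Ex) : ℤ := a 1 + a 2 + a 5 + a 6 + a 8

theorem wt_add (a b : Ex) : wt (a + b) = wt a + wt b := by simp [wt]; ring

theorem tab : ∀ q : Fin 5, quad q 0 ≠ quad q 1 ∧
    wt (e7 (quad q 2) (quad q 3)) < wt (e7 (quad q 0) (quad q 1)) ∧
    wt (e7 (quad q 4) (quad q 5)) < wt (e7 (quad q 0) (quad q 1)) ∧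
    (∀ e, 0 ≤ e7 (quad q 2) (quad q 3) e) ∧ (∀ e, 0 ≤ e7 (quad q 4) (quad q 5) e) := by
  decide +kernel

end ESTR

/-- Induction on `a 1 + a 2 + a 5 + a 6 + a 8` (the diagonals): if `a` is not standard,
`a = c + e7 (quad q 0) (quad q 1)` with `Pos c`, and the two other terms have smaller weight. -/
theorem straighten {a : Ex} {m : ℤ} (ha : Mon a m) : ∃ f : Ex →₀ ℤ,
    (∀ b ∈ f.support, Mon b m ∧ Std b) ∧
    ∀ (B : Type) [AddCommGroup B] (Θ : Ex → B), Tri Θ → Θ a = f.sum fun b z => z • Θ b := by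
  classical
  induction hn : (ESTR.wt a).toNat using Nat.strong_induction_on generalizing a with
  | _ n ih =>
  by_cases hs : Std a
  · refine ⟨Finsupp.single a 1, fun b hb => ?_, fun B _ Θ _ => ?_⟩
    · rw [Finsupp.support_single _ one_ne_zero, Finset.mem_singleton] at hb
      rw [hb]; exact ⟨ha, hs⟩
    · rw [Finsupp.sum_single_index (by simp), one_smul]
  · unfold Std at hs
    push Not at hs
    obtain ⟨q, h0, h1⟩ := hs
    obtain ⟨hne, w1, w2, p1, p2⟩ := ESTR.tab q
    obtain ⟨v1, v2⟩ := vs_quad q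
    set c := a - e7 (quad q 0) (quad q 1) with hc
    have hac : a = c + e7 (quad q 0) (quad q 1) := by rw [hc, sub_add_cancel]
    have hpos : Pos c := by
      intro e
      have := ha.1 e
      rw [hc, Pi.sub_apply, e7, Pi.add_apply]
      by_cases e0 : e = quad q 0
      · rw [e0, Pi.single_eq_same, Pi.single_eq_of_ne hne]; omega
      by_cases e1 : e = quad q 1
      · rw [e1, Pi.single_eq_same, Pi.single_eq_of_ne hne.symm]; omega
      · rw [Pi.single_eq_of_ne e0, Pi.single_eq_of_ne e1]; omega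
    have hwc : 0 ≤ ESTR.wt c := by
      have := hpos 1
      have := hpos 2
      have := hpos 5
      have := hpos 6
      have := hpos 8
      unfold ESTR.wt; omega
    have gen : ∀ u : Ex, vs u = vs (e7 (quad q 0) (quad q 1)) → (∀ e, 0 ≤ u e) →
        ESTR.wt u < ESTR.wt (e7 (quad q 0) (quad q 1)) →
        Mon (c + u) m ∧ (ESTR.wt (c + u)).toNat < n := by
      intro u hv hp hw
      refine ⟨⟨fun e => add_nonneg (hpos e) (hp e), fun i => ?_⟩, ?_⟩
      · rw [vs_add, hv, ← vs_add, ← hac]; exact ha.2 i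
      · have hu : 0 ≤ ESTR.wt u := by
          have := hp 1
          have := hp 2
          have := hp 5
          have := hp 6
          have := hp 8
          unfold ESTR.wt; omega
        rw [← hn, hac, ESTR.wt_add, ESTR.wt_add]; omega
    obtain ⟨m1, l1⟩ := gen _ v1 p1 w1
    obtain ⟨m2, l2⟩ := gen _ v2 p2 w2
    obtain ⟨f1, s1, t1⟩ := ih _ l1 m1 rfl
    obtain ⟨f2, s2, t2⟩ := ih _ l2 m2 rfl
    refine ⟨f1 + f2, fun b hb => ?_, fun B _ Θ hΘ => ?_⟩
    · rcases Finset.mem_union.1 (Finsupp.support_add hb) with h | h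
      · exact s1 b h
      · exact s2 b h
    · rw [Finsupp.sum_add_index' (by simp) (fun _ _ _ => add_smul _ _ _), ← t1 B Θ hΘ,
        ← t2 B Θ hΘ, hac]
      exact hΘ q c m hpos (hac ▸ ha.2)

variable {k K : Type} [Field k] [Field K] [Algebra k K]

theorem exR0_eq_span_std (M : Model k K) (t : ℤ) :
    exR0 M t = Submodule.span k {z | ∃ a, (Mon a t ∧ Std a) ∧ z = M.mon a} := by
  apply le_antisymm
  · refine Submodule.span_le.2 ?_
    rintro _ ⟨a, ha, rfl⟩
    obtain ⟨f, hf, e⟩ := straighten ha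
    rw [e K M.mon M.tri]
    refine Submodule.sum_mem _ fun b hb => zsmul_mem (Submodule.subset_span ?_) _
    exact ⟨b, hf b hb, rfl⟩
  · exact Submodule.span_mono fun _ ⟨a, ha, h⟩ => ⟨a, ha.1, h⟩

theorem ESTR.split_mon (M : Model k K) (L : NN) (hD : (L.D : k) ≠ 0) (n : ℕ) {a : Ex}
    (ha : Mon a (L.t1 + n)) :
    ∃ f : Fin 3 → K, (∀ i, f i ∈ exR0 M (L.t1 + n - 1)) ∧ M.mon a = ∑ i, lf M L i * f i := by
  induction n generalizing a with
  | zero =>
    simp only [Nat.cast_zero, add_zero] at ha ⊢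
    obtain ⟨f, hf, e⟩ := L.cert a ha
    have e' := e K M.mon M.tri
    refine ⟨fun i => (L.D : k)⁻¹ • (f i).sum fun b z => z • M.mon b, fun i => ?_, ?_⟩
    · exact Submodule.smul_mem _ _ (Submodule.sum_mem _ fun b hb =>
        zsmul_mem (mon_mem_exR0 M (hf i b hb)) _)
    · have : M.mon a = (L.D : k)⁻¹ • ((L.D : ℤ) • M.mon a) := by
        rw [natCast_zsmul, ← Nat.cast_smul_eq_nsmul k, smul_smul, inv_mul_cancel₀ hD, one_smul]
      rw [this, e', Finset.smul_sum]
      refine Finset.sum_congr rfl fun i _ => ?_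
      rw [mul_smul_comm]
      congr 1
      simp only [lf, Finsupp.sum, Finset.sum_mul_sum, M.mon_add, zsmul_eq_mul]
      refine Finset.sum_congr rfl fun γ _ => Finset.sum_congr rfl fun b _ => ?_
      push_cast; ring
  | succ n ih =>
    have h11 := L.t1_ge
    obtain ⟨γ, hγ, hr⟩ := gen_red (by push_cast; omega) ha
    have e1 : ((L.t1 : ℤ) + (n + 1 : ℕ) - 1) = L.t1 + n := by push_cast; ring
    rw [e1] at hr ⊢
    obtain ⟨f, hf, e⟩ := ih hr
    refine ⟨fun i => M.mon γ * f i, fun i => ?_, ?_⟩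
    · have := exR0_mul M (mon_mem_exR0 M hγ) (hf i)
      convert this using 2
      ring
    · have : a = γ + (a - γ) := by abel
      rw [this, M.mon_add, e, Finset.mul_sum]
      exact Finset.sum_congr rfl fun i _ => by ring

/-- `R₀(t) = ∑ ℓ_i R₀(t-1)` for `t ≥ t₁`: `L.cert` with `Θ = M.mon` in degree `t₁`, then `gen_red`. -/
theorem exR0_split (M : Model k K) (L : NN) (hD : (L.D : k) ≠ 0) {t : ℤ} (ht : (L.t1 : ℤ) ≤ t)
    {z : K} (hz : z ∈ exR0 M t) :
    ∃ f : Fin 3 → K, (∀ i, f i ∈ exR0 M (t - 1)) ∧ z = ∑ i, lf M L i * f i := by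
  obtain ⟨n, rfl⟩ := Int.le.dest ht
  induction hz using Submodule.span_induction with
  | mem x hx =>
    obtain ⟨a, ha, rfl⟩ := hx
    exact ESTR.split_mon M L hD n ha
  | zero => exact ⟨0, fun _ => Submodule.zero_mem _, by simp⟩
  | add x y _ _ hx hy =>
    obtain ⟨f, hf, rfl⟩ := hx
    obtain ⟨g, hg, rfl⟩ := hy
    exact ⟨f + g, fun i => Submodule.add_mem _ (hf i) (hg i), by
      simp [mul_add, Finset.sum_add_distrib]⟩
  | smul c x _ hx =>
    obtain ⟨f, hf, rfl⟩ := hx
    exact ⟨c • f, fun i => Submodule.smul_mem _ _ (hf i), by simp [Finset.smul_sum]⟩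

/-- induction on `t` from `exR0_split` -/
theorem exR0_eq_gen (M : Model k K) (L : NN) (hD : (L.D : k) ≠ 0) (t : ℤ) :
    exR0 M t = Submodule.span k {z | ∃ (g : Gen L) (e : ℕ) (F : MvPolynomial (Fin 3) k),
      F.IsHomogeneous e ∧ (e : ℤ) + g.1.2 = t ∧ z = MvPolynomial.aeval (lf M L) F * M.mon g.1.1} := by
  apply le_antisymm
  · have low : ∀ t : ℤ, t < L.t1 → exR0 M t ≤ Submodule.span k {z | ∃ (g : Gen L) (e : ℕ)
        (F : MvPolynomial (Fin 3) k), F.IsHomogeneous e ∧ (e : ℤ) + g.1.2 = t ∧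
          z = MvPolynomial.aeval (lf M L) F * M.mon g.1.1} := by
      intro t ht
      refine Submodule.span_mono ?_
      rintro _ ⟨a, ha, rfl⟩
      exact ⟨⟨(a, t), ha, ht⟩, 0, 1, MvPolynomial.isHomogeneous_one _ _, by simp, by simp⟩
    by_cases ht : t < L.t1
    · exact low t ht
    obtain ⟨n, rfl⟩ := Int.le.dest (show (L.t1 : ℤ) - 1 ≤ t by omega)
    clear ht
    induction n with
    | zero => exact low _ (by simp)
    | succ n ih =>
      intro z hz
      obtain ⟨f, hf, rfl⟩ := exR0_split M L hD (by push_cast; omega) hz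
      refine Submodule.sum_mem _ fun i _ => ?_
      have e1 : ((L.t1 : ℤ) - 1 + (n + 1 : ℕ) - 1) = L.t1 - 1 + n := by push_cast; ring
      have h := hf i
      rw [e1] at h
      have h' := ih h
      generalize f i = w at h'
      induction h' using Submodule.span_induction with
      | mem x hx =>
        obtain ⟨g, e, F, hF, he, rfl⟩ := hx
        refine Submodule.subset_span ⟨g, 1 + e, MvPolynomial.X i * F,
          (MvPolynomial.isHomogeneous_X k i).mul hF, by push_cast; omega, ?_⟩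
        rw [map_mul, MvPolynomial.aeval_X, mul_assoc]
      | zero => simp
      | add x y _ _ hx hy => rw [mul_add]; exact Submodule.add_mem _ hx hy
      | smul c x _ hx => rw [mul_smul_comm]; exact Submodule.smul_mem _ _ hx
  · refine Submodule.span_le.2 ?_
    rintro _ ⟨g, e, F, hF, rfl, rfl⟩
    exact exR0_mul M (aeval_lf_mem M L hF) (mon_mem_exR0 M g.2.1)

end Crest.Agent.R169
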