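import Crest.Agent.R169.L3

/-! # R169 task L4: Langton's argument -/

set_option autoImplicit false

namespace Crest.Agent.R169
open Module

theorem L4_rn {k V V' : Type} [Field k] [AddCommGroup V] [Module k V] [AddCommGroup V']
    [Module k V'] (g : V →ₗ[k] V') (A : Submodule k V) [FiniteDimensional k A] :
    finrank k A = finrank k (A ⊓ LinearMap.ker g : Submodule k V) + finrank k (A.map g) := by
  have h := LinearMap.finrank_range_add_finrank_ker (g.domRestrict A)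
  rw [LinearMap.range_domRestrict, LinearMap.ker_domRestrict,
    ← Submodule.finrank_map_subtype_eq A, Submodule.map_comap_subtype] at h
  omega

theorem L4_equiv {k V V1 V2 : Type} [Field k] [AddCommGroup V] [Module k V] [AddCommGroup V1]
    [Module k V1] [AddCommGroup V2] [Module k V2] (C : Submodule k V) (f : V →ₗ[k] V1)
    (g : V →ₗ[k] V2) (h : ∀ m ∈ C, f m = 0 ↔ g m = 0) :
    Nonempty (C.map f ≃ₗ[k] C.map g) := by
  have hk : LinearMap.ker (f.domRestrict C) = LinearMap.ker (g.domRestrict C) := by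
    ext m
    simpa using h m.1 m.2
  exact ⟨(LinearEquiv.ofEq _ _ (LinearMap.range_domRestrict C f)).symm ≪≫ₗ
    (f.domRestrict C).quotKerEquivRange.symm ≪≫ₗ Submodule.quotEquivOfEq _ _ hk ≪≫ₗ
    (g.domRestrict C).quotKerEquivRange ≪≫ₗ
    LinearEquiv.ofEq _ _ (LinearMap.range_domRestrict C g)⟩

theorem L4_add {k V : Type} [Field k] [AddCommGroup V] [Module k V] {A B C : Submodule k V}
    (hAB : A ≤ B) (hBC : B ≤ C) [FiniteDimensional k (C.map B.mkQ)]
    [FiniteDimensional k (B.map A.mkQ)] :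
    finrank k (C.map A.mkQ) = finrank k (B.map A.mkQ) + finrank k (C.map B.mkQ) := by
  let g : (V ⧸ A) →ₗ[k] (V ⧸ B) := Submodule.mapQ A B LinearMap.id hAB
  have h1 : (C.map A.mkQ).map g = C.map B.mkQ := by
    rw [← Submodule.map_comp]; rfl
  have h2 : C.map A.mkQ ⊓ LinearMap.ker g = B.map A.mkQ := by
    apply le_antisymm
    · rintro _ ⟨⟨m, -, rfl⟩, hm⟩
      refine ⟨m, ?_, rfl⟩
      have : B.mkQ m = 0 := hm
      simpa using this
    · rintro _ ⟨m, hm, rfl⟩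
      refine ⟨⟨m, hBC hm, rfl⟩, ?_⟩
      show B.mkQ m = 0
      simpa using hm
  have hfg : (C.map A.mkQ).FG := by
    refine Submodule.fg_of_fg_map_of_fg_inf_ker g ?_ ?_
    · rw [h1]; exact (Submodule.fg_iff_finiteDimensional _).2 inferInstance
    · rw [h2]; exact (Submodule.fg_iff_finiteDimensional _).2 inferInstance
  have : FiniteDimensional k (C.map A.mkQ) := (Submodule.fg_iff_finiteDimensional _).1 hfg
  rw [L4_rn g (C.map A.mkQ), h1, h2]

variable {k K : Type} [Field k] [Field K] [Algebra k K] [Algebra (KA k) K]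
  [IsScalarTower k (KA k) K]

variable {B : Base k K} {N : ℕ}

/-- elementary modification `F' t = {m ∈ F t | π t m ∈ W}`, `F (t+1) ≤ F' t ≤ F t` -/
theorem Emb.modify {ϱ : Rep B N} {F : Fam k (Fin N → PS k)} (hF : GoodFil ϱ F) {ρ : ℕ}
    {π : ℤ → (Fin N → PS k) →ₗ[k] (Fin ρ → K)} (H : Emb ϱ F π) (W : Submodule K (Fin ρ → K)) :
    ∃ F', GoodFil ϱ F' ∧ ∀ t, gF F' t = hf (cut (fun t => (F t).map (π t)) W) t +
      (hf (fun t => (F t).map (π t)) (t + 1) - hf (cut (fun t => (F t).map (π t)) W) (t + 1)) := by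
  let W' : Submodule k (Fin ρ → K) := W.restrictScalars k
  let F' : Fam k (Fin N → PS k) := fun t => F t ⊓ W'.comap (π t)
  have hle : ∀ t, F (t + 1) ≤ F' t := fun t m hm => by
    have h1 := hF.xfil.anti t hm
    refine ⟨h1, ?_⟩
    show π t m ∈ W
    rw [(H.ker t m h1).2 hm]; exact W.zero_mem
  have hle' : ∀ t, F' t ≤ F t := fun t => inf_le_left
  have hW : ∀ (a : KA k) (v : Fin ρ → K), v ∈ W → a • v ∈ W := fun a v hv => by
    rw [← algebraMap_smul K a v]; exact W.smul_mem _ hv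
  obtain ⟨c, hc⟩ := hF.xfil.bd
  refine ⟨F', ⟨⟨fun t => (hle' _).trans (hle t), ?_, c + 1, fun t => ⟨?_, ?_⟩⟩, ?_, ?_⟩, ?_⟩
  · rintro i t m ⟨hm, hm'⟩
    refine ⟨hF.xfil.xs i t m hm, ?_⟩
    have := H.smul (MvPolynomial.isHomogeneous_X k i) hm
    simp only [Nat.cast_one, MvPolynomial.coe_X] at this
    show π (t + 1) _ ∈ W
    rw [this]
    exact hW _ _ hm'
  · refine le_trans ?_ (hle t)
    have := (hc (t + 1)).1
    rwa [show t + 1 + c = t + ((c + 1 : ℕ) : ℤ) by push_cast; ring] at this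
  · exact (hle' t).trans ((hc t).2.trans (ordF_anti (by push_cast; omega)))
  · rintro s t a ha m ⟨hm, hm'⟩
    refine ⟨hF.stab s t a ha m hm, ?_⟩
    show π (s + t) _ ∈ W
    rw [H.equiv s t a ha m hm]
    exact W.smul_mem _ hm'
  · rintro e t f hf0 hfe m ⟨hm, hm'⟩
    have h1 := hF.sat e t f hf0 hfe m hm
    refine ⟨h1, ?_⟩
    have h2 : π (t + e) ((f : PS k) • m) ∈ W := hm'
    rw [H.smul hfe h1] at h2
    have h3 : deh f ≠ 0 := fun h => hf0 (deh_inj hfe h)
    have h4 := hW (deh f)⁻¹ _ h2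
    rwa [smul_smul, inv_mul_cancel₀ h3, one_smul] at h4
  · intro t
    have hlat := (H.rlat hF).1
    have f1 : ∀ s, FiniteDimensional k ((F s).map (π s)) := fun s => hlat.fin s
    obtain ⟨e1⟩ := L4_equiv (F' t) (F (t + 1)).mkQ (π t) fun m hm => by
      rw [H.ker t m (hle' t hm)]; simp
    obtain ⟨e2⟩ := L4_equiv (F (t + 1)) (F' (t + 1)).mkQ (W'.mkQ ∘ₗ π (t + 1)) fun m hm => by
      simp only [Submodule.mkQ_apply, Submodule.Quotient.mk_eq_zero, LinearMap.comp_apply]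
      exact ⟨fun h => h.2, fun h => ⟨hm, h⟩⟩
    have m1 : (F' t).map (π t) = (F t).map (π t) ⊓ W' :=
      (Submodule.map_inf_eq_map_inf_comap).symm
    have m2 : (F (t + 1)).map (W'.mkQ ∘ₗ π (t + 1)) = ((F (t + 1)).map (π (t + 1))).map W'.mkQ :=
      Submodule.map_comp _ _ _
    have : FiniteDimensional k ((F' t).map (π t)) := by rw [m1]; infer_instance
    have : FiniteDimensional k ((F (t + 1)).map (W'.mkQ ∘ₗ π (t + 1))) := by
      rw [m2]; infer_instance
    have := e1.symm.finiteDimensional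
    have := e2.symm.finiteDimensional
    have r1 := L4_add (hle' (t + 1)) (hle t)
    have r2 := L4_rn W'.mkQ ((F (t + 1)).map (π (t + 1)))
    rw [Submodule.ker_mkQ] at r2
    rw [e1.finrank_eq, e2.finrank_eq, m1, m2] at r1
    show ((finrank k ((F' t).map (F' (t + 1)).mkQ) : ℕ) : ℚ) =
      (finrank k ((F t).map (π t) ⊓ W' : Submodule k _) : ℚ) +
        ((finrank k ((F (t + 1)).map (π (t + 1))) : ℚ) -
          (finrank k ((F (t + 1)).map (π (t + 1)) ⊓ W' : Submodule k _) : ℚ))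
    rw [r1, r2]
    push_cast
    ring

theorem L4_val {ϱ : Rep B N} (hN : 0 < N) {F : Fam k (Fin N → PS k)} (hF : GoodFil ϱ F) :
    ∃ (n : ℕ) (b c : ℚ), HasHP (gF F) (N / 2) b c ∧ (n : ℚ) = 8 * N * c - 4 * b ^ 2 + N ^ 2 := by
  obtain ⟨b, c, h1, h2, ⟨z, hz⟩, ⟨w, hw⟩⟩ := hF.xfil.hasHP hN
  have hN' : (0 : ℚ) < N := by exact_mod_cast hN
  have h3 : 0 ≤ 8 * N * c - 4 * b ^ 2 + N ^ 2 := by
    have : c - b ^ 2 / (2 * N) + N / 8 = (8 * N * c - 4 * b ^ 2 + N ^ 2) / (8 * N) := by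
      field_simp; ring
    have h4 : 0 ≤ (8 * N * c - 4 * b ^ 2 + N ^ 2) / (8 * N) := by rw [← this]; linarith
    exact (div_nonneg_iff.1 h4).elim (fun h => h.1) fun h => by linarith [h.2]
  have h5 : 8 * N * c - 4 * b ^ 2 + N ^ 2 = ((8 * N * w - z ^ 2 + N ^ 2 : ℤ) : ℚ) := by
    push_cast; rw [← hw, ← hz]; ring
  have h6 : 0 ≤ (8 * N * w - z ^ 2 + N ^ 2 : ℤ) := by rw [h5] at h3; exact_mod_cast h3
  obtain ⟨n, hn⟩ := Int.eq_ofNat_of_zero_le h6
  exact ⟨n, b, c, h1, by rw [h5, hn]; simp⟩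

/-- Among good filtrations minimise `c - b²/(2N)` (bounded below by `-N/8`, `8N ·` it is an integer).
For the minimiser with `E = gr`, `a = ha E = N/2 = rρ/2`, `S = cut E W`, `d = dim W`: `modify` has
`b' = b + 2a_Q`, `c' = c + a_Q + b_Q` (`a_Q = r(ρ-d)/2`, `b_Q = b - hb S`), and
`disc' - disc = d(ρ-d)r/(2ρ) + d b/ρ - hb S ≥ 0` is `Semi`. -/
theorem langton (ϱ : Rep B N) (hN : 0 < N) : ∃ ρ : ℕ, 0 < ρ ∧ ∃ E : Fam k (Fin ρ → K),
    RLat B E ∧ Full E ∧ Semi k K E ∧ -ha E / 4 ≤ disc E := by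
  classical
  let P : ℕ → Prop := fun n => ∃ (F : Fam k (Fin N → PS k)) (b c : ℚ), GoodFil ϱ F ∧
    HasHP (gF F) (N / 2) b c ∧ (n : ℚ) = 8 * N * c - 4 * b ^ 2 + N ^ 2
  have hP : ∃ n, P n := by
    obtain ⟨F, hF⟩ := ϱ.exists_goodFil
    obtain ⟨n, b, c, h1, h2⟩ := L4_val hN hF
    exact ⟨n, F, b, c, hF, h1, h2⟩
  obtain ⟨F, b, c, hF, h1, h2⟩ := Nat.find_spec hP
  obtain ⟨ρ, π, H⟩ := hF.exists_emb
  have hN' : (0 : ℚ) < N := by exact_mod_cast hN
  set E : Fam k (Fin ρ → K) := fun t => (F t).map (π t) with hE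
  have hR : RLat B E := H.rlat hF
  have hfull : Full E := H.full
  have hhp : HasHP (hf E) (N / 2) b c := by rw [hE, H.hf_eq hF]; exact h1
  obtain ⟨ea, eb, ec⟩ := hhp.coeffs
  have ha1 := hR.ha_full hfull
  rw [ea, Module.finrank_fin_fun] at ha1
  have hNr : (N : ℚ) = rk k K * ρ := by linarith
  have hρ : 0 < ρ := by
    rcases Nat.eq_zero_or_pos ρ with h | h
    · rw [h] at hNr; simp at hNr; omega
    · exact h
  have hρ' : (0 : ℚ) < ρ := by exact_mod_cast hρ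
  have hr : (0 : ℚ) < rk k K := lt_of_lt_of_le one_pos B.rk_pos
  refine ⟨ρ, hρ, E, hR, hfull, fun W => ?_, ?_⟩
  · obtain ⟨F', hF', hg⟩ := H.modify hF W
    obtain ⟨n', b', c', h1', h2'⟩ := L4_val hN hF'
    have hmin : Nat.find hP ≤ n' := Nat.find_min' hP ⟨F', b', c', hF', h1', h2'⟩
    have hmin' : ((Nat.find hP : ℕ) : ℚ) ≤ n' := by exact_mod_cast hmin
    have hS := (hR.cut W).1.hasHP
    have haS := hR.ha_cut hfull W
    set S := cut E W
    have h3 : HasHP (gF F') (N / 2) (b + 2 * (N / 2 - ha S))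
        (c + N / 2 + b - ha S - hb S) := by
      obtain ⟨t1, ht1⟩ := hhp
      obtain ⟨t2, ht2⟩ := hS
      refine ⟨max t1 t2, fun t ht => ?_⟩
      have a1 := le_trans (le_max_left _ _) ht
      have a2 := le_trans (le_max_right _ _) ht
      rw [hg t, ht2 t a2, ht2 (t + 1) (by omega), ht1 (t + 1) (by omega)]
      push_cast
      ring
    obtain ⟨-, eb', ec'⟩ := h1'.unique h3
    rw [h2, h2', eb', ec', haS, hNr] at hmin'
    rw [eb]
    set d : ℚ := (finrank K W : ℚ)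
    set r : ℚ := rk k K
    have key : d * b / ρ + d * (ρ - d) * r / (2 * ρ) - hb S =
        ((8 * (r * ρ) * (c + r * ρ / 2 + b - r * d / 2 - hb S) -
          4 * (b + 2 * (r * ρ / 2 - r * d / 2)) ^ 2 + (r * ρ) ^ 2) -
        (8 * (r * ρ) * c - 4 * b ^ 2 + (r * ρ) ^ 2)) / (8 * (r * ρ)) := by
      field_simp; ring
    have : 0 ≤ d * b / ρ + d * (ρ - d) * r / (2 * ρ) - hb S := by
      rw [key]; exact div_nonneg (by linarith) (by positivity)
    linarith
  · have h3 : (0 : ℚ) ≤ 8 * N * c - 4 * b ^ 2 + N ^ 2 := by rw [← h2]; positivity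
    have : c - b ^ 2 / (4 * (N / 2)) + N / 2 / 4 = (8 * N * c - 4 * b ^ 2 + N ^ 2) / (8 * N) := by
      field_simp; ring
    have h4 : 0 ≤ (8 * N * c - 4 * b ^ 2 + N ^ 2) / (8 * N) := by positivity
    unfold disc
    rw [ea, eb, ec]
    linarith

end Crest.Agent.R169
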