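import Crest.Agent.R169.Defs3

/-! # R169 task UBasic: `ℂ` embeds in an ultraproduct of perfect fields of large characteristic -/

set_option autoImplicit false

namespace Crest.Agent.R169
open Module

theorem UBasic_jac : IsJacobsonRing ℤ := by
  rw [isJacobsonRing_iff_prime_eq]
  intro P hP
  by_cases h : P = ⊥
  · subst h
    refine eq_bot_iff.2 fun x hx => ?_
    have h1 := Int.isUnit_iff.1 (Ideal.mem_jacobson_bot.1 hx x)
    have h2 := mul_self_nonneg x
    have h3 : x * x = 0 := by omega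
    simpa using h3
  · have := hP.isMaximal h
    exact Ideal.jacobson_eq_self_of_isMaximal

theorem UBasic_field (F : Type) [Field F] [inst : Algebra ℤ F] [Algebra.FiniteType ℤ F] (n : ℕ)
    (hn : (n.factorial : F) ≠ 0) :
    ∃ p : ℕ, p.Prime ∧ CharP F p ∧ n < p ∧ ∀ c : F, ∃ d : F, d ^ p = c := by
  obtain rfl : inst = Ring.toIntAlgebra F := Subsingleton.elim _ _
  have := UBasic_jac
  have hfin : Module.Finite ℤ F := finite_of_finite_type_of_isJacobsonRing ℤ F
  obtain ⟨p, hp⟩ := CharP.exists F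
  rcases CharP.char_is_prime_or_zero F p with hpp | rfl
  · have : Finite F := by
      refine Module.finite_of_fg_torsion F fun x => ⟨⟨(p : ℤ), ?_⟩, ?_⟩
      · exact mem_nonZeroDivisors_of_ne_zero (by exact_mod_cast hpp.ne_zero)
      · simp [Submonoid.smul_def]
    have : Fact p.Prime := ⟨hpp⟩
    refine ⟨p, hpp, hp, ?_, fun c => ?_⟩
    · by_contra h
      exact hn ((CharP.cast_eq_zero_iff F p _).2 (Nat.dvd_factorial hpp.pos (not_lt.1 h)))
    · exact Finite.surjective_of_injective (frobenius_inj F p) c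
  · have : CharZero F := CharP.charP_to_charZero F
    exact absurd (isField_of_isIntegral_of_isField (R := ℤ) (S := F)
      (algebraMap ℤ F).injective_int (Field.toIsField F)) Int.not_isField

/-- the subring attached to a finite set -/
noncomputable def UBasic_A (n0 : ℕ) (s : Finset ℂ) : Subalgebra ℤ ℂ :=
  Algebra.adjoin ℤ (insert (((s.card + n0).factorial : ℂ)⁻¹) (s : Set ℂ))

/-- Sketch.  `J = Finset ℂ`, `U = Ultrafilter.of atTop`.  For `s` let `n = s.card + n0`,
`A_s = Algebra.adjoin ℤ (insert ((n! : ℂ)⁻¹) s)` (finite type over `ℤ`), `𝔪_s` a maximal ideal; `A_s/𝔪_s` is a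
finite field (`finite_of_finite_type_of_isJacobsonRing`; `ℚ` is not of finite type / a field finite
over `ℤ` has positive characteristic), hence perfect, of prime characteristic `p > n` (`n!` is a unit).
`c ↦ [s ↦ if c ∈ A_s then mk c else 0]` is a ring map since `c, c' ∈ s` eventually. -/
theorem exists_ultra (n0 : ℕ) : ∃ (J : Type) (U : Ultrafilter J) (k : J → Type)
    (_ : ∀ j, Field (k j)) (p : J → ℕ),
    (∀ j, (p j).Prime ∧ CharP (k j) (p j) ∧ n0 < p j ∧ ∀ c : k j, ∃ d : k j, d ^ p j = c) ∧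
    (∀ n : ℕ, ∀ᶠ j in U, n < p j) ∧ Nonempty (ℂ →+* UP U k) := by
  classical
  choose 𝔪 h𝔪 using fun s : Finset ℂ => Ideal.exists_maximal (UBasic_A n0 s)
  let k : Finset ℂ → Type := fun s => UBasic_A n0 s ⧸ 𝔪 s
  let inst : ∀ s, Field (k s) := fun s => Ideal.Quotient.field (𝔪 s)
  have hk : ∀ s, ∃ p : ℕ, p.Prime ∧ CharP (k s) p ∧ s.card + n0 < p ∧
      ∀ c : k s, ∃ d : k s, d ^ p = c := by
    intro s
    have h1 : Algebra.FiniteType ℤ (UBasic_A n0 s) :=
      Algebra.FiniteType.adjoin_of_finite ((Finset.finite_toSet s).insert _)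
    have h2 : Algebra.FiniteType ℤ (k s) :=
      Algebra.FiniteType.of_surjective (Ideal.Quotient.mk (𝔪 s)).toIntAlgHom
        Ideal.Quotient.mk_surjective
    refine @UBasic_field (k s) _ _ h2 _ ?_
    let u : UBasic_A n0 s := ⟨_, Algebra.subset_adjoin (Set.mem_insert _ _)⟩
    have h3 : ((s.card + n0).factorial : UBasic_A n0 s) * u = 1 := by
      apply Subtype.ext
      simp only [u, MulMemClass.coe_mul, SubringClass.coe_natCast, OneMemClass.coe_one]
      exact mul_inv_cancel₀ (by exact_mod_cast Nat.factorial_ne_zero _)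
    have h4 := congrArg (Ideal.Quotient.mk (𝔪 s)) h3
    rw [map_mul, map_natCast, map_one] at h4
    exact left_ne_zero_of_mul_eq_one (M₀ := k s) h4
  choose p hp using hk
  let U : Ultrafilter (Finset ℂ) := Ultrafilter.of Filter.atTop
  have hU : (U : Filter (Finset ℂ)) ≤ Filter.atTop := Ultrafilter.of_le _
  have hmem : ∀ c : ℂ, ∀ᶠ s in U, c ∈ UBasic_A n0 s := fun c =>
    hU ((Filter.eventually_ge_atTop ({c} : Finset ℂ)).mono fun s hs =>
      Algebra.subset_adjoin (Set.mem_insert_of_mem _ (hs (Finset.mem_singleton_self c))))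
  let f : ℂ → ∀ s, k s := fun c s =>
    if h : c ∈ UBasic_A n0 s then Ideal.Quotient.mk (𝔪 s) ⟨c, h⟩ else 0
  have hf : ∀ s (a : UBasic_A n0 s), f a s = Ideal.Quotient.mk (𝔪 s) a := fun s a => by
    simp only [f, a.2, dif_pos]
  refine ⟨Finset ℂ, U, k, inst, p, fun s => ⟨(hp s).1, (hp s).2.1, ?_, (hp s).2.2.2⟩, fun n => ?_,
    ⟨{ toFun := fun c => UP.mk U k (f c), map_one' := ?_, map_mul' := fun a b => ?_,
       map_zero' := ?_, map_add' := fun a b => ?_ }⟩⟩
  · have := (hp s).2.2.1; omega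
  · obtain ⟨s0, hs0⟩ := Infinite.exists_subset_card_eq ℂ n
    refine hU ((Filter.eventually_ge_atTop s0).mono fun s hs => ?_)
    have h1 := Finset.card_le_card hs
    have := (hp s).2.2.1
    omega
  · rw [← map_one (UP.mk U k), UP.mk_eq]
    exact Filter.Eventually.of_forall fun s => (hf s 1).trans (map_one _)
  · rw [← map_mul, UP.mk_eq]
    filter_upwards [hmem a, hmem b] with s ha hb
    exact (hf s (⟨a, ha⟩ * ⟨b, hb⟩)).trans
      ((map_mul _ _ _).trans (congrArg₂ (· * ·) (hf s ⟨a, ha⟩).symm (hf s ⟨b, hb⟩).symm))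
  · rw [← map_zero (UP.mk U k), UP.mk_eq]
    exact Filter.Eventually.of_forall fun s => (hf s 0).trans (map_zero _)
  · rw [← map_add, UP.mk_eq]
    filter_upwards [hmem a, hmem b] with s ha hb
    exact (hf s (⟨a, ha⟩ + ⟨b, hb⟩)).trans
      ((map_add _ _ _).trans (congrArg₂ (· + ·) (hf s ⟨a, ha⟩).symm (hf s ⟨b, hb⟩).symm))

end Crest.Agent.R169
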