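import Crest.Agent.R169.Defs

/-! # R169: auxiliary lemmas on ultraproducts of fields -/

set_option autoImplicit false

namespace Crest.Agent.R169

variable {J : Type} {U : Ultrafilter J} {K : J → Type} [∀ j, Field (K j)]

theorem UT2_mk_zero {x : ∀ j, K j} : UP.mk U K x = 0 ↔ ∀ᶠ j in U, x j = 0 := by
  rw [← map_zero (UP.mk U K), UP.mk_eq]; rfl

theorem UT2_mk_ne {x : ∀ j, K j} : UP.mk U K x ≠ 0 ↔ ∀ᶠ j in U, x j ≠ 0 := by
  rw [Ne, UT2_mk_zero, Ultrafilter.eventually_not]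

theorem UT2_mk_mul (x y : ∀ j, K j) :
    UP.mk U K (fun j => x j * y j) = UP.mk U K x * UP.mk U K y := map_mul (UP.mk U K) x y

theorem UT2_mk_add (x y : ∀ j, K j) :
    UP.mk U K (fun j => x j + y j) = UP.mk U K x + UP.mk U K y := map_add (UP.mk U K) x y

theorem UT2_mk_sub (x y : ∀ j, K j) :
    UP.mk U K (fun j => x j - y j) = UP.mk U K x - UP.mk U K y := map_sub (UP.mk U K) x y

theorem UT2_mk_pow (x : ∀ j, K j) (n : ℕ) :
    UP.mk U K (fun j => x j ^ n) = UP.mk U K x ^ n := map_pow (UP.mk U K) x n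

theorem UT2_mk_one : UP.mk U K (fun _ => 1) = 1 := map_one (UP.mk U K)

theorem UT2_mk_zero' : UP.mk U K (fun _ => 0) = 0 := map_zero (UP.mk U K)

theorem UT2_mk_intCast (z : ℤ) : UP.mk U K (fun j => (z : K j)) = z := map_intCast (UP.mk U K) z

theorem UT2_mk_ite (p : Prop) [Decidable p] (x y : ∀ j, K j) :
    UP.mk U K (fun j => if p then x j else y j) = if p then UP.mk U K x else UP.mk U K y := by
  split_ifs <;> rfl

theorem UT2_mk_inv (x : ∀ j, K j) : UP.mk U K (fun j => (x j)⁻¹) = (UP.mk U K x)⁻¹ := by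
  by_cases h : UP.mk U K x = 0
  · rw [h, inv_zero, UT2_mk_zero]
    filter_upwards [UT2_mk_zero.1 h] with j hj
    rw [hj, inv_zero]
  · refine eq_inv_of_mul_eq_one_left ?_
    rw [← UT2_mk_mul, ← UT2_mk_one, UP.mk_eq]
    filter_upwards [UT2_mk_ne.1 h] with j hj
    exact inv_mul_cancel₀ hj

theorem UT2_mk_div (x y : ∀ j, K j) :
    UP.mk U K (fun j => x j / y j) = UP.mk U K x / UP.mk U K y := by
  simp only [div_eq_mul_inv, UT2_mk_mul, UT2_mk_inv]

theorem UT2_mk_zpow (x : ∀ j, K j) (n : ℤ) :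
    UP.mk U K (fun j => x j ^ n) = UP.mk U K x ^ n := by
  cases n with
  | ofNat n => simp only [Int.ofNat_eq_natCast, zpow_natCast, UT2_mk_pow]
  | negSucc n => simp only [zpow_negSucc, UT2_mk_inv, UT2_mk_pow]

theorem UT2_mk_sum {ι : Type} (S : Finset ι) (x : ι → ∀ j, K j) :
    UP.mk U K (fun j => ∑ i ∈ S, x i j) = ∑ i ∈ S, UP.mk U K (x i) := by
  rw [← map_sum]; congr 1; funext j; rw [Finset.sum_apply]

theorem UT2_mk_prod {ι : Type} (S : Finset ι) (x : ι → ∀ j, K j) :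
    UP.mk U K (fun j => ∏ i ∈ S, x i j) = ∏ i ∈ S, UP.mk U K (x i) := by
  rw [← map_prod]; congr 1; funext j; rw [Finset.prod_apply]

theorem UT2_mk_det {n : ℕ} (A : ∀ j, Matrix (Fin n) (Fin n) (K j)) :
    UP.mk U K (fun j => (A j).det) = (Matrix.of fun a c => UP.mk U K (fun j => A j a c)).det := by
  simp only [Matrix.det_apply', UT2_mk_sum, UT2_mk_mul, UT2_mk_prod, UT2_mk_intCast,
    Matrix.of_apply]

theorem UT2_exists_map (U : Ultrafilter J) {k K : J → Type} [∀ j, Field (k j)]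
    [∀ j, Field (K j)] (f : ∀ j, k j →+* K j) : ∃ σ : UP U k →+* UP U K,
      ∀ c : ∀ j, k j, σ (UP.mk U k c) = UP.mk U K (fun j => f j (c j)) := by
  refine ⟨Ideal.Quotient.lift (nullI U k)
    ((UP.mk U K).comp (RingHom.pi fun j => (f j).comp (Pi.evalRingHom k j))) fun a ha => ?_,
    fun c => rfl⟩
  refine UT2_mk_zero.2 ?_
  filter_upwards [show ∀ᶠ j in U, a j = 0 from ha] with j hj
  show f j (a j) = 0
  rw [hj, map_zero]

end Crest.Agent.R169
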