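import Crest.Agent.R169.Defs3
import Crest.Agent.R169.EModel
import Crest.Agent.R169.UT2_Aux

/-! # R169 task USp: specialisation of the model over the ultraproduct -/

set_option autoImplicit false
set_option linter.unusedSectionVars false

namespace Crest.Agent.R169
open Module

/-- the map of ultraproducts induced by ring maps -/
theorem UP.exists_map {J : Type} (U : Ultrafilter J) {k K : J → Type} [∀ j, Field (k j)]
    [∀ j, Field (K j)] (f : ∀ j, k j →+* K j) : ∃ σ : UP U k →+* UP U K,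
      ∀ c : ∀ j, k j, σ (UP.mk U k c) = UP.mk U K (fun j => f j (c j)) := by
  exact UT2_exists_map U f

variable {J : Type} {U : Ultrafilter J} {k K : J → Type} [∀ j, Field (k j)] [∀ j, Field (K j)]
  [∀ j, Algebra (k j) (K j)] [∀ j, Algebra (KA (k j)) (K j)]
  [∀ j, IsScalarTower (k j) (KA (k j)) (K j)] {K' : Type} [Field K'] [Algebra (UP U k) K']
  [Algebra (KA (UP U k)) K'] [IsScalarTower (UP U k) (KA (UP U k)) K']

/-- `Model.lift` with `σ` from `UP.exists_map` and `r' i = mk (fun j => r5 (M j).r i)`; a finite relation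
holds in `K j` for `U`-almost all `j`, where `indep'` kills the coefficients.  Then `mon_eq`, `lf`,
`Compat`. -/
theorem exists_SpOK (M : ∀ j, Model (k j) (K j)) (M' : Model (UP U k) K') (L : NN)
    (hC : ∀ j, Compat (M j) L) (hC' : Compat M' L) : ∃ Sp : K' →+* UP U K,
      SpOK U k K K' Sp ∧ ∀ g : Gen L, Sp (genμ M' L g) = UP.mk U K (fun j => genμ (M j) L g) := by
  obtain ⟨σ, hσ⟩ := UP.exists_map U (fun j => algebraMap (k j) (K j))
  have hkum : Kum (fun i => UP.mk U K (fun j => r5 (M j).r i)) := by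
    refine ⟨?_, ?_, ?_⟩
    · simp only [← UT2_mk_pow, (M _).kum.rel5, UT2_mk_sub, UT2_mk_one]
    · simp only [← UT2_mk_pow, (M _).kum.rel7, UT2_mk_sub, UT2_mk_one]
    · simp only [← UT2_mk_pow, (M _).kum.rel4, UT2_mk_sub]
  obtain ⟨Sp, h1, h2⟩ := M'.lift (UP U K) σ _ hkum (by
    intro c hc
    choose c' hc' using fun z => UP.mk_surj U k (c z)
    have h3 : UP.mk U K (fun j => ∑ z ∈ c.support, c' z j • kb (r5 (M j).r) z) = 0 := by
      rw [← hc, UT2_mk_sum]
      refine Finset.sum_congr rfl fun z _ => ?_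
      simp only [Algebra.smul_def, kb, UT2_mk_mul, UT2_mk_pow, ← hσ, hc']
    ext z
    by_contra hz
    apply hz
    rw [← hc', Finsupp.zero_apply, UT2_mk_zero]
    filter_upwards [UT2_mk_zero.1 h3] with j hj
    exact linearIndependent_iff'.1 (M j).indep' _ (fun z => c' z j) hj z
      (Finsupp.mem_support_iff.2 hz))
  have hmon : ∀ a, Sp (M'.mon a) = UP.mk U K (fun j => (M j).mon a) := by
    intro a
    simp only [Model.mon_eq, map_mul, map_zpow₀, UT2_mk_mul, UT2_mk_zpow]
    rw [show Sp (M'.r 4) = _ from h2 0, show Sp (M'.r 5) = _ from h2 1,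
      show Sp (M'.r 6) = _ from h2 2, show Sp (M'.r 7) = _ from h2 3,
      show Sp (M'.r 8) = _ from h2 4]
    rfl
  have hlf : ∀ i, Sp (lf M' L i) = UP.mk U K (fun j => lf (M j) L i) := by
    intro i
    simp only [lf, Finsupp.sum, map_sum, map_mul, map_intCast, hmon, UT2_mk_sum, UT2_mk_mul,
      UT2_mk_intCast]
  refine ⟨Sp, ⟨fun c => by rw [h1, hσ], fun i => ?_⟩, fun g => ?_⟩
  · simp only [hC'.2, (hC _).2, map_div₀, hlf, UT2_mk_div]
  · simp only [genμ, map_div₀, map_zpow₀, hlf, hmon, UT2_mk_div, UT2_mk_zpow]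

end Crest.Agent.R169
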