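import Crest.Agent.R169.UT2

/-! # R169 task UT3: Łoś for `EData` and `Cert` -/

set_option autoImplicit false
set_option linter.unusedSectionVars false

namespace Crest.Agent.R169
open Module

section rel
variable {J : Type} {U : Ultrafilter J} {F : J → Type} [∀ j, Field (F j)] {F' : Type} [Field F']

/-- a matrix and its family of representatives -/
def UT3_Rel (S : F' →+* UP U F) {p q : Type} (A : Matrix p q F') (A' : ∀ j, Matrix p q (F j)) :
    Prop := ∀ a c, S (A a c) = UP.mk U F (fun j => A' j a c)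

variable {S : F' →+* UP U F} {p q r : Type}

theorem UT3_eq_iff {a b : F'} {a' b' : ∀ j, F j} (ha : S a = UP.mk U F a')
    (hb : S b = UP.mk U F b') : a = b ↔ ∀ᶠ j in U, a' j = b' j := by
  rw [← UP.mk_eq, ← ha, ← hb, S.injective.eq_iff]

theorem UT3_Rel.eq_iff [Finite p] [Finite q] {A B : Matrix p q F'} {A' B' : ∀ j, Matrix p q (F j)}
    (hA : UT3_Rel S A A') (hB : UT3_Rel S B B') : A = B ↔ ∀ᶠ j in U, A' j = B' j := by
  simp only [← Matrix.ext_iff, Filter.eventually_all]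
  exact forall₂_congr fun a c => UT3_eq_iff (hA a c) (hB a c)

theorem UT3_Rel.mul [Fintype q] {A : Matrix p q F'} {A' : ∀ j, Matrix p q (F j)}
    {B : Matrix q r F'} {B' : ∀ j, Matrix q r (F j)} (hA : UT3_Rel S A A') (hB : UT3_Rel S B B') :
    UT3_Rel S (A * B) (fun j => A' j * B' j) := fun a c => by
  simp only [Matrix.mul_apply, map_sum, map_mul, UT2_mk_sum, UT2_mk_mul, hA a, hB _ c]

theorem UT3_Rel.smul {x : F'} {x' : ∀ j, F j} (hx : S x = UP.mk U F x') {A : Matrix p q F'}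
    {A' : ∀ j, Matrix p q (F j)} (hA : UT3_Rel S A A') :
    UT3_Rel S (x • A) (fun j => x' j • A' j) := fun a c => by
  simp only [Matrix.smul_apply, smul_eq_mul, map_mul, UT2_mk_mul, hA a c, hx]

theorem UT3_Rel.one [DecidableEq p] : UT3_Rel S (1 : Matrix p p F') (fun _ => 1) := fun a c => by
  by_cases h : a = c
  · subst h; simp only [Matrix.one_apply_eq, map_one, UT2_mk_one]
  · simp only [Matrix.one_apply_ne h, map_zero, UT2_mk_zero']

theorem UT3_Rel.zero : UT3_Rel S (0 : Matrix p q F') (fun _ => 0) := fun a c => by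
  simp only [Matrix.zero_apply, map_zero, UT2_mk_zero']

theorem UT3_Rel.sub {A : Matrix p q F'} {A' : ∀ j, Matrix p q (F j)} (hA : UT3_Rel S A A')
    (I : r → q) : UT3_Rel S (A.submatrix id I) (fun j => (A' j).submatrix id I) :=
  fun a c => hA a (I c)

theorem UT3_Rel.det {n : ℕ} {A : Matrix (Fin n) (Fin n) F'}
    {A' : ∀ j, Matrix (Fin n) (Fin n) (F j)} (hA : UT3_Rel S A A') :
    S A.det = UP.mk U F (fun j => (A' j).det) := by
  rw [UT2_mk_det, RingHom.map_det]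
  congr 1
  ext a c
  exact hA a c

theorem UT3_pow {x : F'} {x' : ∀ j, F j} (hx : S x = UP.mk U F x') (n : ℕ) :
    S (x ^ n) = UP.mk U F (fun j => x' j ^ n) := by rw [map_pow, hx, UT2_mk_pow]

theorem UT3_mul {x y : F'} {x' y' : ∀ j, F j} (hx : S x = UP.mk U F x') (hy : S y = UP.mk U F y') :
    S (x * y) = UP.mk U F (fun j => x' j * y' j) := by rw [map_mul, hx, hy, UT2_mk_mul]

theorem UT3_sum {ι : Type} (T : Finset ι) {x : ι → F'} {x' : ι → ∀ j, F j}
    (hx : ∀ i, S (x i) = UP.mk U F (x' i)) :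
    S (∑ i ∈ T, x i) = UP.mk U F (fun j => ∑ i ∈ T, x' i j) := by
  simp only [map_sum, hx, UT2_mk_sum]

end rel

variable {J : Type} {U : Ultrafilter J} {k K : J → Type} [∀ j, Field (k j)] [∀ j, Field (K j)]
  [∀ j, Algebra (k j) (K j)] [∀ j, Algebra (KA (k j)) (K j)]
  [∀ j, IsScalarTower (k j) (KA (k j)) (K j)] {K' : Type} [Field K'] [Algebra (UP U k) K']
  [Algebra (KA (UP U k)) K'] [IsScalarTower (UP U k) (KA (UP U k)) K']

/-- Choose representatives: `w' j i a` with `Sp (w i a) = mk`, and for `φ, ψ, θ` by `SpAOK.down`.  Each of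
the finitely many identities holds for almost all `j` (`UP.mk_eq`, `SpAOK.compat`, `SpAOK.hx`); for
`span` transfer `Pi.single a 1 = ∑ c i • w i`; `card` by `hr`. -/
theorem EData.transfer {SpA : KA (UP U k) →+* UP U (fun j => KA (k j))} (HA : SpAOK U k SpA)
    {Sp : K' →+* UP U K} (H : SpOK U k K K' Sp) {ι : Type} [Finite ι] {μ' : ι → K'}
    {μ : ∀ j, ι → K j} (hμ : ∀ l, Sp (μ' l) = UP.mk U K (fun j => μ j l)) {e : ι → ℤ}
    [FiniteDimensional (KA (UP U k)) K'] [∀ j, FiniteDimensional (KA (k j)) (K j)]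
    (hr : ∀ j, finrank (KA (k j)) (K j) = finrank (KA (UP U k)) K')
    {ρ m m' : ℕ} {w : Fin m → Fin ρ → K'} {b : Fin m → ℤ}
    {φ : Matrix (Fin m) (Fin m') (KA (UP U k))} {b' : Fin m' → ℤ} {M0 : ℕ}
    {ψ : Fin 3 → Matrix (Fin m') (Fin m) (KA (UP U k))}
    {θ : ι → Matrix (Fin m) (Fin m) (KA (UP U k))} (hE : EData μ' e w b φ b' M0 ψ θ) :
    ∃ (w' : ∀ j, Fin m → Fin ρ → K j) (φ' : ∀ j, Matrix (Fin m) (Fin m') (KA (k j)))
      (ψ' : ∀ j, Fin 3 → Matrix (Fin m') (Fin m) (KA (k j)))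
      (θ' : ∀ j, ι → Matrix (Fin m) (Fin m) (KA (k j))),
      (∀ a c, SpA (φ a c) = UP.mk U _ (fun j => φ' j a c)) ∧
      (∀ l a c, SpA (θ l a c) = UP.mk U _ (fun j => θ' j l a c)) ∧
      ∀ᶠ j in U, EData (μ j) e (w' j) b (φ' j) b' M0 (ψ' j) (θ' j) := by
  classical
  choose w' hw' using fun i a => UP.mk_surj U K (Sp (w i a))
  choose φ' hφ1 hφ2 using fun a c => HA.down _ _ (hE.res.deg a c)
  choose ψ' hψ1 hψ2 using fun l a c => HA.down _ _ (hE.res.ψdeg l a c)
  choose θ' hθ1 hθ2 using fun l a c => HA.down _ _ (hE.θdeg l c a)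
  have hsp : ∀ a : Fin ρ, ∃ c : Fin m → K', ∑ i, c i • w i = Pi.single a 1 := fun a =>
    (Submodule.mem_span_range_iff_exists_fun K').1 (hE.span ▸ Submodule.mem_top)
  choose c hc using hsp
  choose c' hc' using fun a i => UP.mk_surj U K (Sp (c a i))
  have rφ : UT3_Rel SpA φ (fun j => Matrix.of fun a c => φ' a c j) := hφ2
  have rψ : ∀ l, UT3_Rel SpA (ψ l) (fun j => Matrix.of fun a c => ψ' l a c j) := hψ2
  refine ⟨fun j i a => w' i a j, fun j => Matrix.of fun a c => φ' a c j,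
    fun j l => Matrix.of fun a c => ψ' l a c j, fun j l => Matrix.of fun a c => θ' l a c j,
    hφ2, hθ2, ?_⟩
  have e1 : ∀ᶠ j in U, ∀ c a, ∑ i, algebraMap (KA (k j)) (K j) (φ' i c j) * w' i a j = 0 := by
    simp only [Filter.eventually_all]
    intro c a
    refine (UT3_eq_iff (S := Sp) (UT3_sum _ fun i => UT3_mul (HA.compat H (hφ2 i c)) (hw' i a).symm)
      (b' := fun _ => 0) (by rw [map_zero, UT2_mk_zero'])).1 ?_
    simpa only [Finset.sum_apply, Pi.mul_apply, Pi.algebraMap_apply, Algebra.smul_def,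
      Pi.zero_apply] using
      congrFun (hE.res.rel c) a
  have e2 := (((rψ 0).mul rφ).eq_iff (UT3_Rel.smul (UT3_pow (HA.hx 0) M0) UT3_Rel.one)).1 hE.res.ψ0
  have e3 := (((rψ 1).mul rφ).eq_iff (UT3_Rel.smul (UT3_pow (HA.hx 1) M0) UT3_Rel.one)).1 hE.res.ψ1
  have e4 := (((rψ 2).mul rφ).eq_iff UT3_Rel.one).1 hE.res.ψ2
  have e5 : ∀ᶠ j in U, ∀ l i a, μ j l * w' i a j =
      ∑ c, algebraMap (KA (k j)) (K j) (θ' l c i j) * w' c a j := by
    simp only [Filter.eventually_all]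
    intro l i a
    refine (UT3_eq_iff (S := Sp) (UT3_mul (hμ l) (hw' i a).symm)
      (UT3_sum _ fun c => UT3_mul (HA.compat H (hθ2 l c i)) (hw' c a).symm)).1 ?_
    simpa only [Finset.sum_apply, Pi.mul_apply, Pi.algebraMap_apply, Algebra.smul_def,
      Algebra.algebraMap_self, RingHom.id_apply] using congrFun (hE.θrel l i) a
  have e6 : ∀ᶠ j in U, ∀ a a', ∑ i, c' a i j * w' i a' j = if a' = a then 1 else 0 := by
    simp only [Filter.eventually_all]
    intro a a'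
    refine (UT3_eq_iff (S := Sp) (UT3_sum _ fun i => UT3_mul (hc' a i).symm (hw' i a').symm)
      (b := if a' = a then 1 else 0) (b' := fun _ => if a' = a then 1 else 0) ?_).1 ?_
    · split_ifs
      · rw [map_one, UT2_mk_one]
      · rw [map_zero, UT2_mk_zero']
    · simpa only [Finset.sum_apply, Pi.smul_apply, smul_eq_mul, Pi.single_apply] using
        congrFun (hc a) a'
  filter_upwards [e1, e2, e3, e4, e5, e6] with j h1 h2 h3 h4 h5 h6
  refine ⟨⟨fun a c => hφ1 a c j, fun c => ?_, ?_, fun l a c => hψ1 l a c j, h2, h3, h4⟩,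
    fun l i c => hθ1 l c i j, fun l i => ?_, ?_⟩
  · funext a
    simpa only [Finset.sum_apply, Pi.mul_apply, Pi.algebraMap_apply, Algebra.smul_def,
      Pi.zero_apply, Matrix.of_apply] using h1 c a
  · rw [hE.res.card, Module.finrank_pi_fintype, Module.finrank_pi_fintype]
    simp only [hr]
  · funext a
    simpa only [Finset.sum_apply, Pi.mul_apply, Pi.algebraMap_apply, Algebra.smul_def,
      Algebra.algebraMap_self, RingHom.id_apply, Matrix.of_apply] using h5 l i a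
  · rw [eq_top_iff, ← (Pi.basisFun (K j) (Fin ρ)).span_eq, Submodule.span_le]
    rintro _ ⟨a, rfl⟩
    refine (Submodule.mem_span_range_iff_exists_fun (K j)).2 ⟨fun i => c' a i j, ?_⟩
    funext a'
    simpa only [Finset.sum_apply, Pi.smul_apply, smul_eq_mul, Pi.single_apply, Pi.basisFun_apply]
      using h6 a a'

omit [∀ j, Field (K j)] in
/-- Pigeonhole on `I` (`Ultrafilter.eventually_exists_iff` for the finite type), choose `h, H, v` for
almost all `j`, lift them by `SpAOK.up`, and reflect the identities along the injective `SpA`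
(`RingHom.map_det`). -/
theorem Cert.transfer {SpA : KA (UP U k) →+* UP U (fun j => KA (k j))} (HA : SpAOK U k SpA)
    {ι : Type} {m m' y : ℕ} {b : Fin m → ℤ} {φ : Matrix (Fin m) (Fin m') (KA (UP U k))}
    {θ : ι → Matrix (Fin m) (Fin m) (KA (UP U k))}
    {φ' : ∀ j, Matrix (Fin m) (Fin m') (KA (k j))}
    {θ' : ∀ j, ι → Matrix (Fin m) (Fin m) (KA (k j))}
    (hφ : ∀ a c, SpA (φ a c) = UP.mk U _ (fun j => φ' j a c))
    (hθ : ∀ l a c, SpA (θ l a c) = UP.mk U _ (fun j => θ' j l a c)) {D : ℤ}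
    (h : ∀ᶠ j in U, ∃ I : Fin y → Fin m, Cert b (φ' j) (θ' j) I D) :
    ∃ I : Fin y → Fin m, Cert b φ θ I D := by
  obtain ⟨I, hI⟩ := Ultrafilter.eventually_exists_iff.1 h
  have h1 : ∀ j, ∃ (h : KA (k j)) (H : Matrix (Fin y) (Fin m) (KA (k j)))
      (v : (Fin y → Fin m) → KA (k j)), Cert b (φ' j) (θ' j) I D →
      (h ≠ 0 ∧ h ∈ AA (k j) (D + ∑ i, b (I i)) ∧
      (∀ i c, H i c ∈ AA (k j) (D + ∑ i, b (I i) + b c - b (I i))) ∧
      H.submatrix id I = h • (1 : Matrix (Fin y) (Fin y) (KA (k j))) ∧ H * φ' j = 0 ∧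
      (∀ l, h • (H * θ' j l) = (H * θ' j l).submatrix id I * H) ∧
      ∀ J' : Fin y → Fin m, v J' ∈ AA (k j) (D + ∑ i, b (J' i)) ∧
        h * (H.submatrix id J').det = h ^ y * v J') := by
    intro j
    by_cases hc : Cert b (φ' j) (θ' j) I D
    · obtain ⟨h, H, v, hh⟩ := hc
      exact ⟨h, H, v, fun _ => hh⟩
    · exact ⟨0, 0, 0, fun h => absurd h hc⟩
  choose h' H' v' hh using h1
  have hev := hI.mono hh
  obtain ⟨h0, ha1, ha2⟩ := HA.up _ h' (hev.mono fun j hj => hj.2.1)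
  choose H0 hb1 hb2 using fun i c => HA.up _ (fun j => H' j i c) (hev.mono fun j hj => hj.2.2.1 i c)
  choose v0 hc1 hc2 using fun J' => HA.up _ (fun j => v' j J')
    (hev.mono fun j hj => (hj.2.2.2.2.2.2 J').1)
  have rH : UT3_Rel SpA (Matrix.of H0) H' := hb2
  have rφ : UT3_Rel SpA φ φ' := hφ
  have rθ : ∀ l, UT3_Rel SpA (θ l) (fun j => θ' j l) := hθ
  refine ⟨I, h0, Matrix.of H0, v0, ?_, ha1, hb1, ?_, ?_, fun l => ?_, fun J' => ⟨hc1 J', ?_⟩⟩
  · intro h00
    rw [h00, map_zero] at ha2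
    exact UT2_mk_ne.2 (hev.mono fun j hj => hj.1) ha2.symm
  · exact ((rH.sub I).eq_iff (UT3_Rel.smul ha2 UT3_Rel.one)).2 (hev.mono fun j hj => hj.2.2.2.1)
  · exact ((rH.mul rφ).eq_iff UT3_Rel.zero).2 (hev.mono fun j hj => hj.2.2.2.2.1)
  · exact ((UT3_Rel.smul ha2 (rH.mul (rθ l))).eq_iff (((rH.mul (rθ l)).sub I).mul rH)).2
      (hev.mono fun j hj => hj.2.2.2.2.2.1 l)
  · exact (UT3_eq_iff (UT3_mul ha2 (rH.sub J').det) (UT3_mul (UT3_pow ha2 y) (hc2 J'))).2
      (hev.mono fun j hj => (hj.2.2.2.2.2.2 J').2)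

end Crest.Agent.R169
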