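import Crest.Agent.R169.UT1
import Crest.Agent.R169.UT3
import Crest.Agent.R169.ACert

/-! # R169 task UTrans: near-semistable lattices specialise -/

set_option autoImplicit false
set_option linter.unusedSectionVars false

namespace Crest.Agent.R169
open Module

variable {J : Type} {U : Ultrafilter J} {k K : J → Type} [∀ j, Field (k j)] [∀ j, Field (K j)]
  [∀ j, Algebra (k j) (K j)] [∀ j, Algebra (KA (k j)) (K j)]
  [∀ j, IsScalarTower (k j) (KA (k j)) (K j)] {K' : Type} [Field K'] [Algebra (UP U k) K']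
  [Algebra (KA (UP U k)) K'] [IsScalarTower (UP U k) (KA (UP U k)) K']

/-- `exists_eData`, `EData.transfer`, `EData.rlat`, `Syz.hasHP` give `E'_j = gen (w' j) b` with the same
coefficients as the hull `E'`.  If `Semi` failed for almost all `j`, pigeonhole the dimension `d ≤ ρ` of
a destabilising `W`; with `y = (ρ - d) r`, `X = hb - d hb/ρ - d(ρ-d)r/(2ρ) - 3y/2`, the number
`hb E'_j - hb (cut) - 3y/2 < X` is an integer (`int_hb`, `ha_cut`), so `≤ D = ⌈X⌉ - 1`; `cert_iff`,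
`Cert.transfer`, `cert_iff` contradict `Semi E'`. -/
theorem transfer {Sp : K' →+* UP U K} (H : SpOK U k K K' Sp) {ι : Type} [Finite ι] {μ' : ι → K'}
    {μ : ∀ j, ι → K j} (hμ : ∀ l, Sp (μ' l) = UP.mk U K (fun j => μ j l)) {e : ι → ℤ}
    (B' : Base (UP U k) K') (hB' : B'.R = gen (AA (UP U k)) μ' e) (B : ∀ j, Base (k j) (K j))
    (hB : ∀ j, (B j).R = gen (AA (k j)) (μ j) e)
    (hr : ∀ j, finrank (KA (k j)) (K j) = finrank (KA (UP U k)) K') {ρ : ℕ} (hρ : 0 < ρ)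
    {E : Fam (UP U k) (Fin ρ → K')} (hE : RLat B' E) (hF : Full E) (hs : Semi (UP U k) K' E) :
    ∀ᶠ j in U, ∃ E' : Fam (k j) (Fin ρ → K j), RLat (B j) E' ∧ Full E' ∧ Semi (k j) (K j) E' ∧
      ha E' = ha E ∧ disc E ≤ disc E' := by
  obtain ⟨m, m', w, b, φ, b', M0, ψ, θ, hD, hsemi, e1, e2, e3⟩ := exists_eData B' hB' hE hF hs
  obtain ⟨SpA, HA⟩ := exists_SpA U k
  have := B'.finiteDim
  have := fun j => (B j).finiteDim
  obtain ⟨w', φ', ψ', θ', hφ, hθ, hev⟩ := EData.transfer HA H hμ hr hD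
  obtain ⟨r1, r2, r3⟩ := EData.rlat B' hB' hD
  have c0 := r3.hasHP.coeffs
  have hco : ∀ᶠ j in U, (RLat (B j) (gen (AA (k j)) (w' j) b) ∧ Full (gen (AA (k j)) (w' j) b) ∧
      Syz (w' j) b (φ' j) b') ∧ ha (gen (AA (k j)) (w' j) b) = ha (gen (AA (UP U k)) w b) ∧
      hb (gen (AA (k j)) (w' j) b) = hb (gen (AA (UP U k)) w b) ∧
      hc (gen (AA (k j)) (w' j) b) = hc (gen (AA (UP U k)) w b) := by
    filter_upwards [hev] with j hj
    have h1 := EData.rlat (B j) (hB j) hj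
    have c1 := h1.2.2.hasHP.coeffs
    exact ⟨h1, c1.1.trans c0.1.symm, c1.2.1.trans c0.2.1.symm, c1.2.2.trans c0.2.2.symm⟩
  have hrk : ∀ j, rk (k j) (K j) = rk (UP U k) K' := fun j => by unfold rk; rw [hr]
  have hsem : ∀ᶠ j in U, Semi (k j) (K j) (gen (AA (k j)) (w' j) b) := by
    by_contra hcon
    rw [← Ultrafilter.eventually_not] at hcon
    have h1 : ∀ᶠ j in U, ∃ d : Fin (ρ + 1), ∃ W : Submodule (K j) (Fin ρ → K j),
        finrank (K j) W = d ∧ ((d : ℕ) : ℚ) * hb (gen (AA (k j)) (w' j) b) / ρ +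
          ((d : ℕ) : ℚ) * (ρ - (d : ℕ)) * rk (k j) (K j) / (2 * ρ) <
            hb (cut (gen (AA (k j)) (w' j) b) W) := by
      filter_upwards [hcon] with j hj
      unfold Semi at hj
      push Not at hj
      obtain ⟨W, hW⟩ := hj
      have h2 : finrank (K j) W ≤ ρ := by simpa using Submodule.finrank_le W
      exact ⟨⟨finrank (K j) W, by omega⟩, W, rfl, hW⟩
    obtain ⟨d, hd⟩ := Ultrafilter.eventually_exists_iff.1 h1
    set y : ℕ := (ρ - d) * finrank (KA (UP U k)) K' with hy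
    have hyq : ((ρ : ℚ) - (d : ℕ)) * rk (UP U k) K' = y := by
      rw [hy, Nat.cast_mul, Nat.cast_sub (Nat.le_of_lt_succ d.2)]; rfl
    set X : ℚ := hb (gen (AA (UP U k)) w b) - (((d : ℕ) : ℚ) * hb (gen (AA (UP U k)) w b) / ρ +
      ((d : ℕ) : ℚ) * (ρ - (d : ℕ)) * rk (UP U k) K' / (2 * ρ)) - 3 * (y : ℚ) / 2 with hX
    have h2 : ∀ᶠ j in U, ∃ I : Fin y → Fin m, Cert b (φ' j) (θ' j) I (⌈X⌉ - 1) := by
      filter_upwards [hd, hco, hev] with j ⟨W, hW1, hW2⟩ ⟨⟨s1, s2, s3⟩, t1, t2, t3⟩ hj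
      refine (cert_iff (μ j) (Base.span_gen (B j) (hB j)) s3 s2 hj.θrel y _).1 ⟨W, ?_, ?_⟩
      · rw [hW1, hrk, hyq]
      · obtain ⟨z1, hz1⟩ := s1.1.int_hb
        obtain ⟨z2, hz2⟩ := (s1.cut W).1.int_hb
        have a1 := s1.ha_full s2
        have a2 := s1.ha_cut s2 W
        rw [Module.finrank_fin_fun, hrk] at a1
        rw [hW1, hrk] at a2
        rw [hrk, t2] at hW2
        have h3 : hb (gen (AA (k j)) (w' j) b) - hb (cut (gen (AA (k j)) (w' j) b) W) -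
            3 * (y : ℚ) / 2 = ((z1 - z2 : ℤ) : ℚ) := by
          push_cast
          rw [← hz1, ← hz2, a1, a2, ← hyq]; ring
        have h4 : ((z1 - z2 : ℤ) : ℚ) < X := by rw [← h3, hX, t2]; linarith
        rw [h3]
        have h5 := Int.lt_ceil.2 h4
        exact_mod_cast (by omega : z1 - z2 ≤ ⌈X⌉ - 1)
    obtain ⟨W, hW1, hW2⟩ := (cert_iff μ' (Base.span_gen B' hB') r3 r2 hD.θrel y _).2
      (Cert.transfer HA hφ hθ h2)
    have h3 : (finrank K' W : ℚ) = (d : ℕ) := by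
      have h4 := mul_right_cancel₀ (by linarith [B'.rk_pos]) (hW1.trans hyq.symm)
      linarith
    have h4 := hsemi W
    rw [h3] at h4
    have h5 := Int.ceil_lt_add_one X
    push_cast at hW2
    linarith
  filter_upwards [hco, hsem] with j ⟨⟨s1, s2, _⟩, t1, t2, t3⟩ hj
  refine ⟨_, s1, s2, hj, t1.trans e1, ?_⟩
  unfold disc
  rw [t1, t2, t3, e1, e2]
  linarith

end Crest.Agent.R169
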