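import Crest.Agent.R169.RInd
import Crest.Agent.R169.UTrans
import Crest.Agent.R169.USp
import Crest.Agent.R169.UBasic
import Crest.Agent.R169.L4
import Crest.Agent.R169.ESetup
import Crest.Agent.R169.ERep
import Crest.Agent.R169.ENN
import Crest.Agent.R169.CT

/-! # R169: assembly -/

set_option autoImplicit false

namespace Crest.Agent.R169
open Module

theorem final_ineq (ρ : ℕ) (hρ : 0 < ρ) (p : ℕ) (hp : 2 ^ ρ * ρ * 15 * 1715 < p) (d : ℚ)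
    (h1 : -((1715 : ℚ) * ρ / 2) / 4 ≤ d)
    (h2 : d + ρ * (4459 : ℚ) / 8 ≤
      ρ / (2 * 1715) * (1715 / 2 + 2 ^ ρ * ρ * ((15 : ℕ) : ℚ) * 1715 / ((p : ℚ) - 1)) ^ 2) : False := by
  have hρ' : (0 : ℚ) < ρ := by exact_mod_cast hρ
  have hp' : (2 : ℚ) ^ ρ * ρ * 15 * 1715 + 1 ≤ p := by exact_mod_cast hp
  have hC : (0 : ℚ) < 2 ^ ρ * ρ * 15 * 1715 := by positivity
  set C : ℚ := 2 ^ ρ * ρ * 15 * 1715 with hCdef
  have hp1 : (0 : ℚ) < p - 1 := by linarith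
  have hε1 : C / ((p : ℚ) - 1) ≤ 1 := by rw [div_le_one hp1]; linarith
  have hε0 : 0 ≤ C / ((p : ℚ) - 1) := by positivity
  have e : (2 : ℚ) ^ ρ * ρ * ((15 : ℕ) : ℚ) * 1715 = C := by rw [hCdef]; push_cast; ring
  rw [e] at h2
  set ε := C / ((p : ℚ) - 1)
  have h3 : (1715 / 2 + ε) ^ 2 ≤ (1715 / 2 + 1) ^ 2 := by nlinarith
  have h4 : (ρ : ℚ) / (2 * 1715) * (1715 / 2 + ε) ^ 2 ≤ ρ / (2 * 1715) * (1715 / 2 + 1) ^ 2 :=
    mul_le_mul_of_nonneg_left h3 (by positivity)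
  nlinarith

theorem noMonRep (L : NN) (N : ℕ) (hN : 0 < N) : IsEmpty (MonRep ℂ L N) := by
  refine ⟨fun ϱ => ?_⟩
  obtain ⟨J, U, k, ik, p, hp, hpU, ⟨σ⟩⟩ := exists_ultra (7 + L.D)
  have hcast : ∀ j (n : ℕ), 0 < n → n ≤ 7 + L.D → (n : k j) ≠ 0 := by
    intro j n hn hn' h0
    haveI := (hp j).2.1
    have := (CharP.cast_eq_zero_iff (k j) (p j) n).1 h0
    have := Nat.le_of_dvd hn this
    have := (hp j).2.2.1
    omega
  have h7 : ∀ j, (7 : k j) ≠ 0 := fun j => by exact_mod_cast hcast j 7 (by omega) (by omega)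
  have hD : ∀ j, (L.D : k j) ≠ 0 := fun j => hcast j L.D L.D_pos (by omega)
  choose K iK iA hM using fun j => exists_model (k j) (h7 j)
  let M : ∀ j, Model (k j) (K j) := fun j => (hM j).some
  choose iB hT hC using fun j => exists_compat (M j) L (hD j)
  choose B hB using fun j => exists_base (M j) L (hC j) (hD j)
  haveI : CharZero (UP U k) := (RingHom.charZero_iff σ.injective).1 inferInstance
  obtain ⟨K', iK', iA', ⟨M'⟩⟩ := exists_model (UP U k) (by norm_num)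
  have hD' : (L.D : UP U k) ≠ 0 := Nat.cast_ne_zero.2 L.D_pos.ne'
  obtain ⟨iB', hT', hC'⟩ := exists_compat M' L hD'
  obtain ⟨B', hB'⟩ := exists_base M' L hC' hD'
  obtain ⟨ϱ1⟩ := ϱ.map σ
  obtain ⟨ϱ2⟩ := MonRep.rep M' L hC' B' hB' ϱ1
  obtain ⟨ρ, hρ, E, hE, hF, hs, hdisc⟩ := langton ϱ2 hN
  obtain ⟨Sp, hSp, hμ⟩ := exists_SpOK M M' L hC hC'
  have htr := transfer hSp hμ B' (hB'.trans (exR_eq_gen M' L hC' hD')) B
    (fun j => (hB j).trans (exR_eq_gen (M j) L (hC j) (hD j)))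
    (fun j => (rk_ex (M j) L (hC j) (hD j)).trans (rk_ex M' L hC' hD').symm) hρ hE hF hs
  obtain ⟨j, ⟨E', hE', hF', hs', hha, hd⟩, hpj⟩ := (htr.and (hpU (2 ^ ρ * ρ * 15 * 1715))).exists
  haveI : Fact (p j).Prime := ⟨(hp j).1⟩
  haveI := (hp j).2.1
  haveI : CharP (K j) (p j) := charP_of_injective_algebraMap (algebraMap (k j) (K j)).injective _
  have hp7 : 7 < p j := by have := (hp j).2.2.1; omega
  obtain ⟨S, hSB, hσ, hc'⟩ := exists_setup (M j) L (hC j) (hD j) (B j) (hB j) (p j) (by omega)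
    (by omega) (hp j).2.2.2
  have hmain := S.main_bound hρ (hSB ▸ hE') hF' hs'
  have hr : rk (k j) (K j) = 1715 := by
    unfold rk; rw [rk_ex (M j) L (hC j) (hD j)]; norm_num
  have hr' : rk (UP U k) K' = 1715 := by
    unfold rk; rw [rk_ex M' L hC' hD']; norm_num
  have hhaE : ha E = 1715 * ρ / 2 := by
    rw [hE.ha_full hF, hr']; simp
  rw [hσ, hc', hr] at hmain
  rw [hhaE] at hdisc
  exact final_ineq ρ hρ (p j) hpj (disc E') (hdisc.trans hd) hmain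

theorem exists_T_final :
    ∃ (T : Type) (_ : CommRing T) (_ : IsDomain T) (_ : Algebra ℂ T) (𝒜 : ℕ → Submodule ℂ T)
      (_ : GradedAlgebra 𝒜) (ιA : MvPolynomial (Fin 3) ℂ →ₐ[ℂ] T),
      Function.Injective ιA ∧ ιA.toRingHom.Finite ∧ (∀ i, ιA (MvPolynomial.X i) ∈ 𝒜 1) ∧
      (∀ a ∈ 𝒜 0, ∃ c : ℂ, algebraMap ℂ T c = a) ∧ NoRep T ιA := by
  obtain ⟨L⟩ := nonempty_NN
  obtain ⟨K, iK, iA, ⟨M⟩⟩ := exists_model ℂ (by norm_num)
  exact exists_T M L (noMonRep L)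

end Crest.Agent.R169
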