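import Crest.Agent.R169.LU

/-! # R169 task L1: the associated graded module of an admissible filtration -/

set_option autoImplicit false

namespace Crest.Agent.R169
open Module

variable {k : Type} [Field k] {N : ℕ} {F : Fam k (Fin N → PS k)}

/-- Sketch.  `n_i = 2 ha (UF i)` decreases from `N` (`i = -c`) to `0` (`i = c+1`), and
`d_i = 3 n_i / 2 - hb (UF i) ≥ 0` (`hb_le_of_le_free`).  Re-summing `gF_eq`, the Hilbert polynomial is
`P(t) = ∑_{i=-c}^{c} (n_i - n_{i+1}) P_A(t - i) + ∑_{i=-c+1}^{c} d_i` with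
`P_A(s) = (s+1)(s+2)/2 ≥ -1/8` (check: `P_i(s) - P_i(s-1) = n_i (s+1) - d_i`).  So `P(t) ≥ -N/8` for all
rational `t`; take `t = -b/N`. -/
theorem XFil.hasHP (hF : XFil F) (hN : 0 < N) : ∃ b c : ℚ, HasHP (gF F) (N / 2) b c ∧
    -(N : ℚ) / 8 ≤ c - b ^ 2 / (2 * N) ∧ (∃ z : ℤ, 2 * b = z) ∧ ∃ z : ℤ, c = z := by
  obtain ⟨c, hc'⟩ := hF.bd
  obtain ⟨e1, e2⟩ := UF_ends hc'
  set A : ℤ → ℚ := fun i => ha (UF F i) with hA
  set B : ℤ → ℚ := fun i => hb (UF F i) with hB
  set C : ℤ → ℚ := fun i => hc (UF F i) with hC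
  have lo : A (-c) = N / 2 ∧ B (-c) = 3 * N / 2 ∧ C (-c) = N := by
    have := (hasHP_freeF (k := k) (fun _ : Fin N => (0 : ℤ))).coeffs
    simp only [hA, hB, hC, e1]
    rw [this.1, this.2.1, this.2.2]
    simp only [Fintype.card_fin, Finset.sum_const, Finset.card_univ, nsmul_eq_mul]
    refine ⟨trivial, ?_, ?_⟩
    · push_cast; ring
    · push_cast; ring
  have hi : A (c + 1) = 0 ∧ B (c + 1) = 0 ∧ C (c + 1) = 0 := by
    simp only [hA, hB, hC, e2]
    exact coeffs_bot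
  have hd : ∀ i, B i ≤ 3 * A i := by
    intro i
    have := hb_le_of_le_free (hF.UF_isLat i) 0 (by simpa using UF_le F i)
    simp only [hA, hB]
    push_cast at this
    linarith
  have hmono : ∀ i, A (i + 1) ≤ A i := fun i =>
    (coeffs_le_of_le (hF.UF_isLat (i + 1)) (hF.UF_isLat i) ⟨0, fun t _ => hF.UF_anti i t⟩).1
  have H1 := HasHP.sum (Finset.Icc (-(c : ℤ)) c) (fun i _ =>
    ((hF.UF_isLat i).hasHP.sub (hF.UF_isLat (i + 1)).hasHP).shift (-i))
  have H2 := H1.congr (h' := gF F) ⟨0, fun t _ => by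
    rw [hF.gF_eq hc' t]
    simp only [sub_eq_add_neg]⟩
  have ea : ∑ i ∈ Finset.Icc (-(c : ℤ)) c, (A i - A (i + 1)) = N / 2 := by
    have := LU_tele (fun i => -A i) (-(c : ℤ)) c (by omega)
    rw [lo.1, hi.1] at this
    rw [show (N : ℚ) / 2 = -0 - -(N / 2) by ring, ← this]
    exact Finset.sum_congr rfl fun i _ => by ring
  set b := ∑ i ∈ Finset.Icc (-(c : ℤ)) c, (B i - B (i + 1) + 2 * (A i - A (i + 1)) * ((-i : ℤ) : ℚ))
    with hb'
  set c0 := ∑ i ∈ Finset.Icc (-(c : ℤ)) c, (C i - C (i + 1) + (B i - B (i + 1)) * ((-i : ℤ) : ℚ) +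
    (A i - A (i + 1)) * ((-i : ℤ) : ℚ) ^ 2) with hc0
  have H3 : HasHP (gF F) (N / 2) b c0 := by
    rw [← ea]
    exact H2
  have key : ∀ τ : ℚ, -(N : ℚ) / 8 ≤ N / 2 * τ ^ 2 + b * τ + c0 := by
    intro τ
    let χ : ℤ → ℚ := fun i => A i / 4 - (C i - 2 * A i) + (3 * A i - B i) * (τ - i)
    have t1 := LU_tele χ (-(c : ℤ)) c (by omega)
    have t2 : χ (c + 1) - χ (-c) = -(N : ℚ) / 8 := by
      simp only [χ, lo.1, lo.2.1, lo.2.2, hi.1, hi.2.1, hi.2.2]
      ring
    rw [← t2, ← t1, ← ea, hb', hc0, Finset.sum_mul, Finset.sum_mul, ← Finset.sum_add_distrib,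
      ← Finset.sum_add_distrib]
    refine Finset.sum_le_sum fun i _ => ?_
    simp only [χ]
    push_cast
    have p1 := hd (i + 1)
    have p2 := mul_nonneg (sub_nonneg.2 (hmono i)) (sq_nonneg (τ - i + 3 / 2))
    nlinarith
  obtain ⟨-, ⟨z1, hz1⟩, hz2⟩ := H3.int (fun t => ⟨_, (Int.cast_natCast _).symm⟩)
  have hN' : (0 : ℚ) < N := by exact_mod_cast hN
  refine ⟨b, c0, H3, ?_, ⟨2 * z1 + 3 * N, by push_cast; linarith⟩, hz2⟩
  have := key (-b / N)
  have e3 : (N : ℚ) / 2 * (-b / N) ^ 2 + b * (-b / N) + c0 = c0 - b ^ 2 / (2 * N) := by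
    field_simp
    ring
  rwa [e3] at this

/-- `z` is a homogeneous combination of the `n l` modulo `F (t+1)` -/
def L1_Good (F : Fam k (Fin N → PS k)) {ι : Type} [Fintype ι] (n : ι → Fin N → PS k) (b : ι → ℤ)
    (t : ℤ) (z : Fin N → PS k) : Prop :=
  ∃ a : ι → MvPolynomial (Fin 3) k,
    (∀ l, (a l).IsHomogeneous (t - b l).toNat ∧ (t < b l → a l = 0)) ∧
    z - ∑ l, (a l : PS k) • n l ∈ F (t + 1)

section good
variable {ι : Type} [Fintype ι] {n : ι → Fin N → PS k} {b : ι → ℤ} {t : ℤ}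

theorem L1_good_of_mem {z : Fin N → PS k} (hz : z ∈ F (t + 1)) : L1_Good F n b t z :=
  ⟨fun _ => 0, fun _ => ⟨MvPolynomial.isHomogeneous_zero _ _ _, fun _ => rfl⟩, by simpa using hz⟩

theorem L1_good_add {z z' : Fin N → PS k} (h : L1_Good F n b t z) (h' : L1_Good F n b t z') :
    L1_Good F n b t (z + z') := by
  obtain ⟨a, ha, hz⟩ := h
  obtain ⟨a', ha', hz'⟩ := h'
  refine ⟨fun l => a l + a' l, fun l => ⟨(ha l).1.add (ha' l).1, fun hl => ?_⟩, ?_⟩
  · simp only [(ha l).2 hl, (ha' l).2 hl, add_zero]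
  · simp only [MvPolynomial.coe_add, add_smul, Finset.sum_add_distrib]
    have := Submodule.add_mem _ hz hz'
    convert this using 1
    abel

theorem L1_good_sum {κ : Type} (S : Finset κ) (z : κ → Fin N → PS k)
    (h : ∀ i ∈ S, L1_Good F n b t (z i)) : L1_Good F n b t (∑ i ∈ S, z i) :=
  Finset.sum_induction z _ (fun _ _ => L1_good_add) (L1_good_of_mem (Submodule.zero_mem _)) h

theorem L1_good_single (l : ι) {G : MvPolynomial (Fin 3) k} (hG : G.IsHomogeneous (t - b l).toNat)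
    (h0 : t < b l → G = 0) : L1_Good F n b t ((G : PS k) • n l) := by
  classical
  refine ⟨fun l' => if l' = l then G else 0, fun l' => ?_, ?_⟩
  · by_cases h : l' = l
    · subst h
      simp only [if_true]
      exact ⟨hG, h0⟩
    · simp only [if_neg h]
      exact ⟨MvPolynomial.isHomogeneous_zero _ _ _, fun _ => trivial⟩
  · rw [Finset.sum_eq_single l (fun l' _ h => by simp [h]) (by simp)]
    simp

end good

theorem L1_deh_surj {s : ℤ} {α : KA k} (h : α ∈ AA k s) : ∃ G : MvPolynomial (Fin 3) k,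
    G.IsHomogeneous s.toNat ∧ (s < 0 → G = 0) ∧ deh G = α := by
  by_cases hs : s < 0
  · rw [AA_neg hs, Submodule.mem_bot] at h
    exact ⟨0, MvPolynomial.isHomogeneous_zero _ _ _, fun _ => rfl, by rw [h, map_zero]⟩
  · obtain ⟨e, rfl⟩ := Int.eq_ofNat_of_zero_le (not_lt.1 hs)
    obtain ⟨G, hG, hα⟩ := deh_surj h
    exact ⟨G, by simpa using hG, fun h => absurd h hs, hα⟩

theorem L1_fg (hF : XFil F) : ∃ (ι : Type) (_ : Fintype ι) (n : ι → Fin N → PS k) (b : ι → ℤ),
    (∀ l, n l ∈ F (b l)) ∧ ∀ t, ∀ z ∈ F t, L1_Good F n b t z := by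
  obtain ⟨c, hc'⟩ := hF.bd
  choose m w β hw using fun i => hF.UF_isLat i
  have hmem : ∀ i l, w i l ∈ UF F i (β i l) := fun i l => by
    rw [hw i]
    exact mem_gen_self (one_mem_AA le_rfl) _ _ l
  choose n hn hnw using hmem
  refine ⟨Σ i : Finset.Icc (-(c : ℤ)) c, Fin (m i), inferInstance, fun p => n p.1 p.2,
    fun p => β p.1 p.2 + p.1, fun p => (hn p.1 p.2).1, fun t z hz => ?_⟩
  have key : ∀ r : ℕ, r ≤ 2 * c + 1 → ∀ z ∈ F t, z ∈ ordF k N (t + c + 1 - r) →
      L1_Good F (ι := Σ i : Finset.Icc (-(c : ℤ)) c, Fin (m i)) (fun p => n p.1 p.2)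
        (fun p => β p.1 p.2 + p.1) t z := by
    intro r
    induction r with
    | zero =>
      intro _ z _ hz
      exact L1_good_of_mem ((hc' _).1 (ordF_anti (by omega) hz))
    | succ r ih =>
      intro hr z hz1 hz2
      obtain ⟨i, hi⟩ : ∃ i : ℤ, i = r - c := ⟨_, rfl⟩
      obtain ⟨j, hj⟩ : ∃ j : ℤ, j = t - i := ⟨_, rfl⟩
      have hiI : i ∈ Finset.Icc (-(c : ℤ)) c := Finset.mem_Icc.2 ⟨by omega, by omega⟩
      have hz3 : z ∈ ordF k N j := ordF_anti (by push_cast; omega) hz2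
      have h1 : topV k N j z ∈ UF F i j := ⟨z, ⟨by
        have : j + i = t := by omega
        rw [this]; exact hz1, hz3⟩, rfl⟩
      rw [hw i] at h1
      obtain ⟨α, hα, h2⟩ := mem_gen.1 h1
      choose G hG hG0 hGα using fun l => L1_deh_surj (hα l)
      have h3 : ∀ l, (G l : PS k) • n i l ∈ F t ∧ (G l : PS k) • n i l ∈ ordF k N j ∧
          topV k N j ((G l : PS k) • n i l) = α l • w i l := by
        intro l
        by_cases hl : j - β i l < 0
        · rw [← hGα l, hG0 l hl]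
          simp
        · have e1 : β i l + ((j - β i l).toNat : ℕ) = j := by omega
          have e2 : β i l + i + ((j - β i l).toNat : ℕ) = t := by omega
          refine ⟨?_, ?_, ?_⟩
          · have := hF.smul (hG l) (hn i l).1
            rwa [e2] at this
          · have := smul_mem_ordF (hG l) (hn i l).2
            rwa [e1] at this
          · have := LU_topV_smul (hG l) (β i l) (n i l)
            rw [e1, hnw, hGα] at this
            exact this
      have h4 : z - ∑ l, (G l : PS k) • n i l ∈ F t :=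
        Submodule.sub_mem _ hz1 (Submodule.sum_mem _ fun l _ => (h3 l).1)
      have h5 : z - ∑ l, (G l : PS k) • n i l ∈ ordF k N j :=
        Submodule.sub_mem _ hz3 (Submodule.sum_mem _ fun l _ => (h3 l).2.1)
      have h6 : z - ∑ l, (G l : PS k) • n i l ∈ ordF k N (j + 1) := by
        rw [← topV_eq_zero h5, map_sub, map_sum, h2, sub_eq_zero]
        exact Finset.sum_congr rfl fun l _ => (h3 l).2.2.symm
      have h7 := ih (by omega) _ h4 (ordF_anti (by omega) h6)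
      rw [← sub_add_cancel z (∑ l, (G l : PS k) • n i l)]
      refine L1_good_add h7 (L1_good_sum _ _ fun l _ => ?_)
      have e3 : t - (β i l + i) = j - β i l := by omega
      exact L1_good_single (ι := Σ i : Finset.Icc (-(c : ℤ)) c, Fin (m i))
        (n := fun p => n p.1 p.2) (b := fun p => β p.1 p.2 + p.1) ⟨⟨i, hiI⟩, l⟩
        (by simp only [e3]; exact hG l) (fun h => hG0 l (by simp only at h; omega))
  exact key (2 * c + 1) le_rfl z hz (ordF_anti (by push_cast; omega) ((hc' t).2 hz))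

/-- `gr_F` is finitely generated.  Lift the generators of the lattices `UF i`, `-c ≤ i ≤ c`: a
generator of degree `j₀` lifts to `n ∈ F (j₀ + i) ⊓ ordF j₀`, put `b = j₀ + i`.  For `m ∈ F t ⊓ ordF j`
subtract `∑ a_l n_l` (`a_l` homogeneous, `deh_surj`) to reach `F t ⊓ ordF (j+1)`; go from `j = t - c`
up to `j = t + c + 1`. -/
theorem XFil.fg (hF : XFil F) : ∃ (m : ℕ) (n : Fin m → Fin N → PS k) (b : Fin m → ℤ),
    (∀ l, n l ∈ F (b l)) ∧ ∀ t, ∀ z ∈ F t, ∃ a : Fin m → MvPolynomial (Fin 3) k,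
      (∀ l, (a l).IsHomogeneous (t - b l).toNat ∧ (t < b l → a l = 0)) ∧
      z - ∑ l, (a l : PS k) • n l ∈ F (t + 1) := by
  obtain ⟨ι, _, n, b, h1, h2⟩ := L1_fg hF
  let σ := (Fintype.equivFin ι).symm
  refine ⟨_, fun l => n (σ l), fun l => b (σ l), fun l => h1 _, fun t z hz => ?_⟩
  obtain ⟨a, ha, h3⟩ := h2 t z hz
  refine ⟨fun l => a (σ l), fun l => ha _, ?_⟩
  rw [σ.sum_comp (fun l => (a l : PS k) • n l)]
  exact h3

end Crest.Agent.R169
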