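import Crest.Agent.R169.Defs3
import Crest.Agent.R169.AHilb

/-! # R169 task RBasic: graded domains finite over `A` and their lattices (any characteristic) -/

set_option autoImplicit false
set_option linter.unusedSectionVars false

namespace Crest.Agent.R169
open Module

/-- sublattices of a lattice have bounded `hb` (embed `G₀` in a free module by coordinates on
`spanF G₀` and common denominators; `hb_le_of_le_free`) -/
theorem IsLat.hb_bdd {k V : Type} [Field k] [AddCommGroup V] [Module k V] [Module (KA k) V]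
    [IsScalarTower k (KA k) V] {G₀ : Fam k V} (h : IsLat G₀) :
    ∃ C : ℚ, ∀ G : Fam k V, IsLat G → G ≤ G₀ → hb G ≤ C := by
  classical
  have hfin := h.finite_spanF
  set n := finrank (KA k) (spanF G₀) with hn
  obtain ⟨c, hc⟩ := LinearMap.exists_extend
    ((Module.finBasis (KA k) (spanF G₀)).equivFun.toLinearMap)
  obtain ⟨m, w, b, hw⟩ := h
  obtain ⟨e, f, hf, hf0, hfa⟩ := AA_denom_fin (fun z : Fin m × Fin n => c (w z.1) z.2)
    (fun z => b z.1)
  have hle : R169.fmap (f • c) G₀ ≤ freeF k (fun _ : Fin n => -e) := by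
    rw [congrArg (R169.fmap (f • c)) hw, fmap_gen]
    refine gen_le (isLat_freeF _).isMod fun j i _ => ?_
    rw [sub_neg_eq_add]
    exact hfa (j, i)
  refine ⟨n * |3 / 2 + (e : ℚ)|, fun G hG hGle => ?_⟩
  have hcut : R169.cut G (LinearMap.ker (f • c)) = ⊥ := by
    funext t
    refine eq_bot_iff.2 fun v hv => ?_
    obtain ⟨hv1, hv2⟩ := mem_cut.1 hv
    have hvS : v ∈ spanF G₀ := Submodule.subset_span (Set.mem_iUnion.2 ⟨t, hGle t hv1⟩)
    have h1 : c v = 0 := by
      have : f • c v = 0 := hv2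
      exact (smul_eq_zero.1 this).resolve_left hf0
    have h2 : (Module.finBasis (KA k) (spanF G₀)).equivFun ⟨v, hvS⟩ = 0 := by
      have := LinearMap.congr_fun hc ⟨v, hvS⟩
      simp only [LinearMap.comp_apply, Submodule.subtype_apply, LinearEquiv.coe_coe] at this
      rw [← this, h1]
    have h3 := (LinearEquiv.map_eq_zero_iff _).1 h2
    exact congrArg Subtype.val h3
  have hadd := (hG.coeffs_add (f • c)).2.1
  rw [hcut, coeffs_bot.2.1, zero_add] at hadd
  have hG' : IsLat (R169.fmap (f • c) G) := hG.fmap _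
  have hle' : R169.fmap (f • c) G ≤ freeF k (fun _ : Fin n => -e) :=
    le_trans (fun t => Submodule.map_mono (hGle t)) hle
  have h1 := hb_le_of_le_free hG' e hle'
  rw [hG'.two_ha] at h1
  have h2 : finrank (KA k) (spanF (R169.fmap (f • c) G)) ≤ n := by
    have := Submodule.finrank_le (spanF (R169.fmap (f • c) G))
    simpa using this
  have h3 : (finrank (KA k) (spanF (R169.fmap (f • c) G)) : ℚ) ≤ n := by exact_mod_cast h2
  rw [hadd]
  refine h1.trans ((mul_le_mul_of_nonneg_left (le_abs_self _) (Nat.cast_nonneg _)).trans ?_)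
  exact mul_le_mul_of_nonneg_right h3 (abs_nonneg _)

variable {k K : Type} [Field k] [Field K] [Algebra k K] [Algebra (KA k) K]
  [IsScalarTower k (KA k) K]

variable {V V' : Type} [AddCommGroup V] [Module k V] [Module (KA k) V] [Module K V]
  [IsScalarTower k (KA k) V] [IsScalarTower k K V] [IsScalarTower (KA k) K V]
  [AddCommGroup V'] [Module k V'] [Module (KA k) V'] [Module K V']
  [IsScalarTower k (KA k) V'] [IsScalarTower k K V'] [IsScalarTower (KA k) K V']

theorem Base.one_mem (B : Base k K) {t : ℤ} (h : 0 ≤ t) : (1 : K) ∈ B.R t := by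
  simpa using B.A_le t 1 (one_mem_AA h)

theorem Base.x_mem (B : Base k K) (i : Fin 2) : xK k K i ∈ B.R 1 := by
  exact B.A_le 1 _ (xA_mem i)

theorem Base.pow_mem (B : Base k K) {s : ℤ} {a : K} (ha : a ∈ B.R s) (n : ℕ) :
    a ^ n ∈ B.R (n * s) := by
  induction n with
  | zero => simpa using B.one_mem le_rfl
  | succ n ih =>
    have := B.mul _ _ _ ih _ ha
    rw [pow_succ]
    convert this using 2
    push_cast; ring

/-- powers of an element of negative degree vanish (`IsLat.bot_low`) -/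
theorem Base.neg (B : Base k K) {t : ℤ} (h : t < 0) : B.R t = ⊥ := by
  obtain ⟨t0, ht0⟩ := B.lat.bot_low
  refine eq_bot_iff.2 fun a ha => ?_
  have h1 := B.pow_mem ha (t0.natAbs + 1)
  rw [ht0 _ (by
    have h2 : -t0 ≤ (t0.natAbs : ℤ) := by omega
    have h3 : (0 : ℤ) ≤ (t0.natAbs : ℤ) := by omega
    push_cast at *
    nlinarith)] at h1
  exact pow_eq_zero_iff (Nat.succ_ne_zero _) |>.1 h1

theorem Base.finiteDim (B : Base k K) : FiniteDimensional (KA k) K := by
  exact B.lat.finiteDim B.full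

theorem Base.rk_pos (B : Base k K) : (1 : ℚ) ≤ rk k K := by
  have := B.finiteDim
  have h : 0 < finrank (KA k) K := Module.finrank_pos
  unfold rk
  exact_mod_cast h

theorem Base.denom (B : Base k K) (a : K) (t : ℤ) : ∃ (e : ℤ) (f : KA k), f ∈ AA k e ∧ f ≠ 0 ∧
    algebraMap (KA k) K f * a ∈ B.R (t + e) := by
  obtain ⟨e, f, h1, h2, h3⟩ := mem_spanF_denom B.lat.isMod (ξ := a) (by rw [B.full]; trivial) t
  exact ⟨e, f, h1, h2, by rwa [Algebra.smul_def] at h3⟩

theorem Base.isMod (B : Base k K) : IsMod B.R B.R := by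
  exact fun s t a ha b hb => B.mul s t a ha b hb

theorem Base.rlat (B : Base k K) : RLat B B.R := ⟨B.lat, B.isMod⟩

theorem Base.ha_R (B : Base k K) : ha B.R = rk k K / 2 := by
  have h := B.lat.two_ha
  rw [B.full, finrank_top] at h
  unfold rk
  linarith

theorem IsMod.toAA {B : Base k K} {N : Fam k V} (h : IsMod B.R N) : IsMod (AA k) N := by
  intro s t a ha v hv
  have := h s t _ (B.A_le s a ha) v hv
  rwa [algebraMap_smul] at this

theorem rlat_gen (B : Base k K) {ι : Type} [Finite ι] (w : ι → V) (b : ι → ℤ) :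
    RLat B (gen B.R w b) := by
  have hm : IsMod B.R (gen B.R w b) := gen_isMod B.mul w b
  refine ⟨?_, hm⟩
  obtain ⟨m, μ, e, hR⟩ := B.lat
  have heq : gen B.R w b =
      gen (AA k) (fun z : ι × Fin m => μ z.2 • w z.1) (fun z => b z.1 + e z.2) := by
    refine le_antisymm (fun t => Submodule.span_le.2 ?_) (gen_le hm.toAA fun z => ?_)
    · rintro _ ⟨i, a, ha, rfl⟩
      rw [hR] at ha
      obtain ⟨c, hc, rfl⟩ := mem_gen.1 ha
      rw [Finset.sum_smul]
      refine Submodule.sum_mem _ fun l _ => Submodule.subset_span ⟨(i, l), c l, ?_, ?_⟩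
      · have := hc l
        rwa [sub_sub] at this
      · rw [smul_assoc]
    · refine Submodule.subset_span ⟨z.1, μ z.2, ?_, rfl⟩
      rw [add_sub_cancel_left, hR]
      exact mem_gen_self (S := AA k) (one_mem_AA le_rfl) μ e z.2
  rw [heq]
  exact gen_isLat _ _

theorem rlat_bot (B : Base k K) : RLat B (⊥ : Fam k V) := by
  refine ⟨isLat_bot, fun s t a _ v hv => ?_⟩
  have : v = 0 := hv
  subst this
  simp

theorem RLat.sub {B : Base k K} {N M : Fam k V} (hN : RLat B N) (hM : IsMod B.R M) (h : M ≤ N) :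
    RLat B M := ⟨hN.1.sub hM.toAA h, hM⟩

theorem RLat.sup {B : Base k K} {N M : Fam k V} (hN : RLat B N) (hM : RLat B M) :
    RLat B (N ⊔ M) := by
  refine ⟨hN.1.sup hM.1, fun s t a ha v hv => ?_⟩
  obtain ⟨y, hy, z, hz, rfl⟩ := Submodule.mem_sup.1 hv
  rw [smul_add]
  exact Submodule.add_mem_sup (hN.2 s t a ha y hy) (hM.2 s t a ha z hz)

theorem RLat.sh {B : Base k K} {N : Fam k V} (hN : RLat B N) (e : ℤ) : RLat B (sh N e) := by
  refine ⟨hN.1.sh e, fun s t a ha v hv => ?_⟩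
  have := hN.2 s (t + e) a ha v hv
  rwa [← add_assoc] at this

theorem RLat.cut {B : Base k K} {N : Fam k V} (hN : RLat B N) (W : Submodule K V) :
    RLat B (cut N W) := by
  exact ⟨hN.1.cut W, fun s t a ha v hv => ⟨hN.2 s t a ha v hv.1, W.smul_mem a hv.2⟩⟩

theorem RLat.fmap {B : Base k K} {N : Fam k V} (hN : RLat B N) (f : V →ₗ[K] V') :
    RLat B (fmap f N) := by
  refine ⟨hN.1.fmap f, fun s t a ha v hv => ?_⟩
  obtain ⟨u, hu, rfl⟩ := mem_fmap.1 hv
  exact mem_fmap.2 ⟨a • u, hN.2 s t a ha u hu, map_smul f a u⟩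

theorem RLat.fcomap {B : Base k K} {N : Fam k V'} (hN : RLat B N) {f : V →ₗ[K] V'}
    (hf' : Function.Injective f) : RLat B (fcomap f N) := by
  refine ⟨hN.1.fcomap hf', fun s t a ha v hv => ?_⟩
  rw [mem_fcomap, map_smul]
  exact hN.2 s t a ha _ hv

theorem Full.fmap {N : Fam k V} (hF : Full N) {f : V →ₗ[K] V'} (hf' : Function.Surjective f) :
    Full (fmap f N) := by
  unfold Full at *
  rw [spanF_fmap, hF, Submodule.map_top, LinearMap.range_eq_top]
  exact hf'

theorem Full.fcomap {N : Fam k V'} (hN : IsMod (AA k) N) (hF : Full N) (f : V →ₗ[K] V') :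
    Full (fcomap f N) := by
  refine eq_top_iff.2 fun v _ => ?_
  obtain ⟨e, g, -, hg0, hgv⟩ := mem_spanF_denom hN (ξ := f v) (by rw [hF]; trivial) 0
  have h1 : g • v ∈ Crest.Agent.R169.fcomap f N (0 + e) := by
    rw [mem_fcomap, ← algebraMap_smul K g v, map_smul, algebraMap_smul]; exact hgv
  have h2 : v = g⁻¹ • (g • v) := by rw [smul_smul, inv_mul_cancel₀ hg0, one_smul]
  rw [h2]
  exact Submodule.smul_mem _ _ (Submodule.subset_span (Set.mem_iUnion.2 ⟨_, h1⟩))

theorem Full.mono {N N' : Fam k V} (hF : Full N) (h : N ≤ N') : Full N' := by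
  exact eq_top_iff.2 (le_trans (le_of_eq hF.symm) (spanF_mono h))

theorem rlat_piF (B : Base k K) (ι : Type) [Fintype ι] :
    RLat B (piF B.R ι) ∧ Full (piF B.R ι) := by
  classical
  refine ⟨⟨B.lat.piF ι, fun s t a ha v hv i _ => B.mul s t a ha _ (hv i trivial)⟩, ?_⟩
  refine eq_top_iff.2 fun v _ => ?_
  rw [← Finset.univ_sum_single v]
  refine Submodule.sum_mem _ fun i _ => ?_
  obtain ⟨e, g, -, hg0, hgv⟩ := B.denom (v i) 0
  have h1 : g • (Pi.single i (v i) : ι → K) ∈ piF B.R ι (0 + e) := by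
    intro j _
    by_cases hj : j = i
    · subst hj
      simpa [Algebra.smul_def] using hgv
    · simp [hj]
  have h2 : (Pi.single i (v i) : ι → K) = g⁻¹ • (g • (Pi.single i (v i) : ι → K)) := by
    rw [smul_smul, inv_mul_cancel₀ hg0, one_smul]
  rw [h2]
  exact Submodule.smul_mem _ _ (Submodule.subset_span (Set.mem_iUnion.2 ⟨_, h1⟩))

/-- the span of an `R`-module is a `K`-subspace (`Base.denom`) -/
theorem smul_mem_spanF {B : Base k K} {N : Fam k V} (hN : IsMod B.R N) (a : K) {ξ : V}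
    (hξ : ξ ∈ spanF N) : a • ξ ∈ spanF N := by
  induction hξ using Submodule.span_induction with
  | mem v hv =>
    obtain ⟨t, hv⟩ := Set.mem_iUnion.1 hv
    obtain ⟨e, g, -, hg0, hga⟩ := B.denom a 0
    have h1 := hN _ _ _ hga v hv
    have h2 : a • v = g⁻¹ • ((algebraMap (KA k) K g * a) • v) := by
      rw [mul_smul, algebraMap_smul, smul_smul, inv_mul_cancel₀ hg0, one_smul]
    rw [h2]
    exact Submodule.smul_mem _ _ (Submodule.subset_span (Set.mem_iUnion.2 ⟨_, h1⟩))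
  | zero => simp
  | add u v _ _ hu hv => rw [smul_add]; exact Submodule.add_mem _ hu hv
  | smul c v _ hv =>
    rw [← algebraMap_smul K c v, smul_comm, algebraMap_smul]
    exact Submodule.smul_mem _ _ hv

theorem full_of_span {B : Base k K} {N : Fam k V} (hN : IsMod B.R N) (s : Set V)
    (hs : Submodule.span K s = ⊤) (h : ∀ ξ ∈ s, ξ ∈ spanF N) : Full N := by
  refine eq_top_iff.2 fun v _ => ?_
  have hv : v ∈ Submodule.span K s := by rw [hs]; trivial
  induction hv using Submodule.span_induction with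
  | mem v hv => exact h v hv
  | zero => simp
  | add u v _ _ hu hv => exact Submodule.add_mem _ (hu trivial) (hv trivial)
  | smul c v _ hv => exact smul_mem_spanF hN c (hv trivial)

/-- a nonzero `R`-submodule of `K` is full -/
theorem full_of_ne_bot {B : Base k K} {N : Fam k K} (hN : IsMod B.R N) (h : N ≠ ⊥) : Full N := by
  have : ∃ t, N t ≠ ⊥ := by
    by_contra hall
    push Not at hall
    exact h (funext hall)
  obtain ⟨t, ht⟩ := this
  obtain ⟨a, ha, ha0⟩ := Submodule.exists_mem_ne_zero_of_ne_bot ht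
  refine full_of_span hN {a} ?_ ?_
  · refine eq_top_iff.2 fun v _ => Submodule.mem_span_singleton.2 ⟨v / a, ?_⟩
    rw [smul_eq_mul, div_mul_cancel₀ _ ha0]
  · rintro _ rfl
    exact Submodule.subset_span (Set.mem_iUnion.2 ⟨_, ha⟩)

theorem RLat.ha_cut {B : Base k K} {N : Fam k V} (hN : RLat B N) (hF : Full N)
    (W : Submodule K V) : ha (Crest.Agent.R169.cut N W) = rk k K * finrank K W / 2 := by
  have h := (hN.1.cut W).two_ha
  rw [← cut_restrict N W, spanF_cut hN.1.isMod, hF, top_inf_eq, cut_restrict] at h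
  have h2 : finrank (KA k) (W.restrictScalars (KA k)) = finrank (KA k) K * finrank K W :=
    (Module.finrank_mul_finrank (KA k) K W).symm
  rw [h2] at h
  unfold rk
  push_cast at h
  linarith

theorem RLat.ha_full {B : Base k K} {N : Fam k V} (hN : RLat B N) (hF : Full N) :
    ha N = rk k K * finrank K V / 2 := by
  have h := hN.ha_cut hF ⊤
  rwa [cut_top, finrank_top] at h

theorem RLat.ha_ideal {B : Base k K} {N : Fam k K} (hN : RLat B N) (h : N ≠ ⊥) :
    ha N = rk k K / 2 := by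
  have h1 := hN.ha_full (full_of_ne_bot hN.2 h)
  rw [h1]; simp

theorem colon_rlat (B : Base k K) {N' : Fam k V} (hN' : IsMod B.R N') (ξ : V) (b : ℤ) :
    RLat B (colon B N' ξ b) ∧ colon B N' ξ b ≤ B.R := by
  have hle : colon B N' ξ b ≤ B.R := fun _ => inf_le_left
  refine ⟨B.rlat.sub (fun s t a ha c hc => ⟨B.mul s t a ha c hc.1, ?_⟩) hle, hle⟩
  have h1 : c • ξ ∈ N' (t + b) := hc.2
  have h2 := hN' s _ a ha _ h1
  show (a • c) • ξ ∈ N' (s + t + b)
  rwa [smul_assoc, add_assoc]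

theorem mem_colon {B : Base k K} {N' : Fam k V} {ξ : V} {b t : ℤ} {a : K} :
    a ∈ colon B N' ξ b t ↔ a ∈ B.R t ∧ a • ξ ∈ N' (t + b) := Iff.rfl

theorem mem_adjoin1 {B : Base k K} {N' : Fam k V} {ξ : V} {b t : ℤ} {z : V} :
    z ∈ adjoin1 B N' ξ b t ↔ ∃ η ∈ N' t, ∃ a ∈ B.R (t - b), z = η + a • ξ := by
  unfold adjoin1
  rw [Submodule.mem_sup]
  constructor
  · rintro ⟨y, hy, _, ⟨a, ha, rfl⟩, rfl⟩
    exact ⟨y, hy, a, ha, rfl⟩
  · rintro ⟨y, hy, a, ha, rfl⟩
    exact ⟨y, hy, _, ⟨a, ha, rfl⟩, rfl⟩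

theorem adjoin1_rlat (B : Base k K) {N' : Fam k V} (hN' : RLat B N') (ξ : V) (b : ℤ) :
    RLat B (adjoin1 B N' ξ b) := by
  exact hN'.sup ((B.rlat.sh (-b)).fmap (LinearMap.toSpanSingleton K V ξ))

theorem le_adjoin1 (B : Base k K) (N' : Fam k V) (ξ : V) (b : ℤ) : N' ≤ adjoin1 B N' ξ b :=
  fun _ => le_sup_left

theorem adjoin1_le {B : Base k K} {N' N : Fam k V} (hN : IsMod B.R N) (h : N' ≤ N) {ξ : V} {b : ℤ}
    (hξ : ξ ∈ N b) : adjoin1 B N' ξ b ≤ N := by
  intro t z hz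
  obtain ⟨η, hη, a, ha, rfl⟩ := mem_adjoin1.1 hz
  refine Submodule.add_mem _ (h t hη) ?_
  have := hN _ _ a ha ξ hξ
  rwa [sub_add_cancel] at this

theorem hf_adjoin1 (B : Base k K) {N' : Fam k V} (hN' : IsLat N') (ξ : V) (b t : ℤ) :
    hf (adjoin1 B N' ξ b) t = hf N' t + (hf B.R (t - b) - hf (colon B N' ξ b) (t - b)) := by
  have f1 := hN'.fin t
  have f2 := B.lat.fin (t - b)
  have f3 : FiniteDimensional k (colon B N' ξ b (t - b)) :=
    Submodule.finiteDimensional_of_le (S₂ := B.R (t - b)) inf_le_left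
  set φ := LinearMap.toSpanSingleton K V ξ with hφ
  have f4 : FiniteDimensional k (fmap φ B.R (t - b)) := by
    unfold fmap; infer_instance
  have h1 := hf_cut_add_fmap φ B.R (t - b)
  have h2 := hf_cut_add_fmap φ (colon B N' ξ b) (t - b)
  have e1 : cut (colon B N' ξ b) (LinearMap.ker φ) (t - b) = cut B.R (LinearMap.ker φ) (t - b) := by
    ext a
    rw [mem_cut, mem_cut, mem_colon]
    constructor
    · rintro ⟨⟨h1, _⟩, h3⟩; exact ⟨h1, h3⟩
    · rintro ⟨h1, h3⟩
      have : a • ξ = 0 := h3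
      exact ⟨⟨h1, by rw [this]; exact Submodule.zero_mem _⟩, h3⟩
  have e2 : fmap φ (colon B N' ξ b) (t - b) = N' t ⊓ fmap φ B.R (t - b) := by
    ext v
    rw [Submodule.mem_inf, mem_fmap, mem_fmap]
    constructor
    · rintro ⟨a, ha, rfl⟩
      obtain ⟨h1, h2⟩ := mem_colon.1 ha
      rw [sub_add_cancel] at h2
      exact ⟨h2, a, h1, rfl⟩
    · rintro ⟨h1, a, ha, rfl⟩
      exact ⟨a, mem_colon.2 ⟨ha, by rw [sub_add_cancel]; exact h1⟩, rfl⟩
  have h3 := Submodule.finrank_sup_add_finrank_inf_eq (N' t) (fmap φ B.R (t - b))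
  have h3' : (finrank k ↥(N' t ⊔ fmap φ B.R (t - b)) : ℚ) +
      finrank k ↥(N' t ⊓ fmap φ B.R (t - b)) = finrank k (N' t) + finrank k (fmap φ B.R (t - b)) := by
    exact_mod_cast h3
  unfold hf at h1 h2 ⊢
  rw [e1, e2] at h2
  have e3 : adjoin1 B N' ξ b t = N' t ⊔ fmap φ B.R (t - b) := rfl
  rw [e3]
  linarith

theorem coeffs_adjoin1 (B : Base k K) {N' : Fam k V} (hN' : RLat B N') (ξ : V) (b : ℤ) :
    ha (adjoin1 B N' ξ b) = ha N' + (ha B.R - ha (colon B N' ξ b)) ∧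
    hb (adjoin1 B N' ξ b) = hb N' + (hb B.R - hb (colon B N' ξ b)) -
      2 * (ha B.R - ha (colon B N' ξ b)) * b := by
  have h1 := hN'.1.hasHP.add
    ((B.lat.hasHP.sub (colon_rlat B hN'.2 ξ b).1.1.hasHP).shift (-b))
  have h2 := (h1.congr (h' := hf (adjoin1 B N' ξ b))
    ⟨0, fun t _ => by rw [hf_adjoin1 B hN'.1]; rfl⟩).coeffs
  refine ⟨h2.1, ?_⟩
  rw [h2.2.1]
  push_cast; ring

/-- Prime filtrations.  Sketch: `IsLat.exists_max` gives `M` maximal among the `R`-lattices between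
`N'` and `N` with `P M`.  If `M ≠ N`, choose `(ξ, b)`, `ξ ∈ N b \ M b` with `colon B M ξ b` maximal
(`exists_max` inside `R`); it is prime (if `a' ∉ colon` use `ξ' = a' • ξ`), and `adjoin1 M ξ b` is
bigger than `M`. -/
theorem prime_filtration (B : Base k K) {N' N : Fam k V} (hN' : RLat B N') (hN : RLat B N)
    (hle : N' ≤ N) (P : Fam k V → Prop) (h0 : P N')
    (hstep : ∀ M, RLat B M → N' ≤ M → M ≤ N → P M → ∀ b, ∀ ξ ∈ N b,
      IsPrimeFam B (colon B M ξ b) → P (adjoin1 B M ξ b)) : P N := by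
  obtain ⟨M, ⟨hM, hM1, hM2, hPM⟩, hmax⟩ := hN.1.exists_max
    {M | RLat B M ∧ N' ≤ M ∧ M ≤ N ∧ P M} ⟨N', hN', le_rfl, hle, h0⟩
    (fun M hM => ⟨hM.1.1.isMod, hM.2.2.1⟩)
  by_cases hMN : M = N
  · rwa [← hMN]
  exfalso
  have hex : ∃ b, ∃ ξ ∈ N b, ξ ∉ M b := by
    by_contra hall
    push Not at hall
    exact hMN (le_antisymm hM2 hall)
  obtain ⟨b0, ξ0, h1, h2⟩ := hex
  obtain ⟨_, ⟨b, ξ, hξN, hξM, rfl⟩, hmaxC⟩ := B.lat.exists_max
    {C | ∃ b, ∃ ξ ∈ N b, ξ ∉ M b ∧ C = colon B M ξ b} ⟨_, b0, ξ0, h1, h2, rfl⟩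
    (by
      rintro _ ⟨b, ξ, -, -, rfl⟩
      exact ⟨(colon_rlat B hM.2 ξ b).1.1.isMod, (colon_rlat B hM.2 ξ b).2⟩)
  have hprime : IsPrimeFam B (colon B M ξ b) := by
    refine ⟨(colon_rlat B hM.2 ξ b).1.2, (colon_rlat B hM.2 ξ b).2, fun h => hξM ?_, ?_⟩
    · simpa using (mem_colon.1 h).2
    · intro s t a ha a' ha' haa
      by_cases h' : a' ∈ colon B M ξ b t
      · exact Or.inr h'
      left
      have hn : a' • ξ ∉ M (t + b) := fun h => h' (mem_colon.2 ⟨ha', h⟩)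
      have heq := hmaxC (colon B M (a' • ξ) (t + b))
        ⟨t + b, a' • ξ, hN.2 _ _ _ ha' _ hξN, hn, rfl⟩ (by
          intro u c hc
          obtain ⟨hc1, hc2⟩ := mem_colon.1 hc
          refine mem_colon.2 ⟨hc1, ?_⟩
          have := hM.2 _ _ _ ha' _ hc2
          rw [smul_comm]
          rwa [show t + (u + b) = u + (t + b) by ring] at this)
      rw [← heq]
      refine mem_colon.2 ⟨ha, ?_⟩
      have := (mem_colon.1 haa).2
      rwa [mul_smul, add_assoc] at this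
  have heq := hmax (adjoin1 B M ξ b) ⟨adjoin1_rlat B hM ξ b, hM1.trans (le_adjoin1 B M ξ b),
    adjoin1_le hN.2 hM2 hξN, hstep M hM hM1 hM2 hPM b ξ hξN hprime⟩ (le_adjoin1 B M ξ b)
  apply hξM
  rw [← heq]
  exact mem_adjoin1.2 ⟨0, Submodule.zero_mem _, 1, B.one_mem (by omega), by simp⟩

/-- dimension drops above a nonzero prime: `colon 𝔭 a d = 𝔭`, so `hb (adjoin1 𝔭 a d) = hb R` -/
theorem hb_eq_of_lt {B : Base k K} {𝔭 𝔮 : Fam k K} (hp' : IsPrimeFam B 𝔭) (h0 : 𝔭 ≠ ⊥)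
    (hq : IsMod B.R 𝔮) (hqR : 𝔮 ≤ B.R) (hle : 𝔭 ≤ 𝔮) (hne : 𝔮 ≠ 𝔭) : hb 𝔮 = hb B.R := by
  have hex : ∃ d, ∃ a ∈ 𝔮 d, a ∉ 𝔭 d := by
    by_contra hall
    push Not at hall
    exact hne (le_antisymm hall hle)
  obtain ⟨d, a, haq, hap⟩ := hex
  have hpl : RLat B 𝔭 := B.rlat.sub hp'.mod hp'.le
  have hql : RLat B 𝔮 := B.rlat.sub hq hqR
  have hcol : colon B 𝔭 a d = 𝔭 := by
    funext t
    ext c
    rw [mem_colon]
    constructor
    · rintro ⟨h1, h2⟩
      exact (hp'.prime t d c h1 a (hqR d haq) h2).resolve_right hap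
    · intro hc
      refine ⟨hp'.le t hc, ?_⟩
      have := hp'.mod d t a (hqR d haq) c hc
      rwa [smul_eq_mul, mul_comm, add_comm d t] at this
  obtain ⟨h1, h2⟩ := coeffs_adjoin1 B hpl a d
  have e1 : ha 𝔭 = ha B.R := by rw [hpl.ha_ideal h0, B.ha_R]
  have hq0 : 𝔮 ≠ ⊥ := fun h => h0 (eq_bot_iff.2 (h ▸ hle))
  have e2 : ha 𝔮 = ha B.R := by rw [hql.ha_ideal hq0, B.ha_R]
  rw [hcol, e1] at h1 h2
  have h3 := (coeffs_le_of_le (adjoin1_rlat B hpl a d).1 hql.1
    ⟨0, fun t _ => adjoin1_le hq hle haq t⟩).2.1 (by rw [h1, e2]; ring)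
  have h4 := (coeffs_le_of_le hql.1 B.lat ⟨0, fun t _ => hqR t⟩).2.1 e2
  linarith

end Crest.Agent.R169
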