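import Crest.Agent.R169.LU
import Crest.Agent.R169.RBasic

/-! # R169 task L2: a good filtration exists -/

set_option autoImplicit false

namespace Crest.Agent.R169
open Module

variable {k K : Type} [Field k] [Field K] [Algebra k K] [Algebra (KA k) K]
  [IsScalarTower k (KA k) K]

variable {B : Base k K} {N : ℕ}

theorem Rep.zero (ϱ : Rep B N) (t : ℤ) : ϱ.Θ t 0 = 0 := by
  have := ϱ.smul t (0 : k) 0 (Submodule.zero_mem _)
  simpa using this

theorem Rep.sum (ϱ : Rep B N) (t : ℤ) {ι : Type} (S : Finset ι) (a : ι → K)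
    (h : ∀ i ∈ S, a i ∈ B.R t) : ϱ.Θ t (∑ i ∈ S, a i) = ∑ i ∈ S, ϱ.Θ t (a i) := by
  classical
  induction S using Finset.induction_on with
  | empty => simpa using ϱ.zero t
  | insert i S hi ih =>
    rw [Finset.sum_insert hi, Finset.sum_insert hi,
      ϱ.add t _ (h i (Finset.mem_insert_self _ _)) _
        (Submodule.sum_mem _ fun j hj => h j (Finset.mem_insert_of_mem hj)),
      ih fun j hj => h j (Finset.mem_insert_of_mem hj)]

theorem L2_pow (ϱ : Rep B N) {a : K} (ha : a ∈ B.R 1) (n : ℕ) :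
    ϱ.Θ n (a ^ n) = ϱ.Θ 1 a ^ n := by
  induction n with
  | zero => simpa using ϱ.one
  | succ n ih =>
    have h1 : a ^ n ∈ B.R n := by simpa using B.pow_mem ha n
    have := ϱ.mul n 1 _ h1 _ ha
    rw [pow_succ, pow_succ, ← ih, ← this]
    push_cast
    rfl

theorem L2_mon (ϱ : Rep B N) (i j l : ℕ) :
    ϱ.Θ ((i : ℤ) + j + l) (xK k K 0 ^ i * xK k K 1 ^ j) =
      ((MvPowerSeries.X 0 : PS k) ^ i * MvPowerSeries.X 1 ^ j * MvPowerSeries.X 2 ^ l) • 1 := by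
  have h0 : xK k K 0 ^ i ∈ B.R i := by simpa using B.pow_mem (B.x_mem 0) i
  have h1 : xK k K 1 ^ j ∈ B.R j := by simpa using B.pow_mem (B.x_mem 1) j
  have h2 : (1 : K) ^ l ∈ B.R l := by simpa using B.pow_mem (B.one_mem (t := 1) zero_le_one) l
  have e1 := ϱ.mul _ _ _ (B.mul _ _ _ h0 _ h1) _ h2
  rw [ϱ.mul _ _ _ h0 _ h1, L2_pow ϱ (B.x_mem 0), L2_pow ϱ (B.x_mem 1),
    L2_pow ϱ (B.one_mem zero_le_one), ϱ.hx, ϱ.hx, ϱ.hz] at e1
  rw [one_pow, mul_one] at e1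
  rw [e1]
  simp only [smul_pow, one_pow, smul_mul_smul_comm, mul_one]
  rfl

/-- `Θ` is scalar on `A` (monomials `x^i y^j 1^l`, induction) -/
theorem Rep.deh (ϱ : Rep B N) {e : ℕ} {G : MvPolynomial (Fin 3) k} (hG : G.IsHomogeneous e) :
    ϱ.Θ e (algebraMap (KA k) K (Crest.Agent.R169.deh G)) = (G : PS k) • 1 := by
  have key : ∀ s ∈ G.support, algebraMap (KA k) K
      (Crest.Agent.R169.deh (MvPolynomial.monomial s (G.coeff s))) =
      G.coeff s • (xK k K 0 ^ s 0 * xK k K 1 ^ s 1) := by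
    intro s _
    rw [A0_deh_monomial, Algebra.smul_def, map_mul, ← IsScalarTower.algebraMap_apply,
      Algebra.smul_def, map_mul, map_pow, map_pow]
    rfl
  have hmem : ∀ s ∈ G.support, xK k K 0 ^ s 0 * xK k K 1 ^ s 1 ∈ B.R e := by
    intro s hs
    have h := A0_hom_deg hG hs
    have : xA k 0 ^ s 0 * xA k 1 ^ s 1 ∈ AA k e := A0_mon_mem (by omega)
    have h2 := B.A_le _ _ this
    rwa [map_mul, map_pow, map_pow] at h2
  conv_lhs => rw [G.as_sum, map_sum, map_sum, Finset.sum_congr rfl key]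
  rw [ϱ.sum _ _ _ fun s hs => Submodule.smul_mem _ _ (hmem s hs)]
  have e2 : (G : PS k) = ∑ s ∈ G.support, ((MvPolynomial.monomial s (G.coeff s) :
      MvPolynomial (Fin 3) k) : PS k) := by
    conv_lhs => rw [G.as_sum]
    exact map_sum (MvPolynomial.coeToMvPowerSeries.ringHom (σ := Fin 3) (R := k)) _ _
  rw [e2, Finset.sum_smul]
  refine Finset.sum_congr rfl fun s hs => ?_
  have h := A0_hom_deg hG hs
  have he : (e : ℤ) = (s 0 : ℤ) + s 1 + s 2 := by omega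
  rw [ϱ.smul _ _ _ (hmem s hs), he, L2_mon, ← smul_assoc]
  congr 1
  rw [MvPolynomial.coe_monomial, MvPowerSeries.X_pow_eq, MvPowerSeries.X_pow_eq,
    MvPowerSeries.X_pow_eq, MvPowerSeries.monomial_mul_monomial,
    MvPowerSeries.monomial_mul_monomial, ← map_smul]
  congr 1
  · congr 1
    ext i
    fin_cases i <;> simp
  · simp

/-- the unsaturated filtration -/
def L2_F0 (ϱ : Rep B N) : Fam k (Fin N → PS k) := fun t =>
  Submodule.span k {v | ∃ s ≥ t, ∃ a ∈ B.R s, ∃ m, v = (ϱ.Θ s a).mulVec m}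

theorem L2_anti (ϱ : Rep B N) {s t : ℤ} (h : s ≤ t) : L2_F0 ϱ t ≤ L2_F0 ϱ s := by
  refine Submodule.span_mono ?_
  rintro v ⟨u, hu, a, ha, m, rfl⟩
  exact ⟨u, le_trans h hu, a, ha, m, rfl⟩

theorem L2_stab (ϱ : Rep B N) {s t : ℤ} {a : K} (ha : a ∈ B.R s) {m : Fin N → PS k}
    (hm : m ∈ L2_F0 ϱ t) : (ϱ.Θ s a).mulVec m ∈ L2_F0 ϱ (s + t) := by
  induction hm using Submodule.span_induction with
  | mem v hv =>
    obtain ⟨u, hu, b, hb, m, rfl⟩ := hv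
    refine Submodule.subset_span ⟨s + u, by omega, a * b, B.mul _ _ _ ha _ hb, m, ?_⟩
    rw [ϱ.mul _ _ _ ha _ hb, Matrix.mulVec_mulVec]
  | zero => rw [Matrix.mulVec_zero]; exact Submodule.zero_mem _
  | add x y _ _ hx hy => rw [Matrix.mulVec_add]; exact Submodule.add_mem _ hx hy
  | smul c x _ hx => rw [Matrix.mulVec_smul]; exact Submodule.smul_mem _ _ hx

theorem L2_smul (ϱ : Rep B N) {e : ℕ} {G : MvPolynomial (Fin 3) k} (hG : G.IsHomogeneous e)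
    {t : ℤ} {m : Fin N → PS k} (hm : m ∈ L2_F0 ϱ t) : (G : PS k) • m ∈ L2_F0 ϱ (t + e) := by
  have := L2_stab ϱ (B.A_le _ _ (deh_mem hG)) hm
  rwa [ϱ.deh hG, Matrix.smul_mulVec, Matrix.one_mulVec, add_comm] at this

theorem L2_X (ϱ : Rep B N) (i : Fin 3) {t : ℤ} {m : Fin N → PS k} (hm : m ∈ L2_F0 ϱ t) :
    (MvPowerSeries.X i : PS k) • m ∈ L2_F0 ϱ (t + 1) := by
  have := L2_smul ϱ (MvPolynomial.isHomogeneous_X k i) hm
  simpa using this

theorem L2_low (ϱ : Rep B N) (t : ℤ) : ordF k N t ≤ L2_F0 ϱ t := by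
  have h0 : ∀ t ≤ 0, ∀ m, m ∈ L2_F0 ϱ t := fun t ht m =>
    Submodule.subset_span ⟨0, ht, 1, B.one_mem le_rfl, m, by rw [ϱ.one, Matrix.one_mulVec]⟩
  have h1 : ∀ n : ℕ, ordF k N n ≤ L2_F0 ϱ n := by
    intro n
    induction n with
    | zero => exact fun m _ => h0 _ (by simp) m
    | succ n ih =>
      intro m hm
      push_cast at hm ⊢
      obtain ⟨m', h', rfl⟩ := ordF_succ (Int.natCast_nonneg n) hm
      exact Submodule.sum_mem _ fun i _ => L2_X ϱ i (ih (h' i))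
  rcases le_total t 0 with h | h
  · exact fun m _ => h0 t h m
  · obtain ⟨n, rfl⟩ := Int.eq_ofNat_of_zero_le h
    exact h1 n

theorem L2_high (ϱ : Rep B N) : ∃ c : ℕ, ∀ t, L2_F0 ϱ t ≤ ordF k N (t - c) := by
  obtain ⟨n, μ, e, hR⟩ := B.lat
  obtain ⟨C, hC⟩ := A1_bdd e
  refine ⟨C.toNat, fun t => Submodule.span_le.2 ?_⟩
  rintro v ⟨s, hs, a, ha, m, rfl⟩
  have hμ : ∀ l, μ l ∈ B.R (e l) := fun l => by
    rw [hR]; exact mem_gen_self (one_mem_AA le_rfl) μ e l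
  have ha' := ha
  rw [hR] at ha'
  obtain ⟨α, hα, rfl⟩ := mem_gen.1 ha'
  have hterm : ∀ l, α l • μ l ∈ B.R s := fun l => by
    have := B.mul _ _ _ (B.A_le _ _ (hα l)) _ (hμ l)
    rwa [sub_add_cancel, ← Algebra.smul_def] at this
  rw [ϱ.sum _ _ _ fun l _ => hterm l, Matrix.sum_mulVec]
  refine Submodule.sum_mem _ fun l _ => ?_
  by_cases h0 : α l = 0
  · rw [h0, zero_smul, ϱ.zero, Matrix.zero_mulVec]; exact Submodule.zero_mem _
  have hn := AA_nonneg (hα l) h0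
  obtain ⟨j, hj⟩ := Int.eq_ofNat_of_zero_le hn
  have hα' := hα l
  rw [hj] at hα'
  obtain ⟨G, hG, hGe⟩ := deh_surj hα'
  have e1 := ϱ.mul _ _ _ (B.A_le _ _ hα') _ (hμ l)
  have hs' : (j : ℤ) + e l = s := by omega
  rw [hs', ← Algebra.smul_def, ← hGe, ϱ.deh hG] at e1
  rw [← hGe, e1, smul_mul_assoc, one_mul, Matrix.smul_mulVec]
  have h2 : (ϱ.Θ (e l) (μ l)).mulVec m ∈ ordF k N 0 := by rw [ordF_top le_rfl]; trivial
  refine ordF_anti ?_ (smul_mem_ordF hG h2)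
  have := (hC l).2
  omega

/-- the saturated filtration -/
def L2_F (ϱ : Rep B N) : Fam k (Fin N → PS k) := fun t =>
  { carrier := {m | ∃ (e : ℕ) (G : MvPolynomial (Fin 3) k), G ≠ 0 ∧ G.IsHomogeneous e ∧
      (G : PS k) • m ∈ L2_F0 ϱ (t + e)}
    zero_mem' := ⟨0, 1, one_ne_zero, MvPolynomial.isHomogeneous_one _ _, by simp⟩
    add_mem' := by
      rintro a b ⟨e, G, h0, hG, ha⟩ ⟨e', G', h0', hG', hb⟩
      refine ⟨e + e', G * G', mul_ne_zero h0 h0', hG.mul hG', ?_⟩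
      have h1 := L2_smul ϱ hG' ha
      have h2 := L2_smul ϱ hG hb
      rw [smul_smul] at h1 h2
      rw [smul_add, MvPolynomial.coe_mul]
      push_cast
      refine Submodule.add_mem _ ?_ ?_
      · rw [mul_comm, ← add_assoc]; exact h1
      · rw [add_comm (e : ℤ), ← add_assoc]; exact h2
    smul_mem' := by
      rintro c a ⟨e, G, h0, hG, ha⟩
      refine ⟨e, G, h0, hG, ?_⟩
      rw [smul_comm]
      exact Submodule.smul_mem _ _ ha }

/-- Sketch.  `F₀ t = span {Θ s a *ᵥ m | s ≥ t, a ∈ R s}`.  `ordF t ≤ F₀ t` (`ordF_succ` and induction;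
`F₀ 0 = ⊤`); with `R = gen μ e` and `c ≥ e l`: `Θ s (α μ_l) = α̃ • Θ (e l) μ_l` maps into `ordF (s - e l)`,
so `F₀ t ≤ ordF (t - c)`.  Saturate: `F t = {m | ∃ e, G ≠ 0 homogeneous of degree e, G • m ∈ F₀ (t+e)}`
(`mem_ordF_of_smul` keeps the upper bound). -/
theorem Rep.exists_goodFil (ϱ : Rep B N) : ∃ F, GoodFil ϱ F := by
  obtain ⟨c, hc⟩ := L2_high ϱ
  refine ⟨L2_F ϱ, ⟨?_, ?_, c, fun t => ⟨?_, ?_⟩⟩, ?_, ?_⟩
  · rintro t m ⟨e, G, h0, hG, hm⟩
    exact ⟨e, G, h0, hG, L2_anti ϱ (by omega) hm⟩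
  · rintro i t m ⟨e, G, h0, hG, hm⟩
    refine ⟨e, G, h0, hG, ?_⟩
    rw [smul_comm, add_right_comm]
    exact L2_X ϱ i hm
  · intro m hm
    refine ⟨0, 1, one_ne_zero, MvPolynomial.isHomogeneous_one _ _, ?_⟩
    simpa using L2_low ϱ t (ordF_anti (by omega) hm)
  · rintro m ⟨e, G, h0, hG, hm⟩
    refine mem_ordF_of_smul hG h0 ?_
    have := hc _ hm
    rwa [show t + e - c = t - c + e by ring] at this
  · rintro s t a ha m ⟨e, G, h0, hG, hm⟩
    refine ⟨e, G, h0, hG, ?_⟩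
    rw [← Matrix.mulVec_smul, add_assoc]
    exact L2_stab ϱ ha hm
  · rintro e t f hf0 hf m ⟨e', G, h0, hG, hm⟩
    refine ⟨e' + e, G * f, mul_ne_zero h0 hf0, hG.mul hf, ?_⟩
    rw [smul_smul] at hm
    rw [MvPolynomial.coe_mul]
    push_cast
    rwa [add_comm (e' : ℤ), ← add_assoc]

end Crest.Agent.R169
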