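import Crest.Agent.R169.L1
import Crest.Agent.R169.L2

/-! # R169 task L3: `gr_F` as a lattice in `K^ρ` -/

set_option autoImplicit false

namespace Crest.Agent.R169
open Module

variable {k K : Type} [Field k] [Field K] [Algebra k K] [Algebra (KA k) K]
  [IsScalarTower k (KA k) K]

variable {B : Base k K} {N : ℕ}

theorem L3_factor {D X Y : Type} [AddCommGroup D] [Module k D] [AddCommGroup X] [Module k X]
    [AddCommGroup Y] [Module k Y] (φ : D →ₗ[k] X) (κ : D →ₗ[k] Y)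
    (h : LinearMap.ker φ ≤ LinearMap.ker κ) : ∃ l : X →ₗ[k] Y, ∀ d, l (φ d) = κ d := by
  obtain ⟨l, hl⟩ := LinearMap.exists_extend
    (((LinearMap.ker φ).liftQ κ h).comp (LinearMap.quotKerEquivRange φ).symm.toLinearMap)
  refine ⟨l, fun d => ?_⟩
  have h1 := LinearMap.congr_fun hl ⟨φ d, LinearMap.mem_range_self φ d⟩
  simp only [LinearMap.comp_apply, Submodule.subtype_apply, LinearEquiv.coe_coe] at h1
  rw [h1, LinearMap.quotKerEquivRange_symm_apply_image]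
  rfl

/-- `R`-torsion-freeness of `gr_F` -/
theorem L3_sat {ϱ : Rep B N} {F : Fam k (Fin N → PS k)} (hF : GoodFil ϱ F) {s t : ℤ} {c : K}
    (hc : c ∈ B.R s) (h0 : c ≠ 0) {z : Fin N → PS k} (hz : (ϱ.Θ s c).mulVec z ∈ F (s + t)) :
    z ∈ F t := by
  obtain ⟨e, f, hf, hf0, h1⟩ := B.denom c⁻¹ (-s)
  obtain ⟨e, rfl⟩ := Int.eq_ofNat_of_zero_le (AA_nonneg hf hf0)
  obtain ⟨G, hG, rfl⟩ := deh_surj hf
  have hG0 : G ≠ 0 := fun h => hf0 (by rw [h, map_zero])
  have h2 := hF.stab _ _ _ h1 _ hz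
  rw [Matrix.mulVec_mulVec, ← ϱ.mul _ _ _ h1 _ hc, inv_mul_cancel_right₀ h0] at h2
  have e1 : -s + (e : ℤ) + s = e := by ring
  have e2 : -s + (e : ℤ) + (s + t) = t + e := by ring
  rw [e1, e2, ϱ.deh hG, Matrix.smul_mulVec, Matrix.one_mulVec] at h2
  exact hF.sat e t G hG0 hG z h2

/-- evaluation of a homogeneous `R`-combination -/
noncomputable def L3_ev (ϱ : Rep B N) {m : ℕ} (n : Fin m → Fin N → PS k) (b : Fin m → ℤ) (t : ℤ)
    (a : Fin m → K) : Fin N → PS k := ∑ l, (ϱ.Θ (t - b l) (a l)).mulVec (n l)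

section ev
variable {ϱ : Rep B N} {m : ℕ} {n : Fin m → Fin N → PS k} {b : Fin m → ℤ}

theorem L3_ev_add {t : ℤ} {a a' : Fin m → K} (ha : ∀ l, a l ∈ B.R (t - b l))
    (ha' : ∀ l, a' l ∈ B.R (t - b l)) :
    L3_ev ϱ n b t (a + a') = L3_ev ϱ n b t a + L3_ev ϱ n b t a' := by
  unfold L3_ev
  rw [← Finset.sum_add_distrib]
  refine Finset.sum_congr rfl fun l _ => ?_
  rw [Pi.add_apply, ϱ.add _ _ (ha l) _ (ha' l), Matrix.add_mulVec]

theorem L3_ev_smul {t : ℤ} (c : k) {a : Fin m → K} (ha : ∀ l, a l ∈ B.R (t - b l)) :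
    L3_ev ϱ n b t (c • a) = c • L3_ev ϱ n b t a := by
  unfold L3_ev
  rw [Finset.smul_sum]
  refine Finset.sum_congr rfl fun l _ => ?_
  rw [Pi.smul_apply, ϱ.smul _ _ _ (ha l), Matrix.smul_mulVec]

theorem L3_mul_mem {s t : ℤ} {c : K} (hc : c ∈ B.R s) {a : Fin m → K}
    (ha : ∀ l, a l ∈ B.R (t - b l)) (l : Fin m) : (c • a) l ∈ B.R (s + t - b l) := by
  rw [add_sub_assoc]
  exact B.mul _ _ _ hc _ (ha l)

theorem L3_ev_mul {s t : ℤ} {c : K} (hc : c ∈ B.R s) {a : Fin m → K}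
    (ha : ∀ l, a l ∈ B.R (t - b l)) :
    L3_ev ϱ n b (s + t) (c • a) = (ϱ.Θ s c).mulVec (L3_ev ϱ n b t a) := by
  unfold L3_ev
  rw [Matrix.mulVec_sum]
  refine Finset.sum_congr rfl fun l _ => ?_
  rw [Pi.smul_apply, smul_eq_mul, add_sub_assoc, ϱ.mul _ _ _ hc _ (ha l), Matrix.mulVec_mulVec]

theorem L3_ev_single (l : Fin m) : L3_ev ϱ n b (b l) (Pi.single l 1) = n l := by
  unfold L3_ev
  rw [Finset.sum_eq_single l (fun l' _ h => by
    rw [Pi.single_eq_of_ne h, ϱ.zero, Matrix.zero_mulVec]) (by simp)]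
  rw [sub_self, Pi.single_eq_same, ϱ.one, Matrix.one_mulVec]

theorem L3_single_mem (l l' : Fin m) : (Pi.single l 1 : Fin m → K) l' ∈ B.R (b l - b l') := by
  by_cases h : l' = l
  · subst h
    rw [Pi.single_eq_same, sub_self]
    exact B.one_mem le_rfl
  · rw [Pi.single_eq_of_ne h]
    exact Submodule.zero_mem _

theorem L3_ev_poly {t : ℤ} {a : Fin m → MvPolynomial (Fin 3) k}
    (ha : ∀ l, (a l).IsHomogeneous (t - b l).toNat ∧ (t < b l → a l = 0)) :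
    (∀ l, algebraMap (KA k) K (deh (a l)) ∈ B.R (t - b l)) ∧
    L3_ev ϱ n b t (fun l => algebraMap (KA k) K (deh (a l))) = ∑ l, (a l : PS k) • n l := by
  have key : ∀ l, algebraMap (KA k) K (deh (a l)) ∈ B.R (t - b l) ∧
      (ϱ.Θ (t - b l) (algebraMap (KA k) K (deh (a l)))).mulVec (n l) = (a l : PS k) • n l := by
    intro l
    by_cases hl : t < b l
    · rw [(ha l).2 hl, map_zero, map_zero, ϱ.zero]
      simp
    · have e1 : (((t - b l).toNat : ℕ) : ℤ) = t - b l := by omega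
      have h1 := B.A_le _ _ (deh_mem (ha l).1)
      have h2 := ϱ.deh (ha l).1
      rw [e1] at h1 h2
      rw [h2, Matrix.smul_mulVec, Matrix.one_mulVec]
      exact ⟨h1, rfl⟩
  exact ⟨fun l => (key l).1, Finset.sum_congr rfl fun l _ => (key l).2⟩

/-- the `K`-space of relations -/
def L3_U {F : Fam k (Fin N → PS k)} (hF : GoodFil ϱ F) (n : Fin m → Fin N → PS k)
    (b : Fin m → ℤ) : Submodule K (Fin m → K) where
  carrier := {a | ∃ (r : K) (t : ℤ), r ≠ 0 ∧ (∀ l, (r • a) l ∈ B.R (t - b l)) ∧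
    L3_ev ϱ n b t (r • a) ∈ F (t + 1)}
  zero_mem' := ⟨1, 0, one_ne_zero, fun l => by simp, by simp [L3_ev, ϱ.zero]⟩
  add_mem' := by
    rintro a a' ⟨r, t, hr, h1, h2⟩ ⟨r', t', hr', h1', h2'⟩
    obtain ⟨e, f, hf, hf0, h3⟩ := B.denom (r' / r) (t' - t)
    have hf1 : algebraMap (KA k) K f ≠ 0 := by simpa using hf0
    have h4 := B.A_le _ _ hf
    have e1 : t' - t + e + t = e + t' := by ring
    have e2 : (algebraMap (KA k) K f * r') • (a + a') =
        (algebraMap (KA k) K f * (r' / r)) • r • a + algebraMap (KA k) K f • r' • a' := by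
      rw [smul_add, smul_smul, smul_smul]
      congr 2
      field_simp
    have m1 := L3_mul_mem h3 h1
    have m2 := L3_mul_mem h4 h1'
    have v1 := L3_ev_mul (ϱ := ϱ) (n := n) h3 h1
    have v2 := L3_ev_mul (ϱ := ϱ) (n := n) h4 h1'
    have s1 := hF.stab _ _ _ h3 _ h2
    have s2 := hF.stab _ _ _ h4 _ h2'
    rw [← add_assoc] at s1 s2
    rw [e1] at m1 v1 s1
    refine ⟨algebraMap (KA k) K f * r', e + t', mul_ne_zero hf1 hr', fun l => ?_, ?_⟩
    · rw [e2]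
      exact Submodule.add_mem _ (m1 l) (m2 l)
    · rw [e2, L3_ev_add m1 m2, v1, v2]
      exact Submodule.add_mem _ s1 s2
  smul_mem' := by
    rintro c a ⟨r, t, hr, h1, h2⟩
    by_cases hc : c = 0
    · exact ⟨1, 0, one_ne_zero, fun l => by simp [hc], by simp [hc, L3_ev, ϱ.zero]⟩
    have e1 : (r / c) • c • a = r • a := by
      rw [smul_smul, div_mul_cancel₀ _ hc]
    exact ⟨r / c, t, div_ne_zero hr hc, by rw [e1]; exact h1, by rw [e1]; exact h2⟩

theorem L3_mem_U {F : Fam k (Fin N → PS k)} (hF : GoodFil ϱ F) {t : ℤ} {a : Fin m → K}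
    (ha : ∀ l, a l ∈ B.R (t - b l)) : a ∈ L3_U hF n b ↔ L3_ev ϱ n b t a ∈ F (t + 1) := by
  constructor
  · rintro ⟨r, t', hr, h1, h2⟩
    obtain ⟨e, f, hf, hf0, h3⟩ := B.denom r⁻¹ (t - t')
    have hf1 : algebraMap (KA k) K f ≠ 0 := by simpa using hf0
    have h4 := B.A_le _ _ hf
    refine L3_sat hF h4 hf1 ?_
    have s1 := hF.stab _ _ _ h3 _ h2
    have e1 : t - t' + e + t' = e + t := by ring
    rw [← L3_ev_mul h3 h1, ← add_assoc, e1, smul_smul, inv_mul_cancel_right₀ hr,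
      L3_ev_mul h4 ha, add_assoc] at s1
    exact s1
  · intro h
    exact ⟨1, t, one_ne_zero, by rw [one_smul]; exact ha, by rw [one_smul]; exact h⟩

/-- `L3_ev` as a linear map -/
noncomputable def L3_evL (ϱ : Rep B N) (n : Fin m → Fin N → PS k) (b : Fin m → ℤ) (t : ℤ) :
    (Submodule.pi Set.univ fun l => B.R (t - b l)) →ₗ[k] (Fin N → PS k) where
  toFun a := L3_ev ϱ n b t a.1
  map_add' a a' := L3_ev_add (fun l => a.2 l (Set.mem_univ l)) (fun l => a'.2 l (Set.mem_univ l))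
  map_smul' c a := L3_ev_smul c (fun l => a.2 l (Set.mem_univ l))

end ev

theorem L3_isMod {ϱ : Rep B N} {F : Fam k (Fin N → PS k)} (hF : GoodFil ϱ F) {ρ : ℕ}
    {π : ℤ → (Fin N → PS k) →ₗ[k] (Fin ρ → K)}
    (h : ∀ s t, ∀ a ∈ B.R s, ∀ m ∈ F t, π (s + t) ((ϱ.Θ s a).mulVec m) = a • π t m) :
    IsMod B.R (fun t => (F t).map (π t)) := by
  rintro s t a ha _ ⟨z, hz, rfl⟩
  exact ⟨_, hF.stab s t a ha z hz, h s t a ha z hz⟩

/-- Let `n l ∈ F (b l)` generate `gr_F` (`XFil.fg`) and let `U ⊆ K^m` be the space of relations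
(`a ∈ U` iff `∑ Θ (r a_l) n_l ∈ F (t+1)` for some `r ≠ 0` with `r a_l ∈ R (t - b l)`); then
`π t (∑ Θ (a_l) n_l) = [a] ∈ K^m / U ≃ K^ρ`. -/
theorem GoodFil.exists_emb {ϱ : Rep B N} {F : Fam k (Fin N → PS k)} (hF : GoodFil ϱ F) :
    ∃ (ρ : ℕ) (π : ℤ → (Fin N → PS k) →ₗ[k] (Fin ρ → K)), Emb ϱ F π := by
  obtain ⟨m, n, b, hn, hgen⟩ := hF.xfil.fg
  let U := L3_U hF n b
  let κ : (Fin m → K) →ₗ[K] (Fin (finrank K ((Fin m → K) ⧸ U)) → K) :=
    (Module.finBasis K ((Fin m → K) ⧸ U)).equivFun.toLinearMap.comp U.mkQ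
  have hκ : ∀ a, κ a = 0 ↔ a ∈ U := by
    intro a
    have : κ a = (Module.finBasis K ((Fin m → K) ⧸ U)).equivFun (U.mkQ a) := rfl
    rw [this, LinearEquiv.map_eq_zero_iff]
    exact Submodule.Quotient.mk_eq_zero U
  have hκs : Function.Surjective κ :=
    (Module.finBasis K ((Fin m → K) ⧸ U)).equivFun.surjective.comp U.mkQ_surjective
  have ex : ∀ t : ℤ, ∃ p : (Fin N → PS k) →ₗ[k] (Fin (finrank K ((Fin m → K) ⧸ U)) → K),
      ∀ z a, (∀ l, a l ∈ B.R (t - b l)) → z - L3_ev ϱ n b t a ∈ F (t + 1) → p z = κ a := by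
    intro t
    obtain ⟨l, hl⟩ := L3_factor ((F (t + 1)).mkQ.comp (L3_evL ϱ n b t))
      ((κ.restrictScalars k).comp (Submodule.subtype _)) (by
        intro a ha
        have h1 : L3_ev ϱ n b t a.1 ∈ F (t + 1) := (Submodule.Quotient.mk_eq_zero _).1 ha
        exact (hκ a.1).2 ((L3_mem_U hF (fun l => a.2 l (Set.mem_univ l))).2 h1))
    refine ⟨l.comp (F (t + 1)).mkQ, fun z a ha hz => ?_⟩
    have h1 : (F (t + 1)).mkQ z = (F (t + 1)).mkQ (L3_ev ϱ n b t a) :=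
      (Submodule.Quotient.eq _).2 hz
    rw [LinearMap.comp_apply, h1]
    exact hl ⟨a, fun l _ => ha l⟩
  choose π hπ using ex
  have hrep : ∀ t, ∀ z ∈ F t, ∃ a : Fin m → K, (∀ l, a l ∈ B.R (t - b l)) ∧
      z - L3_ev ϱ n b t a ∈ F (t + 1) := by
    intro t z hz
    obtain ⟨a, ha, h1⟩ := hgen t z hz
    obtain ⟨h2, h3⟩ := L3_ev_poly (ϱ := ϱ) (n := n) ha
    exact ⟨_, h2, by rw [h3]; exact h1⟩
  have hequiv : ∀ s t, ∀ c ∈ B.R s, ∀ z ∈ F t,
      π (s + t) ((ϱ.Θ s c).mulVec z) = c • π t z := by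
    intro s t c hc z hz
    obtain ⟨a, ha, h1⟩ := hrep t z hz
    rw [hπ t z a ha h1, ← map_smul]
    refine hπ _ _ _ (L3_mul_mem hc ha) ?_
    rw [L3_ev_mul hc ha, ← Matrix.mulVec_sub, add_assoc]
    exact hF.stab _ _ _ hc _ h1
  refine ⟨_, π, fun t z hz => ?_, hequiv, ?_⟩
  · obtain ⟨a, ha, h1⟩ := hrep t z hz
    rw [hπ t z a ha h1, hκ, L3_mem_U hF ha]
    constructor
    · intro h
      simpa using Submodule.add_mem _ h1 h
    · intro h
      simpa using Submodule.sub_mem _ h h1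
  · refine full_of_span (L3_isMod hF hequiv) (Set.range fun l => κ (Pi.single l 1)) ?_ ?_
    · rw [eq_top_iff]
      intro v _
      obtain ⟨a, rfl⟩ := hκs v
      rw [pi_eq_sum_univ' a, map_sum]
      refine Submodule.sum_mem _ fun l _ => ?_
      rw [map_smul]
      exact Submodule.smul_mem _ _ (Submodule.subset_span ⟨l, rfl⟩)
    · rintro _ ⟨l, rfl⟩
      refine A1_mem_spanF (t := b l) ⟨n l, hn l, ?_⟩
      refine hπ _ _ _ (L3_single_mem l) ?_
      rw [L3_ev_single, sub_self]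
      exact Submodule.zero_mem _

theorem Emb.smul {ϱ : Rep B N} {F : Fam k (Fin N → PS k)} {ρ : ℕ}
    {π : ℤ → (Fin N → PS k) →ₗ[k] (Fin ρ → K)} (H : Emb ϱ F π) {e : ℕ}
    {G : MvPolynomial (Fin 3) k} (hG : G.IsHomogeneous e) {t : ℤ} {m : Fin N → PS k}
    (hm : m ∈ F t) : π (t + e) ((G : PS k) • m) = deh G • π t m := by
  have h1 := H.equiv e t _ (B.A_le _ _ (deh_mem hG)) m hm
  rw [ϱ.deh hG, Matrix.smul_mulVec, Matrix.one_mulVec, algebraMap_smul, add_comm] at h1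
  exact h1

theorem Emb.rlat {ϱ : Rep B N} {F : Fam k (Fin N → PS k)} (hF : GoodFil ϱ F) {ρ : ℕ}
    {π : ℤ → (Fin N → PS k) →ₗ[k] (Fin ρ → K)} (H : Emb ϱ F π) :
    RLat B (fun t => (F t).map (π t)) := by
  have hM := L3_isMod hF H.equiv
  refine ⟨?_, hM⟩
  obtain ⟨m, n, b, hn, hgen⟩ := hF.xfil.fg
  refine ⟨m, fun l => π (b l) (n l), b, le_antisymm ?_
    (gen_le hM.toAA fun l => ⟨n l, hn l, rfl⟩)⟩
  rintro t _ ⟨z, hz, rfl⟩
  obtain ⟨a, ha, h1⟩ := hgen t z hz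
  have h2 := (H.ker t _ (hF.xfil.anti t h1)).2 h1
  rw [map_sub, sub_eq_zero, map_sum] at h2
  have key : ∀ l, deh (a l) ∈ AA k (t - b l) ∧
      π t ((a l : PS k) • n l) = deh (a l) • π (b l) (n l) := by
    intro l
    by_cases hl : t < b l
    · rw [(ha l).2 hl]
      simp
    · have e1 : (((t - b l).toNat : ℕ) : ℤ) = t - b l := by omega
      have h3 := deh_mem (ha l).1
      have h4 := H.smul (ha l).1 (hn l)
      rw [e1] at h3 h4
      rw [add_sub_cancel] at h4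
      exact ⟨h3, h4⟩
  exact mem_gen.2 ⟨fun l => deh (a l), fun l => (key l).1,
    h2.trans (Finset.sum_congr rfl fun l _ => (key l).2)⟩

theorem Emb.hf_eq {ϱ : Rep B N} {F : Fam k (Fin N → PS k)} (hF : GoodFil ϱ F) {ρ : ℕ}
    {π : ℤ → (Fin N → PS k) →ₗ[k] (Fin ρ → K)} (H : Emb ϱ F π) :
    hf (fun t => (F t).map (π t)) = gF F := by
  ext t
  unfold hf gF
  have h1 : LinearMap.ker ((π t).domRestrict (F t)) =
      LinearMap.ker ((F (t + 1)).mkQ.domRestrict (F t)) := by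
    ext z
    rw [LinearMap.mem_ker, LinearMap.mem_ker, LinearMap.domRestrict_apply,
      LinearMap.domRestrict_apply, H.ker t z.1 z.2]
    exact (Submodule.Quotient.mk_eq_zero _).symm
  have h2 := (((LinearMap.quotKerEquivRange ((π t).domRestrict (F t))).symm.trans
    (Submodule.quotEquivOfEq _ _ h1)).trans
    (LinearMap.quotKerEquivRange ((F (t + 1)).mkQ.domRestrict (F t)))).finrank_eq
  rw [LinearMap.range_domRestrict, LinearMap.range_domRestrict] at h2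
  exact_mod_cast h2

end Crest.Agent.R169
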