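import Crest.Agent.R169.Defs3
import Crest.Agent.R169.AHilb

/-! # R169 task LU: leading forms and the double filtration -/

set_option autoImplicit false

namespace Crest.Agent.R169
open Module

variable {k : Type} [Field k] {N : ℕ}

/-- homogeneous component of degree `j`, as a polynomial -/
noncomputable def LU_hc (j : ℤ) (f : PS k) : MvPolynomial (Fin 3) k :=
  if 0 ≤ j then ∑ d ∈ Finset.finsuppAntidiag (Finset.univ : Finset (Fin 3)) j.toNat,
    MvPolynomial.monomial d (MvPowerSeries.coeff d f) else 0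

theorem LU_mem_anti {n : ℕ} {d : Fin 3 →₀ ℕ} :
    d ∈ Finset.finsuppAntidiag (Finset.univ : Finset (Fin 3)) n ↔ d.degree = n := by
  rw [Finset.mem_finsuppAntidiag, Finsupp.degree_eq_sum]
  simp

theorem LU_coeff_hc (j : ℤ) (f : PS k) (d : Fin 3 →₀ ℕ) :
    (LU_hc j f).coeff d = if (d.degree : ℤ) = j then MvPowerSeries.coeff d f else 0 := by
  unfold LU_hc
  by_cases hj : 0 ≤ j
  · rw [if_pos hj, MvPolynomial.coeff_sum]
    simp only [MvPolynomial.coeff_monomial]
    rw [Finset.sum_ite_eq']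
    simp only [LU_mem_anti]
    have : (d.degree = j.toNat) ↔ (d.degree : ℤ) = j := by omega
    simp only [this]
  · rw [if_neg hj, if_neg (by omega), MvPolynomial.coeff_zero]

theorem LU_hc_hom (j : ℤ) (f : PS k) : (LU_hc j f).IsHomogeneous j.toNat := by
  unfold LU_hc
  split_ifs
  · exact MvPolynomial.IsHomogeneous.sum _ _ _ fun d hd =>
      MvPolynomial.isHomogeneous_monomial _ (LU_mem_anti.1 hd)
  · exact MvPolynomial.isHomogeneous_zero _ _ _

theorem LU_top_eq (j : ℤ) (f : PS k) : top k j f = deh (LU_hc j f) := by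
  unfold top LU_hc
  split_ifs
  · rw [map_sum, LinearMap.sum_apply]
    refine Finset.sum_congr rfl fun d _ => ?_
    rw [A0_deh_monomial, LinearMap.smulRight_apply]
  · simp

theorem top_mem (j : ℤ) (f : PS k) : top k j f ∈ AA k j := by
  by_cases hj : 0 ≤ j
  · have := deh_mem (LU_hc_hom j f)
    rw [Int.toNat_of_nonneg hj] at this
    rw [LU_top_eq]
    exact this
  · unfold top
    rw [if_neg hj]
    exact Submodule.zero_mem _

theorem top_eq_zero {j : ℤ} {f : PS k} : top k j f = 0 ↔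
    ∀ d : Fin 3 →₀ ℕ, (d.degree : ℤ) = j → MvPowerSeries.coeff d f = 0 := by
  rw [LU_top_eq]
  constructor
  · intro h d hd
    have h1 := deh_inj (LU_hc_hom j f) h
    have h2 := LU_coeff_hc j f d
    rw [h1, if_pos hd, MvPolynomial.coeff_zero] at h2
    exact h2.symm
  · intro h
    have : LU_hc j f = 0 := by
      ext d
      rw [LU_coeff_hc, MvPolynomial.coeff_zero]
      split_ifs with hd
      · exact h d hd
      · rfl
    rw [this, map_zero]

theorem LU_hc_mul {e : ℕ} {F : MvPolynomial (Fin 3) k} (hF : F.IsHomogeneous e) (j : ℤ)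
    (f : PS k) : LU_hc (j + e) ((F : PS k) * f) = F * LU_hc j f := by
  classical
  ext d
  rw [LU_coeff_hc, MvPolynomial.coeff_mul, MvPowerSeries.coeff_mul]
  simp only [LU_coeff_hc, MvPolynomial.coeff_coe]
  split_ifs with hd
  · refine Finset.sum_congr rfl fun p hp => ?_
    have h1 : p.1.degree + p.2.degree = d.degree := by
      rw [← map_add, Finset.HasAntidiagonal.mem_antidiagonal.1 hp]
    by_cases h2 : p.1.degree = e
    · rw [if_pos (by omega)]
    · rw [hF.coeff_eq_zero h2, zero_mul, zero_mul]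
  · refine (Finset.sum_eq_zero fun p hp => ?_).symm
    have h1 : p.1.degree + p.2.degree = d.degree := by
      rw [← map_add, Finset.HasAntidiagonal.mem_antidiagonal.1 hp]
    by_cases h2 : p.1.degree = e
    · rw [if_neg (by omega), mul_zero]
    · rw [hF.coeff_eq_zero h2, zero_mul]

theorem top_mul {e : ℕ} {F : MvPolynomial (Fin 3) k} (hF : F.IsHomogeneous e) (j : ℤ) (f : PS k) :
    top k (j + e) ((F : PS k) * f) = deh F * top k j f := by
  rw [LU_top_eq, LU_top_eq, LU_hc_mul hF, map_mul]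

theorem top_coe {e : ℕ} {F : MvPolynomial (Fin 3) k} (hF : F.IsHomogeneous e) :
    top k e (F : PS k) = deh F := by
  rw [LU_top_eq]
  congr 1
  ext d
  rw [LU_coeff_hc, MvPolynomial.coeff_coe]
  split_ifs with hd
  · rfl
  · exact (hF.coeff_eq_zero (by omega)).symm

theorem LU_mem_ordF {t : ℤ} {m : Fin N → PS k} : m ∈ ordF k N t ↔
    ∀ i, ∀ d : Fin 3 →₀ ℕ, (d.degree : ℤ) < t → MvPowerSeries.coeff d (m i) = 0 := Iff.rfl

theorem LU_topV_apply (j : ℤ) (m : Fin N → PS k) (i : Fin N) : topV k N j m i = top k j (m i) :=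
  rfl

theorem ordF_anti {s t : ℤ} (h : s ≤ t) : ordF k N t ≤ ordF k N s :=
  fun _ hm i d hd => hm i d (lt_of_lt_of_le hd h)

theorem ordF_top {t : ℤ} (h : t ≤ 0) : ordF k N t = ⊤ := by
  rw [eq_top_iff]
  intro m _ i d hd
  omega

theorem topV_eq_zero {j : ℤ} {m : Fin N → PS k} (hm : m ∈ ordF k N j) :
    topV k N j m = 0 ↔ m ∈ ordF k N (j + 1) := by
  constructor
  · intro h i d hd
    by_cases h1 : (d.degree : ℤ) = j
    · exact top_eq_zero.1 (congrFun h i) d h1
    · exact hm i d (by omega)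
  · intro h
    ext i
    exact top_eq_zero.2 fun d hd => h i d (by omega)

theorem LU_topV_smul {e : ℕ} {F : MvPolynomial (Fin 3) k} (hF : F.IsHomogeneous e) (j : ℤ)
    (m : Fin N → PS k) : topV k N (j + e) ((F : PS k) • m) = deh F • topV k N j m := by
  ext i
  exact top_mul hF j (m i)

theorem smul_mem_ordF {e : ℕ} {F : MvPolynomial (Fin 3) k} (hF : F.IsHomogeneous e) {t : ℤ}
    {m : Fin N → PS k} (hm : m ∈ ordF k N t) : (F : PS k) • m ∈ ordF k N (t + e) := by
  classical
  intro i d hd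
  rw [Pi.smul_apply, smul_eq_mul, MvPowerSeries.coeff_mul]
  refine Finset.sum_eq_zero fun p hp => ?_
  have h1 : p.1.degree + p.2.degree = d.degree := by
    rw [← map_add, Finset.HasAntidiagonal.mem_antidiagonal.1 hp]
  rw [MvPolynomial.coeff_coe]
  by_cases h2 : p.1.degree = e
  · rw [hm i p.2 (by omega), mul_zero]
  · rw [hF.coeff_eq_zero h2, zero_mul]

/-- orders add: look at the lowest `j` with `topV j m ≠ 0` and use `top_mul`, `deh_inj` -/
theorem mem_ordF_of_smul {e : ℕ} {F : MvPolynomial (Fin 3) k} (hF : F.IsHomogeneous e) (h0 : F ≠ 0)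
    {t : ℤ} {m : Fin N → PS k} (hm : (F : PS k) • m ∈ ordF k N (t + e)) : m ∈ ordF k N t := by
  have hd : deh F ≠ 0 := fun h => h0 (deh_inj hF h)
  have key : ∀ n : ℕ, (n : ℤ) ≤ t → m ∈ ordF k N n := by
    intro n
    induction n with
    | zero => intro _; rw [ordF_top (by simp)]; exact Submodule.mem_top
    | succ n ih =>
      intro hn
      push_cast at hn ⊢
      have h1 := ih (by omega)
      rw [← topV_eq_zero h1]
      have h2 : topV k N (n + e) ((F : PS k) • m) = 0 :=
        (topV_eq_zero (smul_mem_ordF hF h1)).2 (ordF_anti (by omega) hm)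
      rw [LU_topV_smul hF] at h2
      exact (smul_eq_zero.1 h2).resolve_left hd
  by_cases ht : t ≤ 0
  · rw [ordF_top ht]; exact Submodule.mem_top
  · have := key t.toNat (by omega)
    rwa [Int.toNat_of_nonneg (by omega)] at this

/-- `m = ∑ X_i m_i` when all constant terms vanish, with control of the order -/
theorem ordF_succ {t : ℤ} (ht : 0 ≤ t) {m : Fin N → PS k} (hm : m ∈ ordF k N (t + 1)) :
    ∃ m' : Fin 3 → Fin N → PS k, (∀ i, m' i ∈ ordF k N t) ∧
      m = ∑ i, (MvPowerSeries.X i : PS k) • m' i := by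
  classical
  let m' : Fin 3 → Fin N → PS k := fun i r => fun d =>
    if ∀ j < i, d j = 0 then MvPowerSeries.coeff (d + Finsupp.single i 1) (m r) else 0
  have hm' : ∀ i r d, MvPowerSeries.coeff d (m' i r) =
      if ∀ j < i, d j = 0 then MvPowerSeries.coeff (d + Finsupp.single i 1) (m r) else 0 :=
    fun i r d => rfl
  refine ⟨m', fun i r d hd => ?_, ?_⟩
  · rw [hm']
    split_ifs
    · refine hm r _ ?_
      rw [map_add, Finsupp.degree_single]
      push_cast
      omega
    · rfl
  · ext r d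
    have key : ∀ i, MvPowerSeries.coeff d ((MvPowerSeries.X i : PS k) * m' i r) =
        if 1 ≤ d i ∧ ∀ j < i, d j = 0 then MvPowerSeries.coeff d (m r) else 0 := by
      intro i
      rw [MvPowerSeries.X_def, MvPowerSeries.coeff_monomial_mul, hm']
      by_cases h1 : 1 ≤ d i
      · have h2 : Finsupp.single i 1 ≤ d := Finsupp.single_le_iff.2 h1
        rw [if_pos h2, one_mul, tsub_add_cancel_of_le h2]
        have h3 : (∀ j < i, (d - Finsupp.single i 1 : Fin 3 →₀ ℕ) j = 0) ↔ ∀ j < i, d j = 0 := by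
          refine forall_congr' fun j => forall_congr' fun hj => ?_
          rw [Finsupp.tsub_apply, Finsupp.single_eq_of_ne hj.ne, tsub_zero]
        simp only [h3, h1, true_and]
      · rw [if_neg (fun h => h1 (Finsupp.single_le_iff.1 h)), if_neg (fun h => h1 h.1)]
    rw [Finset.sum_apply, map_sum]
    simp only [Pi.smul_apply, smul_eq_mul, key]
    rw [Fin.sum_univ_three]
    have c0 : (∀ j < (0 : Fin 3), d j = 0) ↔ True := by simp
    have c1 : (∀ j < (1 : Fin 3), d j = 0) ↔ d 0 = 0 := by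
      simp
    have c2 : (∀ j < (2 : Fin 3), d j = 0) ↔ d 0 = 0 ∧ d 1 = 0 := by
      simp [Fin.forall_fin_succ]
    simp only [c0, c1, c2]
    by_cases a0 : d 0 = 0
    · by_cases a1 : d 1 = 0
      · by_cases a2 : d 2 = 0
        · have : MvPowerSeries.coeff d (m r) = 0 := by
            refine hm r d ?_
            rw [Finsupp.degree_eq_sum, Fin.sum_univ_three, a0, a1, a2]
            push_cast
            omega
          simp [this]
        · rw [if_neg (by omega), if_neg (by omega), if_pos (by omega)]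
          simp
      · rw [if_neg (by omega), if_pos (by omega), if_neg (by omega)]
        simp
    · rw [if_pos ⟨by omega, trivial⟩, if_neg (by omega), if_neg (by omega)]
      simp

variable {F : Fam k (Fin N → PS k)}

theorem XFil.anti' (hF : XFil F) {s t : ℤ} (h : s ≤ t) : F t ≤ F s := by
  induction t, h using Int.leInduction with
  | base => exact le_rfl
  | succ n _ ih => exact (hF.anti n).trans ih

theorem LU_xpow (hF : XFil F) (i : Fin 3) (n : ℕ) {t : ℤ} {m : Fin N → PS k} (hm : m ∈ F t) :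
    (MvPowerSeries.X i : PS k) ^ n • m ∈ F (t + n) := by
  induction n with
  | zero => simpa using hm
  | succ n ih =>
    rw [pow_succ', mul_smul]
    have := hF.xs i _ _ ih
    push_cast
    rwa [add_assoc] at this

theorem XFil.smul (hF : XFil F) {e : ℕ} {G : MvPolynomial (Fin 3) k} (hG : G.IsHomogeneous e)
    {t : ℤ} {m : Fin N → PS k} (hm : m ∈ F t) : (G : PS k) • m ∈ F (t + e) := by
  rw [G.as_sum, ← MvPolynomial.coeToMvPowerSeries.ringHom_apply, map_sum, Finset.sum_smul]
  refine Submodule.sum_mem _ fun d hd => ?_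
  have h1 := A0_hom_deg hG hd
  rw [MvPolynomial.monomial_eq, Finsupp.prod_fintype _ _ (by simp), Fin.prod_univ_three]
  simp only [map_mul, map_pow, MvPolynomial.coeToMvPowerSeries.ringHom_apply, MvPolynomial.coe_C,
    MvPolynomial.coe_X, mul_smul]
  have h2 := LU_xpow hF 0 (d 0) (LU_xpow hF 1 (d 1) (LU_xpow hF 2 (d 2) hm))
  have e1 : t + (d 2 : ℕ) + (d 1 : ℕ) + (d 0 : ℕ) = t + e := by omega
  rw [e1] at h2
  have e2 : ∀ (c : k) (v : Fin N → PS k), (MvPowerSeries.C c : PS k) • v = c • v := by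
    intro c v
    ext1 r
    rw [Pi.smul_apply, Pi.smul_apply, smul_eq_mul, MvPowerSeries.smul_eq_C_mul]
  rw [e2]
  exact Submodule.smul_mem _ _ h2

theorem UF_le (F : Fam k (Fin N → PS k)) (i : ℤ) : UF F i ≤ freeF k (fun _ => 0) := by
  rintro j _ ⟨m, -, rfl⟩ r _
  show top k j (m r) ∈ AA k (j - 0)
  rw [sub_zero]
  exact top_mem j (m r)

theorem XFil.UF_isLat (hF : XFil F) (i : ℤ) : IsLat (UF F i) := by
  refine (isLat_freeF _).sub ?_ (UF_le F i)
  rintro s j a ha _ ⟨m, ⟨h1, h2⟩, rfl⟩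
  by_cases hs : s < 0
  · rw [AA_neg hs, Submodule.mem_bot] at ha
    rw [ha, zero_smul]
    exact Submodule.zero_mem _
  obtain ⟨e, rfl⟩ := Int.eq_ofNat_of_zero_le (not_lt.1 hs)
  obtain ⟨G, hG, rfl⟩ := deh_surj ha
  rw [add_comm (e : ℤ) j, ← LU_topV_smul hG]
  refine ⟨_, ⟨?_, smul_mem_ordF hG h2⟩, rfl⟩
  have := hF.smul hG h1
  rwa [add_right_comm] at this

theorem XFil.UF_anti (hF : XFil F) (i : ℤ) : UF F (i + 1) ≤ UF F i := by
  intro j
  exact Submodule.map_mono (inf_le_inf_right _ (hF.anti' (by omega)))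

theorem UF_ends {c : ℕ} (hc' : ∀ t, ordF k N (t + c) ≤ F t ∧ F t ≤ ordF k N (t - c)) :
    UF F (-c) = freeF k (fun _ => 0) ∧ UF F (c + 1) = ⊥ := by
  constructor
  · refine le_antisymm (UF_le F _) fun j v hv => ?_
    by_cases hj : j < 0
    · have : v = 0 := by
        ext r
        have : v r ∈ AA k (j - 0) := hv r (Set.mem_univ r)
        rw [sub_zero, AA_neg hj] at this
        exact this
      rw [this]
      exact Submodule.zero_mem _
    obtain ⟨e, rfl⟩ := Int.eq_ofNat_of_zero_le (not_lt.1 hj)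
    have h1 : ∀ r, v r ∈ AA k e := fun r => by simpa using hv r (Set.mem_univ r)
    choose G hG hGv using fun r => deh_surj (h1 r)
    have h2 : (fun r => (G r : PS k)) ∈ ordF k N e := by
      intro r d hd
      rw [MvPolynomial.coeff_coe]
      exact (hG r).coeff_eq_zero (by omega)
    refine ⟨fun r => (G r : PS k), ⟨(hc' _).1 ?_, h2⟩, ?_⟩
    · simpa using h2
    · ext r
      rw [LU_topV_apply, top_coe (hG r), hGv]
  · ext1 j
    rw [Pi.bot_apply, eq_bot_iff]
    rintro _ ⟨m, ⟨h1, h2⟩, rfl⟩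
    rw [Submodule.mem_bot, topV_eq_zero h2]
    exact ordF_anti (by omega) ((hc' _).2 h1)

theorem LU_rank_null {M M' : Type} [AddCommGroup M] [Module k M] [AddCommGroup M'] [Module k M']
    (f : M →ₗ[k] M') (P : Submodule k M) [FiniteDimensional k P] :
    finrank k P = finrank k (P.map f) + finrank k (P ⊓ LinearMap.ker f : Submodule k M) := by
  have h1 := LinearMap.finrank_range_add_finrank_ker (f.domRestrict P)
  rw [LinearMap.range_domRestrict, LinearMap.ker_domRestrict] at h1
  rw [← h1]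
  congr 1
  rw [← Submodule.finrank_map_subtype_eq P, Submodule.map_comap_subtype]

theorem LU_two {M Q T : Type} [AddCommGroup M] [Module k M] [AddCommGroup Q] [Module k Q]
    [AddCommGroup T] [Module k T] (q : M →ₗ[k] Q) (τ : M →ₗ[k] T) (A : Submodule k M)
    [FiniteDimensional k (A.map q)] [FiniteDimensional k (A.map τ)] :
    finrank k (A.map q) + finrank k ((A ⊓ LinearMap.ker q).map τ) =
      finrank k (A.map τ) + finrank k ((A ⊓ LinearMap.ker τ).map q) := by
  let P : Submodule k (Q × T) := A.map (q.prod τ)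
  have hP : P ≤ (A.map q).prod (A.map τ) := by
    rintro _ ⟨a, ha, rfl⟩
    exact ⟨⟨a, ha, rfl⟩, ⟨a, ha, rfl⟩⟩
  have : FiniteDimensional k ((A.map q).prod (A.map τ)) := by
    rw [LinearMap.prod_eq_sup_map]
    infer_instance
  have : FiniteDimensional k P := Submodule.finiteDimensional_of_le hP
  have h1 := LU_rank_null (LinearMap.fst k Q T) P
  have h2 := LU_rank_null (LinearMap.snd k Q T) P
  have e1 : P.map (LinearMap.fst k Q T) = A.map q := by
    rw [← Submodule.map_comp]; rfl
  have e2 : P.map (LinearMap.snd k Q T) = A.map τ := by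
    rw [← Submodule.map_comp]; rfl
  have e3 : P ⊓ LinearMap.ker (LinearMap.fst k Q T) =
      ((A ⊓ LinearMap.ker q).map τ).map (LinearMap.inr k Q T) := by
    ext z
    constructor
    · rintro ⟨⟨a, ha, rfl⟩, h⟩
      have h' : q a = 0 := h
      exact ⟨_, ⟨a, ⟨ha, h'⟩, rfl⟩, Prod.ext h'.symm rfl⟩
    · rintro ⟨_, ⟨a, ⟨ha, h⟩, rfl⟩, rfl⟩
      have h' : q a = 0 := h
      exact ⟨⟨a, ha, Prod.ext h' rfl⟩, rfl⟩
  have e4 : P ⊓ LinearMap.ker (LinearMap.snd k Q T) =
      ((A ⊓ LinearMap.ker τ).map q).map (LinearMap.inl k Q T) := by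
    ext z
    constructor
    · rintro ⟨⟨a, ha, rfl⟩, h⟩
      have h' : τ a = 0 := h
      exact ⟨_, ⟨a, ⟨ha, h'⟩, rfl⟩, Prod.ext rfl h'.symm⟩
    · rintro ⟨_, ⟨a, ⟨ha, h⟩, rfl⟩, rfl⟩
      have h' : τ a = 0 := h
      exact ⟨⟨a, ha, Prod.ext rfl h'⟩, rfl⟩
  rw [e1, e3, ← (Submodule.equivMapOfInjective _ LinearMap.inr_injective _).finrank_eq] at h1
  rw [e2, e4, ← (Submodule.equivMapOfInjective _ LinearMap.inl_injective _).finrank_eq] at h2
  omega

theorem LU_fin_quot (hF : XFil F) (t : ℤ) : FiniteDimensional k ((Fin N → PS k) ⧸ F t) := by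
  obtain ⟨c, hc'⟩ := hF.bd
  have : Finite {d : Fin 3 →₀ ℕ | d.degree ≤ (t + c).toNat} := Finsupp.finite_of_degree_le _
  let Φ : (Fin N → PS k) →ₗ[k] (Fin N → {d : Fin 3 →₀ ℕ | d.degree ≤ (t + c).toNat} → k) :=
    LinearMap.pi fun r => LinearMap.pi fun d =>
      (MvPowerSeries.coeff d.1).comp (LinearMap.proj r)
  have h1 : LinearMap.ker Φ ≤ F t := by
    intro m hm
    refine (hc' t).1 fun r d hd => ?_
    exact congrFun (congrFun (LinearMap.mem_ker.1 hm) r) ⟨d, by show d.degree ≤ _; omega⟩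
  have : FiniteDimensional k ((Fin N → PS k) ⧸ LinearMap.ker Φ) :=
    LinearEquiv.finiteDimensional (LinearMap.quotKerEquivRange Φ).symm
  exact Module.Finite.of_surjective (Submodule.factor h1) (Submodule.factor_surjective h1)

theorem LU_tele (ψ : ℤ → ℚ) (a b : ℤ) (h : a - 1 ≤ b) :
    ∑ i ∈ Finset.Icc a b, (ψ (i + 1) - ψ i) = ψ (b + 1) - ψ a := by
  induction b, h using Int.leInduction with
  | base => simp
  | succ n hn ih =>
    rw [← Finset.insert_Icc_right_eq_Icc_add_one (by omega), Finset.sum_insert (by simp), ih]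
    ring

/-- Filter `F t / F (t+1)` by the images of `F t ⊓ ordF j`, `t - c ≤ j ≤ t + c + 1`; the step at `j` is
`(F t ⊓ O j) / (F t ⊓ O (j+1) + F (t+1) ⊓ O j) ≅ UF (t-j) j / UF (t-j+1) j`.  (All spaces can be taken
modulo `ordF (t + c + 1)`, which has finite codimension.) -/
theorem XFil.gF_eq (hF : XFil F) {c : ℕ}
    (hc' : ∀ t, ordF k N (t + c) ≤ F t ∧ F t ≤ ordF k N (t - c)) (t : ℤ) :
    gF F t = ∑ i ∈ Finset.Icc (-(c : ℤ)) c, (hf (UF F i) (t - i) - hf (UF F (i + 1)) (t - i)) := by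
  have := LU_fin_quot hF (t + 1)
  let ψ : ℤ → ℚ := fun i =>
    finrank k ((F t ⊓ ordF k N (t - i + 1)).map (F (t + 1)).mkQ)
  have step : ∀ i, hf (UF F i) (t - i) - hf (UF F (i + 1)) (t - i) = ψ (i + 1) - ψ i := by
    intro i
    have u1 : UF F i (t - i) = (F t ⊓ ordF k N (t - i)).map (topV k N (t - i)) := by
      unfold UF
      rw [sub_add_cancel]
    have u2 : UF F (i + 1) (t - i) = ((F t ⊓ ordF k N (t - i)) ⊓
        LinearMap.ker (F (t + 1)).mkQ).map (topV k N (t - i)) := by
      unfold UF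
      have e1 : t - i + (i + 1) = t + 1 := by ring
      rw [e1, Submodule.ker_mkQ, inf_right_comm, inf_eq_right.2 (hF.anti t)]
    have u3 : (F t ⊓ ordF k N (t - i)) ⊓ LinearMap.ker (topV k N (t - i)) =
        F t ⊓ ordF k N (t - i + 1) := by
      ext m
      constructor
      · rintro ⟨⟨h1, h2⟩, h3⟩
        exact ⟨h1, (topV_eq_zero h2).1 h3⟩
      · rintro ⟨h1, h2⟩
        have h3 := ordF_anti (by omega : t - i ≤ t - i + 1) h2
        exact ⟨⟨h1, h3⟩, (topV_eq_zero h3).2 h2⟩
    have : FiniteDimensional k ((F t ⊓ ordF k N (t - i)).map (topV k N (t - i))) := by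
      rw [← u1]
      exact (hF.UF_isLat i).fin _
    have h4 := LU_two (F (t + 1)).mkQ (topV k N (t - i)) (F t ⊓ ordF k N (t - i))
    rw [u3, ← u1, ← u2] at h4
    have e2 : t - (i + 1) + 1 = t - i := by ring
    simp only [ψ, hf]
    rw [e2]
    have h5 : (finrank k ((F t ⊓ ordF k N (t - i)).map (F (t + 1)).mkQ) : ℚ) +
        finrank k (UF F (i + 1) (t - i)) = finrank k (UF F i (t - i)) +
        finrank k ((F t ⊓ ordF k N (t - i + 1)).map (F (t + 1)).mkQ) := by exact_mod_cast h4
    linarith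
  simp only [step]
  rw [LU_tele ψ _ _ (by omega)]
  have p1 : ψ (c + 1) = gF F t := by
    have e1 : t - (c + 1) + 1 = t - c := by ring
    simp only [ψ, gF]
    rw [e1, inf_eq_left.2 (hc' t).2]
  have p2 : ψ (-c) = 0 := by
    have e1 : t - -(c : ℤ) + 1 = t + 1 + c := by ring
    have e2 : (F t ⊓ ordF k N (t + 1 + c)).map (F (t + 1)).mkQ = ⊥ := by
      rw [eq_bot_iff, Submodule.map_le_iff_le_comap, Submodule.comap_bot, Submodule.ker_mkQ]
      exact inf_le_right.trans (hc' _).1
    simp only [ψ]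
    rw [e1, e2]
    simp
  rw [p1, p2, sub_zero]

end Crest.Agent.R169
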