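import Crest.Agent.R169.RFS
import Crest.Agent.R169.AGrow

/-! # R169 task RBase: Bogomolov's inequality for strongly semistable lattices -/

set_option autoImplicit false

namespace Crest.Agent.R169
open Module

variable {k K : Type} [Field k] [Field K] [Algebra k K] [Algebra (KA k) K]
  [IsScalarTower k (KA k) K]

variable {p : ℕ} [Fact p.Prime] [CharP K p]

variable (S : Setup k K p)

/-- `h⁰ = 0` below the slope: `ξ ≠ 0` in `M t`, `M = N^∨∨`, `W = K ξ`; `a ↦ a • ξ` embeds `R` into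
`cut M W` with shift `t`, both of `ha = r/2`, `dd R = 0`; `hull_coeffs`. -/
theorem Setup.vanish0 {lam : K →ₗ[KA k] KA k} (hl : lam ≠ 0) {ρ : ℕ} {N : Fam k (Fin ρ → K)}
    (hN : RLat S.toBase N) (hF : Full N) {m : ℚ}
    (h : ∀ W : Submodule K (Fin ρ → K), finrank K W = 1 → dd S (cut N W) ≤ m) {t : ℤ}
    (ht : (t : ℚ) * rk k K < -m) : dual (pairV lam ρ) (dual (pairV lam ρ) N) t = ⊥ := by
  rw [eq_bot_iff]
  intro ξ hξ
  by_contra h0
  rw [Submodule.mem_bot] at h0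
  obtain ⟨hG, hGF⟩ := dualV_rlat hl hN hF
  obtain ⟨hM, hMF⟩ := dualV_rlat hl hG hGF
  have hW : finrank K (K ∙ ξ) = 1 := finrank_span_singleton h0
  have h1 := h _ hW
  obtain ⟨a1, b1, -⟩ := hull_coeffs hl hN hF (K ∙ ξ)
  have a2 := hM.ha_cut hMF (K ∙ ξ)
  rw [hW, Nat.cast_one, mul_one] at a2
  obtain ⟨a3, b3, -⟩ := S.coeffs_R
  have h2 := (coeffs_le_of_inj S.lat (hM.cut (K ∙ ξ)).1
    ((LinearMap.toSpanSingleton K (Fin ρ → K) ξ).restrictScalars k) t
    (fun s a _ ha' => (smul_eq_zero.1 ha').resolve_right h0)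
    (fun s a ha' => mem_cut.2 ⟨hM.2 _ _ a ha' _ hξ,
      Submodule.smul_mem _ a (Submodule.mem_span_singleton_self ξ)⟩)).2 (a3.trans a2.symm)
  unfold dd at h1
  rw [a1, b1, a2] at h1
  rw [a2, b3] at h2
  linarith

/-- `h² = 0` above the slope: `φ ≠ 0` in `N^∨ (-t)` gives `π = ∑ ξ_i φ_i : K^ρ → K` onto, with
`fmap π N s ≤ ω (s - t)` (`mem_dualV`), `hb ω = -hb R = rκ/2` (`D1_hb`), so
`dd N - dd (cut N (ker π)) ≤ rκ - r t`. -/
theorem Setup.vanish2 {lam : K →ₗ[KA k] KA k} (hl : lam ≠ 0) {ρ : ℕ} {N : Fam k (Fin ρ → K)}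
    (hN : RLat S.toBase N) (hF : Full N) {m : ℚ}
    (h : ∀ W : Submodule K (Fin ρ → K), finrank K W + 1 = ρ → m ≤ dd S N - dd S (cut N W)) {t : ℤ}
    (ht : S.κ * rk k K - m < (t : ℚ) * rk k K) : dual (pairV lam ρ) N (-t) = ⊥ := by
  rw [eq_bot_iff]
  intro φ hφ
  by_contra h0
  rw [Submodule.mem_bot] at h0
  let π : (Fin ρ → K) →ₗ[K] K := Fintype.linearCombination K φ
  have hπ : ∀ ξ, π ξ = ∑ i, ξ i * φ i := fun ξ => Fintype.linearCombination_apply _ _ _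
  have hs : Function.Surjective π := by
    obtain ⟨i, hi⟩ := Function.ne_iff.1 h0
    intro a
    refine ⟨Pi.single i (a / φ i), ?_⟩
    have hi' : φ i ≠ 0 := hi
    simp [π, div_mul_cancel₀ _ hi']
  have hW : finrank K (LinearMap.ker π) + 1 = ρ := by
    have := LinearMap.finrank_range_add_finrank_ker π
    rw [LinearMap.range_eq_top.2 hs, finrank_top, finrank_self, Module.finrank_fin_fun] at this
    omega
  have h1 := h _ hW
  obtain ⟨a1, b1, -⟩ := hN.1.coeffs_add π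
  have hQ := hN.fmap π
  have a2 := hQ.ha_full (hF.fmap hs)
  rw [finrank_self, Nat.cast_one, mul_one] at a2
  obtain ⟨hω, -⟩ := dual1_rlat hl S.toBase.rlat S.full
  obtain ⟨a4, b4⟩ := D1_hb (perfect_pair1 S.toBase hl) S.lat S.full
  obtain ⟨a3, b3, -⟩ := S.coeffs_R
  have h2 := (coeffs_le_of_inj hQ.1 hω.1 LinearMap.id (-t) (fun s a _ ha' => ha')
    (fun s a ha' => by
      obtain ⟨ξ, hξ, rfl⟩ := mem_fmap.1 ha'
      rw [LinearMap.id_apply, hπ]
      exact (mem_dualV lam hN.2).1 hφ s ξ hξ)).2 (by rw [a2, a4, a3])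
  unfold dd at h1
  rw [a1, b1, a2] at h1
  rw [a4, b4, a3, b3] at h2
  push_cast at h2
  linarith

/-- `f • R^ρ t ⊆ N (t + a)` propagates to `f^(p^e) • R^ρ t ⊆ FrI e N (t + p^e a)` -/
theorem Setup.FrI_contains {ρ : ℕ} {N : Fam k (Fin ρ → K)} (hN : RLat S.toBase N) (hF : Full N) :
    ∃ (f : K) (a : ℤ), f ≠ 0 ∧ ∀ (e : ℕ) (t : ℤ), ∀ ξ ∈ piF S.R (Fin ρ) t,
      f ^ (p ^ e) • ξ ∈ FrI S.toBase p e N (t + (p : ℤ) ^ e * a) := by
  obtain ⟨a, f, -, hf0, h1⟩ := (rlat_piF S.toBase (Fin ρ)).1.1.denom hN.1.isMod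
    (by rw [show spanF N = ⊤ from hF]; exact le_top)
  refine ⟨algebraMap (KA k) K f, a, by simpa using hf0, fun e => ?_⟩
  induction e with
  | zero =>
    intro t ξ hξ
    rw [pow_zero, pow_zero, pow_one, one_mul, FrI_zero, algebraMap_smul]
    exact h1 t ξ hξ
  | succ e ih =>
    intro t ξ hξ
    rw [FrI_succ, pi_eq_sum_univ' ξ, Finset.smul_sum]
    refine Submodule.sum_mem _ fun i _ => ?_
    have h2 : (Pi.single i 1 : Fin ρ → K) ∈ piF S.R (Fin ρ) 0 := by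
      intro j _
      by_cases hj : j = i
      · subst hj
        rw [Pi.single_eq_same]
        exact S.toBase.one_mem le_rfl
      · rw [Pi.single_eq_of_ne hj]
        exact Submodule.zero_mem _
    have h3 := ih 0 _ h2
    have e1 : algebraMap (KA k) K f ^ p ^ (e + 1) • ξ i • (Pi.single i 1 : Fin ρ → K) =
        ξ i • frV p ρ (algebraMap (KA k) K f ^ p ^ e • (Pi.single i 1 : Fin ρ → K)) := by
      rw [smul_comm, (isFrob_frV ρ).smul, ← pow_mul, ← pow_succ]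
      congr 2
      ext j
      by_cases hj : j = i
      · subst hj
        simp [frV]
      · simp [frV, Pi.single_eq_of_ne hj, (Fact.out : p.Prime).ne_zero]
    rw [e1]
    refine mem_Fr ?_ h3
    have e2 : t + (p : ℤ) ^ (e + 1) * a - p * (0 + (p : ℤ) ^ e * a) = t := by ring
    rw [e2]
    exact hξ i (Set.mem_univ i)

theorem RBase_iter {h : ℤ → ℚ} {C A : ℚ} (hC : 0 ≤ C)
    (H : ∀ s : ℤ, h (s + 1) ≤ h s + C * (|(s : ℚ)| + A + 1)) (s : ℤ) (n : ℕ) :
    h (s + n) ≤ h s + n * (C * (|(s : ℚ)| + n + A + 1)) + n * (C * |A|) := by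
  induction n with
  | zero => simp
  | succ n ih =>
    have h1 := H (s + n)
    have h2 : |((s + n : ℤ) : ℚ)| ≤ |(s : ℚ)| + n := by
      push_cast
      exact (abs_add_le _ _).trans (by rw [Nat.abs_cast])
    have h3 := mul_le_mul_of_nonneg_left h2 hC
    have h4 : (0 : ℚ) ≤ n := Nat.cast_nonneg n
    have h5 := mul_nonneg hC (abs_nonneg A)
    have h6 := mul_nonneg hC h4
    push_cast at h1 h3 ⊢
    rw [← add_assoc]
    nlinarith

set_option maxHeartbeats 1600000 in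
/-- Let `N_e = FrI e N`, `G_e = N_e^∨`, `M_e = G_e^∨`, `Δ = cc N - dd N²/(2ρr)`.  For every integer `t`:
`p^(2e) Δ - ρσ/8 ≤ P_{N_e}(t) ≤ P_{M_e}(t) ≤ hf M_e t + hf G_e (-t)` (`FrI_coeffs`, `hull_coeffs` with
`W = ⊤`, `D0`, `dual_dual_dual`).  Take `t₁ = ⌈-p^e μ / r⌉ - 1`: `M_e t₁ = 0` (`vanish0`),
`G_e (-t₁ - n) = 0` for `n = |κ| + 2` (`vanish2`), and `grow` with `G₀ = (R^ρ)^∨`, `c = f^(p^e) •`,
`a_e = p^e a` (`FrI_contains`, `dual_satX`) gives `hf G_e (-t₁) ≤ C' p^e`.  Let `e → ∞`. -/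
theorem Setup.bogomolov {ρ : ℕ} (hρ : 0 < ρ) {N : Fam k (Fin ρ → K)} (hN : RLat S.toBase N)
    (hF : Full N) {μ : ℚ} (h : Hyp S N μ μ) : cc S N ≤ dd S N ^ 2 / (2 * ρ * rk k K) := by
  obtain ⟨lam, hl⟩ := exists_lam k K
  obtain ⟨f, a, hf0, hfa⟩ := S.FrI_contains hN hF
  obtain ⟨hP0, hP0F⟩ := rlat_piF S.toBase (Fin ρ)
  obtain ⟨C, hC, hgrow⟩ := grow (V := Fin ρ → K) (dualV_rlat hl hP0 hP0F).1.1
  have hr := S.toBase.rk_pos
  have hρ' : (1 : ℚ) ≤ ρ := by exact_mod_cast hρ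
  have hp1 : (1 : ℚ) < p := by exact_mod_cast (Fact.out : p.Prime).one_lt
  have ha0 := hN.ha_full hF
  rw [Module.finrank_fin_fun] at ha0
  obtain ⟨n, hn⟩ : ∃ n : ℕ, (n : ℤ) = |S.κ| + 2 := ⟨(|S.κ| + 2).toNat, by
    have := abs_nonneg S.κ; omega⟩
  have hn' : (n : ℚ) = |(S.κ : ℚ)| + 2 := by exact_mod_cast hn
  have key : ∀ e : ℕ, ((p : ℚ) ^ e) ^ 2 * (cc S N - dd S N ^ 2 / (2 * ρ * rk k K)) ≤
      ρ * S.σ / 8 + (p : ℚ) ^ e * (n * (C * (|μ| + 2 * n + 2 * |(a : ℚ)| + 2))) := by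
    intro e
    have hq : (1 : ℚ) ≤ (p : ℚ) ^ e := one_le_pow₀ hp1.le
    have hNe := FrI_rlat (p := p) hN e
    have hFe := FrI_full (p := p) hN hF e
    obtain ⟨c1, c2, c3⟩ := S.FrI_coeffs hN e
    rw [pow_mul'] at c3
    obtain ⟨hG, hGF⟩ := dualV_rlat hl hNe hFe
    obtain ⟨hM, hMF⟩ := dualV_rlat hl hG hGF
    obtain ⟨t, ht⟩ : ∃ t : ℤ, t = ⌈-((p : ℚ) ^ e * μ) / rk k K⌉ - 1 := ⟨_, rfl⟩
    have t1 : (t : ℚ) < -((p : ℚ) ^ e * μ) / rk k K := by
      have := Int.ceil_lt_add_one (-((p : ℚ) ^ e * μ) / rk k K)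
      rw [ht]; push_cast; linarith
    have t2 : -((p : ℚ) ^ e * μ) / rk k K ≤ t + 1 := by
      have := Int.le_ceil (-((p : ℚ) ^ e * μ) / rk k K)
      rw [ht]; push_cast; linarith
    rw [lt_div_iff₀ (by linarith)] at t1
    rw [div_le_iff₀ (by linarith)] at t2
    have v0 := S.vanish0 hl hNe hFe (m := (p : ℚ) ^ e * μ) (fun W hW => by
      have := (h e W).1
      rwa [hW, Nat.cast_one, mul_one] at this) t1
    have v2 := S.vanish2 hl hNe hFe (m := (p : ℚ) ^ e * μ) (t := t + n) (fun W hW => by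
      have := (h e W).2
      have e1 : (ρ : ℚ) - finrank K W = 1 := by
        have : (finrank K W : ℚ) + 1 = ρ := by exact_mod_cast hW
        linarith
      rwa [e1, mul_one, ← c2] at this) (by
      push_cast
      rw [hn']
      have := le_abs_self (S.κ : ℚ)
      nlinarith)
    have g1 := hgrow (dual (pairV lam ρ) (FrI S.toBase p e N))
      ((LinearMap.lsmul K (Fin ρ → K) (f ^ p ^ e)).restrictScalars (KA k)) ((p : ℤ) ^ e * a) hG.1
      (dual_satX _ _) (smul_right_injective _ (pow_ne_zero _ hf0)) (fun s ξ hξ => by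
        refine mem_dual.2 fun s' η hη => ?_
        have h1 := mem_dual.1 hξ _ _ (hfa e s' η hη)
        have e1 : s' + (p : ℤ) ^ e * a + s - 3 = s' + (s + (p : ℤ) ^ e * a) - 3 := by ring
        rw [e1, pairV_apply] at h1
        rw [pairV_apply]
        convert h1 using 3 with i
        simp only [LinearMap.restrictScalars_apply, LinearMap.lsmul_apply, Pi.smul_apply,
          smul_eq_mul]
        ring)
    have g2 := RBase_iter hC g1 (-(t + n)) n
    have e2 : -(t + n) + n = -t := by ring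
    have z2 : hf (dual (pairV lam ρ) (FrI S.toBase p e N)) (-(t + n)) = 0 := by
      unfold hf
      rw [v2]
      simp
    have z0 : hf (dual (pairV lam ρ) (dual (pairV lam ρ) (FrI S.toBase p e N))) t = 0 := by
      unfold hf
      rw [v0]
      simp
    rw [e2, z2, zero_add, abs_abs] at g2
    have d0 := D0 (perfect_pairV S.toBase hl ρ) hM.1 hMF (dual_satXY _ _) t
    have ddd := dual_dual_dual (pairV lam ρ) (FrI S.toBase p e N)
    rw [pairV_flip] at ddd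
    rw [ddd, z0, zero_add] at d0
    obtain ⟨u1, u2, u3⟩ := hull_coeffs hl hNe hFe ⊤
    rw [cut_top, cut_top] at u1 u2 u3
    unfold hP at d0
    rw [← u1, ← u2] at d0
    have b1 : |(((p : ℤ) ^ e * a : ℤ) : ℚ)| = (p : ℚ) ^ e * |(a : ℚ)| := by
      push_cast
      rw [abs_mul, abs_of_pos (by positivity)]
    have b2 : |((-(t + n) : ℤ) : ℚ)| ≤ (p : ℚ) ^ e * |μ| + 1 + n := by
      push_cast
      have m1 := le_abs_self μ
      have m2 := neg_abs_le μ
      have m3 : (0 : ℚ) ≤ n := Nat.cast_nonneg n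
      have m4 := mul_nonneg (le_trans zero_le_one hq) (abs_nonneg μ)
      have m5 := mul_le_mul_of_nonneg_left m1 (le_trans zero_le_one hq)
      have m6 := mul_le_mul_of_nonneg_left m2 (le_trans zero_le_one hq)
      have s1 : (t : ℚ) ≤ (p : ℚ) ^ e * |μ| := by
        by_contra hh
        push Not at hh
        nlinarith
      have s2 : -((p : ℚ) ^ e * |μ|) ≤ (t : ℚ) + 1 := by
        by_contra hh
        push Not at hh
        nlinarith
      rw [abs_le]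
      constructor <;> linarith
    rw [b1] at g2
    have g3 : hf (dual (pairV lam ρ) (FrI S.toBase p e N)) (-t) ≤
        (p : ℚ) ^ e * (n * (C * (|μ| + 2 * n + 2 * |(a : ℚ)| + 2))) := by
      refine g2.trans ?_
      have m3 : (0 : ℚ) ≤ n := Nat.cast_nonneg n
      have m7 : |((-(t + n) : ℤ) : ℚ)| + n + (p : ℚ) ^ e * |(a : ℚ)| + 1 + (p : ℚ) ^ e * |(a : ℚ)| ≤
          (p : ℚ) ^ e * (|μ| + 2 * n + 2 * |(a : ℚ)| + 2) := by nlinarith
      have m8 := mul_le_mul_of_nonneg_left m7 (mul_nonneg m3 hC)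
      nlinarith
    have q1 : ha (FrI S.toBase p e N) * (t : ℚ) ^ 2 + hb (FrI S.toBase p e N) * t +
        hc (FrI S.toBase p e N) = rk k K * ρ / 2 * ((t : ℚ) - S.κ / 2) ^ 2 +
          (p : ℚ) ^ e * dd S N * (t - S.κ / 2) + ((p : ℚ) ^ e) ^ 2 * cc S N - ρ * S.σ / 8 := by
      rw [← c2, ← c3]
      unfold dd cc
      rw [c1, ha0]
      field_simp
      ring
    have q2 : -(((p : ℚ) ^ e) ^ 2 * (dd S N ^ 2 / (2 * ρ * rk k K))) ≤
        rk k K * ρ / 2 * ((t : ℚ) - S.κ / 2) ^ 2 + (p : ℚ) ^ e * dd S N * (t - S.κ / 2) := by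
      have hpos : (0 : ℚ) < 2 * ρ * rk k K := by positivity
      have := div_nonneg (sq_nonneg (rk k K * ρ * ((t : ℚ) - S.κ / 2) + (p : ℚ) ^ e * dd S N))
        hpos.le
      have e5 : (rk k K * ρ * ((t : ℚ) - S.κ / 2) + (p : ℚ) ^ e * dd S N) ^ 2 / (2 * ρ * rk k K) =
          rk k K * ρ / 2 * ((t : ℚ) - S.κ / 2) ^ 2 + (p : ℚ) ^ e * dd S N * (t - S.κ / 2) +
            ((p : ℚ) ^ e) ^ 2 * (dd S N ^ 2 / (2 * ρ * rk k K)) := by
        field_simp
        ring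
      linarith
    linarith
  by_contra hcon
  push Not at hcon
  set Δ := cc S N - dd S N ^ 2 / (2 * ρ * rk k K) with hΔ
  have hΔ0 : 0 < Δ := by linarith
  set C' := (n : ℚ) * (C * (|μ| + 2 * n + 2 * |(a : ℚ)| + 2)) with hC'
  obtain ⟨e, he⟩ := pow_unbounded_of_one_lt ((|ρ * S.σ / 8| + C') / Δ) hp1
  rw [div_lt_iff₀ hΔ0] at he
  have hq : (1 : ℚ) ≤ (p : ℚ) ^ e := one_le_pow₀ hp1.le
  have k1 := key e
  have k2 := le_abs_self (ρ * S.σ / 8)
  have k3 := abs_nonneg (ρ * S.σ / 8)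
  have k4 := mul_lt_mul_of_pos_left he (lt_of_lt_of_le zero_lt_one hq)
  nlinarith

end Crest.Agent.R169
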