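import Crest.Agent.R169.RLoc

/-! # R169 task RCart1: `u^i v^j` is a `p`-basis, locally and globally -/

set_option autoImplicit false
set_option linter.unusedSectionVars false
set_option linter.unusedSimpArgs false

namespace Crest.Agent.R169
open Module

variable {k K : Type} [Field k] [Field K] [Algebra k K] [Algebra (KA k) K]
  [IsScalarTower k (KA k) K]

variable {V : Type} [AddCommGroup V] [Module k V] [Module (KA k) V] [Module K V]
  [IsScalarTower k (KA k) V] [IsScalarTower k K V] [IsScalarTower (KA k) K V]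

variable {p : ℕ} [Fact p.Prime] [CharP K p]

variable (S : Setup k K p)

/-- `∂₀ = (D₁v D₀ - D₀v D₁)/J`, `∂₁ = (D₀u D₁ - D₁u D₀)/J`, `J = j0 ε ≠ 0` -/
theorem Setup.exists_partials (α : Fin S.nα) : ∃ d : Fin 2 → Derivation k K K,
    d 0 (S.u α) = 1 ∧ d 0 (S.v α) = 0 ∧ d 1 (S.u α) = 0 ∧ d 1 (S.v α) = 1 ∧
    (∀ i a, S.D i a = S.D i (S.u α) * d 0 a + S.D i (S.v α) * d 1 a) ∧
    ∀ a, S.D 0 a = 0 → S.D 1 a = 0 → d 0 a = 0 ∧ d 1 a = 0 := by
  have hJ : S.j0 * S.ε α ≠ 0 := mul_ne_zero S.j0_ne (S.ε_ne α)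
  have hj := S.jac α
  rw [← hj] at hJ
  refine ⟨![(S.j0 * S.ε α)⁻¹ • (S.D 1 (S.v α) • S.D 0 - S.D 0 (S.v α) • S.D 1),
    (S.j0 * S.ε α)⁻¹ • (S.D 0 (S.u α) • S.D 1 - S.D 1 (S.u α) • S.D 0)], ?_, ?_, ?_, ?_, ?_, ?_⟩
  all_goals simp only [Matrix.cons_val_zero, Matrix.cons_val_one, Derivation.smul_apply,
    Derivation.sub_apply, smul_eq_mul, ← hj]
  · field_simp
  · ring
  · ring
  · field_simp
  · intro i a
    fin_cases i
    · simp only [Fin.zero_eta]; field_simp; ring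
    · simp only [Fin.mk_one]; field_simp; ring
  · intro a h0 h1
    simp [h0, h1]

omit [Algebra (KA k) K] [IsScalarTower k (KA k) K] in
theorem rcart1_pow_p (d : Derivation k K K) (a : K) : d (a ^ p) = 0 := by
  rw [Derivation.leibniz_pow, ← Nat.cast_smul_eq_nsmul K, CharP.cast_eq_zero, zero_smul]

omit [Algebra (KA k) K] [IsScalarTower k (KA k) K] in
private theorem rcart1_one (d : Derivation k K K) {u : K} (hu : d u = 1) : ∀ (n : ℕ), n ≤ p →
    ∀ a : Fin n → K, (∀ i, d (a i) = 0) → ∑ i, a i * u ^ (i : ℕ) = 0 → a = 0 := by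
  intro n
  induction n with
  | zero => intro _ a _ _; exact Subsingleton.elim _ _
  | succ n ih =>
    intro hn a ha h
    have h1 := congrArg d h
    rw [Fin.sum_univ_succ, map_add, map_sum, map_zero] at h1
    have h2 : ∑ i : Fin n, (((i : ℕ) + 1 : ℕ) * a i.succ) * u ^ (i : ℕ) = 0 := by
      rw [← h1]
      simp only [Fin.val_zero, pow_zero, mul_one, ha, zero_add, Fin.val_succ, Derivation.leibniz,
        Derivation.leibniz_pow, hu, smul_eq_mul, mul_zero, add_zero, Nat.add_sub_cancel,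
        nsmul_eq_mul]
      exact Finset.sum_congr rfl (fun i _ => by ring)
    have h3 := ih (by omega) _ (fun i => by
      rw [Derivation.leibniz, ha, Derivation.map_natCast]; simp) h2
    have h4 : ∀ i : Fin n, a i.succ = 0 := by
      intro i
      have h5 := congrFun h3 i
      refine (mul_eq_zero.1 h5).resolve_left ?_
      rw [CharP.cast_eq_zero_iff K p]
      intro hd
      have := Nat.le_of_dvd (Nat.succ_pos _) hd
      omega
    rw [Fin.sum_univ_succ] at h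
    simp only [h4, zero_mul, Finset.sum_const_zero, add_zero, Fin.val_zero, pow_zero,
      mul_one] at h
    funext i
    refine Fin.cases h h4 i

omit [Fact p.Prime] [CharP K p] in
theorem rcart1_loc (α : Fin S.nα) {t : ℤ} {a : K} (h : a ∈ S.R t) :
    a ∈ Loc S.toBase (S.g α) S.c t := ⟨0, by simpa using h⟩

/-- derivations kill `p`-th powers; apply `∂₀^i ∂₁^j` (downward induction, `i! j! ≠ 0`) -/
theorem Setup.bas_indep (α : Fin S.nα) (t : ℤ) (c : Fin p × Fin p → K)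
    (h : ∑ ij, c ij ^ p * bas S α t ij = 0) : c = 0 := by
  obtain ⟨d, h1, h2, h3, h4, -⟩ := S.exists_partials α
  have hτ : S.τ α ^ t ≠ 0 := zpow_ne_zero _ (S.τ_ne α)
  have h5 : ∑ i : Fin p, (∑ j : Fin p, c (i, j) ^ p * S.v α ^ (j : ℕ)) * S.u α ^ (i : ℕ) = 0 := by
    apply mul_left_cancel₀ hτ
    rw [mul_zero, ← h, Fintype.sum_prod_type, Finset.mul_sum]
    refine Finset.sum_congr rfl (fun i _ => ?_)
    rw [Finset.sum_mul, Finset.mul_sum]
    exact Finset.sum_congr rfl (fun j _ => by simp only [bas]; ring)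
  have h6 := rcart1_one (d 0) h1 p le_rfl _ (fun i => by
    rw [map_sum]
    refine Finset.sum_eq_zero (fun j _ => ?_)
    rw [Derivation.leibniz, rcart1_pow_p (p := p), Derivation.leibniz_pow, h2]; simp) h5
  funext ij
  have h7 := rcart1_one (d 1) h4 p le_rfl _ (fun j => rcart1_pow_p _ _) (congrFun h6 ij.1)
  exact pow_eq_zero_iff (Fact.out : p.Prime).ne_zero |>.1 (congrFun h7 ij.2)

/-- `a = b/d = b d^(p-1) / d^p` with `b, d ∈ Loc 0` (`Base.denom`, multiply by `τ^(-e)`), `S.span` -/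
theorem Setup.bas_span (α : Fin S.nα) (t : ℤ) (a : K) :
    ∃ c : Fin p × Fin p → K, a = ∑ ij, c ij ^ p * bas S α t ij := by
  have hp : p.Prime := Fact.out
  have hτ := S.τ_ne α
  obtain ⟨e, f, hf, hf0, hfa⟩ := S.toBase.denom (a * S.τ α ^ (-t)) 0
  have hF : algebraMap (KA k) K f ≠ 0 := by
    rw [Ne, map_eq_zero]; exact hf0
  have hd : algebraMap (KA k) K f * S.τ α ^ (-e) ∈ Loc S.toBase (S.g α) S.c 0 := by
    have := Loc.mul (rcart1_loc S α (S.A_le e f hf)) (S.τ_zpow α (-e))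
    rwa [add_neg_cancel] at this
  have hb : algebraMap (KA k) K f * (a * S.τ α ^ (-t)) * S.τ α ^ (-e) ∈
      Loc S.toBase (S.g α) S.c 0 := by
    have := Loc.mul (rcart1_loc S α hfa) (S.τ_zpow α (-e))
    rwa [zero_add, add_neg_cancel] at this
  have hd0 : algebraMap (KA k) K f * S.τ α ^ (-e) ≠ 0 := mul_ne_zero hF (zpow_ne_zero _ hτ)
  have hbd := Loc.mul hb (Loc.pow hd (p - 1))
  rw [mul_zero, add_zero] at hbd
  obtain ⟨c, -, hc⟩ := S.span α _ hbd
  set D := algebraMap (KA k) K f * S.τ α ^ (-e) with hD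
  have h1 : a * S.τ α ^ (-t) * D ^ p = ∑ ij : Fin p × Fin p,
      c ij ^ p * (S.u α ^ (ij.1 : ℕ) * S.v α ^ (ij.2 : ℕ)) := by
    rw [← hc]
    rw [← pow_sub_one_mul hp.ne_zero D]
    generalize D ^ (p - 1) = E
    rw [hD]; ring
  refine ⟨fun ij => c ij / D, ?_⟩
  have h2 : a = S.τ α ^ t * (D ^ p)⁻¹ * (a * S.τ α ^ (-t) * D ^ p) := by
    rw [zpow_neg]; field_simp
  rw [h2, h1, Finset.mul_sum]
  exact Finset.sum_congr rfl (fun ij _ => by simp only [bas, div_pow]; ring)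

theorem Setup.bas_unique (α : Fin S.nα) (t : ℤ) {c c' : Fin p × Fin p → K}
    (h : ∑ ij, c ij ^ p * bas S α t ij = ∑ ij, c' ij ^ p * bas S α t ij) : c = c' := by
  have := S.bas_indep α t (c - c') (by
    simp only [Pi.sub_apply, sub_pow_char, sub_mul, Finset.sum_sub_distrib, h, sub_self])
  exact sub_eq_zero.1 this

/-- `a τ^(-(ps+t)) ∈ Loc 0`, `S.span`, uniqueness -/
theorem Setup.bas_loc (α : Fin S.nα) {s t : ℤ} {a : K}
    (ha' : a ∈ Loc S.toBase (S.g α) S.c (p * s + t)) {c : Fin p × Fin p → K}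
    (h : a = ∑ ij, c ij ^ p * bas S α t ij) (ij : Fin p × Fin p) :
    c ij ∈ Loc S.toBase (S.g α) S.c s := by
  have hτ := S.τ_ne α
  have h1 := Loc.mul ha' (S.τ_zpow α (-(p * s + t)))
  rw [add_neg_cancel] at h1
  obtain ⟨f, hf, hfa⟩ := S.span α _ h1
  have h2 : a = ∑ ij, (f ij * S.τ α ^ s) ^ p * bas S α t ij := by
    have h3 : a = S.τ α ^ (p * s + t) * (a * S.τ α ^ (-(p * s + t))) := by
      rw [zpow_neg]; field_simp
    rw [h3, hfa, Finset.mul_sum]
    refine Finset.sum_congr rfl (fun ij _ => ?_)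
    rw [zpow_add₀ hτ, mul_comm (p : ℤ) s, zpow_mul, zpow_natCast]
    simp only [bas]; ring
  rw [S.bas_unique α t (h.symm.trans h2)]
  have := Loc.mul (hf ij) (S.τ_zpow α s)
  rwa [zero_add] at this

theorem Setup.exists_pow_of_D {a : K} (h0 : S.D 0 a = 0) (h1 : S.D 1 a = 0) : ∃ b, a = b ^ p := by
  have hp : p.Prime := Fact.out
  let α : Fin S.nα := ⟨0, S.nα_pos⟩
  obtain ⟨d, e1, e2, e3, e4, -, e6⟩ := S.exists_partials α
  obtain ⟨f0, f1⟩ := e6 a h0 h1
  obtain ⟨c, hc⟩ := S.bas_span α 0 a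
  have hn : ∀ n : ℕ, (n : K) ^ p = n := fun n => map_natCast (frobenius K p) n
  have hpow : ∀ (x : K) (n : ℕ), x * (n * x ^ (n - 1)) = n * x ^ n := by
    intro x n
    cases n with
    | zero => simp
    | succ n => rw [Nat.add_sub_cancel, pow_succ]; ring
  have g0 := S.bas_indep α 0 (fun ij => ((ij.1 : ℕ) : K) * c ij) (by
    have : S.u α * d 0 a = 0 := by rw [f0, mul_zero]
    rw [← this, hc, map_sum, Finset.mul_sum]
    refine Finset.sum_congr rfl (fun ij _ => ?_)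
    simp only [bas, zpow_zero, one_mul, Derivation.leibniz, rcart1_pow_p, Derivation.leibniz_pow,
      e1, e2, smul_eq_mul, mul_zero, add_zero, nsmul_eq_mul, mul_one, zero_add, mul_pow, hn]
    linear_combination (-(c ij ^ p * S.v α ^ (ij.2 : ℕ))) * hpow (S.u α) ij.1)
  have g1 := S.bas_indep α 0 (fun ij => ((ij.2 : ℕ) : K) * c ij) (by
    have : S.v α * d 1 a = 0 := by rw [f1, mul_zero]
    rw [← this, hc, map_sum, Finset.mul_sum]
    refine Finset.sum_congr rfl (fun ij _ => ?_)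
    simp only [bas, zpow_zero, one_mul, Derivation.leibniz, rcart1_pow_p, Derivation.leibniz_pow,
      e3, e4, smul_eq_mul, mul_zero, add_zero, nsmul_eq_mul, mul_one, zero_add, mul_pow, hn]
    linear_combination (-(c ij ^ p * S.u α ^ (ij.1 : ℕ))) * hpow (S.v α) ij.2)
  have hne : ∀ i : Fin p, (i : ℕ) ≠ 0 → ((i : ℕ) : K) ≠ 0 := by
    intro i hi h
    rw [CharP.cast_eq_zero_iff K p] at h
    have := Nat.le_of_dvd (Nat.pos_of_ne_zero hi) h
    omega
  let z : Fin p := ⟨0, hp.pos⟩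
  refine ⟨c (z, z), ?_⟩
  rw [hc, Finset.sum_eq_single (z, z)]
  · simp [bas, z]
  · rintro ⟨i, j⟩ _ hij
    have : c (i, j) = 0 := by
      by_cases hi : (i : ℕ) = 0
      · have hj : (j : ℕ) ≠ 0 := fun hj => hij (Prod.ext (Fin.ext hi) (Fin.ext hj))
        exact (mul_eq_zero.1 (congrFun g1 (i, j))).resolve_left (hne j hj)
      · exact (mul_eq_zero.1 (congrFun g0 (i, j))).resolve_left (hne i hi)
    rw [this, zero_pow hp.ne_zero, zero_mul]
  · intro h; exact absurd (Finset.mem_univ _) h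

variable {φ : V → V}

theorem Setup.frob_unique (hφ : IsFrob K p φ) (α : Fin S.nα) (t : ℤ) {η η' : Fin p × Fin p → V}
    (h : ∑ ij, bas S α t ij • φ (η ij) = ∑ ij, bas S α t ij • φ (η' ij)) : η = η' := by
  have hsub : ∀ a b, φ (a - b) = φ a - φ b := fun a b => by
    rw [eq_sub_iff_add_eq, ← hφ.add, sub_add_cancel]
  have := hφ.ind _ (bas S α t) (S.bas_indep α t) (η - η') (by
    simp only [Pi.sub_apply, hsub, smul_sub, Finset.sum_sub_distrib, h, sub_self])
  exact sub_eq_zero.1 this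

/-- local coordinates on `F^*N`.  Multiply by `g^(pj)`; for a generator `a • φ ξ`, `ξ ∈ N s'`, expand
`a = ∑ c^p bas` with `c ∈ Loc (s + jc - s')` (`bas_loc`); `η = g^(-j) ∑ c • ξ`.  (Scalars from `k` are
absorbed in `a`.) -/
theorem Setup.Fr_coord (hφ : IsFrob K p φ) {N : Fam k V} (hN : IsMod S.R N) (α : Fin S.nα)
    {s t : ℤ} {ζ : V} (h : ζ ∈ LocM (Fr S.toBase p φ N) (S.g α) S.c (p * s + t)) :
    ∃ η : Fin p × Fin p → V, (∀ ij, η ij ∈ LocM N (S.g α) S.c s) ∧
      ζ = ∑ ij, bas S α t ij • φ (η ij) := by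
  have hp : p.Prime := Fact.out
  have key : ∀ s' : ℤ, ∀ ζ' ∈ Fr S.toBase p φ N (p * s' + t), ∃ η : Fin p × Fin p → V,
      (∀ ij, η ij ∈ LocM N (S.g α) S.c s') ∧ ζ' = ∑ ij, bas S α t ij • φ (η ij) := by
    intro s' ζ' hζ'
    induction hζ' using Submodule.span_induction with
    | mem z hz =>
      obtain ⟨s'', a, ha, ξ, hξ, rfl⟩ := hz
      obtain ⟨c, hc⟩ := S.bas_span α t a
      rw [show p * s' + t - p * s'' = p * (s' - s'') + t by ring] at ha
      have hcl := S.bas_loc α (rcart1_loc S α ha) hc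
      refine ⟨fun ij => c ij • ξ, fun ij => ?_, ?_⟩
      · have := LocM.smul hN (hcl ij) (LocM.of_mem hξ)
        rwa [sub_add_cancel] at this
      · rw [hc, Finset.sum_smul]
        exact Finset.sum_congr rfl (fun ij _ => by rw [hφ.smul, smul_smul, mul_comm])
    | zero => exact ⟨0, fun _ => LocM.zero _ _, by simp [hφ.zero]⟩
    | add x y _ _ hx hy =>
      obtain ⟨η, hη, rfl⟩ := hx
      obtain ⟨η', hη', rfl⟩ := hy
      refine ⟨η + η', fun ij => LocM.add hN (S.g_mem α) (hη ij) (hη' ij), ?_⟩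
      rw [← Finset.sum_add_distrib]
      exact Finset.sum_congr rfl (fun ij _ => by rw [Pi.add_apply, hφ.add, smul_add])
    | smul x y _ hy =>
      obtain ⟨η, hη, rfl⟩ := hy
      obtain ⟨d, rfl⟩ := S.perf x
      refine ⟨fun ij => d • η ij, fun ij => LocM.smul_k d (hη ij), ?_⟩
      rw [Finset.smul_sum]
      refine Finset.sum_congr rfl (fun ij _ => ?_)
      beta_reduce
      rw [← algebraMap_smul K d (η ij), hφ.smul, ← map_pow, algebraMap_smul, smul_comm]
  obtain ⟨j, hj⟩ := h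
  have h1 := LocM.pow_smul (Fr_isMod S.toBase φ N) (S.g_mem α) hj
    (Nat.le_mul_of_pos_left j hp.pos)
  rw [show p * s + t + ((p * j : ℕ) : ℤ) * S.c = p * (s + j * S.c) + t by push_cast; ring] at h1
  obtain ⟨η, hη, he⟩ := key _ _ h1
  have hg : S.g α ^ j ≠ 0 := pow_ne_zero _ (S.g_ne α)
  refine ⟨fun ij => (S.g α ^ j)⁻¹ • η ij, fun ij => LocM.of_pow_smul j ?_, ?_⟩
  · rw [smul_smul, mul_inv_cancel₀ hg, one_smul]; exact hη ij
  · have h2 : ζ = ((S.g α ^ j)⁻¹) ^ p • (S.g α ^ (p * j) • ζ) := by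
      rw [smul_smul, mul_comm p j, pow_mul, ← mul_pow, inv_mul_cancel₀ hg, one_pow, one_smul]
    rw [h2, he, Finset.smul_sum]
    exact Finset.sum_congr rfl (fun ij _ => by rw [hφ.smul, smul_comm])

theorem Setup.frob_mem_loc (hφ : IsFrob K p φ) {N : Fam k V} (α : Fin S.nα) {s t : ℤ} {a : K}
    (ha' : a ∈ Loc S.toBase (S.g α) S.c t) {η : V} (hη : η ∈ LocM N (S.g α) S.c s)
    (hN : IsMod S.R N) : a • φ η ∈ LocM (Fr S.toBase p φ N) (S.g α) S.c (p * s + t) := by
  have _ := hN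
  obtain ⟨i, hi⟩ := ha'
  obtain ⟨j, hj⟩ := hη
  refine ⟨i + p * j, ?_⟩
  have h1 : S.g α ^ (i + p * j) • a • φ η = (S.g α ^ i * a) • φ (S.g α ^ j • η) := by
    rw [hφ.smul, smul_smul, smul_smul, ← pow_mul, pow_add, mul_comm j p]
    congr 1; ring
  rw [h1]
  refine mem_Fr ?_ hj
  rwa [show p * s + t + ((i + p * j : ℕ) : ℤ) * S.c - p * (s + j * S.c) = t + i * S.c by
    push_cast; ring]

theorem Setup.Fr_of_coord (hφ : IsFrob K p φ) {N : Fam k V} (hN : IsMod S.R N) (α : Fin S.nα)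
    {s t : ℤ} {η : Fin p × Fin p → V} (h : ∀ ij, η ij ∈ LocM N (S.g α) S.c s) :
    ∑ ij, bas S α t ij • φ (η ij) ∈ LocM (Fr S.toBase p φ N) (S.g α) S.c (p * s + t) := by
  exact LocM.sum (Fr_isMod S.toBase φ N) (S.g_mem α) _
    (fun ij _ => S.frob_mem_loc hφ α (S.bas_mem α t ij) (h ij) hN)

end Crest.Agent.R169
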