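import Crest.Agent.R169.RCart1

/-! # R169 task RCart2: the Cartier operator -/

set_option autoImplicit false
set_option linter.unusedSectionVars false
set_option linter.unusedSimpArgs false

namespace Crest.Agent.R169
open Module

variable {k K : Type} [Field k] [Field K] [Algebra k K] [Algebra (KA k) K]
  [IsScalarTower k (KA k) K]

variable {p : ℕ} [Fact p.Prime] [CharP K p]

private theorem rc2_nat (n : ℕ) : (n : K) ^ p = n := map_natCast (frobenius K p) n

private theorem rc2_nat_ne {n : ℕ} (h0 : n ≠ 0) (h : n < p) : (n : K) ≠ 0 := by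
  rw [Ne, CharP.cast_eq_zero_iff K p]
  intro hd
  have := Nat.le_of_dvd (Nat.pos_of_ne_zero h0) hd
  omega

/-- an additive Leibniz map killing `u, v` vanishes -/
private theorem rc2_ext (S : Setup k K p) (α : Fin S.nα) (δ : K → K)
    (hadd : ∀ a b, δ (a + b) = δ a + δ b) (hmul : ∀ a b, δ (a * b) = a * δ b + b * δ a)
    (hu : δ (S.u α) = 0) (hv : δ (S.v α) = 0) (a : K) : δ a = 0 := by
  have h1 : δ 1 = 0 := by
    have := hmul 1 1
    rw [mul_one, one_mul] at this
    linear_combination -this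
  have hpow : ∀ (x : K) (n : ℕ), δ (x ^ (n + 1)) = (n + 1 : ℕ) * x ^ n * δ x := by
    intro x n
    induction n with
    | zero => simp
    | succ n ih => rw [pow_succ, hmul, ih]; push_cast; ring
  have hpow0 : ∀ (x : K) (n : ℕ), δ x = 0 → δ (x ^ n) = 0 := by
    intro x n hx
    cases n with
    | zero => simpa using h1
    | succ n => rw [hpow, hx, mul_zero]
  have hp : ∀ x : K, δ (x ^ p) = 0 := by
    intro x
    have := hpow x (p - 1)
    rw [Nat.sub_add_cancel (Fact.out : p.Prime).one_le, CharP.cast_eq_zero] at this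
    rw [this]; simp
  let δ' : K →+ K := AddMonoidHom.mk' δ hadd
  obtain ⟨c, hc⟩ := S.bas_span α 0 a
  change δ' a = 0
  rw [hc, map_sum]
  refine Finset.sum_eq_zero (fun ij _ => ?_)
  change δ _ = 0
  simp only [bas, zpow_zero, one_mul]
  rw [hmul, hmul, hp, hpow0 _ _ hu, hpow0 _ _ hv]; simp

/-- the top coefficient -/
private theorem rc2_C (S : Setup k K p) (α : Fin S.nα) : ∃ C : K →+ K,
    (∀ a b, C (a ^ p * b) = a * C b) ∧ ∀ i j : ℕ, i < p → j < p →
      C (S.u α ^ i * S.v α ^ j) = if i + 1 = p ∧ j + 1 = p then 1 else 0 := by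
  classical
  have hp : p.Prime := Fact.out
  choose co hco using S.bas_span α 0
  let z : Fin p := ⟨p - 1, Nat.sub_lt hp.pos one_pos⟩
  have hadd : ∀ a b, co (a + b) = co a + co b := by
    intro a b
    apply S.bas_unique α 0
    rw [← hco]
    conv_lhs => rw [hco a, hco b, ← Finset.sum_add_distrib]
    exact Finset.sum_congr rfl (fun ij _ => by rw [Pi.add_apply, add_pow_char, add_mul])
  refine ⟨AddMonoidHom.mk' (fun a => co a (z, z)) (fun a b => by rw [hadd]; rfl), ?_, ?_⟩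
  · intro a b
    have : co (a ^ p * b) = fun ij => a * co b ij := by
      apply S.bas_unique α 0
      rw [← hco]
      conv_lhs => rw [hco b, Finset.mul_sum]
      exact Finset.sum_congr rfl (fun ij _ => by rw [mul_pow, mul_assoc])
    exact congrFun this (z, z)
  · intro i j hi hj
    have : co (S.u α ^ i * S.v α ^ j) = Pi.single (⟨i, hi⟩, ⟨j, hj⟩) 1 := by
      apply S.bas_unique α 0
      rw [← hco, Finset.sum_eq_single (⟨i, hi⟩, ⟨j, hj⟩)]
      · simp [bas]
      · intro ij _ hij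
        rw [Pi.single_eq_of_ne hij, zero_pow hp.ne_zero, zero_mul]
      · intro h; exact absurd (Finset.mem_univ _) h
    change co _ (z, z) = _
    rw [this, Pi.single_apply]
    have h1 := hp.pos
    congr 1
    simp only [z, Prod.mk.injEq, Fin.mk.injEq, eq_iff_iff]
    omega

private theorem rc2_chain (d : Derivation k K K) (x : Fin 2 → K) (F : MvPolynomial (Fin 2) ℤ) :
    d (MvPolynomial.aeval x F) =
      ∑ i, MvPolynomial.aeval x (MvPolynomial.pderiv i F) * d (x i) := by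
  induction F using MvPolynomial.induction_on with
  | C a => simp
  | add F G hF hG => simp only [map_add, hF, hG, add_mul, Finset.sum_add_distrib]
  | mul_X F n hF =>
    simp only [map_mul, MvPolynomial.aeval_X, Derivation.leibniz, hF, smul_eq_mul, map_add,
      Fin.sum_univ_two, MvPolynomial.pderiv_X]
    fin_cases n <;> simp <;> ring

private theorem rc2_Q (a a' : K) : ∃ Q : K, ∀ d : Derivation k K K,
    d Q = (a + a') ^ (p - 1) * (d a + d a') - a ^ (p - 1) * d a - a' ^ (p - 1) * d a' := by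
  have hp : p.Prime := Fact.out
  obtain ⟨r, hr⟩ := exists_add_pow_prime_eq hp (MvPolynomial.X 0 : MvPolynomial (Fin 2) ℤ)
    (MvPolynomial.X 1)
  rw [mul_assoc, mul_assoc] at hr
  generalize (MvPolynomial.X 0 : MvPolynomial (Fin 2) ℤ) * (MvPolynomial.X 1 * r) = Q at hr
  have hp0 : (p : MvPolynomial (Fin 2) ℤ) ≠ 0 := Nat.cast_ne_zero.2 hp.ne_zero
  have h0 : MvPolynomial.pderiv 0 Q =
      (MvPolynomial.X 0 + MvPolynomial.X 1) ^ (p - 1) - MvPolynomial.X 0 ^ (p - 1) := by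
    apply mul_left_cancel₀ hp0
    have := congrArg (MvPolynomial.pderiv 0) hr
    simp only [Derivation.leibniz_pow, map_add, Derivation.leibniz, Derivation.map_natCast,
      MvPolynomial.pderiv_X, smul_eq_mul, nsmul_eq_mul] at this
    simp at this
    linear_combination -this
  have h1 : MvPolynomial.pderiv 1 Q =
      (MvPolynomial.X 0 + MvPolynomial.X 1) ^ (p - 1) - MvPolynomial.X 1 ^ (p - 1) := by
    apply mul_left_cancel₀ hp0
    have := congrArg (MvPolynomial.pderiv 1) hr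
    simp only [Derivation.leibniz_pow, map_add, Derivation.leibniz, Derivation.map_natCast,
      MvPolynomial.pderiv_X, smul_eq_mul, nsmul_eq_mul] at this
    simp at this
    linear_combination -this
  refine ⟨MvPolynomial.aeval ![a, a'] Q, fun d => ?_⟩
  rw [rc2_chain, Fin.sum_univ_two, h0, h1]
  simp
  ring

/-- Sketch.  Fix a chart `0` with `u, v, ∂₀, ∂₁`; `C a` = coefficient `c (p-1,p-1)` of `a = ∑ c^p u^i v^j`
(additive, `C (a^p b) = a C b`).  `C ∘ ∂₀ = C ∘ ∂₁ = 0` and `∂₀∂₁ = ∂₁∂₀` (check on the basis).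
Put `{a,b} = ∂₀a ∂₁b - ∂₁a ∂₀b`.  Then `C (h' ) = 0` for `h' = {h, b} w` whenever `w ∂ᵢ b` is closed, in
particular `C ({h,b} b^n) = 0`, as `{h,b} b^n = ∂₀ (h b^n ∂₁b) - ∂₁ (h b^n ∂₀b)`; symmetrically.
`T(a,b) = C ((ab)^(p-1) {a,b})` is additive in each variable: `(a+a')^(p-1) d(a+a') - a^(p-1) da -
a'^(p-1) da' = d (Q(a,a'))` with the integral polynomial `Q = ((X+Y)^p - X^p - Y^p)/p` (prove
`∂_X Q = (X+Y)^(p-1) - X^(p-1)` over `ℤ` by cancelling `p`), and `T(aa',b) = a T(a',b) + a' T(a,b)`.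
A derivation `K → K` (additive, Leibniz) is determined by its values on `u, v`, and
`T(u,v) = 1, T(v,u) = -1, T(a,a) = 0`, so `T = {·,·}`.  For another chart `α`,
`{u_α, v_α} = ε_α/ε_0` (chain rule of `exists_partials` and `S.jac`).  `Φ a = ε_0 C (a/ε_0)`;
for `i + 1 < p`: `u_α^i v_α^j {u_α,v_α} = {u_α^(i+1), v_α} v_α^j/(i+1)` with `(i+1)⁻¹ = ((i+1)⁻¹)^p`. -/
theorem Setup.exists_cart (S : Setup k K p) : ∃ Φ : K →+ K, IsCart S Φ := by
  have hp : p.Prime := Fact.out
  let α0 : Fin S.nα := ⟨0, S.nα_pos⟩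
  obtain ⟨d, e1, e2, e3, e4, e5, -⟩ := S.exists_partials α0
  obtain ⟨C, hC1, hC2⟩ := rc2_C S α0
  have hCn : ∀ (n : ℕ) (b : K), C (n * b) = n * C b := fun n b => by
    conv_lhs => rw [← rc2_nat (p := p) n]
    rw [hC1]
  have hCd0 : ∀ a, C (d 0 a) = 0 := by
    intro a
    obtain ⟨c, hc⟩ := S.bas_span α0 0 a
    rw [hc, map_sum, map_sum]
    refine Finset.sum_eq_zero (fun ij _ => ?_)
    have h1 : d 0 (c ij ^ p * bas S α0 0 ij) =
        c ij ^ p * (((ij.1 : ℕ) : K) * (S.u α0 ^ ((ij.1 : ℕ) - 1) * S.v α0 ^ (ij.2 : ℕ))) := by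
      simp only [bas, zpow_zero, one_mul, Derivation.leibniz, rcart1_pow_p, Derivation.leibniz_pow,
        e1, e2, smul_eq_mul, mul_zero, add_zero, nsmul_eq_mul, mul_one, zero_add]
      ring
    have h2 := ij.1.2
    rw [h1, hC1, hCn, hC2 _ _ (by omega) ij.2.2]
    by_cases h0 : (ij.1 : ℕ) = 0
    · simp [h0]
    · rw [if_neg (by omega)]; simp
  have hCd1 : ∀ a, C (d 1 a) = 0 := by
    intro a
    obtain ⟨c, hc⟩ := S.bas_span α0 0 a
    rw [hc, map_sum, map_sum]
    refine Finset.sum_eq_zero (fun ij _ => ?_)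
    have h1 : d 1 (c ij ^ p * bas S α0 0 ij) =
        c ij ^ p * (((ij.2 : ℕ) : K) * (S.u α0 ^ (ij.1 : ℕ) * S.v α0 ^ ((ij.2 : ℕ) - 1))) := by
      simp only [bas, zpow_zero, one_mul, Derivation.leibniz, rcart1_pow_p, Derivation.leibniz_pow,
        e3, e4, smul_eq_mul, mul_zero, add_zero, nsmul_eq_mul, mul_one, zero_add]
      ring
    have h2 := ij.2.2
    rw [h1, hC1, hCn, hC2 _ _ ij.1.2 (by omega)]
    by_cases h0 : (ij.2 : ℕ) = 0
    · simp [h0]
    · rw [if_neg (by omega)]; simp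
  have hcomm : ∀ a, d 0 (d 1 a) = d 1 (d 0 a) := by
    intro a
    rw [← sub_eq_zero]
    refine rc2_ext S α0 (fun a => d 0 (d 1 a) - d 1 (d 0 a)) (fun a b => ?_) (fun a b => ?_) ?_ ?_ a
    · simp only [map_add]; ring
    · simp only [Derivation.leibniz, smul_eq_mul, map_add]; ring
    · simp [e1, e3]
    · simp [e2, e4]
  let br : K → K → K := fun a b => d 0 a * d 1 b - d 1 a * d 0 b
  have hbr : ∀ h b (n : ℕ), C (br h b * b ^ n) = 0 := by
    intro h b n
    have : br h b * b ^ n = d 0 (h * b ^ n * d 1 b) - d 1 (h * b ^ n * d 0 b) := by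
      simp only [br, Derivation.leibniz, Derivation.leibniz_pow, smul_eq_mul, nsmul_eq_mul, hcomm]
      ring
    rw [this, map_sub, hCd0, hCd1, sub_zero]
  let T : K → K → K := fun a b => C ((a * b) ^ (p - 1) * br a b)
  have hTanti : ∀ a b, T a b = -T b a := by
    intro a b
    simp only [T, br]
    rw [← map_neg]; congr 1; ring
  have hTadd : ∀ b a a', T (a + a') b = T a b + T a' b := by
    intro b a a'
    obtain ⟨Q, hQ⟩ := rc2_Q (k := k) (p := p) a a'
    have h1 := hbr Q b (p - 1)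
    simp only [T]
    rw [← map_add, ← sub_eq_zero, ← map_sub, ← h1]
    congr 1
    simp only [br, hQ, map_add, mul_pow]
    ring
  have hTmul : ∀ b a a', T (a * a') b = a * T a' b + a' * T a b := by
    intro b a a'
    simp only [T]
    rw [← hC1, ← hC1, ← map_add, ← pow_sub_one_mul hp.ne_zero a, ← pow_sub_one_mul hp.ne_zero a']
    congr 1
    simp only [br, Derivation.leibniz, smul_eq_mul, mul_pow]
    ring
  have hTbr : ∀ b, T (S.u α0) b = br (S.u α0) b → T (S.v α0) b = br (S.v α0) b →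
      ∀ a, T a b = br a b := by
    intro b hu hv a
    rw [← sub_eq_zero]
    refine rc2_ext S α0 (fun a => T a b - br a b) (fun a a' => ?_) (fun a a' => ?_)
      (sub_eq_zero.2 hu) (sub_eq_zero.2 hv) a
    · simp only [hTadd, br, map_add]; ring
    · simp only [hTmul, br, Derivation.leibniz, smul_eq_mul]; ring
  have hTaa : ∀ a, T a a = br a a := fun a => by
    have : br a a = 0 := by simp only [br]; ring
    simp only [T, this, mul_zero, map_zero]
  have hTuv : T (S.u α0) (S.v α0) = br (S.u α0) (S.v α0) := by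
    have h1 := hp.pos
    simp only [T, br, e1, e2, e3, e4, mul_one, mul_zero, sub_zero, mul_pow]
    rw [hC2 _ _ (by omega) (by omega), if_pos (by omega)]
  have hbranti : ∀ a b, br a b = -br b a := fun a b => by simp only [br]; ring
  have hTu := hTbr (S.u α0) (hTaa _) (by rw [hTanti, hTuv, ← hbranti])
  have hTv := hTbr (S.v α0) hTuv (hTaa _)
  have hT : ∀ a b, T a b = br a b := fun a b =>
    hTbr b (by rw [hTanti, hTu, ← hbranti]) (by rw [hTanti, hTv, ← hbranti]) a
  have hε0 := S.ε_ne α0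
  have hjac : ∀ α, S.ε α = S.ε α0 * br (S.u α) (S.v α) := by
    intro α
    apply mul_left_cancel₀ S.j0_ne
    rw [← mul_assoc, ← S.jac α, ← S.jac α0, e5 0 (S.u α), e5 1 (S.u α), e5 0 (S.v α), e5 1 (S.v α)]
    simp only [br]; ring
  refine ⟨AddMonoidHom.mk' (fun a => S.ε α0 * C ((S.ε α0)⁻¹ * a))
    (fun a b => by rw [mul_add, map_add, mul_add]), fun a b => ?_, fun α i j => ?_⟩
  · change S.ε α0 * C ((S.ε α0)⁻¹ * (a ^ p * b)) = a * (S.ε α0 * C ((S.ε α0)⁻¹ * b))
    rw [mul_left_comm (S.ε α0)⁻¹, hC1]; ring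
  · change S.ε α0 * C ((S.ε α0)⁻¹ * (S.ε α * _)) = _
    have h1 : (S.ε α0)⁻¹ * (S.ε α * (S.u α ^ (i : ℕ) * S.v α ^ (j : ℕ))) =
        (S.u α ^ (i : ℕ) * S.v α ^ (j : ℕ)) * br (S.u α) (S.v α) := by
      rw [hjac α]; field_simp
    rw [h1]
    have hi := i.2
    have hj := j.2
    split_ifs with h
    · have := hT (S.u α) (S.v α)
      simp only [T, mul_pow] at this
      rw [show (i : ℕ) = p - 1 by omega, show (j : ℕ) = p - 1 by omega, this, ← hjac]
    · rw [mul_eq_zero]; right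
      by_cases hi' : (i : ℕ) + 1 = p
      · have hj' : (j : ℕ) + 1 < p := by omega
        have h2 := hbr (S.v α ^ ((j : ℕ) + 1)) (S.u α) i
        have h3 : br (S.v α ^ ((j : ℕ) + 1)) (S.u α) * S.u α ^ (i : ℕ) =
            -((((j : ℕ) + 1 : ℕ) : K) *
              (S.u α ^ (i : ℕ) * S.v α ^ (j : ℕ) * br (S.u α) (S.v α))) := by
          simp only [br, Derivation.leibniz_pow, smul_eq_mul, nsmul_eq_mul, Nat.add_sub_cancel]
          ring
        rw [h3, map_neg, hCn, neg_eq_zero] at h2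
        exact (mul_eq_zero.1 h2).resolve_left (rc2_nat_ne (Nat.succ_ne_zero _) hj')
      · have hi'' : (i : ℕ) + 1 < p := by omega
        have h2 := hbr (S.u α ^ ((i : ℕ) + 1)) (S.v α) j
        have h3 : br (S.u α ^ ((i : ℕ) + 1)) (S.v α) * S.v α ^ (j : ℕ) =
            (((i : ℕ) + 1 : ℕ) : K) *
              (S.u α ^ (i : ℕ) * S.v α ^ (j : ℕ) * br (S.u α) (S.v α)) := by
          simp only [br, Derivation.leibniz_pow, smul_eq_mul, nsmul_eq_mul, Nat.add_sub_cancel]
          ring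
        rw [h3, hCn] at h2
        exact (mul_eq_zero.1 h2).resolve_left (rc2_nat_ne (Nat.succ_ne_zero _) hi'')

/-- `Φ` extracts coordinates: exponents `i' + (p-1-i) ∈ [0, 2p-2]`, pull out `u^p` when `≥ p` -/
theorem IsCart.coord {S : Setup k K p} {Φ : K →+ K} (H : IsCart S Φ) (α : Fin S.nα)
    (c : Fin p × Fin p → K) (ij : Fin p × Fin p) :
    Φ (S.ε α * (∑ ij', c ij' ^ p * bas S α 0 ij') *
      (S.u α ^ (p - 1 - (ij.1 : ℕ)) * S.v α ^ (p - 1 - (ij.2 : ℕ)))) = S.ε α * c ij := by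
  have hp : p.Prime := Fact.out
  have hdec : ∀ m : ℕ, m + 2 ≤ 2 * p → ∃ q r : ℕ, r < p ∧ m = p * q + r ∧
      (r + 1 = p ↔ m + 1 = p) ∧ (m + 1 = p → q = 0) := by
    intro m hm
    by_cases h : m < p
    · exact ⟨0, m, h, by simp, Iff.rfl, fun _ => rfl⟩
    · exact ⟨1, m - p, by omega, by omega, by omega, by omega⟩
  have hval : ∀ m n : ℕ, m + 2 ≤ 2 * p → n + 2 ≤ 2 * p →
      Φ (S.ε α * (S.u α ^ m * S.v α ^ n)) = if m + 1 = p ∧ n + 1 = p then S.ε α else 0 := by
    intro m n hm hn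
    obtain ⟨q, r, h1, h2, h3, h4⟩ := hdec m hm
    obtain ⟨q', r', h1', h2', h3', h4'⟩ := hdec n hn
    have h5 : S.ε α * (S.u α ^ m * S.v α ^ n) =
        (S.u α ^ q * S.v α ^ q') ^ p * (S.ε α * (S.u α ^ r * S.v α ^ r')) := by
      generalize S.u α = u
      generalize S.v α = v
      rw [h2, h2']; ring
    rw [h5, H.lin, H.val α ⟨r, h1⟩ ⟨r', h1'⟩]
    simp only [h3, h3']
    split_ifs with h
    · rw [h4 h.1, h4' h.2]; simp
    · simp
  rw [Finset.mul_sum, Finset.sum_mul, map_sum, Finset.sum_eq_single ij]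
  · have h1 := ij.1.2
    have h2 := ij.2.2
    rw [show S.ε α * (c ij ^ p * bas S α 0 ij) *
        (S.u α ^ (p - 1 - (ij.1 : ℕ)) * S.v α ^ (p - 1 - (ij.2 : ℕ))) =
        c ij ^ p * (S.ε α * (S.u α ^ ((ij.1 : ℕ) + (p - 1 - (ij.1 : ℕ))) *
          S.v α ^ ((ij.2 : ℕ) + (p - 1 - (ij.2 : ℕ))))) by simp only [bas, zpow_zero]; ring,
      H.lin, hval _ _ (by omega) (by omega), if_pos (by omega), mul_comm]
  · intro ij' _ hne
    have h1 := ij.1.2
    have h2 := ij.2.2
    have h3 := ij'.1.2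
    have h4 := ij'.2.2
    rw [show S.ε α * (c ij' ^ p * bas S α 0 ij') *
        (S.u α ^ (p - 1 - (ij.1 : ℕ)) * S.v α ^ (p - 1 - (ij.2 : ℕ))) =
        c ij' ^ p * (S.ε α * (S.u α ^ ((ij'.1 : ℕ) + (p - 1 - (ij.1 : ℕ))) *
          S.v α ^ ((ij'.2 : ℕ) + (p - 1 - (ij.2 : ℕ))))) by simp only [bas, zpow_zero]; ring,
      H.lin, hval _ _ (by omega) (by omega), if_neg, mul_zero]
    intro h
    exact hne (Prod.ext (Fin.ext (by omega)) (Fin.ext (by omega)))
  · intro h; exact absurd (Finset.mem_univ _) h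

/-- `Φ (Loc (p n + 2 t0)) ⊆ Loc n`: `p n + 2 t0 = p (n - κ) + κ`, divide by `ε`, `bas_loc` -/
theorem IsCart.mem_loc {S : Setup k K p} {Φ : K →+ K} (H : IsCart S Φ) (α : Fin S.nα) {n : ℤ}
    {a : K} (ha' : a ∈ Loc S.toBase (S.g α) S.c (p * n + 2 * S.t0)) :
    Φ a ∈ Loc S.toBase (S.g α) S.c n := by
  have hp : p.Prime := Fact.out
  have h1 := Loc.mul ha' (S.ε_inv α)
  rw [show p * n + 2 * S.t0 + -S.κ = p * (n - S.κ) + 0 by rw [S.ht0]; ring] at h1
  obtain ⟨c, hc⟩ := S.bas_span α 0 (a * (S.ε α)⁻¹)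
  let z : Fin p := ⟨p - 1, Nat.sub_lt hp.pos one_pos⟩
  have h2 := H.coord α c (z, z)
  have hε := S.ε_ne α
  rw [← hc] at h2
  simp only [z, Nat.sub_self, pow_zero, mul_one] at h2
  rw [show S.ε α * (a * (S.ε α)⁻¹) = a by field_simp] at h2
  rw [h2]
  have := Loc.mul (S.ε_mem α) (S.bas_loc α h1 hc (z, z))
  rwa [add_sub_cancel] at this

end Crest.Agent.R169
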