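import Crest.Agent.R169.RBasic
import Crest.Agent.R169.ARes

/-! # R169 task RDual: duals of `R`-lattices -/

set_option autoImplicit false

namespace Crest.Agent.R169
open Module

variable {k K : Type} [Field k] [Field K] [Algebra k K] [Algebra (KA k) K]
  [IsScalarTower k (KA k) K]

variable {V V' : Type} [AddCommGroup V] [Module k V] [Module (KA k) V] [Module K V]
  [IsScalarTower k (KA k) V] [IsScalarTower k K V] [IsScalarTower (KA k) K V]
  [AddCommGroup V'] [Module k V'] [Module (KA k) V'] [Module K V']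
  [IsScalarTower k (KA k) V'] [IsScalarTower k K V'] [IsScalarTower (KA k) K V']

theorem exists_lam (k K : Type) [Field k] [Field K] [Algebra (KA k) K] :
    ∃ lam : K →ₗ[KA k] KA k, lam ≠ 0 := by
  by_contra h
  push Not at h
  exact one_ne_zero ((Module.forall_dual_apply_eq_zero_iff (KA k) (1 : K)).1 fun l => by
    rw [h l]; rfl)

theorem pair1_apply (lam : K →ₗ[KA k] KA k) (a b : K) : pair1 lam a b = lam (a * b) := rfl

theorem pairV_apply (lam : K →ₗ[KA k] KA k) {ρ : ℕ} (ξ φ : Fin ρ → K) :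
    pairV lam ρ ξ φ = lam (∑ i, ξ i * φ i) := rfl

theorem pair1_flip (lam : K →ₗ[KA k] KA k) : (pair1 lam).flip = pair1 lam := by
  refine LinearMap.ext₂ fun a b => ?_
  rw [LinearMap.flip_apply, pair1_apply, pair1_apply, mul_comm]

theorem pairV_flip (lam : K →ₗ[KA k] KA k) (ρ : ℕ) : (pairV lam ρ).flip = pairV lam ρ := by
  refine LinearMap.ext₂ fun a b => ?_
  rw [LinearMap.flip_apply, pairV_apply, pairV_apply]
  simp only [mul_comm]

theorem perfect_pair1 (B : Base k K) {lam : K →ₗ[KA k] KA k} (h : lam ≠ 0) :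
    Perfect (pair1 lam) := by
  have key : ∀ ξ : K, (∀ φ, lam (ξ * φ) = 0) → ξ = 0 := fun ξ hξ => by
    by_contra h0
    refine h (LinearMap.ext fun c => ?_)
    have := hξ (ξ⁻¹ * c)
    rwa [mul_inv_cancel_left₀ h0] at this
  exact ⟨B.finiteDim, B.finiteDim, key, fun φ hφ => key φ fun ξ => by
    rw [mul_comm]; exact hφ ξ⟩

theorem perfect_pairV (B : Base k K) {lam : K →ₗ[KA k] KA k} (h : lam ≠ 0) (ρ : ℕ) :
    Perfect (pairV lam ρ) := by
  have := B.finiteDim
  have key : ∀ ξ : Fin ρ → K, (∀ φ, pairV lam ρ ξ φ = 0) → ξ = 0 := fun ξ hξ => by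
    funext i
    refine (perfect_pair1 B h).2.2.1 _ fun c => ?_
    have := hξ (Pi.single i c)
    rwa [pairV_apply, Finset.sum_eq_single i (fun j _ hj => by simp [hj]) (by simp),
      Pi.single_eq_same] at this
  exact ⟨inferInstance, inferInstance, key, fun φ hφ => key φ fun ξ => by
    rw [← pairV_flip]; exact hφ ξ⟩

theorem dual_isModR {B : Base k K} (β : V →ₗ[KA k] V' →ₗ[KA k] KA k)
    (hbal : ∀ (a : K) ξ φ, β (a • ξ) φ = β ξ (a • φ)) {N : Fam k V} (hN : IsMod B.R N) :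
    IsMod B.R (dual β N) := by
  intro s t a ha' φ hφ
  refine mem_dual.2 fun u ξ hξ => ?_
  rw [← hbal]
  have := mem_dual.1 hφ (s + u) _ (hN s u a ha' ξ hξ)
  rwa [show s + u + t - 3 = u + (s + t) - 3 by ring] at this

theorem dual1_rlat {B : Base k K} {lam : K →ₗ[KA k] KA k} (h : lam ≠ 0) {N : Fam k K}
    (hN : RLat B N) (hF : Full N) : RLat B (dual (pair1 lam) N) ∧ Full (dual (pair1 lam) N) := by
  have := dual_isLat (perfect_pair1 B h) hN.1 hF
  exact ⟨⟨this.1, dual_isModR _ (fun a ξ φ => by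
    simp only [pair1_apply, smul_eq_mul]; congr 1; ring) hN.2⟩, this.2⟩

theorem dualV_rlat {B : Base k K} {lam : K →ₗ[KA k] KA k} (h : lam ≠ 0) {ρ : ℕ}
    {N : Fam k (Fin ρ → K)} (hN : RLat B N) (hF : Full N) :
    RLat B (dual (pairV lam ρ) N) ∧ Full (dual (pairV lam ρ) N) := by
  have := dual_isLat (perfect_pairV B h ρ) hN.1 hF
  exact ⟨⟨this.1, dual_isModR _ (fun a ξ φ => by
    simp only [pairV_apply, Pi.smul_apply, smul_eq_mul]
    exact congrArg lam (Finset.sum_congr rfl fun i _ => by ring)) hN.2⟩, this.2⟩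

theorem mem_dual1 {B : Base k K} (lam : K →ₗ[KA k] KA k) {N : Fam k K} (hN : IsMod B.R N)
    {t : ℤ} {η : K} : η ∈ dual (pair1 lam) N t ↔
      ∀ s, ∀ ξ ∈ N s, ξ * η ∈ dual (pair1 lam) B.R (s + t) := by
  refine ⟨fun h s ξ hξ => mem_dual.2 fun u a ha' => ?_, fun h => mem_dual.2 fun s ξ hξ => ?_⟩
  · have := mem_dual.1 h (u + s) _ (hN u s a ha' ξ hξ)
    rwa [pair1_apply, smul_eq_mul, mul_assoc, add_assoc] at this
  · have := mem_dual.1 (h s ξ hξ) 0 1 (B.one_mem le_rfl)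
    rwa [pair1_apply, one_mul, zero_add] at this

theorem mem_dualV {B : Base k K} (lam : K →ₗ[KA k] KA k) {ρ : ℕ} {N : Fam k (Fin ρ → K)}
    (hN : IsMod B.R N) {t : ℤ} {η : Fin ρ → K} : η ∈ dual (pairV lam ρ) N t ↔
      ∀ s, ∀ ξ ∈ N s, ∑ i, ξ i * η i ∈ dual (pair1 lam) B.R (s + t) := by
  refine ⟨fun h s ξ hξ => mem_dual.2 fun u a ha' => ?_, fun h => mem_dual.2 fun s ξ hξ => ?_⟩
  · have := mem_dual.1 h (u + s) _ (hN u s a ha' ξ hξ)
    rw [pairV_apply, add_assoc] at this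
    rw [pair1_apply, Finset.mul_sum]
    simpa only [Pi.smul_apply, smul_eq_mul, mul_assoc] using this
  · have := mem_dual.1 (h s ξ hξ) 0 1 (B.one_mem le_rfl)
    rwa [pair1_apply, one_mul, zero_add] at this

/-- the reflexive hull of a full `R`-lattice in `K^ρ` (`cop_dual_dual`, `Cop.cut`, `Cop.coeffs`) -/
theorem hull_coeffs {B : Base k K} {lam : K →ₗ[KA k] KA k} (h : lam ≠ 0) {ρ : ℕ}
    {N : Fam k (Fin ρ → K)} (hN : RLat B N) (hF : Full N) (W : Submodule K (Fin ρ → K)) :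
    ha (cut N W) = ha (cut (dual (pairV lam ρ) (dual (pairV lam ρ) N)) W) ∧
    hb (cut N W) = hb (cut (dual (pairV lam ρ) (dual (pairV lam ρ) N)) W) ∧
    hc (cut N W) ≤ hc (cut (dual (pairV lam ρ) (dual (pairV lam ρ) N)) W) := by
  have h1 := dualV_rlat h hN hF
  have h2 := dualV_rlat h h1.1 h1.2
  have h3 := cop_dual_dual (perfect_pairV B h ρ) hN.1 hF
  have h4 := le_dual_dual (pairV lam ρ) N
  rw [pairV_flip] at h3 h4
  exact Cop.coeffs (hN.1.cut W) (h2.1.1.cut W)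
    (fun t ξ hξ => mem_cut.2 ⟨h4 t (mem_cut.1 hξ).1, (mem_cut.1 hξ).2⟩) (h3.cut W)

end Crest.Agent.R169
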