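import Crest.Agent.R169.RLoc

/-! # R169 task RTw: Frobenius push-forward -/

set_option autoImplicit false
set_option linter.unusedSectionVars false

namespace Crest.Agent.R169
open Module

variable {k K : Type} [Field k] [Field K] [Algebra k K] [Algebra (KA k) K]
  [IsScalarTower k (KA k) K]

variable {p : ℕ} [Fact p.Prime] [CharP K p]

theorem mem_twF {N : Fam k K} {t0 j : ℤ} {a : K} :
    Tw.mk K p a ∈ twF p N t0 j ↔ a ∈ N (p * j + t0) := Iff.rfl

/-- the identity is semilinear for the bijection `frobenius k p` (`rank_eq_of_equiv_equiv`) -/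
theorem hf_twF (perf : ∀ c : k, ∃ d : k, d ^ p = c) (N : Fam k K) (t0 j : ℤ) :
    hf (twF p N t0) j = hf N (p * j + t0) := by
  have : CharP k p := (Algebra.charP_iff k K p).2 inferInstance
  let e : twF p N t0 j ≃+ N (p * j + t0) :=
    { toFun := fun z => ⟨(Tw.mk K p).symm z.1, z.2⟩
      invFun := fun z => ⟨Tw.mk K p z.1, z.2⟩
      left_inv := fun _ => rfl
      right_inv := fun _ => rfl
      map_add' := fun _ _ => rfl }
  have h := rank_eq_of_equiv_equiv (R := k) (R' := k) (frobenius k p) e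
    ⟨frobenius_inj k p, perf⟩ (fun c z => by
      apply Subtype.ext
      show algebraMap k K c ^ p * (Tw.mk K p).symm z.1 = (c ^ p) • (Tw.mk K p).symm z.1
      rw [Algebra.smul_def, map_pow])
  unfold hf Module.finrank
  rw [h]

theorem twF_isMod {B : Base k K} {N : Fam k K} (hN : IsMod B.R N) (t0 : ℤ) :
    IsMod B.R (twF p N t0) := by
  intro s t a ha' v hv
  obtain ⟨z, rfl⟩ := (Tw.mk K p).surjective v
  rw [Tw.smul_mk, mem_twF]
  have := hN _ _ _ (B.pow_mem ha' p) _ (mem_twF.1 hv)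
  convert this using 2
  · ring
  · rfl

theorem RTw_isModA {N : Fam k K} (hN : IsMod (AA k) N) (t0 : ℤ) : IsMod (AA k) (twF p N t0) := by
  intro s t a ha' v hv
  obtain ⟨z, rfl⟩ := (Tw.mk K p).surjective v
  rw [Tw.smul_mk, mem_twF, ← map_pow, ← Algebra.smul_def]
  have := hN _ _ _ (AA_pow ha' p) _ (mem_twF.1 hv)
  convert this using 2
  ring

theorem RTw_smul_k (perf : ∀ c : k, ∃ d : k, d ^ p = c) {G : Submodule k (Tw K p)} (c : k) {z : K}
    (h : Tw.mk K p z ∈ G) : Tw.mk K p (c • z) ∈ G := by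
  obtain ⟨d, rfl⟩ := perf c
  have := G.smul_mem d h
  rwa [Tw.smul_mk, ← map_pow, ← Algebra.smul_def] at this

/-- generators `x^a y^b w_i` (`a, b, c < p`) in degree `j` with `p j + t0 = b_i + a + b + c`
(`AA_eq_span`; scalars are `p`-th powers) -/
theorem twF_isLat (perf : ∀ c : k, ∃ d : k, d ^ p = c) {N : Fam k K} (hN : IsLat N) (t0 : ℤ) :
    IsLat (twF p N t0) := by
  have hp0 : 0 < p := (Fact.out : p.Prime).pos
  have hmod := RTw_isModA (p := p) hN.isMod t0
  obtain ⟨m, w, b, rfl⟩ := hN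
  refine (gen_isLat (k := k) (fun z : Fin m × Fin p × Fin p =>
    Tw.mk K p ((xA k 0 ^ (z.2.1 : ℕ) * xA k 1 ^ (z.2.2 : ℕ)) • w z.1))
    (fun z => -|t0 - b z.1|)).sub hmod fun j v hv => ?_
  obtain ⟨z, rfl⟩ := (Tw.mk K p).surjective v
  rw [mem_twF] at hv
  induction hv using Submodule.span_induction with
  | mem z hz =>
    obtain ⟨i, a, ha', rfl⟩ := hz
    rw [AA_eq_span] at ha'
    induction ha' using Submodule.span_induction with
    | mem a ha' =>
      obtain ⟨α, β, hαβ, rfl⟩ := ha'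
      refine Submodule.subset_span ⟨(i, ⟨α % p, Nat.mod_lt _ hp0⟩, ⟨β % p, Nat.mod_lt _ hp0⟩),
        xA k 0 ^ (α / p) * xA k 1 ^ (β / p), A0_mon_mem ?_, ?_⟩
      · have h1 : ((p * (α / p) : ℕ) : ℤ) ≤ α := by exact_mod_cast Nat.mul_div_le α p
        have h2 : ((p * (β / p) : ℕ) : ℤ) ≤ β := by exact_mod_cast Nat.mul_div_le β p
        rw [Nat.cast_mul] at h1 h2
        have h3 := le_abs_self (t0 - b i)
        have h4 := abs_nonneg (t0 - b i)
        have h5 : (1 : ℤ) ≤ p := by exact_mod_cast hp0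
        show ((α / p : ℕ) : ℤ) + (β / p : ℕ) ≤ j - -|t0 - b i|
        by_contra hc
        push Not at hc
        nlinarith
      · rw [Tw.smul_mk, ← map_pow, ← Algebra.smul_def, smul_smul]
        congr 2
        conv_lhs => rw [← Nat.div_add_mod α p, ← Nat.div_add_mod β p]
        ring
    | zero => simp
    | add u v _ _ hu hv => rw [add_smul, map_add]; exact Submodule.add_mem _ hu hv
    | smul c v _ hv => rw [smul_assoc]; exact RTw_smul_k perf c hv
  | zero => simp
  | add u v _ _ hu hv => rw [map_add]; exact Submodule.add_mem _ hu hv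
  | smul c v _ hv => exact RTw_smul_k perf c hv

theorem twF_rlat (perf : ∀ c : k, ∃ d : k, d ^ p = c) {B : Base k K} {N : Fam k K}
    (hN : RLat B N) (t0 : ℤ) : RLat B (twF p N t0) :=
  ⟨twF_isLat perf hN.1 t0, twF_isMod hN.2 t0⟩

theorem twF_full {N : Fam k K} (hN : IsMod (AA k) N) (hF : Full N) (t0 : ℤ) :
    Full (twF p N t0) := by
  have hp0 : 0 < p := (Fact.out : p.Prime).pos
  refine eq_top_iff.2 fun v _ => ?_
  obtain ⟨z, rfl⟩ := (Tw.mk K p).surjective v
  obtain ⟨e, f, hf, hf0, hfz⟩ := mem_spanF_denom hN (ξ := z) (by rw [hF]; trivial) 0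
  obtain ⟨q, hq⟩ : ∃ q, p = q + 1 := ⟨p - 1, by omega⟩
  have h1 := hN _ _ _ (AA_pow hf q) _ hfz
  rw [smul_smul, ← pow_succ, ← hq] at h1
  have h2 : f • Tw.mk K p z ∈ twF p N t0 (e + |t0|) := by
    rw [Tw.smul_mk, mem_twF, ← map_pow, ← Algebra.smul_def]
    refine hN.mono ?_ h1
    have h3 := neg_abs_le t0
    have h4 := abs_nonneg t0
    have h5 : (0 : ℤ) ≤ q := Nat.cast_nonneg _
    rw [hq]
    push_cast
    nlinarith
  have h3 := Submodule.smul_mem (spanF (twF p N t0)) f⁻¹ (A1_mem_spanF h2)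
  rwa [smul_smul, inv_mul_cancel₀ hf0, one_smul] at h3

theorem twF_mono {N N' : Fam k K} (h : N ≤ N') (t0 : ℤ) : twF p N t0 ≤ twF p N' t0 := by
  exact fun j v hv => h _ hv

theorem twF_evLe {N N' : Fam k K} (h : EvLe N N') (t0 : ℤ) :
    EvLe (twF p N t0) (twF p N' t0) := by
  obtain ⟨t1, ht1⟩ := h
  have hp0 : (1 : ℤ) ≤ p := by exact_mod_cast (Fact.out : p.Prime).pos
  refine ⟨|t1| + |t0|, fun j hj v hv => ht1 _ ?_ hv⟩
  have h1 := neg_abs_le t0
  have h2 := abs_nonneg t0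
  have h3 := le_abs_self t1
  have h4 := abs_nonneg t1
  nlinarith

theorem twF_evEq {N N' : Fam k K} (h : EvEq N N') (t0 : ℤ) :
    EvEq (twF p N t0) (twF p N' t0) := by
  exact EvEq.of_le (twF_evLe h.evLe t0) (twF_evLe h.symm.evLe t0)

theorem mem_locM_twF {B : Base k K} {N : Fam k K} (hN : IsMod B.R N) {g : K} {c : ℤ}
    (hg : g ∈ B.R c) {t0 j : ℤ} {a : K} :
    Tw.mk K p a ∈ LocM (twF p N t0) g c j ↔ a ∈ LocM N g c (p * j + t0) := by
  have hp0 : 0 < p := (Fact.out : p.Prime).pos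
  constructor
  · rintro ⟨n, hn⟩
    rw [Tw.smul_mk, mem_twF] at hn
    refine ⟨n * p, ?_⟩
    rw [pow_mul]
    convert hn using 2
    · push_cast; ring
    · rfl
  · rintro ⟨n, hn⟩
    refine ⟨n, ?_⟩
    rw [Tw.smul_mk, mem_twF]
    have := LocM.pow_smul hN hg hn (Nat.le_mul_of_pos_right n hp0)
    rw [pow_mul] at this
    convert this using 2
    · push_cast; ring
    · rfl

end Crest.Agent.R169
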