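import Crest.Agent.R169.RCart2
import Crest.Agent.R169.RTw
import Crest.Agent.R169.RDual

/-! # R169 task RD3: duality for Frobenius -/

set_option autoImplicit false
set_option linter.unusedSectionVars false

namespace Crest.Agent.R169
open Module

variable {k K : Type} [Field k] [Field K] [Algebra k K] [Algebra (KA k) K]
  [IsScalarTower k (KA k) K]

variable {p : ℕ} [Fact p.Prime] [CharP K p]

/-- local membership in a dual is global membership -/
private theorem rd3_glob (S : Setup k K p) (lam : K →ₗ[KA k] KA k) {N : Fam k K}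
    (hD : IsMod S.R (dual (pair1 lam) N)) {t : ℤ} {x : K}
    (h : ∀ α, x ∈ LocM (dual (pair1 lam) N) (S.g α) S.c t) : x ∈ dual (pair1 lam) N t := by
  have hL : IsLat (gen (AA k) (fun _ : Unit => x) (fun _ => t)) := gen_isLat _ _
  have h1 := S.evLe hL hD (fun α t' ξ hξ => by
    obtain ⟨a, ha, rfl⟩ := mem_gen.1 hξ
    rw [Fintype.sum_unique, ← algebraMap_smul K]
    have := LocM.smul hD (rcart1_loc S α (S.A_le _ _ (ha default))) (h α)
    rwa [sub_add_cancel] at this)
  exact Cop.le_dual _ (h1.cop hL.isMod) t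
    (mem_gen_self (one_mem_AA le_rfl) (fun _ : Unit => x) (fun _ => t) ())

/-- `β a b = lam (Φ (a b))`.  With `N^∨ = dual (pair1 lam) N`: `φ ∈ dual β (twF (Fr N)) j` iff
`Φ (a' φ) ∈ N^∨ (s + j)` for all `a' ∈ R (p s + t0)` (elements of `Fr N` are sums `a' ξ^p`, stable under
`R^p`; `mem_dual1`).
(⊇) for `φ = b η^p`: `Φ (a' b η^p) = η Φ(a' b)` is in `LocM N^∨` on every chart (`IsCart.mem_loc`); the
lattice generated by it is eventually in `N^∨` (`Setup.evLe`), hence in `N^∨` (`EvLe.cop`, `Cop.le_dual`).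
(⊆, eventually, `Setup.evLe` on `Tw`, `mem_locM_twF`): write `φ τ^t0 / ε = ∑ c^p bas α 0`;
`IsCart.coord` with `a' = g^(pJ) τ^t0 u^(p-1-i) v^(p-1-j)` gives `ε c_ij ∈ LocM N^∨ j`, and
`φ = ∑ (ε^(1-p) τ^(-t0) u^i v^j) (ε c_ij)^p` with coefficients in `Loc (κ(1-p) - t0) = Loc t0`
(`frob_mem_loc`).  Perfect: `lam (b Φ(a φ)) = 0 ∀ a b` ⇒ `Φ (a φ) = 0 ∀ a` ⇒ `φ = 0` since `Φ ≠ 0`. -/
theorem Setup.exists_twPair (S : Setup k K p) {lam : K →ₗ[KA k] KA k} (hl : lam ≠ 0) :
    ∃ β : Tw K p →ₗ[KA k] Tw K p →ₗ[KA k] KA k, Perfect β ∧ β.flip = β ∧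
      ∀ N : Fam k K, RLat S.toBase N → Full N →
        EvEq (dual β (twF p (Fr S.toBase p (fr1 p) N) S.t0))
          (twF p (Fr S.toBase p (fr1 p) (dual (pair1 lam) N)) S.t0) := by
  have hp : p.Prime := Fact.out
  obtain ⟨Φ, H⟩ := S.exists_cart
  have hlam : ∀ (c : KA k) (x : K), lam (algebraMap (KA k) K c * x) = c • lam x := fun c x => by
    rw [← Algebra.smul_def, map_smul]
  let β : Tw K p →ₗ[KA k] Tw K p →ₗ[KA k] KA k := LinearMap.mk₂ (KA k)
    (fun a b => lam (Φ ((Tw.mk K p).symm a * (Tw.mk K p).symm b)))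
    (fun a a' b => by simp only [map_add, add_mul])
    (fun c a b => by
      obtain ⟨a, rfl⟩ := (Tw.mk K p).surjective a
      rw [Tw.smul_mk, AddEquiv.symm_apply_apply, AddEquiv.symm_apply_apply, mul_assoc, H.lin, hlam])
    (fun a b b' => by simp only [map_add, mul_add])
    (fun c a b => by
      obtain ⟨b, rfl⟩ := (Tw.mk K p).surjective b
      rw [Tw.smul_mk, AddEquiv.symm_apply_apply, AddEquiv.symm_apply_apply, mul_left_comm, H.lin,
        hlam])
  have hβ : ∀ a b, β (Tw.mk K p a) (Tw.mk K p b) = lam (Φ (a * b)) := fun _ _ => rfl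
  have hflip : β.flip = β := by
    ext a b
    obtain ⟨a, rfl⟩ := (Tw.mk K p).surjective a
    obtain ⟨b, rfl⟩ := (Tw.mk K p).surjective b
    rw [LinearMap.flip_apply, hβ, hβ, mul_comm]
  have hfin : FiniteDimensional (KA k) (Tw K p) :=
    (twF_isLat S.perf S.lat S.t0).finiteDim (twF_full S.lat.isMod S.full S.t0)
  have hnd : ∀ φ, (∀ ξ, β ξ φ = 0) → φ = 0 := by
    intro φ h
    obtain ⟨φ, rfl⟩ := (Tw.mk K p).surjective φ
    by_contra h0
    have hφ : φ ≠ 0 := fun h1 => h0 (by rw [h1, map_zero])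
    let α : Fin S.nα := ⟨0, S.nα_pos⟩
    let z : Fin p := ⟨p - 1, Nat.sub_lt hp.pos one_pos⟩
    have h1 := H.val α z z
    have h2 := hp.pos
    rw [if_pos ⟨by simp only [z]; omega, by simp only [z]; omega⟩] at h1
    apply hl
    ext x
    have h3 := h (Tw.mk K p ((x / S.ε α) ^ p *
      (S.ε α * (S.u α ^ (z : ℕ) * S.v α ^ (z : ℕ))) * φ⁻¹))
    rw [hβ, inv_mul_cancel_right₀ hφ, H.lin, h1, div_mul_cancel₀ _ (S.ε_ne α)] at h3
    exact h3
  have hperf : Perfect β := ⟨hfin, hfin, fun ξ h => hnd ξ (fun φ => by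
    rw [← hflip, LinearMap.flip_apply]; exact h φ), hnd⟩
  refine ⟨β, hperf, hflip, fun N hN hF => ?_⟩
  obtain ⟨hD, hDF⟩ := dual1_rlat hl hN hF
  have hsm : ∀ (d : k) (x : K), d ^ p • x = algebraMap k K d ^ p * x := fun d x => by
    rw [Algebra.smul_def, map_pow]
  have star : ∀ (j : ℤ) (φ : K), Tw.mk K p φ ∈ dual β (twF p (Fr S.toBase p (fr1 p) N) S.t0) j ↔
      ∀ s : ℤ, ∀ a ∈ S.R (p * s + S.t0), Φ (a * φ) ∈ dual (pair1 lam) N (s + j) := by
    intro j φ
    constructor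
    · intro h s a ha s' ξ hξ
      have h1 : Tw.mk K p (a • fr1 p ξ) ∈ twF p (Fr S.toBase p (fr1 p) N) S.t0 (s + s') := by
        rw [mem_twF]
        refine mem_Fr ?_ hξ
        rwa [show p * (s + s') + S.t0 - p * s' = p * s + S.t0 by ring]
      have h2 := h _ _ h1
      rw [hβ, smul_eq_mul, fr1, mul_comm a, mul_assoc, H.lin] at h2
      rwa [pair1_apply, show s' + (s + j) - 3 = s + s' + j - 3 by ring]
    · intro h s ζ hζ
      obtain ⟨ζ, rfl⟩ := (Tw.mk K p).surjective ζ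
      rw [mem_twF] at hζ
      rw [hβ]
      induction hζ using Submodule.span_induction with
      | mem z hz =>
        obtain ⟨s', a, ha, ξ, hξ, rfl⟩ := hz
        rw [show p * s + S.t0 - p * s' = p * (s - s') + S.t0 by ring] at ha
        have h2 := h _ _ ha _ _ hξ
        rw [smul_eq_mul, fr1, mul_comm a, mul_assoc, H.lin]
        rwa [pair1_apply, show s' + (s - s' + j) - 3 = s + j - 3 by ring] at h2
      | zero => simp
      | add x y _ _ hx hy => rw [add_mul, map_add, map_add]; exact Submodule.add_mem _ hx hy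
      | smul c x _ hx =>
        obtain ⟨d, rfl⟩ := S.perf c
        rw [hsm, mul_assoc, H.lin, IsScalarTower.algebraMap_apply k (KA k) K, hlam,
          algebraMap_smul]
        exact Submodule.smul_mem _ _ hx
  refine EvEq.of_le ?_ ⟨0, fun j _ φ hφ => ?_⟩
  · have hL := (dual_isLat hperf (twF_isLat S.perf (Fr_rlat (B := S.toBase) isFrob_fr1 hN.1).1 S.t0)
      (twF_full (Fr_rlat (B := S.toBase) isFrob_fr1 hN.1).1.isMod
        (Fr_full isFrob_fr1 hN.1 hF) S.t0)).1
    refine S.evLe hL (twF_isMod (Fr_isMod S.toBase _ _) S.t0) (fun α j φ hφ => ?_)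
    obtain ⟨φ, rfl⟩ := (Tw.mk K p).surjective φ
    rw [mem_locM_twF (Fr_isMod S.toBase _ _) (S.g_mem α)]
    rw [star] at hφ
    have hε := S.ε_ne α
    have hτ := S.τ_ne α
    obtain ⟨c, hc⟩ := S.bas_span α 0 (φ * S.τ α ^ S.t0 * (S.ε α)⁻¹)
    have hco : ∀ ij, S.ε α * c ij ∈ LocM (dual (pair1 lam) N) (S.g α) S.c j := by
      intro ij
      have h1 := H.coord α c ij
      rw [← hc] at h1
      have h2 := Loc.mul (S.τ_zpow α S.t0) (Loc.mul (Loc.pow (S.u_mem α) (p - 1 - (ij.1 : ℕ)))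
        (Loc.pow (S.v_mem α) (p - 1 - (ij.2 : ℕ))))
      rw [mul_zero, mul_zero, add_zero, add_zero] at h2
      obtain ⟨J, hJ⟩ := h2
      have h3 := LocM.pow_smul S.toBase.isMod (S.g_mem α) (j := J) hJ
        (Nat.le_mul_of_pos_left J hp.pos)
      rw [show S.t0 + ((p * J : ℕ) : ℤ) * S.c = p * (J * S.c) + S.t0 by push_cast; ring] at h3
      have h4 := hφ _ _ h3
      refine ⟨J, ?_⟩
      rw [smul_eq_mul, mul_comm p J, pow_mul, mul_assoc, H.lin, add_comm] at h4
      rw [smul_eq_mul, ← h1]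
      convert h4 using 3
      field_simp
    have hφe : φ = ∑ ij, (S.ε α * ((S.ε α)⁻¹ ^ p * bas S α (-S.t0) ij)) •
        fr1 p (S.ε α * c ij) := by
      have h1 : φ = S.ε α * S.τ α ^ (-S.t0) * (φ * S.τ α ^ S.t0 * (S.ε α)⁻¹) := by
        rw [zpow_neg]; field_simp
      rw [h1, hc, Finset.mul_sum]
      refine Finset.sum_congr rfl (fun ij _ => ?_)
      simp only [bas, fr1, smul_eq_mul, zpow_zero, mul_pow, inv_pow]
      field_simp
    rw [hφe]
    refine LocM.sum (Fr_isMod S.toBase _ _) (S.g_mem α) _ (fun ij _ => ?_)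
    refine S.frob_mem_loc isFrob_fr1 α ?_ (hco ij) hD.2
    have := Loc.mul (S.ε_mem α) (Loc.mul (Loc.pow (S.ε_inv α) p) (S.bas_mem α (-S.t0) ij))
    rwa [show S.κ + (p * -S.κ + -S.t0) = S.t0 by linear_combination -S.ht0] at this
  · obtain ⟨φ, rfl⟩ := (Tw.mk K p).surjective φ
    rw [mem_twF] at hφ
    induction hφ using Submodule.span_induction with
    | mem z hz =>
      obtain ⟨s', b, hb, η, hη, rfl⟩ := hz
      rw [star]
      intro s a ha
      refine rd3_glob S lam hD.2 (fun α => ?_)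
      have h1 := S.mul _ _ _ ha _ hb
      rw [show p * s + S.t0 + (p * j + S.t0 - p * s') = p * (s + j - s') + 2 * S.t0 by ring] at h1
      have h2 := LocM.smul hD.2 (H.mem_loc α (rcart1_loc S α h1)) (LocM.of_mem hη)
      rw [sub_add_cancel, smul_eq_mul, mul_comm] at h2
      rwa [smul_eq_mul, fr1, ← mul_assoc, mul_comm (a * b), H.lin]
    | zero => rw [map_zero]; exact Submodule.zero_mem _
    | add x y _ _ hx hy => rw [map_add]; exact Submodule.add_mem _ hx hy
    | smul c x _ hx =>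
      obtain ⟨d, rfl⟩ := S.perf c
      rw [hsm, ← Tw.smul_mk]
      exact Submodule.smul_mem _ _ hx

end Crest.Agent.R169
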