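import Crest.Agent.R169.RPsi0

/-! # R169 task RFS: Frobenius scaling of the Chern character -/

set_option autoImplicit false

namespace Crest.Agent.R169
open Module

variable {k K : Type} [Field k] [Field K] [Algebra k K] [Algebra (KA k) K]
  [IsScalarTower k (KA k) K]

variable {V : Type} [AddCommGroup V] [Module k V] [Module (KA k) V] [Module K V]
  [IsScalarTower k (KA k) V] [IsScalarTower k K V] [IsScalarTower (KA k) K V]

variable {p : ℕ} [Fact p.Prime] [CharP K p]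

variable (S : Setup k K p)

/-- `prime_filtration` from `⊥`: a zero colon adds `r/2` to `ha` and `(p²-1)σ/8` to `Ψ`, a nonzero one
adds nothing to either. -/
theorem Setup.Psi_const {φ : V → V} (hφ : IsFrob K p φ) {N : Fam k V} (hN : RLat S.toBase N) :
    ∃ s0 : ℤ, ∀ s ≥ s0, Psi S φ N s = ((p : ℚ) ^ 2 - 1) * (ha N * S.σ / (4 * rk k K)) := by
  have hr : rk k K ≠ 0 := (zero_lt_one.trans_le S.toBase.rk_pos).ne'
  refine prime_filtration S.toBase (rlat_bot S.toBase) hN bot_le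
    (fun N => ∃ s0 : ℤ, ∀ s ≥ s0, Psi S φ N s = ((p : ℚ) ^ 2 - 1) * (ha N * S.σ / (4 * rk k K)))
    ⟨0, fun s _ => ?_⟩ ?_
  · rw [Psi, Fr_bot hφ, coeffs_bot.1]
    simp [hf]
  rintro M hM - - ⟨s0, h0⟩ b ξ - hp'
  obtain ⟨s1, h1⟩ := S.Psi_adjoin1 hφ hM ξ b
  rw [(coeffs_adjoin1 S.toBase hM ξ b).1, S.toBase.ha_R]
  by_cases hc' : colon S.toBase M ξ b = ⊥
  · obtain ⟨s2, h2⟩ := S.psi0_bot
    refine ⟨max (max s0 s1) (s2 + b), fun s hs => ?_⟩
    rw [h1 s (by omega), h0 s (by omega), hc', h2 _ (by omega), coeffs_bot.1]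
    field_simp
    ring
  · obtain ⟨s2, h2⟩ := S.psi0_zero hp' hc'
    refine ⟨max (max s0 s1) (s2 + b), fun s hs => ?_⟩
    rw [h1 s (by omega), h0 s (by omega), h2 _ (by omega),
      (colon_rlat S.toBase hM.2 ξ b).1.ha_ideal hc']
    ring

/-- compare coefficients (`HasHP.scale`, `2 t0 = κ(1-p)`) -/
theorem Setup.Fr_coeffs {φ : V → V} (hφ : IsFrob K p φ) {N : Fam k V} (hN : RLat S.toBase N) :
    ha (Fr S.toBase p φ N) = ha N ∧ dd S (Fr S.toBase p φ N) = p * dd S N ∧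
      cc S (Fr S.toBase p φ N) = (p : ℚ) ^ 2 * cc S N := by
  have hp0 : 0 < p := (Fact.out : p.Prime).pos
  have hp1 : (p : ℚ) ≠ 0 := by exact_mod_cast hp0.ne'
  have h1 := ((Fr_rlat (B := S.toBase) hφ hN.1).1.hasHP.scale hp0 S.t0).sub
    (hN.1.hasHP.const_mul ((p : ℚ) ^ 2))
  obtain ⟨s0, h0⟩ := S.Psi_const hφ hN
  obtain ⟨e1, e2, e3⟩ := h1.unique ((hasHP_const _).congr ⟨s0, h0⟩)
  have ht : (S.t0 : ℚ) = S.κ * (1 - p) / 2 := by
    have : (2 * S.t0 : ℚ) = S.κ * (1 - p) := by exact_mod_cast S.ht0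
    linarith
  have ea : ha (Fr S.toBase p φ N) = ha N :=
    mul_right_cancel₀ (pow_ne_zero 2 hp1) (by linarith)
  have eb : hb (Fr S.toBase p φ N) = p * hb N - 2 * ha N * S.t0 :=
    mul_right_cancel₀ hp1 (by rw [ea] at e2; linarith)
  rw [ea, eb] at e3
  refine ⟨ea, ?_, ?_⟩
  · rw [dd, dd, ea, eb, ht]
    ring
  · rw [cc, cc, ea, eb]
    rw [ht] at e3 ⊢
    linear_combination e3

theorem Setup.FrI_coeffs {ρ : ℕ} {N : Fam k (Fin ρ → K)} (hN : RLat S.toBase N) (e : ℕ) :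
    ha (FrI S.toBase p e N) = ha N ∧ dd S (FrI S.toBase p e N) = (p : ℚ) ^ e * dd S N ∧
      cc S (FrI S.toBase p e N) = (p : ℚ) ^ (2 * e) * cc S N := by
  induction e with
  | zero => simp [FrI_zero]
  | succ e ih =>
    obtain ⟨a, b, c⟩ := S.Fr_coeffs (isFrob_frV ρ) (FrI_rlat hN e)
    rw [FrI_succ, a, b, c, ih.1, ih.2.1, ih.2.2]
    exact ⟨rfl, by ring, by ring⟩

theorem Setup.dd_bot : dd S (⊥ : Fam k V) = 0 ∧ cc S (⊥ : Fam k V) = 0 := by
  simp [dd, cc, coeffs_bot.1, coeffs_bot.2.1, coeffs_bot.2.2]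

theorem Setup.cut_FrW {ρ : ℕ} {N : Fam k (Fin ρ → K)} (hN : RLat S.toBase N)
    (W : Submodule K (Fin ρ → K)) :
    dd S (cut (Fr S.toBase p (frV p ρ) N) (FrW p W)) = p * dd S (cut N W) := by
  obtain ⟨a, b, -⟩ := (S.cut_Fr (isFrob_frV ρ) hN W).coeffs
  rw [← (S.Fr_coeffs (isFrob_frV ρ) (hN.cut W)).2.1, dd, dd, ← a, ← b]
  rfl

end Crest.Agent.R169
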