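import Crest.Agent.R169.RCart1

/-! # R169 task RFlat: Frobenius is flat off the vertex -/

set_option autoImplicit false

namespace Crest.Agent.R169
open Module

variable {k K : Type} [Field k] [Field K] [Algebra k K] [Algebra (KA k) K]
  [IsScalarTower k (KA k) K]

variable {V : Type} [AddCommGroup V] [Module k V] [Module (KA k) V] [Module K V]
  [IsScalarTower k (KA k) V] [IsScalarTower k K V] [IsScalarTower (KA k) K V]

variable {p : ℕ} [Fact p.Prime] [CharP K p]

variable (S : Setup k K p) {φ : V → V}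

/-- `≥` holds on the nose.  `≤` by `Setup.evLe`: if `a ∈ R t`, `a • φ ξ ∈ Fr N' (t + pb)`, write
`a = ∑ c^p bas α t` (`s = 0`, `c ∈ Loc 0`); `Fr_coord` (with `s = b`) and `frob_unique` give
`c • ξ ∈ LocM N' b`, so `c ∈ LocM (colon) 0` and `Fr_of_coord` for `fr1` applies. -/
theorem Setup.colon_Fr (hφ : IsFrob K p φ) {N' : Fam k V} (hN' : RLat S.toBase N') (ξ : V) (b : ℤ) :
    EvEq (colon S.toBase (Fr S.toBase p φ N') (φ ξ) (p * b))
      (Fr S.toBase p (fr1 p) (colon S.toBase N' ξ b)) := by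
  refine EvEq.of_le ?_ ⟨0, fun t _ => ?_⟩
  · refine S.evLe (colon_rlat S.toBase (Fr_isMod _ _ _) _ _).1.1 (Fr_isMod _ _ _) ?_
    intro α t a ha
    obtain ⟨ha1, ha2⟩ := mem_colon.1 ha
    obtain ⟨c, hc⟩ := S.bas_span α t a
    have h1 : ∀ ij, c ij ∈ Loc S.toBase (S.g α) S.c 0 := by
      refine S.bas_loc α (t := t) ?_ hc
      rw [mul_zero, zero_add, Loc_eq]
      exact LocM.of_mem ha1
    obtain ⟨η, hη, h2⟩ := S.Fr_coord hφ hN'.2 α (s := b) (t := t) (ζ := a • φ ξ)
      (by rw [add_comm]; exact LocM.of_mem ha2)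
    have h3 : η = fun ij => c ij • ξ := by
      refine S.frob_unique hφ α t ?_
      rw [← h2, hc, Finset.sum_smul]
      refine Finset.sum_congr rfl fun ij _ => ?_
      rw [hφ.smul, smul_smul, mul_comm]
    have h4 : ∀ ij, c ij ∈ LocM (colon S.toBase N' ξ b) (S.g α) S.c 0 := by
      intro ij
      obtain ⟨j1, hj1⟩ := h1 ij
      obtain ⟨j2, hj2⟩ := hη ij
      rw [h3] at hj2
      have e1 := LocM.pow_smul S.toBase.isMod (S.g_mem α) (ξ := c ij) hj1 (le_max_left j1 j2)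
      have e2 := LocM.pow_smul hN'.2 (S.g_mem α) hj2 (le_max_right j1 j2)
      refine ⟨max j1 j2, mem_colon.2 ⟨e1, ?_⟩⟩
      rw [smul_assoc, zero_add, add_comm]
      exact e2
    have h5 := S.Fr_of_coord isFrob_fr1 (colon_rlat S.toBase hN'.2 ξ b).1.2 α (t := t) h4
    rw [mul_zero, zero_add] at h5
    have h6 : a = ∑ ij, bas S α t ij • fr1 p (c ij) := by
      rw [hc]
      refine Finset.sum_congr rfl fun ij _ => ?_
      rw [smul_eq_mul, mul_comm]
      rfl
    rw [h6]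
    exact h5
  · refine Submodule.span_le.2 ?_
    rintro _ ⟨s, a, ha, c, hc, rfl⟩
    obtain ⟨hc1, hc2⟩ := mem_colon.1 hc
    refine mem_colon.2 ⟨?_, ?_⟩
    · have := S.toBase.mul _ _ _ ha _ (S.toBase.pow_mem hc1 p)
      rw [sub_add_cancel] at this
      exact this
    · have e1 : (a • fr1 p c) • φ ξ = a • φ (c • ξ) := by
        rw [hφ.smul, smul_assoc]
        rfl
      rw [e1]
      refine mem_Fr ?_ hc2
      have e2 : t + p * b - p * (s + b) = t - p * s := by ring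
      rw [e2]
      exact ha

/-- `≥` clear.  `≤` locally: `ζ = ∑ bas • φ η` with `η ∈ LocM N`; `ζ ∈ span (φ W)` is also
`∑ bas • φ w` with `w ∈ W` (`bas_span`), so `η = w`. -/
theorem Setup.cut_Fr (hφ : IsFrob K p φ) {N : Fam k V} (hN : RLat S.toBase N) (W : Submodule K V) :
    EvEq (cut (Fr S.toBase p φ N) (Submodule.span K (φ '' (W : Set V))))
      (Fr S.toBase p φ (cut N W)) := by
  refine EvEq.of_le ?_ ⟨0, fun t _ => ?_⟩
  · refine S.evLe ((Fr_rlat hφ hN.1).cut _).1 (Fr_isMod _ _ _) ?_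
    intro α t ζ hζ
    obtain ⟨h1, h2⟩ := mem_cut.1 hζ
    obtain ⟨η, hη, h3⟩ := S.Fr_coord hφ hN.2 α (s := 0) (t := t) (ζ := ζ)
      (by rw [mul_zero, zero_add]; exact LocM.of_mem h1)
    have key : ∀ a : K, ∃ w : Fin p × Fin p → V, (∀ ij, w ij ∈ W) ∧
        a • ζ = ∑ ij, bas S α t ij • φ (w ij) := by
      clear h1 h3 hζ
      induction h2 using Submodule.span_induction with
      | mem x hx =>
        obtain ⟨w, hw, rfl⟩ := hx
        intro a
        obtain ⟨c, hc⟩ := S.bas_span α t a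
        refine ⟨fun ij => c ij • w, fun ij => W.smul_mem _ hw, ?_⟩
        rw [hc, Finset.sum_smul]
        refine Finset.sum_congr rfl fun ij _ => ?_
        rw [hφ.smul, smul_smul, mul_comm]
      | zero =>
        intro a
        exact ⟨fun _ => 0, fun _ => W.zero_mem, by simp [hφ.zero]⟩
      | add x y _ _ hx hy =>
        intro a
        obtain ⟨w, hw, e1⟩ := hx a
        obtain ⟨w', hw', e2⟩ := hy a
        refine ⟨fun ij => w ij + w' ij, fun ij => W.add_mem (hw ij) (hw' ij), ?_⟩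
        simp only [hφ.add, smul_add, Finset.sum_add_distrib, e1, e2]
      | smul c x _ hx =>
        intro a
        rw [smul_smul]
        exact hx _
    obtain ⟨w, hw, h4⟩ := key 1
    rw [one_smul] at h4
    have h5 : η = w := S.frob_unique hφ α t (h3.symm.trans h4)
    have h6 : ∀ ij, η ij ∈ LocM (cut N W) (S.g α) S.c 0 := by
      intro ij
      obtain ⟨j, hj⟩ := hη ij
      exact ⟨j, mem_cut.2 ⟨hj, W.smul_mem _ (h5 ▸ hw ij)⟩⟩
    have h7 := S.Fr_of_coord hφ (hN.cut W).2 α (t := t) h6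
    rw [mul_zero, zero_add, ← h3] at h7
    exact h7
  · refine Submodule.span_le.2 ?_
    rintro _ ⟨s, a, ha, ξ, hξ, rfl⟩
    obtain ⟨h1, h2⟩ := mem_cut.1 hξ
    exact mem_cut.2 ⟨mem_Fr ha h1, Submodule.smul_mem _ _ (Submodule.subset_span ⟨ξ, h2, rfl⟩)⟩

theorem Setup.Psi_adjoin1 (hφ : IsFrob K p φ) {N' : Fam k V} (hN' : RLat S.toBase N') (ξ : V)
    (b : ℤ) : ∃ s0 : ℤ, ∀ s ≥ s0, Psi S φ (adjoin1 S.toBase N' ξ b) s =
      Psi S φ N' s + psi0 S (colon S.toBase N' ξ b) (s - b) := by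
  obtain ⟨t1, ht1⟩ := S.colon_Fr hφ hN' ξ b
  refine ⟨b + max 0 (t1 - S.t0), fun s hs => ?_⟩
  have hp : (1 : ℤ) ≤ p := by exact_mod_cast (Fact.out : p.Prime).one_le
  have h1 : 0 ≤ s - b := by have := le_max_left 0 (t1 - S.t0); omega
  have h2 : t1 - S.t0 ≤ s - b := by have := le_max_right 0 (t1 - S.t0); omega
  have h3 : s - b ≤ p * (s - b) := by nlinarith
  have h4 := ht1 (p * (s - b) + S.t0) (by omega)
  have e1 : p * s + S.t0 - p * b = p * (s - b) + S.t0 := by ring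
  have h5 : hf (colon S.toBase (Fr S.toBase p φ N') (φ ξ) (p * b)) (p * (s - b) + S.t0) =
      hf (Fr S.toBase p (fr1 p) (colon S.toBase N' ξ b)) (p * (s - b) + S.t0) := by
    unfold hf
    rw [h4]
  unfold Psi psi0
  rw [Fr_adjoin1 hφ, hf_adjoin1 _ (Fr_rlat hφ hN'.1).1, hf_adjoin1 _ hN'.1, e1, h5]
  ring

end Crest.Agent.R169
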