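import Crest.Agent.R169.RSplit
import Crest.Agent.R169.RBase

/-! # R169 task RInd: the general Bogomolov-type bound -/

set_option autoImplicit false

namespace Crest.Agent.R169
open Module

variable {k K : Type} [Field k] [Field K] [Algebra k K] [Algebra (KA k) K]
  [IsScalarTower k (KA k) K]

variable {p : ℕ} [Fact p.Prime] [CharP K p]

variable (S : Setup k K p)

theorem RInd_sup {ι : Type} (g : ι → ℚ) {M δ : ℚ} (hM : ∀ i, g i ≤ M) (hδ : 0 < δ) {i₀ : ι}
    (h0 : 0 < g i₀) : ∃ i, 0 < g i ∧ ∀ j, g j ≤ g i + δ := by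
  by_contra hc
  push Not at hc
  have key : ∀ n : ℕ, ∃ i, 0 < g i ∧ n * δ ≤ g i := by
    intro n
    induction n with
    | zero => exact ⟨i₀, h0, by simpa using h0.le⟩
    | succ n ih =>
      obtain ⟨i, hi, hi'⟩ := ih
      obtain ⟨j, hj⟩ := hc i hi
      exact ⟨j, by linarith, by push_cast; linarith⟩
  obtain ⟨n, hn⟩ := exists_nat_gt (M / δ)
  obtain ⟨i, -, hi⟩ := key n
  rw [div_lt_iff₀ hδ] at hn
  linarith [hM i]

theorem RInd_top {ρ : ℕ} {N : Fam k (Fin ρ → K)} (hN : RLat S.toBase N) (e : ℕ)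
    {W : Submodule K (Fin ρ → K)} (hW : finrank K W = ρ) :
    dd S (cut (FrI S.toBase p e N) W) = (p : ℚ) ^ e * dd S N := by
  have : W = ⊤ := Submodule.eq_top_of_finrank_eq (by rw [hW, Module.finrank_fin_fun])
  rw [this, cut_top, (S.FrI_coeffs hN e).2.1]

theorem RInd_bot {ρ : ℕ} (N : Fam k (Fin ρ → K)) {W : Submodule K (Fin ρ → K)}
    (hW : finrank K W = 0) : dd S (cut N W) = 0 := by
  have : W = ⊥ := Submodule.finrank_eq_zero.1 hW
  rw [this, cut_bot, S.dd_bot.1]

theorem RInd_le {ρ : ℕ} (W : Submodule K (Fin ρ → K)) : finrank K W ≤ ρ := by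
  simpa using W.finrank_le

/-- Strong induction on `ρ` (all `N, lm, lp`).  `ρ = 0`: `N = ⊥`.  Let `μ = dd N/ρ ∈ [lm, lp]`
(`e = 0`, `W = ⊤, ⊥`), `g(e,W) = dd (cut (FrI e N) W)/p^e - μ dim W`, bounded above by `Hyp`.
If `g ≤ 0` everywhere then `Hyp μ μ`, `bogomolov` and `μ² ≤ (lp+lm) μ - lp lm`.  Otherwise for small
`δ > 0` take `(e,W)` with `g(e,W) > 0` and `g ≤ g(e,W) + δ` everywhere (real `sSup`); `W ≠ ⊥, ⊤`.
`Setup.split` of `FrI e N` along `W` gives `N₁, N₂` of smaller rank with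
`Hyp (p^e (lm - δ)) (p^e (lp + δ))` (`FrI_add`; treat `W' = ⊤`, `W'' = ⊥` separately).  Add the two
bounds, divide by `p^(2e)`, let `δ → 0`. -/
theorem Setup.hyp_bound {ρ : ℕ} {N : Fam k (Fin ρ → K)} (hN : RLat S.toBase N) (hF : Full N)
    {lm lp : ℚ} (h : Hyp S N lm lp) :
    cc S N ≤ ((lp + lm) * dd S N - ρ * lp * lm) / (2 * rk k K) := by
  induction ρ using Nat.strong_induction_on generalizing lm lp with
  | _ ρ ih =>
  have hr : (0 : ℚ) < rk k K := lt_of_lt_of_le one_pos S.toBase.rk_pos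
  have hq : (0 : ℚ) < p := by exact_mod_cast (Fact.out : p.Prime).pos
  rcases Nat.eq_zero_or_pos ρ with rfl | hρ
  · have : N = ⊥ := funext fun t => Subsingleton.elim _ _
    rw [this, S.dd_bot.1, S.dd_bot.2]; simp
  have hρ' : (0 : ℚ) < ρ := by exact_mod_cast hρ
  obtain ⟨μ, hμ⟩ : ∃ μ : ℚ, dd S N = μ * ρ := ⟨dd S N / ρ, by field_simp⟩
  have htop : finrank K (⊤ : Submodule K (Fin ρ → K)) = ρ := by simp
  have hbot : finrank K (⊥ : Submodule K (Fin ρ → K)) = 0 := by simp
  have h1 : μ ≤ lp := by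
    have := (h 0 ⊤).1
    rw [RInd_top S hN 0 htop, htop, hμ] at this
    simp only [pow_zero, one_mul] at this
    exact le_of_mul_le_mul_right this hρ'
  have h2 : lm ≤ μ := by
    have := (h 0 ⊥).2
    rw [RInd_bot S _ hbot, hbot, hμ] at this
    simp only [pow_zero, one_mul, Nat.cast_zero, sub_zero] at this
    exact le_of_mul_le_mul_right this hρ'
  let g : ℕ × Submodule K (Fin ρ → K) → ℚ := fun z =>
    dd S (cut (FrI S.toBase p z.1 N) z.2) / (p : ℚ) ^ z.1 - μ * finrank K z.2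
  have hg : ∀ e W, dd S (cut (FrI S.toBase p e N) W) =
      (p : ℚ) ^ e * (g (e, W) + μ * finrank K W) := fun e W => by
    simp only [g]; field_simp; ring
  by_cases hA : ∀ z, g z ≤ 0
  · have hH : Hyp S N μ μ := fun e W => by
      have := mul_le_mul_of_nonneg_left (hA (e, W)) (pow_pos hq e).le
      rw [hg, hμ]
      constructor <;> linarith
    refine (S.bogomolov hρ hN hF hH).trans ?_
    rw [hμ, div_le_div_iff₀ (by positivity) (by positivity)]
    have : 0 ≤ 2 * ρ ^ 2 * rk k K * ((μ - lm) * (lp - μ)) :=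
      mul_nonneg (by positivity) (mul_nonneg (by linarith) (by linarith))
    nlinarith
  push Not at hA
  obtain ⟨z₀, hz₀⟩ := hA
  have hM : ∀ z, g z ≤ (lp - μ) * ρ := by
    rintro ⟨e, W⟩
    have a1 := (h e W).1
    rw [hg, mul_assoc] at a1
    have a2 := le_of_mul_le_mul_left a1 (pow_pos hq e)
    have a3 : (finrank K W : ℚ) ≤ ρ := by exact_mod_cast RInd_le W
    nlinarith
  have main : ∀ δ : ℚ, 0 < δ →
      cc S N ≤ ((lp + lm) * dd S N - ρ * (lp + δ) * (lm - δ)) / (2 * rk k K) := by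
    intro δ hδ
    obtain ⟨⟨e, W⟩, hpos, hmax⟩ := RInd_sup g hM hδ hz₀
    obtain ⟨d, d', N₁, N₂, hd, hdd, hN₁, hF₁, hN₂, hF₂, e1, e2, e3, s1, s2⟩ :=
      S.split (FrI_rlat hN e) (FrI_full hN hF e) W
    have hqe := pow_pos hq e
    have hd0 : d ≠ 0 := by
      intro h0
      have a1 := hg e W
      rw [RInd_bot S _ (hd.trans h0), hd, h0] at a1
      simp only [Nat.cast_zero, mul_zero, add_zero] at a1
      nlinarith [mul_pos hqe hpos]
    have hd1 : d ≠ ρ := by
      intro h0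
      have a1 := hg e W
      rw [RInd_top S hN e (hd.trans h0), hd, h0, hμ] at a1
      nlinarith [mul_pos hqe hpos]
    rw [hg, hd] at e1
    rw [(S.FrI_coeffs hN e).2.1] at e2
    rw [(S.FrI_coeffs hN e).2.2] at e3
    have hddq : (d : ℚ) + d' = ρ := by exact_mod_cast hdd
    have H1 : Hyp S N₁ ((p : ℚ) ^ e * (lm - δ)) ((p : ℚ) ^ e * (lp + δ)) := by
      intro e' W'
      have hqe' := pow_pos hq e'
      have hqq := mul_pos hqe' hqe
      obtain ⟨W₁, w1, w2⟩ := s1 e' W'
      have hw0 : (0 : ℚ) ≤ finrank K W' := Nat.cast_nonneg _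
      constructor
      · rw [w2, ← FrI_add]
        have a1 := (h (e' + e) W₁).1
        rw [w1, pow_add] at a1
        nlinarith [mul_nonneg hqq.le (mul_nonneg hδ.le hw0)]
      · rcases (RInd_le W').eq_or_lt with hw | hw
        · rw [RInd_top S hN₁ e' hw, hw]; simp
        · rw [w2, ← FrI_add, hg, e1, w1, pow_add]
          have a1 := hmax (e' + e, W₁)
          have a2 : (finrank K W' : ℚ) + 1 ≤ d := by exact_mod_cast hw
          have a3 : (lm - δ) * (d - finrank K W') ≤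
              g (e, W) + μ * d - (g (e' + e, W₁) + μ * finrank K W') := by nlinarith
          nlinarith [mul_le_mul_of_nonneg_left a3 hqq.le]
    have H2 : Hyp S N₂ ((p : ℚ) ^ e * (lm - δ)) ((p : ℚ) ^ e * (lp + δ)) := by
      intro e' W''
      have hqe' := pow_pos hq e'
      have hqq := mul_pos hqe' hqe
      obtain ⟨W₂, w1, w2⟩ := s2 e' W''
      constructor
      · rcases Nat.eq_zero_or_pos (finrank K W'') with hw | hw
        · rw [RInd_bot S _ hw, hw]; simp
        · rw [w2, ← FrI_add, hg, e1, w1, pow_add]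
          have a1 := hmax (e' + e, W₂)
          have a2 : (1 : ℚ) ≤ finrank K W'' := by exact_mod_cast hw
          have a3 : g (e' + e, W₂) + μ * (finrank K W'' + d) - (g (e, W) + μ * d) ≤
              (lp + δ) * finrank K W'' := by nlinarith
          push_cast
          nlinarith [mul_le_mul_of_nonneg_left a3 hqq.le]
      · rw [w2, ← FrI_add]
        have a1 := (h (e' + e) W₂).2
        rw [w1, pow_add] at a1
        push_cast at a1
        have a2 : (finrank K W'' : ℚ) ≤ d' := by exact_mod_cast RInd_le W''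
        have a3 : (0 : ℚ) ≤ δ * (d' - finrank K W'') := mul_nonneg hδ.le (by linarith)
        have a4 : dd S N₂ = (p : ℚ) ^ e * dd S N - dd S N₁ := by linarith
        rw [a4]
        rw [← hddq] at a1
        nlinarith [mul_nonneg hqq.le a3]
    have b1 := ih d (by omega) hN₁ hF₁ H1
    have b2 := ih d' (by omega) hN₂ hF₂ H2
    rw [le_div_iff₀ (by positivity)] at b1 b2 ⊢
    have a4 : dd S N₂ = (p : ℚ) ^ e * dd S N - dd S N₁ := by linarith
    have a5 : cc S N₂ = ((p : ℚ) ^ e) ^ 2 * cc S N - cc S N₁ := by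
      rw [← pow_mul, mul_comm e 2]; linarith
    rw [a4, a5] at b2
    refine le_of_mul_le_mul_left ?_ (pow_pos hqe 2)
    rw [← hddq]
    nlinarith
  refine le_of_forall_pos_le_add fun ε hε => ?_
  have hA : (0 : ℚ) < ρ * (lp - lm + 1) / (2 * rk k K) :=
    div_pos (mul_pos hρ' (by linarith)) (by positivity)
  set A := (ρ : ℚ) * (lp - lm + 1) / (2 * rk k K) with hAdef
  have hδ : 0 < min 1 (ε / A) := lt_min one_pos (div_pos hε hA)
  refine (main _ hδ).trans ?_
  set δ := min 1 (ε / A)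
  have d1 : δ ≤ 1 := min_le_left _ _
  have d2 : δ * A ≤ ε := (le_div_iff₀ hA).1 (min_le_right _ _)
  have e1 : ((lp + lm) * dd S N - ρ * (lp + δ) * (lm - δ)) / (2 * rk k K) =
      ((lp + lm) * dd S N - ρ * lp * lm) / (2 * rk k K) + δ * A -
        ρ * δ * (1 - δ) / (2 * rk k K) := by
    rw [hAdef]; field_simp; ring
  have e2 : 0 ≤ ρ * δ * (1 - δ) / (2 * rk k K) :=
    div_nonneg (mul_nonneg (mul_pos hρ' hδ).le (by linarith)) (by positivity)
  linarith

/-- `μ = dd E/ρ`, `λ = r/2 + C/(p-1)`.  `Semi` gives `dd (cut E W) ≤ (μ + r/2) d` and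
`≤ (μ - r/2) d + ρ r/2`; `bound_iter` gives `Hyp E (μ - λ) (μ + λ)` (`W = ⊥, ⊤` separately);
`disc E + ρσ/8 = cc E - ρ μ²/(2r)`. -/
theorem Setup.main_bound {ρ : ℕ} (hρ : 0 < ρ) {E : Fam k (Fin ρ → K)} (hE : RLat S.toBase E)
    (hF : Full E) (hs : Semi k K E) : disc E + ρ * S.σ / 8 ≤
      ρ / (2 * rk k K) * (rk k K / 2 + 2 ^ ρ * ρ * S.c' * rk k K / (p - 1)) ^ 2 := by
  have hr : (0 : ℚ) < rk k K := lt_of_lt_of_le one_pos S.toBase.rk_pos
  have hq2 : (2 : ℚ) ≤ p := by exact_mod_cast (Fact.out : p.Prime).two_le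
  have hq : (0 : ℚ) < p := by linarith
  have hρ' : (0 : ℚ) < ρ := by exact_mod_cast hρ
  obtain ⟨μ, hμ⟩ : ∃ μ : ℚ, dd S E = μ * ρ := ⟨dd S E / ρ, by field_simp⟩
  have haE := hE.ha_full hF
  rw [Module.finrank_fin_fun] at haE
  have hC : (0 : ℚ) ≤ 2 ^ ρ * ρ * S.c' * rk k K / (p - 1) :=
    div_nonneg (by positivity) (by linarith)
  set C : ℚ := 2 ^ ρ * ρ * S.c' * rk k K / (p - 1) with hCdef
  have hb0 : hb E = μ * ρ - rk k K * ρ / 2 * S.κ := by
    rw [← hμ, dd, haE]; ring
  have key : ∀ W : Submodule K (Fin ρ → K), dd S (cut E W) ≤ μ * finrank K W +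
      (finrank K W : ℚ) * (ρ - finrank K W) * rk k K / (2 * ρ) := fun W => by
    have a1 := hs W
    have a2 : (finrank K W : ℚ) * hb E / ρ =
        μ * finrank K W - rk k K * finrank K W / 2 * S.κ := by
      rw [hb0]; field_simp
    rw [dd, hE.ha_cut hF W]
    linarith
  have k1 : ∀ W : Submodule K (Fin ρ → K),
      dd S (cut E W) ≤ (μ + rk k K / 2) * finrank K W + 0 := fun W => by
    have a0 : (0 : ℚ) ≤ finrank K W := Nat.cast_nonneg _
    have a1 : (finrank K W : ℚ) * (ρ - finrank K W) * rk k K / (2 * ρ) ≤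
        rk k K / 2 * finrank K W := by
      rw [div_le_iff₀ (by positivity)]
      nlinarith [mul_nonneg (mul_nonneg a0 a0) hr.le]
    linarith [key W]
  have k2 : ∀ W : Submodule K (Fin ρ → K),
      dd S (cut E W) ≤ (μ - rk k K / 2) * finrank K W + ρ * rk k K / 2 := fun W => by
    have a0 : (0 : ℚ) ≤ ρ - finrank K W := by
      have : (finrank K W : ℚ) ≤ ρ := by exact_mod_cast RInd_le W
      linarith
    have a1 : (finrank K W : ℚ) * (ρ - finrank K W) * rk k K / (2 * ρ) ≤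
        rk k K / 2 * (ρ - finrank K W) := by
      rw [div_le_iff₀ (by positivity)]
      nlinarith [mul_nonneg (mul_nonneg a0 a0) hr.le]
    linarith [key W]
  have H : Hyp S E (μ - (rk k K / 2 + C)) (μ + (rk k K / 2 + C)) := by
    intro e W
    have hqe := pow_pos hq e
    constructor
    · rcases Nat.eq_zero_or_pos (finrank K W) with hw | hw
      · rw [RInd_bot S _ hw, hw]; simp
      · refine (S.bound_iter hE hF k1 e W).trans ?_
        have a2 : (1 : ℚ) ≤ finrank K W := by exact_mod_cast hw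
        have a3 : (μ + rk k K / 2) * finrank K W + 0 + C ≤
            (μ + (rk k K / 2 + C)) * finrank K W := by nlinarith
        have a4 := mul_le_mul_of_nonneg_left a3 hqe.le
        rw [← mul_assoc] at a4
        exact a4
    · rcases (RInd_le W).eq_or_lt with hw | hw
      · rw [RInd_top S hE e hw, hw]; simp
      · have a1 := S.bound_iter hE hF k2 e W
        have a2 : (finrank K W : ℚ) + 1 ≤ ρ := by exact_mod_cast hw
        have a3 : (μ - (rk k K / 2 + C)) * (ρ - finrank K W) ≤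
            μ * ρ - ((μ - rk k K / 2) * finrank K W + ρ * rk k K / 2 + C) := by nlinarith
        rw [hμ]
        nlinarith [mul_le_mul_of_nonneg_left a3 hqe.le]
  have b := S.hyp_bound hE hF H
  have e1 : disc E + ρ * S.σ / 8 = cc S E - ρ * μ ^ 2 / (2 * rk k K) := by
    rw [disc, cc, haE, hb0]; field_simp; ring
  have e2 : (((μ + (rk k K / 2 + C)) + (μ - (rk k K / 2 + C))) * dd S E -
      ρ * (μ + (rk k K / 2 + C)) * (μ - (rk k K / 2 + C))) / (2 * rk k K) =
      ρ / (2 * rk k K) * (rk k K / 2 + C) ^ 2 + ρ * μ ^ 2 / (2 * rk k K) := by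
    rw [hμ]; field_simp; ring
  linarith

end Crest.Agent.R169
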