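import Crest.Agent.R169.RBasic

/-! # R169 task RLoc: charts, the local-to-global lemma, Frobenius pull-backs -/

set_option autoImplicit false
set_option linter.unusedSectionVars false

namespace Crest.Agent.R169
open Module

variable {k K : Type} [Field k] [Field K] [Algebra k K] [Algebra (KA k) K]
  [IsScalarTower k (KA k) K]

variable {V : Type} [AddCommGroup V] [Module k V] [Module (KA k) V] [Module K V]
  [IsScalarTower k (KA k) V] [IsScalarTower k K V] [IsScalarTower (KA k) K V]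

section loc
variable {B : Base k K} {g : K} {c : ℤ}

theorem Loc_eq (B : Base k K) (g : K) (c d : ℤ) : Loc B g c d = LocM B.R g c d := rfl

theorem LocM.of_mem {N : Fam k V} {d : ℤ} {ξ : V} (h : ξ ∈ N d) : ξ ∈ LocM N g c d := by
  exact ⟨0, by simpa using h⟩

theorem LocM.zero (N : Fam k V) (d : ℤ) : (0 : V) ∈ LocM N g c d := by
  exact LocM.of_mem (Submodule.zero_mem _)

theorem LocM.pow_smul {N : Fam k V} (hN : IsMod B.R N) (hg : g ∈ B.R c) {d : ℤ} {ξ : V} {j j' : ℕ}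
    (h : g ^ j • ξ ∈ N (d + j * c)) (hj : j ≤ j') : g ^ j' • ξ ∈ N (d + j' * c) := by
  obtain ⟨n, rfl⟩ := Nat.exists_eq_add_of_le hj
  have h1 := hN _ _ _ (B.pow_mem hg n) _ h
  rw [smul_smul, ← pow_add, add_comm n j] at h1
  convert h1 using 2
  push_cast; ring

theorem LocM.add {N : Fam k V} (hN : IsMod B.R N) (hg : g ∈ B.R c) {d : ℤ} {ξ η : V}
    (h : ξ ∈ LocM N g c d) (h' : η ∈ LocM N g c d) : ξ + η ∈ LocM N g c d := by
  obtain ⟨j, hj⟩ := h
  obtain ⟨j', hj'⟩ := h'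
  refine ⟨max j j', ?_⟩
  rw [smul_add]
  exact Submodule.add_mem _ (LocM.pow_smul hN hg hj (le_max_left _ _))
    (LocM.pow_smul hN hg hj' (le_max_right _ _))

theorem LocM.sum {N : Fam k V} (hN : IsMod B.R N) (hg : g ∈ B.R c) {d : ℤ} {ι : Type}
    (S : Finset ι) {ξ : ι → V} (h : ∀ i ∈ S, ξ i ∈ LocM N g c d) :
    ∑ i ∈ S, ξ i ∈ LocM N g c d := by
  classical
  induction S using Finset.induction_on with
  | empty => simpa using LocM.zero N d
  | insert i S hi ih =>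
    rw [Finset.sum_insert hi]
    exact LocM.add hN hg (h i (Finset.mem_insert_self _ _))
      (ih fun j hj => h j (Finset.mem_insert_of_mem hj))

theorem LocM.smul_k {N : Fam k V} {d : ℤ} {ξ : V} (a : k) (h : ξ ∈ LocM N g c d) :
    a • ξ ∈ LocM N g c d := by
  obtain ⟨j, hj⟩ := h
  refine ⟨j, ?_⟩
  rw [A1_smul_comm]
  exact Submodule.smul_mem _ _ hj

theorem LocM.smul {N : Fam k V} (hN : IsMod B.R N) {s t : ℤ} {a : K} {ξ : V}
    (ha' : a ∈ Loc B g c s) (h : ξ ∈ LocM N g c t) : a • ξ ∈ LocM N g c (s + t) := by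
  obtain ⟨j, hj⟩ := ha'
  obtain ⟨j', hj'⟩ := h
  refine ⟨j + j', ?_⟩
  have h1 := hN _ _ _ hj _ hj'
  rw [smul_smul] at h1
  rw [smul_smul]
  convert h1 using 2
  · push_cast; ring
  · ring

theorem LocM.of_pow_smul {N : Fam k V} {d : ℤ} {ξ : V} (j : ℕ)
    (h : g ^ j • ξ ∈ LocM N g c (d + j * c)) : ξ ∈ LocM N g c d := by
  obtain ⟨j', hj'⟩ := h
  refine ⟨j' + j, ?_⟩
  rw [smul_smul, ← pow_add] at hj'
  convert hj' using 2
  push_cast; ring

theorem LocM.mono {N N' : Fam k V} (h : N ≤ N') (d : ℤ) : LocM N g c d ⊆ LocM N' g c d := by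
  rintro ξ ⟨j, hj⟩
  exact ⟨j, h _ hj⟩

/-- a uniform exponent for finitely many elements -/
theorem LocM.uniform {N : Fam k V} (hN : IsMod B.R N) (hg : g ∈ B.R c) {ι : Type} [Finite ι]
    {ξ : ι → V} {d : ι → ℤ} (h : ∀ i, ξ i ∈ LocM N g c (d i)) :
    ∃ j : ℕ, ∀ i, g ^ j • ξ i ∈ N (d i + j * c) := by
  choose j hj using h
  obtain ⟨M, hM⟩ := (Set.finite_range j).bddAbove
  exact ⟨M, fun i => LocM.pow_smul hN hg (hj i) (hM ⟨i, rfl⟩)⟩

theorem Loc.mul {s t : ℤ} {a b : K} (ha' : a ∈ Loc B g c s) (hb' : b ∈ Loc B g c t) :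
    a * b ∈ Loc B g c (s + t) := by
  exact LocM.smul (V := K) B.isMod ha' hb'

theorem Loc.pow {s : ℤ} {a : K} (ha' : a ∈ Loc B g c s) (n : ℕ) : a ^ n ∈ Loc B g c (n * s) := by
  induction n with
  | zero => exact ⟨0, by simpa using B.one_mem le_rfl⟩
  | succ n ih =>
    have := Loc.mul ih ha'
    rw [pow_succ]
    convert this using 2
    push_cast; ring

theorem Loc.zpow {s : ℤ} {a : K} (h1 : a ∈ Loc B g c s) (h2 : a⁻¹ ∈ Loc B g c (-s)) (n : ℤ) :
    a ^ n ∈ Loc B g c (n * s) := by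
  obtain ⟨m, rfl | rfl⟩ := n.eq_nat_or_neg
  · rw [zpow_natCast]; exact Loc.pow h1 m
  · have := Loc.pow h2 m
    rw [zpow_neg, zpow_natCast, ← inv_pow]
    convert this using 2
    ring

end loc

section setup
variable {p : ℕ} (S : Setup k K p)

theorem Setup.τ_zpow (α : Fin S.nα) (t : ℤ) : S.τ α ^ t ∈ Loc S.toBase (S.g α) S.c t := by
  simpa using Loc.zpow (S.τ_mem α) (S.τ_inv α) t

theorem Setup.bas_mem (α : Fin S.nα) (t : ℤ) (ij : Fin p × Fin p) :
    bas S α t ij ∈ Loc S.toBase (S.g α) S.c t := by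
  simpa [bas] using Loc.mul (S.τ_zpow α t)
    (Loc.mul (Loc.pow (S.u_mem α) ij.1) (Loc.pow (S.v_mem α) ij.2))

/-- eventual containment from containment after inverting each of `1, x, y` -/
theorem RLoc_evLe {B : Base k K} {N' N : Fam k V} (hN' : IsLat N') (hN : IsMod B.R N)
    (h : ∀ ℓ ∈ ({1, xK k K 0, xK k K 1} : Set K), ∀ t, ∀ ξ ∈ N' t, ξ ∈ LocM N ℓ 1 t) :
    EvLe N' N := by
  obtain ⟨m, w, b, rfl⟩ := hN'
  have hw : ∀ i, w i ∈ gen (AA k) w b (b i) := mem_gen_self (one_mem_AA le_rfl) w b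
  obtain ⟨j0, hj0⟩ := LocM.uniform hN (B.x_mem 0) (fun i => h _ (by simp) _ _ (hw i))
  obtain ⟨j1, hj1⟩ := LocM.uniform hN (B.x_mem 1) (fun i => h _ (by simp) _ _ (hw i))
  obtain ⟨j2, hj2⟩ := LocM.uniform hN (B.one_mem (t := 1) (by norm_num))
    (fun i => h _ (by simp) _ _ (hw i))
  obtain ⟨L, hL0, hL1, hL2⟩ : ∃ L : ℕ, j0 ≤ L ∧ j1 ≤ L ∧ j2 ≤ L :=
    ⟨j0 + j1 + j2, by omega, by omega, by omega⟩
  obtain ⟨C, hC⟩ := A1_bdd b
  refine ⟨3 * L + C, fun t ht ξ hξ => ?_⟩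
  obtain ⟨a, ha, rfl⟩ := mem_gen.1 hξ
  refine Submodule.sum_mem _ fun i _ => ?_
  obtain ⟨a0, h0, a1, h1, a2, h2, he⟩ := AA_split_pow L (by have := (hC i).2; omega) (ha i)
  have e0 := hN.toAA _ _ _ h0 _ (LocM.pow_smul hN (B.x_mem 0) (hj0 i) hL0)
  have e1 := hN.toAA _ _ _ h1 _ (LocM.pow_smul hN (B.x_mem 1) (hj1 i) hL1)
  have e2 := hN.toAA _ _ _ h2 _
    (LocM.pow_smul hN (B.one_mem (t := 1) (by norm_num)) (hj2 i) hL2)
  have hd : t - b i - L + (b i + L * 1) = t := by ring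
  rw [hd] at e0 e1 e2
  rw [xK, ← map_pow, algebraMap_smul, smul_smul, mul_comm] at e0 e1
  rw [one_pow, one_smul] at e2
  rw [he, add_smul, add_smul]
  exact Submodule.add_mem _ (Submodule.add_mem _ e0 e1) e2

/-- the radical of a homogeneous ideal is closed under sums -/
theorem RLoc_rad_add {B : Base k K} {I : Fam k K} (hI : IsMod B.R I) {M : ℤ} {a b : K}
    (ha' : a ∈ B.R M) (hb' : b ∈ B.R M) {n m : ℕ} (h1 : a ^ n ∈ I (n * M))
    (h2 : b ^ m ∈ I (m * M)) : (a + b) ^ (n + m) ∈ I ((n + m : ℕ) * M) := by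
  rw [add_pow]
  refine Submodule.sum_mem _ fun i hi => ?_
  have hi' : i ≤ n + m := Nat.lt_succ_iff.1 (Finset.mem_range.1 hi)
  rw [← nsmul_eq_mul']
  refine Submodule.smul_of_tower_mem _ _ ?_
  rcases le_total n i with hni | hni
  · obtain ⟨d, rfl⟩ := Nat.exists_eq_add_of_le hni
    obtain ⟨e, rfl⟩ : ∃ e, m = d + e := ⟨m - d, by omega⟩
    have h3 := hI _ _ _ (B.mul _ _ _ (B.pow_mem ha' d) _ (B.pow_mem hb' e)) _ h1
    have h4 : n + (d + e) - (n + d) = e := by omega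
    rw [h4]
    convert h3 using 2
    · push_cast; ring
    · rw [smul_eq_mul]; ring
  · obtain ⟨d, rfl⟩ := Nat.exists_eq_add_of_le hni
    have h3 := hI _ _ _ (B.mul _ _ _ (B.pow_mem ha' i) _ (B.pow_mem hb' d)) _ h2
    have h4 : i + d + m - i = d + m := by omega
    rw [h4]
    convert h3 using 2
    · push_cast; ring
    · rw [smul_eq_mul]; ring

theorem RLoc_rad_sum {B : Base k K} {I : Fam k K} (hI : IsMod B.R I) {M : ℤ} {ι : Type}
    (T : Finset ι) {a : ι → K} (ha' : ∀ i ∈ T, a i ∈ B.R M)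
    (h : ∀ i ∈ T, ∃ n : ℕ, a i ^ n ∈ I (n * M)) : ∃ n : ℕ, (∑ i ∈ T, a i) ^ n ∈ I (n * M) := by
  classical
  induction T using Finset.induction_on with
  | empty => exact ⟨1, by simp⟩
  | insert i T hi ih =>
    rw [Finset.sum_insert hi]
    obtain ⟨n, hn⟩ := h i (Finset.mem_insert_self _ _)
    obtain ⟨m, hm⟩ := ih (fun j hj => ha' j (Finset.mem_insert_of_mem hj))
      (fun j hj => h j (Finset.mem_insert_of_mem hj))
    exact ⟨n + m, RLoc_rad_add hI (ha' i (Finset.mem_insert_self _ _))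
      (Submodule.sum_mem _ fun j hj => ha' j (Finset.mem_insert_of_mem hj)) hn hm⟩

/-- Lemma L.  For the generators `w_i` of `N'` take a uniform `j`; `S.cover` raised to the power
`nα · j` gives `ℓ^M' ∈ ∑ g_α^j R (M' - jc)` for `ℓ = 1, x, y` (e.g. by induction: a product of
`nα j` factors `∑ g_α a_α`; or `Ideal.sup_pow_add_le_pow_sup_pow`-style counting), so
`ℓ^M' • w_i ∈ N (b_i + M')`; finish with `AA_split_pow`. -/
theorem Setup.evLe {N' N : Fam k V} (hN' : IsLat N') (hN : IsMod S.R N)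
    (h : ∀ α t, ∀ ξ ∈ N' t, ξ ∈ LocM N (S.g α) S.c t) : EvLe N' N := by
  obtain ⟨M, hM⟩ := S.cover
  refine RLoc_evLe (B := S.toBase) hN' hN fun ℓ hℓ t ξ hξ => ?_
  obtain ⟨a, ha, he⟩ := hM ℓ hℓ
  have hI := (colon_rlat S.toBase hN ξ t).1.2
  have hga : ∀ α, S.g α * a α ∈ S.R M := fun α => by
    have := S.mul _ _ _ (S.g_mem α) _ (ha α)
    rwa [add_sub_cancel] at this
  obtain ⟨n, hn⟩ := RLoc_rad_sum hI Finset.univ (a := fun α => S.g α * a α) (M := M)
    (fun α _ => hga α) (fun α _ => by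
      obtain ⟨j, hj⟩ := h α t ξ hξ
      refine ⟨j, mem_colon.2 ⟨S.toBase.pow_mem (hga α) j, ?_⟩⟩
      have := hN _ _ _ (S.toBase.pow_mem (ha α) j) _ hj
      rw [smul_smul, ← mul_pow, mul_comm (a α)] at this
      convert this using 2
      ring)
  rw [← he, ← pow_mul] at hn
  refine ⟨M * n, ?_⟩
  have := (mem_colon.1 hn).2
  convert this using 2
  push_cast; ring

theorem RLoc_of_pow_mem {B : Base k K} {𝔭 : Fam k K} (h : IsPrimeFam B 𝔭) {g : K} {c : ℤ}
    (hg : g ∈ B.R c) (j : ℕ) (hj : g ^ j ∈ 𝔭 (j * c)) : g ∈ 𝔭 c := by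
  induction j with
  | zero => exact absurd (by simpa using hj) h.one
  | succ j ih =>
    rcases h.prime c (j * c) g hg (g ^ j) (B.pow_mem hg j) (by
      rw [← pow_succ']
      convert hj using 2
      push_cast; ring) with h1 | h1
    · exact h1
    · exact ih h1

/-- some chart function avoids a prime that does not contain all of `1, x, y` -/
theorem Setup.exists_g_notMem {𝔭 : Fam k K} (h : IsPrimeFam S.toBase 𝔭)
    (hℓ : ¬ ((1 : K) ∈ 𝔭 1 ∧ xK k K 0 ∈ 𝔭 1 ∧ xK k K 1 ∈ 𝔭 1)) : ∃ α, S.g α ∉ 𝔭 S.c := by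
  by_contra hall
  push Not at hall
  obtain ⟨M, hM⟩ := S.cover
  have key : ∀ ℓ ∈ ({1, xK k K 0, xK k K 1} : Set K), ℓ ∈ S.R 1 → ℓ ∈ 𝔭 1 := by
    intro ℓ hℓ hR
    obtain ⟨a, ha, he⟩ := hM ℓ hℓ
    refine RLoc_of_pow_mem h hR M ?_
    rw [he]
    refine Submodule.sum_mem _ fun α _ => ?_
    have := h.mod _ _ _ (ha α) _ (hall α)
    rw [smul_eq_mul, mul_comm] at this
    convert this using 2
    ring
  exact hℓ ⟨key _ (by simp) (S.toBase.one_mem (by norm_num)), key _ (by simp) (S.toBase.x_mem 0),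
    key _ (by simp) (S.toBase.x_mem 1)⟩

theorem IsPrimeFam.of_pow_mul {B : Base k K} {𝔭 : Fam k K} (h : IsPrimeFam B 𝔭) {g : K} {c : ℤ}
    (hg : g ∈ B.R c) (hg' : g ∉ 𝔭 c) {a : K} {t : ℤ} (ha' : a ∈ B.R t) (j : ℕ)
    (hj : g ^ j * a ∈ 𝔭 (t + j * c)) : a ∈ 𝔭 t := by
  rcases h.prime (j * c) t (g ^ j) (B.pow_mem hg j) a ha' (by rwa [add_comm]) with h1 | h1
  · exact absurd (RLoc_of_pow_mem h hg j h1) hg'
  · exact h1

end setup

section fr
variable {p : ℕ} [Fact p.Prime] [CharP K p]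

variable {B : Base k K} {φ : V → V}

theorem IsFrob.zero (hφ : IsFrob K p φ) : φ 0 = 0 := by
  have := hφ.add 0 0
  rw [add_zero] at this
  exact left_eq_add.1 this

theorem IsFrob.sum (hφ : IsFrob K p φ) {ι : Type} (S : Finset ι) (ξ : ι → V) :
    φ (∑ i ∈ S, ξ i) = ∑ i ∈ S, φ (ξ i) := by
  classical
  induction S using Finset.induction_on with
  | empty => simpa using hφ.zero
  | insert i S hi ih => rw [Finset.sum_insert hi, Finset.sum_insert hi, hφ.add, ih]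

theorem isFrob_fr1 : IsFrob K p (fr1 p : K → K) := by
  refine ⟨fun a b => add_pow_char a b p, fun c a => ?_, fun ι _ β hβ ζ hζ => hβ ζ ?_, ?_⟩
  · simp [fr1, mul_pow]
  · rw [← hζ]
    exact Finset.sum_congr rfl fun i _ => by simp [fr1, mul_comm]
  · refine eq_top_iff.2 fun a _ => ?_
    have h1 : (1 : K) ∈ Submodule.span K (Set.range (fr1 p : K → K)) :=
      Submodule.subset_span ⟨1, by simp [fr1]⟩
    simpa using Submodule.smul_mem _ a h1

theorem isFrob_frV (ρ : ℕ) : IsFrob K p (frV p ρ : (Fin ρ → K) → Fin ρ → K) := by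
  classical
  refine ⟨fun a b => funext fun i => add_pow_char (a i) (b i) p, fun c a => ?_,
    fun ι _ β hβ ζ hζ => ?_, ?_⟩
  · funext i; simp [frV, mul_pow]
  · funext i l
    have h1 := congrFun hζ l
    have h2 := hβ (fun i => ζ i l) (by
      rw [Finset.sum_apply] at h1
      rw [← show _ = (0 : K) from h1]
      exact Finset.sum_congr rfl fun i _ => by simp [frV, mul_comm])
    exact congrFun h2 i
  · refine eq_top_iff.2 fun a _ => ?_
    rw [← Finset.univ_sum_single a]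
    refine Submodule.sum_mem _ fun i _ => ?_
    have h1 : (Pi.single i 1 : Fin ρ → K) ∈ Submodule.span K (Set.range (frV (K := K) p ρ)) := by
      refine Submodule.subset_span ⟨Pi.single i 1, ?_⟩
      funext l
      by_cases hl : l = i
      · subst hl; simp [frV]
      · simp [frV, hl, (Fact.out : p.Prime).ne_zero]
    have h2 := Submodule.smul_mem _ (a i) h1
    rwa [← Pi.single_smul', smul_eq_mul, mul_one] at h2

theorem mem_Fr {N : Fam k V} {s t : ℤ} {a : K} (ha' : a ∈ B.R (t - p * s)) {ξ : V} (hξ : ξ ∈ N s) :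
    a • φ ξ ∈ Fr B p φ N t := Submodule.subset_span ⟨s, a, ha', ξ, hξ, rfl⟩

theorem Fr_isMod (B : Base k K) (φ : V → V) (N : Fam k V) : IsMod B.R (Fr B p φ N) := by
  intro s t a ha' v hv
  induction hv using Submodule.span_induction with
  | mem z hz =>
    obtain ⟨s', a', h1, ξ, hξ, rfl⟩ := hz
    rw [smul_smul]
    refine mem_Fr ?_ hξ
    have := B.mul _ _ _ ha' _ h1
    rwa [← add_sub_assoc] at this
  | zero => simp
  | add u v _ _ hu hv => rw [smul_add]; exact Submodule.add_mem _ hu hv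
  | smul c v _ hv => rw [A1_smul_comm]; exact Submodule.smul_mem _ _ hv

theorem Fr_mono {N N' : Fam k V} (h : N ≤ N') : Fr B p φ N ≤ Fr B p φ N' := by
  refine fun t => Submodule.span_mono ?_
  rintro _ ⟨s, a, ha', ξ, hξ, rfl⟩
  exact ⟨s, a, ha', ξ, h s hξ, rfl⟩

theorem IsFrob.smul_k (hφ : IsFrob K p φ) (c : k) (ξ : V) : φ (c • ξ) = c ^ p • φ ξ := by
  rw [← algebraMap_smul K c ξ, hφ.smul, ← map_pow, algebraMap_smul]

theorem RLoc_mul_pow {s s' t : ℤ} {a a' : K} (ha' : a ∈ B.R (t - p * s)) (h : a' ∈ B.R (s - s')) :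
    a * a' ^ p ∈ B.R (t - p * s') := by
  have := B.mul _ _ _ ha' _ (B.pow_mem h p)
  convert this using 2
  ring

theorem Fr_gen (hφ : IsFrob K p φ) {ι : Type} (w : ι → V) (b : ι → ℤ) :
    Fr B p φ (gen (AA k) w b) = gen B.R (fun i => φ (w i)) (fun i => p * b i) := by
  refine le_antisymm (fun t => Submodule.span_le.2 ?_) (gen_le (Fr_isMod B φ _) fun i => ?_)
  · rintro _ ⟨s, a, ha', ξ, hξ, rfl⟩
    induction hξ using Submodule.span_induction with
    | mem z hz =>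
      obtain ⟨i, a', h1, rfl⟩ := hz
      rw [← algebraMap_smul K a' (w i), hφ.smul, smul_smul]
      exact Submodule.subset_span ⟨i, _, RLoc_mul_pow ha' (B.A_le _ _ h1), rfl⟩
    | zero => rw [hφ.zero]; simp
    | add u v _ _ hu hv => rw [hφ.add, smul_add]; exact Submodule.add_mem _ hu hv
    | smul c v _ hv => rw [hφ.smul_k, A1_smul_comm]; exact Submodule.smul_mem _ _ hv
  · have := mem_Fr (B := B) (φ := φ) (p := p) (t := p * b i) (a := 1) (B.one_mem (by simp))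
      (mem_gen_self (S := AA k) (one_mem_AA le_rfl) w b i)
    rwa [one_smul] at this

theorem Fr_rlat (hφ : IsFrob K p φ) {N : Fam k V} (hN : IsLat N) : RLat B (Fr B p φ N) := by
  obtain ⟨m, w, b, rfl⟩ := hN
  rw [Fr_gen hφ]
  exact rlat_gen B _ _

theorem Fr_full (hφ : IsFrob K p φ) {N : Fam k V} (hN : IsLat N) (hF : Full N) :
    Full (Fr B p φ N) := by
  refine full_of_span (Fr_isMod B φ N) _ hφ.full ?_
  rintro _ ⟨ξ, rfl⟩
  obtain ⟨e, f, -, hf0, hfξ⟩ := mem_spanF_denom hN.isMod (ξ := ξ) (by rw [hF]; trivial) 0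
  have h1 := mem_Fr (B := B) (φ := φ) (p := p) (t := p * (0 + e)) (a := 1) (B.one_mem (by simp)) hfξ
  rw [one_smul, ← algebraMap_smul K f ξ, hφ.smul] at h1
  have h2 : algebraMap (KA k) K f ^ p ≠ 0 := pow_ne_zero _ (by simpa using hf0)
  have h3 := smul_mem_spanF (Fr_isMod B φ N) (algebraMap (KA k) K f ^ p)⁻¹ (A1_mem_spanF h1)
  rwa [smul_smul, inv_mul_cancel₀ h2, one_smul] at h3

theorem Fr_bot (hφ : IsFrob K p φ) : Fr B p φ (⊥ : Fam k V) = ⊥ := by
  refine eq_bot_iff.2 fun t => Submodule.span_le.2 ?_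
  rintro _ ⟨s, a, -, ξ, hξ, rfl⟩
  have : ξ = 0 := hξ
  rw [this, hφ.zero]
  simp

theorem Fr_R (B : Base k K) : Fr B p (fr1 p) B.R = B.R := by
  refine le_antisymm (fun t => Submodule.span_le.2 ?_) fun t a ha' => ?_
  · rintro _ ⟨s, a, ha', ξ, hξ, rfl⟩
    have := RLoc_mul_pow (s' := 0) ha' (by rwa [sub_zero])
    simpa [fr1] using this
  · have := mem_Fr (B := B) (φ := fr1 p) (p := p) (t := t) (s := 0) (a := a) (N := B.R)
      (by simpa using ha') (B.one_mem le_rfl)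
    simpa [fr1] using this

/-- for generators `w_i` of `N` and `M` large, `ℓ^M • w_i ∈ N' (b_i + M)`, so `ℓ^(pM) • φ w_i ∈ Fr N'`,
and `R t = ∑ ℓ^(pM) R (t - pM)` for `t` large (`AA_split_pow` on the generators of `R`) -/
theorem Fr_evLe (hφ : IsFrob K p φ) {N N' : Fam k V} (hN : IsLat N) (h : EvLe N N') :
    EvLe (Fr B p φ N) (Fr B p φ N') := by
  obtain ⟨t0, ht0⟩ := h
  have hM := Fr_isMod (p := p) B φ N'
  refine RLoc_evLe (Fr_rlat (B := B) hφ hN).1 hM fun ℓ hℓ t z hz => ?_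
  obtain ⟨ℓ', hℓ', rfl⟩ : ∃ ℓ' ∈ AA k 1, algebraMap (KA k) K ℓ' = ℓ := by
    rcases hℓ with rfl | rfl | rfl
    · exact ⟨1, one_mem_AA (by norm_num), map_one _⟩
    · exact ⟨_, xA_mem 0, rfl⟩
    · exact ⟨_, xA_mem 1, rfl⟩
  induction hz using Submodule.span_induction with
  | mem z hz =>
    obtain ⟨s, a, ha', ξ, hξ, rfl⟩ := hz
    obtain ⟨j, hj⟩ : ∃ j : ℕ, t0 ≤ j * 1 + s := ⟨(t0 - s).toNat, by omega⟩
    have h1 := ht0 _ hj (hN.isMod _ _ _ (AA_pow hℓ' j) _ hξ)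
    refine ⟨j * p, ?_⟩
    have h2 := mem_Fr (B := B) (φ := φ) (p := p) (t := t + (j * p : ℕ) * 1) (a := a)
      (by convert ha' using 2; push_cast; ring) h1
    rwa [← algebraMap_smul K (ℓ' ^ j) ξ, hφ.smul, smul_comm, map_pow, ← pow_mul] at h2
  | zero => exact LocM.zero _ _
  | add u v _ _ hu hv => exact LocM.add hM (B.A_le _ _ hℓ') hu hv
  | smul c v _ hv => exact LocM.smul_k c hv

theorem Fr_evEq (hφ : IsFrob K p φ) {N N' : Fam k V} (hN : IsLat N) (hN' : IsLat N')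
    (h : EvEq N N') : EvEq (Fr B p φ N) (Fr B p φ N') := by
  exact EvEq.of_le (Fr_evLe hφ hN h.evLe) (Fr_evLe hφ hN' h.symm.evLe)

theorem Fr_adjoin1 (hφ : IsFrob K p φ) (N' : Fam k V) (ξ : V) (b : ℤ) :
    Fr B p φ (adjoin1 B N' ξ b) = adjoin1 B (Fr B p φ N') (φ ξ) (p * b) := by
  refine le_antisymm (fun t => Submodule.span_le.2 ?_) fun t z hz => ?_
  · rintro _ ⟨s, a, ha', ζ, hζ, rfl⟩
    obtain ⟨η, hη, a', h1, rfl⟩ := mem_adjoin1.1 hζ
    rw [hφ.add, hφ.smul, smul_add, smul_smul]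
    exact mem_adjoin1.2 ⟨_, mem_Fr ha' hη, _, RLoc_mul_pow ha' h1, rfl⟩
  · obtain ⟨η, hη, a, h1, rfl⟩ := mem_adjoin1.1 hz
    refine Submodule.add_mem _ (Fr_mono (le_adjoin1 B N' ξ b) t hη) (mem_Fr h1 ?_)
    exact mem_adjoin1.2 ⟨0, Submodule.zero_mem _, 1, B.one_mem (by omega), by simp⟩

theorem FrI_zero {ρ : ℕ} (N : Fam k (Fin ρ → K)) : FrI B p 0 N = N := rfl

theorem FrI_succ {ρ : ℕ} (e : ℕ) (N : Fam k (Fin ρ → K)) :
    FrI B p (e + 1) N = Fr B p (frV p ρ) (FrI B p e N) := Function.iterate_succ_apply' _ _ _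

theorem FrI_add {ρ : ℕ} (e e' : ℕ) (N : Fam k (Fin ρ → K)) :
    FrI B p (e' + e) N = FrI B p e' (FrI B p e N) := Function.iterate_add_apply _ _ _ _

theorem FrI_rlat {ρ : ℕ} {N : Fam k (Fin ρ → K)} (hN : RLat B N) (e : ℕ) :
    RLat B (FrI B p e N) := by
  induction e with
  | zero => exact hN
  | succ e ih => rw [FrI_succ]; exact Fr_rlat (isFrob_frV ρ) ih.1

theorem FrI_full {ρ : ℕ} {N : Fam k (Fin ρ → K)} (hN : RLat B N) (hF : Full N) (e : ℕ) :
    Full (FrI B p e N) := by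
  induction e with
  | zero => exact hF
  | succ e ih => rw [FrI_succ]; exact Fr_full (isFrob_frV ρ) (FrI_rlat hN e).1 ih

end fr

end Crest.Agent.R169
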