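import Crest.Agent.R169.RCart1
import Crest.Agent.R169.RDual

/-! # R169 task RNorm: `R` and its height one primes are reflexive off the vertex -/

set_option autoImplicit false
set_option linter.unusedSectionVars false

namespace Crest.Agent.R169
open Module

variable {k K : Type} [Field k] [Field K] [Algebra k K] [Algebra (KA k) K]
  [IsScalarTower k (KA k) K]

variable {p : ℕ} [Fact p.Prime] [CharP K p]

variable (S : Setup k K p)

theorem Norm_deg_pow {f : P2 k} (hf0 : f ≠ 0) (n : ℕ) :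
    (f ^ n).totalDegree = n * f.totalDegree := by
  induction n with
  | zero => simp
  | succ n ih =>
    rw [pow_succ, MvPolynomial.totalDegree_mul_of_isDomain (pow_ne_zero _ hf0) hf0, ih]
    ring

theorem Norm_of_mem {B : Base k K} {g : K} {c d : ℤ} {a : K} (h : a ∈ B.R d) : a ∈ Loc B g c d :=
  LocM.of_mem (N := B.R) (g := g) (c := c) h

/-- the coordinate ring of a chart -/
def Norm_B0 (α : Fin S.nα) : Subring K where
  carrier := Loc S.toBase (S.g α) S.c 0
  mul_mem' := fun {a b} ha hb => by simpa using Loc.mul ha hb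
  one_mem' := Norm_of_mem (S.toBase.one_mem le_rfl)
  add_mem' := fun {a b} ha hb =>
    LocM.add (B := S.toBase) (N := S.R) S.toBase.isMod (S.g_mem α) ha hb
  zero_mem' := LocM.zero (g := S.g α) (c := S.c) S.R 0
  neg_mem' := fun {a} ha => by
    have := LocM.smul_k (N := S.R) (g := S.g α) (c := S.c) (-1 : k) ha
    rwa [neg_smul, one_smul] at this

/-- the conductor on a chart -/
def Norm_C0 (R' : Fam k K) (α : Fin S.nα) : Ideal (Norm_B0 S α) where
  carrier := {a | ∀ s, ∀ η ∈ R' s, (a : K) * η ∈ Loc S.toBase (S.g α) S.c s}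
  add_mem' := fun {a b} ha hb s η hη => by
    have := LocM.add (B := S.toBase) (N := S.R) S.toBase.isMod (S.g_mem α) (ha s η hη) (hb s η hη)
    rw [← add_mul] at this
    exact this
  zero_mem' := fun s η _ => by
    have := LocM.zero (g := S.g α) (c := S.c) S.R s
    rw [Subring.coe_zero, zero_mul]
    exact this
  smul_mem' := fun c a ha s η hη => by
    have := Loc.mul (s := 0) c.2 (ha s η hη)
    rw [zero_add, ← mul_assoc] at this
    exact this

/-- the global conductor -/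
def Norm_C (R' : Fam k K) : Fam k K := fun t =>
  { carrier := {a | a ∈ S.R t ∧ ∀ s, ∀ η ∈ R' s, a * η ∈ S.R (s + t)}
    add_mem' := fun {a b} ha hb => ⟨Submodule.add_mem _ ha.1 hb.1, fun s η hη => by
      rw [add_mul]; exact Submodule.add_mem _ (ha.2 s η hη) (hb.2 s η hη)⟩
    zero_mem' := ⟨Submodule.zero_mem _, fun s η _ => by simp⟩
    smul_mem' := fun c a ha => ⟨Submodule.smul_mem _ _ ha.1, fun s η hη => by
      rw [smul_mul_assoc]; exact Submodule.smul_mem _ _ (ha.2 s η hη)⟩ }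

theorem Norm_C_lat (R' : Fam k K) : IsLat (Norm_C S R') := by
  refine (S.toBase.rlat.sub (M := Norm_C S R')
    (fun s t a ha c hc => ⟨S.mul _ _ _ ha _ hc.1, fun u η hη => ?_⟩) (fun t a ha => ha.1)).1
  have := S.mul _ _ _ ha _ (hc.2 u η hη)
  rw [smul_eq_mul, mul_assoc, show u + (s + t) = s + (u + t) by ring]
  exact this

theorem Norm_fg {R' : Fam k K} (hR' : IsLat R') (α : Fin S.nα) : (Norm_C0 S R' α).FG := by
  classical
  obtain ⟨m, κ, b, hC⟩ := Norm_C_lat S R'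
  obtain ⟨m', w, b', hw⟩ := hR'
  have hκ : ∀ i, κ i ∈ Norm_C S R' (b i) := fun i => by
    rw [hC]; exact mem_gen_self (S := AA k) (one_mem_AA le_rfl) κ b i
  have hwm : ∀ i, w i ∈ R' (b' i) := fun i => by
    rw [hw]; exact mem_gen_self (S := AA k) (one_mem_AA le_rfl) w b' i
  have hmem : ∀ i, κ i * S.τ α ^ (-b i) ∈ Norm_B0 S α := fun i => by
    have := Loc.mul (Norm_of_mem (hκ i).1) (S.τ_zpow α (-b i))
    rwa [add_neg_cancel] at this
  refine ⟨Finset.univ.image fun i => (⟨_, hmem i⟩ : Norm_B0 S α), le_antisymm ?_ ?_⟩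
  · rw [Ideal.span_le]
    intro a ha
    obtain ⟨i, -, rfl⟩ := Finset.mem_image.1 ha
    intro s η hη
    have := Loc.mul (Norm_of_mem ((hκ i).2 s η hη)) (S.τ_zpow α (-b i))
    rw [add_neg_cancel_right] at this
    show κ i * S.τ α ^ (-b i) * η ∈ _
    rw [mul_right_comm]; exact this
  · intro a ha
    obtain ⟨J, hJ⟩ := LocM.uniform (B := S.toBase) (N := S.R) S.toBase.isMod (S.g_mem α)
      (ι := Option (Fin m')) (ξ := fun i => i.elim (a : K) fun i => a * w i)
      (d := fun i => i.elim 0 b') (by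
        rintro (_ | i)
        · exact a.2
        · exact ha _ _ (hwm i))
    have h1 : S.g α ^ J * a ∈ Norm_C S R' (J * S.c) := by
      refine ⟨by simpa using hJ none, fun s η hη => ?_⟩
      rw [hw] at hη
      obtain ⟨f, hf, rfl⟩ := mem_gen.1 hη
      rw [Finset.mul_sum]
      refine Submodule.sum_mem _ fun i _ => ?_
      have h2 := S.lat.isMod _ _ _ (hf i) _ (hJ (some i))
      simp only [Option.elim, smul_eq_mul] at h2
      rw [show s - b' i + (b' i + J * S.c) = s + J * S.c by ring] at h2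
      rw [mul_smul_comm, mul_assoc]
      exact h2
    rw [hC] at h1
    obtain ⟨f, hf, he⟩ := mem_gen.1 h1
    have hgJ : S.g α ^ J ≠ 0 := pow_ne_zero _ (S.g_ne α)
    have hco : ∀ i, (S.g α ^ J)⁻¹ * (algebraMap (KA k) K (f i) * S.τ α ^ b i) ∈ Norm_B0 S α := by
      intro i
      refine LocM.of_pow_smul (N := S.R) (g := S.g α) (c := S.c) J ?_
      have := Loc.mul (Norm_of_mem (S.A_le _ _ (hf i))) (S.τ_zpow α (b i))
      rw [smul_eq_mul, ← mul_assoc, mul_inv_cancel₀ hgJ, one_mul, zero_add]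
      rw [sub_add_cancel] at this
      exact this
    have ha' : a = ∑ i, (⟨_, hco i⟩ : Norm_B0 S α) * ⟨_, hmem i⟩ := by
      apply Subtype.ext
      apply mul_left_cancel₀ hgJ
      rw [he, AddSubmonoidClass.coe_finsetSum, Finset.mul_sum]
      refine Finset.sum_congr rfl fun i _ => ?_
      have hτ : S.τ α ^ b i ≠ 0 := zpow_ne_zero _ (S.τ_ne α)
      simp only [Subring.coe_mul, Algebra.smul_def, zpow_neg]
      field_simp
    rw [ha']
    refine Ideal.sum_mem _ fun i _ => Ideal.mul_mem_left _ _ (Ideal.subset_span ?_)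
    exact Finset.mem_coe.2 (Finset.mem_image.2 ⟨i, Finset.mem_univ _, rfl⟩)

/-- Normality of the charts.  Fix `α`, `B₀ = Loc 0` (a `Subring K`), and the ideal
`C₀ = {a ∈ B₀ | ∀ s, η ∈ R' s, a η ∈ Loc s}`.  `C₀ ≠ 0` (`IsLat.denom`, times `τ^(-e)`).  `C₀` is finitely
generated by `κ_i τ^(-b_i)`, `κ_i` the generators of the lattice
`C t = {a ∈ R t | ∀ s, η ∈ R' s, a η ∈ R (s+t)}` (`g^J a ∈ C (Jc)` by `LocM.uniform` on generators of `R'`).
`C₀ ≤ C₀²`: `a = ∑ c^p bas α 0`, `a η^p ∈ Loc (ps)` has coordinates `c η ∈ Loc s` (`bas_loc`), so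
`c ∈ C₀`.  Nakayama (`Submodule.exists_sub_one_mem_and_smul_eq_zero_of_fg_of_le_smul`) in the domain
`B₀` gives `1 ∈ C₀`.  Conclude by `Setup.evLe`. -/
theorem Setup.normal {R' : Fam k K} (hR' : RLat S.toBase R')
    (hpow : ∀ s, ∀ η ∈ R' s, η ^ p ∈ R' (p * s)) : EvLe R' S.R := by
  refine S.evLe hR'.1 S.toBase.isMod fun α t ξ hξ => ?_
  have hp2 : 2 ≤ p := (Fact.out : p.Prime).two_le
  have hle : Norm_C0 S R' α ≤ Norm_C0 S R' α • Norm_C0 S R' α := by
    intro a ha
    obtain ⟨c, hc⟩ := S.bas_span α 0 (a : K)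
    have hc0 : ∀ ij, c ij ∈ Norm_B0 S α := fun ij =>
      S.bas_loc α (s := 0) (t := 0) (by simpa using a.2) hc ij
    have hcI : ∀ ij, (⟨c ij, hc0 ij⟩ : Norm_B0 S α) ∈ Norm_C0 S R' α := by
      intro ij s η hη
      refine S.bas_loc α (s := s) (t := 0) (a := a * η ^ p) (c := fun ij => c ij * η) ?_ ?_ ij
      · rw [add_zero]; exact ha _ _ (hpow s η hη)
      · conv_lhs => rw [hc]
        rw [Finset.sum_mul]
        exact Finset.sum_congr rfl fun ij _ => by ring
    have hb : ∀ ij, bas S α 0 ij ∈ Norm_B0 S α := fun ij => S.bas_mem α 0 ij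
    have ha' : a = ∑ ij, (⟨c ij, hc0 ij⟩ : Norm_B0 S α) •
        ((⟨c ij, hc0 ij⟩ : Norm_B0 S α) * (⟨c ij, hc0 ij⟩ ^ (p - 2) * ⟨_, hb ij⟩)) := by
      apply Subtype.ext
      rw [AddSubmonoidClass.coe_finsetSum]
      conv_lhs => rw [hc]
      refine Finset.sum_congr rfl fun ij _ => ?_
      obtain ⟨q, hq⟩ := Nat.exists_eq_add_of_le hp2
      have hq' : p - 2 = q := by omega
      simp only [smul_eq_mul, Subring.coe_mul, Subring.coe_pow, hq']
      conv_lhs => rw [show c ij ^ p = c ij ^ (2 + q) by rw [← hq]]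
      ring
    rw [ha']
    exact Submodule.sum_mem _ fun ij _ =>
      Submodule.smul_mem_smul (hcI ij) (Ideal.mul_mem_right _ _ (hcI ij))
  obtain ⟨r, hr, hr0⟩ := Submodule.exists_sub_one_mem_and_smul_eq_zero_of_fg_of_le_smul
    (Norm_C0 S R' α) (Norm_C0 S R' α) (Norm_fg S hR'.1 α) hle
  obtain ⟨e, f, hf, hf0, hfa⟩ := hR'.1.denom S.lat.isMod (by rw [S.full]; exact le_top)
  have hmem : algebraMap (KA k) K f * S.τ α ^ (-e) ∈ Norm_B0 S α := by
    have := Loc.mul (Norm_of_mem (S.A_le _ _ hf)) (S.τ_zpow α (-e))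
    rwa [add_neg_cancel] at this
  have hI : (⟨_, hmem⟩ : Norm_B0 S α) ∈ Norm_C0 S R' α := by
    intro s η hη
    have := Loc.mul (Norm_of_mem (hfa s η hη)) (S.τ_zpow α (-e))
    rw [add_neg_cancel_right, Algebra.smul_def] at this
    show algebraMap (KA k) K f * S.τ α ^ (-e) * η ∈ _
    rw [mul_right_comm]; exact this
  have hne : (⟨_, hmem⟩ : Norm_B0 S α) ≠ 0 := fun h => by
    have h' : algebraMap (KA k) K f * S.τ α ^ (-e) = 0 := congrArg Subtype.val h
    exact mul_ne_zero ((map_ne_zero _).2 hf0) (zpow_ne_zero _ (S.τ_ne α)) h'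
  have hr' : r = 0 := (mul_eq_zero.1 (hr0 _ hI)).resolve_right hne
  rw [hr', zero_sub] at hr
  have h1 : (1 : Norm_B0 S α) ∈ Norm_C0 S R' α := by simpa using (Norm_C0 S R' α).neg_mem hr
  have h2 := h1 t ξ hξ
  rw [Subring.coe_one, one_mul] at h2
  exact h2

/-- `R' = R^∨∨`: `f η, g η ∈ R` (`cop_dual_dual`) gives `f^p η^p, g^p η^p ∈ R ≤ R'`, `dual_sat` -/
theorem Setup.refl_R {lam : K →ₗ[KA k] KA k} (hl : lam ≠ 0) :
    EvEq (dual (pair1 lam) (dual (pair1 lam) S.R)) S.R := by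
  obtain ⟨h1, h2⟩ := dual1_rlat hl S.toBase.rlat S.full
  obtain ⟨h3, -⟩ := dual1_rlat hl h1 h2
  have hle : S.R ≤ dual (pair1 lam) (dual (pair1 lam) S.R) := by
    have := le_dual_dual (pair1 lam) S.R
    rwa [pair1_flip] at this
  have hcop := cop_dual_dual (perfect_pair1 S.toBase hl) S.lat S.full
  rw [pair1_flip] at hcop
  refine EvEq.of_le (S.normal h3 fun s η hη => ?_) ⟨0, fun t _ => hle t⟩
  obtain ⟨f, g, e, hf0, hfg, -, hf, hg⟩ := hcop s η hη
  refine dual_sat _ _ (f := f ^ p) (g := g ^ p) (s := p * (s + e)) (pow_ne_zero _ hf0)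
    (IsRelPrime.pow hfg) (hle _ ?_) (hle _ ?_)
  · have := S.toBase.pow_mem hf p
    rw [smul_pow, ← map_pow] at this
    rw [Norm_deg_pow hf0]
    convert this using 2
    push_cast; ring
  · have := S.toBase.pow_mem hg p
    rwa [smul_pow, ← map_pow] at this

/-- for `t` large `a ∈ 𝔭^∨∨ t ≤ R^∨∨ t = R t` has `f a, g a ∈ 𝔭`; if `a ∉ 𝔭` then `f, g ∈ 𝔭`, so
`Cop R 𝔭` and `hb 𝔭 = hb R` -/
theorem Setup.refl_prime {lam : K →ₗ[KA k] KA k} (hl : lam ≠ 0) {𝔭 : Fam k K}
    (h : IsPrimeFam S.toBase 𝔭) (h0 : 𝔭 ≠ ⊥) (hne : hb 𝔭 ≠ hb S.R) :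
    EvEq (dual (pair1 lam) (dual (pair1 lam) 𝔭)) 𝔭 := by
  have hpl : RLat S.toBase 𝔭 := S.toBase.rlat.sub h.mod h.le
  have hle : 𝔭 ≤ dual (pair1 lam) (dual (pair1 lam) 𝔭) := by
    have := le_dual_dual (pair1 lam) 𝔭
    rwa [pair1_flip] at this
  have hcop := cop_dual_dual (perfect_pair1 S.toBase hl) hpl.1 (full_of_ne_bot h.mod h0)
  rw [pair1_flip] at hcop
  obtain ⟨t0, ht0⟩ := S.refl_R hl
  refine EvEq.of_le ⟨t0, fun t ht a ha => ?_⟩ ⟨0, fun t _ => hle t⟩
  have haR : a ∈ S.R t := by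
    rw [← ht0 t ht]
    exact dual_anti _ (dual_anti _ h.le) t ha
  by_contra hn
  obtain ⟨f, g, e, hf0, hfg, hge, hf, hg⟩ := hcop t a ha
  have hfR := S.A_le _ _ (poly_mem_AA f)
  have hgR := S.A_le _ _ (AA_mono hge (poly_mem_AA g))
  rw [Algebra.smul_def, add_comm] at hf hg
  have hf' := (h.prime _ _ _ hfR _ haR hf).resolve_right hn
  have hg' := (h.prime _ _ _ hgR _ haR hg).resolve_right hn
  refine hne (Cop.coeffs hpl.1 S.lat h.le fun u ξ hξ => ⟨f, g, e, hf0, hfg, hge, ?_, ?_⟩).2.1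
  · have := h.mod _ _ _ hξ _ hf'
    rwa [smul_eq_mul, mul_comm, ← Algebra.smul_def] at this
  · have := h.mod _ _ _ hξ _ hg'
    rwa [smul_eq_mul, mul_comm, ← Algebra.smul_def] at this

end Crest.Agent.R169
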