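import Crest.Agent.R169.RFS

/-! # R169 task RProp: instability of Frobenius pull-backs is bounded -/

set_option autoImplicit false
set_option linter.unusedSectionVars false

namespace Crest.Agent.R169
open Module

/-- a reduced echelon basis -/
theorem exists_echelon {F : Type} [Field F] {ρ : ℕ} (W : Submodule F (Fin ρ → F)) :
    ∃ (d : ℕ) (I : Fin d → Fin ρ) (w : Fin d → Fin ρ → F), finrank F W = d ∧
      (∀ i j, w i (I j) = if i = j then 1 else 0) ∧ W = Submodule.span F (Set.range w) := by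
  classical
  let φ : Fin ρ → Module.Dual F W := fun j => (LinearMap.proj j).comp W.subtype
  obtain ⟨κ, a, ha, hsp, hli⟩ := exists_linearIndependent' F φ
  haveI : Finite κ := Finite.of_injective a ha
  haveI : Fintype κ := Fintype.ofFinite κ
  let π : W →ₗ[F] (κ → F) := LinearMap.pi fun j => φ (a j)
  have hinj : Function.Injective π := by
    rw [← LinearMap.ker_eq_bot, eq_bot_iff]
    intro x hx
    have h1 : ∀ ψ ∈ Submodule.span F (Set.range (φ ∘ a)), ψ x = 0 := by
      intro ψ hψ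
      induction hψ using Submodule.span_induction with
      | mem ψ h => obtain ⟨j, rfl⟩ := h; exact congrFun hx j
      | zero => rfl
      | add u v _ _ hu hv => rw [LinearMap.add_apply, hu, hv, add_zero]
      | smul c u _ hu => rw [LinearMap.smul_apply, hu, smul_zero]
    rw [hsp] at h1
    apply Subtype.ext
    funext j
    exact h1 _ (Submodule.subset_span ⟨j, rfl⟩)
  have h1 : Fintype.card κ ≤ finrank F W := by
    have := hli.fintype_card_le_finrank
    rwa [Subspace.dual_finrank_eq] at this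
  have h2 : finrank F W ≤ Fintype.card κ := by
    have := LinearMap.finrank_le_finrank_of_injective hinj
    rwa [Module.finrank_fintype_fun_eq_card] at this
  have hsurj : Function.Surjective π :=
    (LinearMap.injective_iff_surjective_of_finrank_eq_finrank
      (by rw [Module.finrank_fintype_fun_eq_card]; omega)).1 hinj
  choose u hu using fun i : κ => hsurj (Pi.single i 1)
  let e := (Fintype.equivFin κ).symm
  have hδ : ∀ i j, (u (e i) : Fin ρ → F) (a (e j)) = if i = j then 1 else 0 := by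
    intro i j
    have := congrFun (hu (e i)) (e j)
    rw [Pi.single_apply] at this
    simp only [e.apply_eq_iff_eq, eq_comm (a := j)] at this
    exact this
  refine ⟨Fintype.card κ, fun j => a (e j), fun i => u (e i), by omega, hδ, le_antisymm ?_ ?_⟩
  · intro x hx
    have : (⟨x, hx⟩ : W) = ∑ i, x (a (e i)) • u (e i) := by
      apply hinj
      rw [map_sum]
      funext j
      obtain ⟨j, rfl⟩ := e.surjective j
      simp only [map_smul, hu, Finset.sum_apply, Pi.smul_apply, Pi.single_apply,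
        e.apply_eq_iff_eq, smul_eq_mul, mul_ite, mul_one, mul_zero, Finset.sum_ite_eq,
        Finset.mem_univ, if_true]
      rfl
    have h3 := congrArg Subtype.val this
    simp only [AddSubmonoidClass.coe_finsetSum, SetLike.val_smul] at h3
    rw [h3]
    exact Submodule.sum_mem _ fun i _ => Submodule.smul_mem _ _ (Submodule.subset_span ⟨i, rfl⟩)
  · rw [Submodule.span_le]
    rintro _ ⟨i, rfl⟩
    exact (u (e i)).2

theorem Prop_li {F : Type} [Field F] {ρ d : ℕ} {I : Fin d → Fin ρ} {w : Fin d → Fin ρ → F}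
    (h : ∀ i j, w i (I j) = if i = j then 1 else 0) : LinearIndependent F w := by
  rw [Fintype.linearIndependent_iff]
  intro c hc j
  have := congrFun hc (I j)
  simpa [Finset.sum_apply, h] using this

theorem Prop_zero {F : Type} [Field F] {ρ d : ℕ} {I : Fin d → Fin ρ} {w : Fin d → Fin ρ → F}
    (h : ∀ i j, w i (I j) = if i = j then 1 else 0) {x : Fin ρ → F}
    (hx : x ∈ Submodule.span F (Set.range w)) (h0 : ∀ j, x (I j) = 0) : x = 0 := by
  obtain ⟨c, rfl⟩ := (Submodule.mem_span_range_iff_exists_fun F).1 hx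
  have : ∀ j, c j = 0 := fun j => by simpa [Finset.sum_apply, h] using h0 j
  simp [this]

theorem Prop_rn {F V V' : Type} [Field F] [AddCommGroup V] [Module F V] [AddCommGroup V']
    [Module F V'] (g : V →ₗ[F] V') (A : Submodule F V) [FiniteDimensional F A] :
    finrank F A = finrank F (A ⊓ LinearMap.ker g : Submodule F V) + finrank F (A.map g) := by
  have h := LinearMap.finrank_range_add_finrank_ker (g.domRestrict A)
  rw [LinearMap.range_domRestrict, LinearMap.ker_domRestrict,
    ← Submodule.finrank_map_subtype_eq A, Submodule.map_comap_subtype] at h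
  omega

variable {k K : Type} [Field k] [Field K] [Algebra k K] [Algebra (KA k) K]
  [IsScalarTower k (KA k) K]

variable {p : ℕ} [Fact p.Prime] [CharP K p]

theorem FrW_span {ρ : ℕ} {ι : Type} (w : ι → Fin ρ → K) :
    FrW p (Submodule.span K (Set.range w)) =
      Submodule.span K (Set.range fun i => frV p ρ (w i)) := by
  refine le_antisymm (Submodule.span_le.2 ?_) (Submodule.span_mono ?_)
  · rintro _ ⟨x, hx, rfl⟩
    induction hx using Submodule.span_induction with
    | mem x h => obtain ⟨i, rfl⟩ := h; exact Submodule.subset_span ⟨i, rfl⟩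
    | zero => rw [(isFrob_frV ρ).zero]; exact Submodule.zero_mem _
    | add u v _ _ hu hv => rw [(isFrob_frV ρ).add]; exact Submodule.add_mem _ hu hv
    | smul c u _ hu => rw [(isFrob_frV ρ).smul]; exact Submodule.smul_mem _ _ hu
  · rintro _ ⟨i, rfl⟩
    exact ⟨w i, Submodule.subset_span ⟨i, rfl⟩, rfl⟩

theorem finrank_FrW {ρ : ℕ} (W : Submodule K (Fin ρ → K)) :
    finrank K (FrW p W) = finrank K W := by
  obtain ⟨d, I, w, hd, hδ, rfl⟩ := exists_echelon W
  have hp0 : p ≠ 0 := (Fact.out : p.Prime).ne_zero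
  rw [FrW_span, hd, finrank_span_eq_card (Prop_li (I := I) fun i j => ?_), Fintype.card_fin]
  simp only [frV, hδ]
  split_ifs <;> simp [hp0]

variable (S : Setup k K p)

/-- Cartier descent: `D w_i ∈ W` vanishes at the pivots, so it is `0`; `exists_pow_of_D` -/
theorem Setup.descent {ρ : ℕ} (W : Submodule K (Fin ρ → K))
    (h : ∀ i, ∀ w ∈ W, DV (S.D i) w ∈ W) : ∃ W', W = FrW p W' := by
  obtain ⟨d, I, w, hd, hδ, hW⟩ := exists_echelon W
  have h0 : ∀ i l, DV (S.D i) (w l) = 0 := fun i l => by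
    refine Prop_zero hδ (hW ▸ h i _ (hW ▸ Submodule.subset_span ⟨l, rfl⟩)) fun j => ?_
    simp only [DV, hδ]
    split_ifs <;> simp
  choose b hb using fun l m => S.exists_pow_of_D (a := w l m) (congrFun (h0 0 l) m)
    (congrFun (h0 1 l) m)
  refine ⟨Submodule.span K (Set.range b), ?_⟩
  rw [FrW_span, hW]
  congr 2
  funext l m
  exact hb l m

/-- `DV` as a `k`-linear map -/
noncomputable def Prop_DV (D : Derivation k K K) (ρ : ℕ) : (Fin ρ → K) →ₗ[k] (Fin ρ → K) :=
  D.toLinearMap.compLeft (Fin ρ)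

theorem Prop_DV_apply (D : Derivation k K K) {ρ : ℕ} (ξ : Fin ρ → K) :
    Prop_DV D ρ ξ = DV D ξ := rfl

theorem Prop_DV_smul (D : Derivation k K K) {ρ : ℕ} (c : K) (ξ : Fin ρ → K) :
    DV D (c • ξ) = c • DV D ξ + D c • ξ := by
  funext i
  simp [DV, mul_comm]

theorem Prop_DV_fr (D : Derivation k K K) {ρ : ℕ} (ξ : Fin ρ → K) : DV D (frV p ρ ξ) = 0 := by
  funext i
  simp [DV, frV, Derivation.leibniz_pow]

theorem Setup.DV_mem {ρ : ℕ} (N : Fam k (Fin ρ → K)) (i : Fin 2) (t : ℤ) :
    ∀ ξ ∈ Fr S.toBase p (frV p ρ) N t, DV (S.D i) ξ ∈ Fr S.toBase p (frV p ρ) N (t + S.c') := by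
  intro ξ hξ
  rw [← Prop_DV_apply]
  induction hξ using Submodule.span_induction with
  | mem z h =>
    obtain ⟨s, a, ha', η, hη, rfl⟩ := h
    rw [Prop_DV_apply, Prop_DV_smul, Prop_DV_fr, smul_zero, zero_add]
    refine mem_Fr ?_ hη
    have := S.D_mem i _ _ ha'
    rwa [show t - p * s + S.c' = t + S.c' - p * s by ring] at this
  | zero => rw [map_zero]; exact Submodule.zero_mem _
  | add u v _ _ hu hv => rw [map_add]; exact Submodule.add_mem _ hu hv
  | smul c u _ hu => rw [map_smul]; exact Submodule.smul_mem _ _ hu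

/-- `Λ : W → V/W`, `w ↦ D w` is `K`-linear; `W₀ = ker Λ`, `W₁/W = range Λ`.  `D` induces injections
`cut W t / cut W₀ t → cut W₁ (t+c') / cut W (t+c')`; compare coefficients (`HasHP.le`, `ha_cut`). -/
theorem Setup.D_step {ρ : ℕ} {N : Fam k (Fin ρ → K)} (hN : RLat S.toBase N) (hF : Full N)
    (W : Submodule K (Fin ρ → K)) (i : Fin 2) : ∃ W₀ W₁ : Submodule K (Fin ρ → K),
      W ≤ W₁ ∧ (∀ w ∈ W, DV (S.D i) w ∈ W₁) ∧ finrank K W₀ + finrank K W₁ = 2 * finrank K W ∧
      2 * dd S (cut (Fr S.toBase p (frV p ρ) N) W) ≤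
        dd S (cut (Fr S.toBase p (frV p ρ) N) W₀) + dd S (cut (Fr S.toBase p (frV p ρ) N) W₁) +
          ρ * S.c' * rk k K := by
  let Λ : W →ₗ[K] ((Fin ρ → K) ⧸ W) :=
    { toFun := fun w => W.mkQ (DV (S.D i) w)
      map_add' := fun a b => by
        rw [← map_add, Submodule.coe_add, ← Prop_DV_apply, map_add (Prop_DV _ _)]; rfl
      map_smul' := fun c a => by
        rw [Submodule.coe_smul, Prop_DV_smul, map_add, map_smul, map_smul,
          show W.mkQ a = 0 from (Submodule.Quotient.mk_eq_zero W).2 a.2, smul_zero, add_zero]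
        rfl }
  set W₀ := (LinearMap.ker Λ).map W.subtype with hW₀
  set W₁ := (LinearMap.range Λ).comap W.mkQ with hW₁
  have hle : W ≤ W₁ := fun w hw => by
    rw [hW₁, Submodule.mem_comap, show W.mkQ w = 0 from (Submodule.Quotient.mk_eq_zero W).2 hw]
    exact Submodule.zero_mem _
  have hD : ∀ w ∈ W, DV (S.D i) w ∈ W₁ := fun w hw => ⟨⟨w, hw⟩, rfl⟩
  have h0 : ∀ w ∈ W, DV (S.D i) w ∈ W → w ∈ W₀ := fun w hw hw' =>
    ⟨⟨w, hw⟩, (Submodule.Quotient.mk_eq_zero W).2 hw', rfl⟩
  have hdim : finrank K W₀ + finrank K W₁ = 2 * finrank K W := by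
    have e1 := LinearMap.finrank_range_add_finrank_ker Λ
    have e2 := Prop_rn W.mkQ W₁
    rw [Submodule.ker_mkQ, inf_eq_right.2 hle, hW₁, Submodule.map_comap_eq_of_surjective
      (Submodule.mkQ_surjective W), ← hW₁] at e2
    have e3 : finrank K W₀ = finrank K (LinearMap.ker Λ) := Submodule.finrank_map_subtype_eq _ _
    omega
  refine ⟨W₀, W₁, hle, hD, hdim, ?_⟩
  set M := Fr S.toBase p (frV p ρ) N with hM
  have hMl : RLat S.toBase M := Fr_rlat (isFrob_frV ρ) hN.1
  have hMF : Full M := Fr_full (isFrob_frV ρ) hN.1 hF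
  have H := ((hMl.cut W).1.hasHP.sub (hMl.cut W₀).1.hasHP).le
    (((hMl.cut W₁).1.hasHP.sub (hMl.cut W).1.hasHP).shift S.c') ⟨0, fun t _ => by
      haveI := (hMl.cut W).1.fin t
      haveI := (hMl.cut W₀).1.fin t
      haveI := (hMl.cut W₁).1.fin (t + S.c')
      exact Psi1_dim (Prop_DV (S.D i) ρ) (A := cut M W t) (A' := cut M W₀ t)
        (B := cut M W₁ (t + S.c')) (B' := cut M W (t + S.c'))
        (fun v hv => ⟨hv.1, hle hv.2⟩)
        (fun v hv => ⟨S.DV_mem N i t v hv.1, hD v hv.2⟩)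
        (fun v hv hv' => ⟨hv.1, h0 v hv.2 hv'.2⟩)⟩
  have a1 := hMl.ha_cut hMF W
  have a0 := hMl.ha_cut hMF W₀
  have a2 := hMl.ha_cut hMF W₁
  have hdim' : (finrank K W₀ : ℚ) + finrank K W₁ = 2 * finrank K W := by exact_mod_cast hdim
  have hsum : ha (cut M W) - ha (cut M W₀) = ha (cut M W₁) - ha (cut M W) := by
    rw [a1, a0, a2]; linear_combination (-(rk k K) / 2) * hdim'
  have H2 := H.2.1 hsum
  have hρ : (finrank K W₁ : ℚ) ≤ ρ := by
    have := Submodule.finrank_le W₁
    rw [Module.finrank_fin_fun] at this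
    exact_mod_cast this
  have hr := S.toBase.rk_pos
  have hW0 : (0 : ℚ) ≤ finrank K W := Nat.cast_nonneg _
  have hc0 : (0 : ℚ) ≤ S.c' := Nat.cast_nonneg _
  have hb1 : 2 * (ha (cut M W₁) - ha (cut M W)) * ((S.c' : ℤ) : ℚ) ≤ ρ * S.c' * rk k K := by
    rw [a2, a1, Int.cast_natCast]
    have : 0 ≤ (ρ - (finrank K W₁ - finrank K W : ℚ)) * (S.c' * rk k K) :=
      mul_nonneg (by linarith) (mul_nonneg hc0 (by linarith))
    nlinarith
  unfold dd
  have : (ha (cut M W) - ha (cut M W₀)) * S.κ = (ha (cut M W₁) - ha (cut M W)) * S.κ := by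
    rw [hsum]
  linarith

/-- `f W = dd (cut (Fr N) W) - p a dim W` attains a maximum `M` (`hb_bdd`, `int_hb`: for each dimension
the values lie in a coset of `ℤ`).  With `δ = M - f`, `C = ρ c' r`: `D_step` gives
`δ W₁ + C ≤ 2 (δ W + C)`, and `W < W₁` unless `W` is `D i`-stable.  By induction on the codimension
every `W` lies in a stable `W̃` with `δ W̃ + C ≤ 2^(codim W) (δ W + C)`; `f W̃ ≤ p b` by `descent`,
`cut_FrW`, `finrank_FrW`. -/
theorem Setup.bound_step {ρ : ℕ} {N : Fam k (Fin ρ → K)} (hN : RLat S.toBase N) (hF : Full N)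
    {a b : ℚ} (h : ∀ W : Submodule K (Fin ρ → K), dd S (cut N W) ≤ a * finrank K W + b)
    (W : Submodule K (Fin ρ → K)) : dd S (cut (Fr S.toBase p (frV p ρ) N) W) ≤
      p * a * finrank K W + p * b + 2 ^ ρ * ρ * S.c' * rk k K := by
  set M := Fr S.toBase p (frV p ρ) N with hM
  have hMl : RLat S.toBase M := Fr_rlat (isFrob_frV ρ) hN.1
  have hMF : Full M := Fr_full (isFrob_frV ρ) hN.1 hF
  set f : Submodule K (Fin ρ → K) → ℚ := fun U => dd S (cut M U) - p * a * finrank K U with hf'
  set C : ℚ := ρ * S.c' * rk k K with hC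
  have hr := S.toBase.rk_pos
  have hC0 : 0 ≤ C := mul_nonneg (mul_nonneg (Nat.cast_nonneg _) (Nat.cast_nonneg _)) (by linarith)
  have hdimρ : ∀ U : Submodule K (Fin ρ → K), finrank K U ≤ ρ := fun U => by
    have := Submodule.finrank_le U
    rwa [Module.finrank_fin_fun] at this
  -- the maximum is attained
  obtain ⟨Ws, hWs⟩ : ∃ Ws, ∀ U, f U ≤ f Ws := by
    obtain ⟨C0, hC0'⟩ := hMl.1.hb_bdd
    have hq : (0 : ℚ) < 2 * a.den := by positivity
    have hint : ∀ U, ∃ z : ℤ, (z : ℚ) = 2 * a.den * f U := fun U => by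
      obtain ⟨z, hz⟩ := (hMl.cut U).1.int_hb
      have a1 := hMl.ha_cut hMF U
      refine ⟨2 * a.den * z + a.den * (3 + S.κ) * finrank (KA k) K * finrank K U -
        2 * p * a.num * finrank K U, ?_⟩
      have hn : (a.num : ℚ) = a * a.den := (Rat.mul_den_eq_num a).symm
      simp only [hf', dd]
      push_cast
      rw [hn, ← hz, a1]
      unfold rk
      ring
    have hbd : ∀ U, f U ≤ C0 + (rk k K * |(S.κ : ℚ)| / 2 + p * |a|) * ρ := fun U => by
      have h1 := hC0' _ (hMl.cut U).1 (cut_le M U)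
      have a1 := hMl.ha_cut hMF U
      have h2 : (finrank K U : ℚ) ≤ ρ := by exact_mod_cast hdimρ U
      have h3 : (0 : ℚ) ≤ finrank K U := Nat.cast_nonneg _
      have h4 : rk k K * S.κ / 2 - p * a ≤ rk k K * |(S.κ : ℚ)| / 2 + p * |a| := by
        have := mul_le_mul_of_nonneg_left (le_abs_self (S.κ : ℚ)) (show 0 ≤ rk k K by linarith)
        have := mul_le_mul_of_nonneg_left (neg_le_abs a) (show (0 : ℚ) ≤ p from Nat.cast_nonneg _)
        linarith
      have h5 : 0 ≤ rk k K * |(S.κ : ℚ)| / 2 + p * |a| := by positivity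
      have h6 := mul_le_mul h4 h2 h3 h5
      simp only [hf', dd]
      rw [a1]
      linarith
    obtain ⟨z, ⟨Ws, hz⟩, hmax⟩ := Int.exists_greatest_of_bdd
      (P := fun z : ℤ => ∃ U, (z : ℚ) = 2 * a.den * f U)
      ⟨⌈2 * a.den * (C0 + (rk k K * |(S.κ : ℚ)| / 2 + p * |a|) * ρ)⌉, by
        rintro z ⟨U, hU⟩
        have := (mul_le_mul_of_nonneg_left (hbd U) hq.le).trans (Int.le_ceil _)
        rw [← hU] at this
        exact_mod_cast this⟩
      (by obtain ⟨z, hz⟩ := hint ⊥; exact ⟨z, ⊥, hz⟩)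
    refine ⟨Ws, fun U => ?_⟩
    obtain ⟨z', hz'⟩ := hint U
    have h1 : (z' : ℚ) ≤ z := by exact_mod_cast hmax z' ⟨U, hz'⟩
    rw [hz, hz'] at h1
    exact le_of_mul_le_mul_left h1 hq
  have key : ∀ n : ℕ, ∀ U : Submodule K (Fin ρ → K), ρ ≤ finrank K U + n →
      ∃ U' : Submodule K (Fin ρ → K), (∀ i, ∀ w ∈ U', DV (S.D i) w ∈ U') ∧
        f Ws - f U' + C ≤ 2 ^ n * (f Ws - f U + C) := by
    intro n
    induction n with
    | zero =>
      intro U hU
      have : U = ⊤ := Submodule.eq_top_of_finrank_eq (by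
        rw [Module.finrank_fin_fun]; have := hdimρ U; omega)
      exact ⟨U, fun i w _ => by rw [this]; trivial, by simp⟩
    | succ n ih =>
      intro U hU
      by_cases hst : ∀ i, ∀ w ∈ U, DV (S.D i) w ∈ U
      · refine ⟨U, hst, le_mul_of_one_le_left (by linarith [hWs U]) (one_le_pow₀ (by norm_num))⟩
      push Not at hst
      obtain ⟨i, w, hw, hw'⟩ := hst
      obtain ⟨W₀, W₁, h1, h2, h3, h4⟩ := S.D_step hN hF U i
      have hlt : U < W₁ := lt_of_le_of_ne h1 fun e => hw' (e ▸ h2 w hw)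
      have := Submodule.finrank_lt_finrank_of_lt hlt
      obtain ⟨U', hU', h5⟩ := ih W₁ (by omega)
      refine ⟨U', hU', h5.trans ?_⟩
      rw [pow_succ, mul_assoc]
      refine mul_le_mul_of_nonneg_left ?_ (by positivity)
      have h3' : (finrank K W₀ : ℚ) + finrank K W₁ = 2 * finrank K U := by exact_mod_cast h3
      have h6 : 2 * f U ≤ f W₀ + f W₁ + C := by
        simp only [hf']
        have : (p : ℚ) * a * finrank K W₀ + p * a * finrank K W₁ = 2 * (p * a * finrank K U) := by
          linear_combination (p * a) * h3'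
        linarith
      linarith [hWs W₀]
  obtain ⟨U', hU', h5⟩ := key ρ Ws (by omega)
  obtain ⟨W', rfl⟩ := S.descent U' hU'
  have h6 : f (FrW p W') ≤ p * b := by
    simp only [hf']
    rw [S.cut_FrW hN, finrank_FrW]
    have := mul_le_mul_of_nonneg_left (h W') (show (0 : ℚ) ≤ p from Nat.cast_nonneg _)
    linarith
  have h7 := hWs W
  simp only [hf'] at h7 h5 h6
  have : 2 ^ ρ * (ρ : ℚ) * S.c' * rk k K = 2 ^ ρ * C := by rw [hC]; ring
  rw [this]
  linarith

/-- induction with the sharper constant `p^e (b + C/(p-1)) - C/(p-1)` -/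
theorem Setup.bound_iter {ρ : ℕ} {N : Fam k (Fin ρ → K)} (hN : RLat S.toBase N) (hF : Full N)
    {a b : ℚ} (h : ∀ W : Submodule K (Fin ρ → K), dd S (cut N W) ≤ a * finrank K W + b)
    (e : ℕ) (W : Submodule K (Fin ρ → K)) : dd S (cut (FrI S.toBase p e N) W) ≤
      (p : ℚ) ^ e * (a * finrank K W + b + 2 ^ ρ * ρ * S.c' * rk k K / (p - 1)) := by
  set C : ℚ := 2 ^ ρ * ρ * S.c' * rk k K with hC
  have hp1 : (1 : ℚ) < p := by exact_mod_cast (Fact.out : p.Prime).one_lt
  have hr := S.toBase.rk_pos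
  have hC0 : 0 ≤ C / (p - 1) := div_nonneg (by positivity) (by linarith)
  have key : ∀ (e : ℕ) (W : Submodule K (Fin ρ → K)), dd S (cut (FrI S.toBase p e N) W) ≤
      (p : ℚ) ^ e * a * finrank K W + ((p : ℚ) ^ e * (b + C / (p - 1)) - C / (p - 1)) := by
    intro e
    induction e with
    | zero => intro W; simpa [FrI_zero] using h W
    | succ e ih =>
      intro W
      have := S.bound_step (FrI_rlat hN e) (FrI_full hN hF e) ih W
      rw [FrI_succ]
      refine this.trans (le_of_eq ?_)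
      rw [← hC]
      have : (p : ℚ) - 1 ≠ 0 := by linarith
      field_simp
      ring
  have := key e W
  linarith

end Crest.Agent.R169
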