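import Crest.Agent.R169.RPsi1

/-! # R169 task RPsi: `psi0` is eventually constant -/

set_option autoImplicit false

namespace Crest.Agent.R169
open Module

variable {k K : Type} [Field k] [Field K] [Algebra k K] [Algebra (KA k) K]
  [IsScalarTower k (KA k) K]

variable {p : ℕ} [Fact p.Prime] [CharP K p]

variable (S : Setup k K p)

theorem Setup.coeffs_R : ha S.R = rk k K / 2 ∧ hb S.R = -(rk k K * S.κ / 2) ∧
    hc S.R = rk k K * S.κ ^ 2 / 8 - S.σ / 8 := S.hpR.coeffs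

theorem RPsi_large (a b : ℤ) (t0 : ℤ) : ∃ s0 : ℤ, ∀ s ≥ s0, a ≤ s ∧ b ≤ (p : ℤ) * s + t0 := by
  have hp : (1 : ℤ) ≤ p := by exact_mod_cast (Fact.out : p.Prime).one_le
  refine ⟨max a (max 0 (b - t0)), fun s hs => ?_⟩
  have h1 := le_max_left a (max 0 (b - t0))
  have h2 := le_max_right a (max 0 (b - t0))
  have h3 := le_max_left 0 (b - t0)
  have h4 := le_max_right 0 (b - t0)
  have h5 : s ≤ p * s := by nlinarith
  constructor <;> omega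

theorem RPsi_R : ∃ s0 : ℤ, ∀ s ≥ s0,
    hf S.R (p * s + S.t0) - (p : ℚ) ^ 2 * hf S.R s = ((p : ℚ) ^ 2 - 1) * S.σ / 8 := by
  obtain ⟨T, hT⟩ := S.hpR
  obtain ⟨s0, hs0⟩ := RPsi_large (p := p) T T S.t0
  refine ⟨s0, fun s hs => ?_⟩
  obtain ⟨h1, h2⟩ := hs0 s hs
  rw [hT _ h1, hT _ h2]
  have e1 : (S.t0 : ℚ) = S.κ * (1 - p) / 2 := by
    have : (2 : ℚ) * S.t0 = S.κ * (1 - p) := by exact_mod_cast S.ht0
    linarith
  push_cast
  rw [e1]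
  ring

/-- `P_R(t) = (r/2)(t - κ/2)² - σ/8` and `p s + t0 - κ/2 = p (s - κ/2)` -/
theorem Setup.psi0_bot : ∃ s0 : ℤ, ∀ s ≥ s0,
    psi0 S (⊥ : Fam k K) s = ((p : ℚ) ^ 2 - 1) * S.σ / 8 := by
  obtain ⟨s0, hs0⟩ := RPsi_R S
  refine ⟨s0, fun s hs => ?_⟩
  have e1 : ∀ t, hf (⊥ : Fam k K) t = 0 := fun t => by simp [hf]
  unfold psi0
  rw [Fr_bot isFrob_fr1, e1, e1, sub_zero, sub_zero]
  exact hs0 s hs

theorem Setup.Psi_R : ∃ s0 : ℤ, ∀ s ≥ s0,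
    Psi S (fr1 p) S.R s = ((p : ℚ) ^ 2 - 1) * S.σ / 8 := by
  obtain ⟨s0, hs0⟩ := RPsi_R S
  refine ⟨s0, fun s hs => ?_⟩
  unfold Psi
  rw [Fr_R]
  exact hs0 s hs

theorem Setup.Psi_ideal (𝔭 : Fam k K) (s : ℤ) :
    Psi S (fr1 p) 𝔭 s = Psi S (fr1 p) S.R s - psi0 S 𝔭 s := by
  unfold Psi psi0
  rw [Fr_R]
  ring

/-- If `1, x, y ∈ 𝔭 1` then `𝔭 ≈ R` (`IsLat.split_high`), `Fr 𝔭 ≈ R` and `psi0 = 0`.  Otherwise sandwich
(`psi_lower`, `psi_upper`): `hf R - hf 𝔭` is eventually `β s + γ` (`ha_ideal`), the middle term is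
eventually a quadratic polynomial (`HasHP.scale`), so it is `p² β s + γ'`, with `γ' = p² γ` if `β = 0`. -/
theorem Setup.psi0_const {𝔭 : Fam k K} (h : IsPrimeFam S.toBase 𝔭) (h0 : 𝔭 ≠ ⊥) :
    ∃ ψ : ℚ, (∃ s0 : ℤ, ∀ s ≥ s0, psi0 S 𝔭 s = ψ) ∧ (hb 𝔭 = hb S.R → ψ = 0) := by
  have h𝔭 : RLat S.toBase 𝔭 := S.toBase.rlat.sub h.mod h.le
  by_cases hℓ : (1 : K) ∈ 𝔭 1 ∧ xK k K 0 ∈ 𝔭 1 ∧ xK k K 1 ∈ 𝔭 1
  · obtain ⟨l0, l1, l2⟩ := hℓ
    have h1 : EvEq 𝔭 S.R := by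
      refine EvEq.of_le ⟨0, fun t _ => h.le t⟩ ?_
      obtain ⟨t0, ht0⟩ := S.lat.split_high
      refine ⟨t0 + 1, fun t ht ξ hξ => ?_⟩
      obtain ⟨t, rfl⟩ : ∃ t', t = t' + 1 := ⟨t - 1, by ring⟩
      obtain ⟨a, ha', b, hb', c, hc', rfl⟩ := ht0 t (by omega) ξ hξ
      refine Submodule.add_mem _ (Submodule.add_mem _ ?_ ?_) ?_
      · have := h.mod _ _ a ha' _ l1
        rw [smul_eq_mul, mul_comm] at this
        rw [Algebra.smul_def]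
        exact this
      · have := h.mod _ _ b hb' _ l2
        rw [smul_eq_mul, mul_comm] at this
        rw [Algebra.smul_def]
        exact this
      · have := h.mod _ _ c hc' _ l0
        rwa [smul_eq_mul, mul_one] at this
    have h2 := Fr_evEq (B := S.toBase) (isFrob_fr1 (p := p)) h𝔭.1 S.lat h1
    rw [Fr_R] at h2
    obtain ⟨t1, ht1⟩ := h1
    obtain ⟨t2, ht2⟩ := h2
    obtain ⟨s0, hs0⟩ := RPsi_large (p := p) t1 t2 S.t0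
    refine ⟨0, ⟨s0, fun s hs => ?_⟩, fun _ => rfl⟩
    obtain ⟨a1, a2⟩ := hs0 s hs
    unfold psi0 hf
    rw [ht1 s a1, ht2 _ a2]
    ring
  · obtain ⟨α, hα⟩ := S.exists_g_notMem h hℓ
    obtain ⟨e, he⟩ := S.psi_lower h α hα
    obtain ⟨e', s1, he'⟩ := S.psi_upper h α hα
    have hD := S.lat.hasHP.sub h𝔭.1.hasHP
    rw [S.toBase.ha_R, h𝔭.ha_ideal h0, sub_self] at hD
    obtain ⟨a, b, c, hM⟩ : ∃ a b c, HasHP (fun s => hf S.R (p * s + S.t0) -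
        hf (Fr S.toBase p (fr1 p) 𝔭) (p * s + S.t0)) a b c :=
      ⟨_, _, _, (S.lat.hasHP.sub (Fr_rlat (B := S.toBase) isFrob_fr1 h𝔭.1).1.hasHP).scale
        (Fact.out : p.Prime).pos S.t0⟩
    obtain ⟨l1, l2, l3⟩ := ((hD.shift (-e)).const_mul ((p : ℚ) ^ 2)).le hM
      ⟨0, fun s _ => by simpa only [sub_eq_add_neg] using he s⟩
    obtain ⟨u1, u2, u3⟩ := hM.le ((hD.shift e').const_mul ((p : ℚ) ^ 2)) ⟨s1, he'⟩
    simp only [mul_zero, zero_mul, add_zero] at l1 l2 l3 u1 u2 u3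
    have ea : a = 0 := le_antisymm u1 l1
    have eb : b = (p : ℚ) ^ 2 * (hb S.R - hb 𝔭) := le_antisymm (u2 ea) (l2 ea.symm)
    obtain ⟨s0, hs0⟩ := hM.sub (hD.const_mul ((p : ℚ) ^ 2))
    refine ⟨c - (p : ℚ) ^ 2 * (hc S.R - hc 𝔭), ⟨s0, fun s hs => ?_⟩, fun hβ => ?_⟩
    · have := hs0 s hs
      rw [ea, eb] at this
      unfold psi0
      simp only at this
      rw [this]
      ring
    · have q1 := l3 ea.symm eb.symm
      have q2 := u3 ea eb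
      rw [hβ, sub_self, zero_mul, add_zero] at q1 q2
      linarith

end Crest.Agent.R169
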