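import Crest.Agent.R169.RD3
import Crest.Agent.R169.RNorm
import Crest.Agent.R169.RPsi
import Crest.Agent.R169.RFlat

/-! # R169 task RPsi0: `psi0` vanishes for nonzero primes -/

set_option autoImplicit false
set_option linter.unusedSectionVars false

namespace Crest.Agent.R169
open Module

variable {k K : Type} [Field k] [Field K] [Algebra k K] [Algebra (KA k) K]
  [IsScalarTower k (KA k) K]

variable {p : ℕ} [Fact p.Prime] [CharP K p]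

variable (S : Setup k K p)

/-- `X = twF (Fr N)` is a full lattice with `X^∨ ≈ twF (Fr N^∨)` and
`X^∨∨ = (twF (Fr N^∨))^∨ ≈ twF (Fr N^∨∨) ≈ X` (`exists_twPair` twice, `EvEq.dual_eq`, `Fr_evEq`).
`D1_ev` for `X` and for `N` turns `P_X - p² P_N = c` into the same statement for `N^∨` (`hf_twF`). -/
theorem Setup.Psi_dual {lam : K →ₗ[KA k] KA k} (hl : lam ≠ 0) {N : Fam k K}
    (hN : RLat S.toBase N) (hF : Full N)
    (hr : EvEq (dual (pair1 lam) (dual (pair1 lam) N)) N) {c : ℚ}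
    (hc' : ∃ s0 : ℤ, ∀ s ≥ s0, Psi S (fr1 p) N s = c) :
    ∃ s0 : ℤ, ∀ s ≥ s0, Psi S (fr1 p) (dual (pair1 lam) N) s = c := by
  obtain ⟨β, hβ, hflip, H⟩ := S.exists_twPair hl
  obtain ⟨hD, hDF⟩ := dual1_rlat hl hN hF
  obtain ⟨hDD, -⟩ := dual1_rlat hl hD hDF
  have hFN := Fr_rlat (B := S.toBase) (isFrob_fr1 (p := p)) hN.1
  have hFD := Fr_rlat (B := S.toBase) (isFrob_fr1 (p := p)) hD.1
  have hX := twF_isLat S.perf hFN.1 S.t0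
  have hY := twF_isLat S.perf hFD.1 S.t0
  have hXF := twF_full (p := p) hFN.1.isMod (Fr_full isFrob_fr1 hN.1 hF) S.t0
  have h1 := H N hN hF
  have h2 := H _ hD hDF
  rw [← EvEq.dual_eq β (dual_isMod _ _) hY.isMod h1] at h2
  have h3 := h2.trans (twF_evEq (Fr_evEq isFrob_fr1 hDD.1 hN.1 hr) S.t0)
  obtain ⟨a1, a2, a3⟩ := D1_ev hβ hX hXF (by rw [hflip]; exact h3)
  obtain ⟨b1, b2, b3⟩ := h1.coeffs
  obtain ⟨c1, c2, c3⟩ := D1_ev (perfect_pair1 S.toBase hl) hN.1 hF (by rw [pair1_flip]; exact hr)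
  have e1 := hX.hasHP.sub (hN.1.hasHP.const_mul ((p : ℚ) ^ 2))
  obtain ⟨s0, hs0⟩ := hc'
  obtain ⟨d1, d2, d3⟩ := e1.unique (a' := 0) (b' := 0) (c' := c) ⟨s0, fun s hs => by
    have := hs0 s hs
    unfold Psi at this
    simp only [hf_twF S.perf]
    rw [this]; ring⟩
  obtain ⟨s1, hs1⟩ := hY.hasHP.sub (hD.1.hasHP.const_mul ((p : ℚ) ^ 2))
  refine ⟨s1, fun s hs => ?_⟩
  have := hs1 s hs
  simp only [hf_twF S.perf] at this
  unfold Psi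
  rw [this, ← b1, ← b2, ← b3, a1, a2, a3, c1, c2, c3, d1, d3]
  linear_combination (-(s : ℚ)) * d2

/-- Let `ψ` be the constant of `psi0_const`, `hb 𝔭 ≠ hb R`, `C₀ = (p²-1)σ/8`, `ω = R^∨ ≤ 𝔭^∨`.
`Ψ_ω = C₀`, `Ψ_{𝔭^∨} = Ψ_𝔭 = C₀ - ψ` (`Psi_dual`, `refl_R`, `refl_prime`).  `prime_filtration` from `ω` to
`𝔭^∨` with `P M :` eventually `Ψ_M = C₀ + ψ (hb M - hb ω)/(hb R - hb 𝔭)`: each colon `𝔮 ≥ 𝔭`
(`mem_dual1`) is `𝔭`, or has `hb 𝔮 = hb R` and `psi0 𝔮 = 0` (`hb_eq_of_lt`).  `D1_hb` gives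
`hb 𝔭^∨ - hb ω = hb R - hb 𝔭`, so `C₀ + ψ = C₀ - ψ`. -/
theorem Setup.psi0_zero {𝔭 : Fam k K} (h : IsPrimeFam S.toBase 𝔭) (h0 : 𝔭 ≠ ⊥) :
    ∃ s0 : ℤ, ∀ s ≥ s0, psi0 S 𝔭 s = 0 := by
  obtain ⟨ψ, ⟨s0, hs0⟩, hψ⟩ := S.psi0_const h h0
  suffices hz : ψ = 0 from ⟨s0, fun s hs => by rw [hs0 s hs, hz]⟩
  by_cases hne : hb 𝔭 = hb S.R
  · exact hψ hne
  have hδ : hb S.R - hb 𝔭 ≠ 0 := sub_ne_zero.2 (Ne.symm hne)
  obtain ⟨lam, hl⟩ := exists_lam k K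
  have h𝔭 : RLat S.toBase 𝔭 := S.toBase.rlat.sub h.mod h.le
  have h𝔭F : Full 𝔭 := full_of_ne_bot h.mod h0
  obtain ⟨hω, -⟩ := dual1_rlat hl S.toBase.rlat S.full
  obtain ⟨hD, -⟩ := dual1_rlat hl h𝔭 h𝔭F
  have e1 := S.Psi_dual hl S.toBase.rlat S.full (S.refl_R hl) S.Psi_R
  obtain ⟨s2, hs2⟩ := S.Psi_dual hl h𝔭 h𝔭F (S.refl_prime hl h h0 hne)
    (c := ((p : ℚ) ^ 2 - 1) * S.σ / 8 - ψ) (by
      obtain ⟨s1, hs1⟩ := S.Psi_R
      exact ⟨max s0 s1, fun s hs => by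
        rw [S.Psi_ideal, hs0 s (le_trans (le_max_left _ _) hs),
          hs1 s (le_trans (le_max_right _ _) hs)]⟩)
  obtain ⟨s3, hs3⟩ := prime_filtration S.toBase hω hD (dual_anti _ h.le)
    (fun M => ∃ s0 : ℤ, ∀ s ≥ s0, Psi S (fr1 p) M s = ((p : ℚ) ^ 2 - 1) * S.σ / 8 +
      ψ * (hb M - hb (dual (pair1 lam) S.R)) / (hb S.R - hb 𝔭))
    (by simpa using e1) (by
      rintro M hM hM1 - ⟨s4, hs4⟩ b ξ hξ hq
      have hle : 𝔭 ≤ colon S.toBase M ξ b := fun t a ha' =>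
        mem_colon.2 ⟨h.le t ha', hM1 _ ((mem_dual1 lam h.mod).1 hξ t a ha')⟩
      have hq0 : colon S.toBase M ξ b ≠ ⊥ := fun h1 => h0 (eq_bot_iff.2 (h1 ▸ hle))
      obtain ⟨s5, hs5⟩ := S.Psi_adjoin1 isFrob_fr1 hM ξ b
      have e2 := (coeffs_adjoin1 S.toBase hM ξ b).2
      rw [(colon_rlat S.toBase hM.2 ξ b).1.ha_ideal hq0, S.toBase.ha_R, sub_self, mul_zero,
        zero_mul, sub_zero] at e2
      by_cases hqp : colon S.toBase M ξ b = 𝔭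
      · rw [hqp] at hs5 e2
        refine ⟨max s4 (max s5 (s0 + b)), fun s hs => ?_⟩
        rw [hs5 s (by omega), hs4 s (by omega), hs0 _ (by omega), e2]
        field_simp
        ring
      · have e3 := hb_eq_of_lt h h0 hq.mod hq.le hle hqp
        obtain ⟨ψ', ⟨s6, hs6⟩, hψ'⟩ := S.psi0_const hq hq0
        refine ⟨max s4 (max s5 (s6 + b)), fun s hs => ?_⟩
        rw [hs5 s (by omega), hs4 s (by omega), hs6 _ (by omega), e2, hψ' e3, e3]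
        ring)
  have e4 := hs2 (max s2 s3) (le_max_left _ _)
  rw [hs3 _ (le_max_right _ _), (D1_hb (perfect_pair1 S.toBase hl) h𝔭.1 h𝔭F).2,
    (D1_hb (perfect_pair1 S.toBase hl) S.lat S.full).2,
    show -hb 𝔭 - -hb S.R = hb S.R - hb 𝔭 by ring, mul_div_cancel_right₀ _ hδ] at e4
  linarith

end Crest.Agent.R169
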