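import Crest.Agent.R169.RCart1
import Crest.Agent.R169.RTw

/-! # R169 task RPsi1: `F_*(R/𝔭^{[p]})` is locally free of rank `p²` over `R/𝔭` -/

set_option autoImplicit false
set_option linter.unusedSectionVars false

namespace Crest.Agent.R169
open Module

/-- an injection of subquotients -/
theorem Psi1_dim {k V V' : Type} [Field k] [AddCommGroup V] [Module k V] [AddCommGroup V']
    [Module k V'] [Module (KA k) V] [IsScalarTower k (KA k) V] [Module (KA k) V']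
    [IsScalarTower k (KA k) V'] (f : V →ₗ[k] V') {A A' : Submodule k V} {B B' : Submodule k V'}
    [FiniteDimensional k A] [FiniteDimensional k A'] [FiniteDimensional k B]
    (hB : B' ≤ B) (hAB : ∀ v ∈ A, f v ∈ B) (hA : ∀ v ∈ A, f v ∈ B' → v ∈ A') :
    (finrank k A : ℚ) - finrank k A' ≤ finrank k B - finrank k B' := by
  haveI : FiniteDimensional k B' := Submodule.finiteDimensional_of_le hB
  have h1 := AHilb_rn2 f A B'
  have h2 : finrank k (B' ⊔ A.map f : Submodule k V') ≤ finrank k B :=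
    Submodule.finrank_mono (sup_le hB (Submodule.map_le_iff_le_comap.2 hAB))
  have h3 : finrank k (A ⊓ B'.comap f : Submodule k V) ≤ finrank k A' :=
    Submodule.finrank_mono (fun v hv => hA v hv.1 hv.2)
  have h4 : finrank k A + finrank k B' ≤ finrank k B + finrank k A' := by omega
  have h5 : (finrank k A : ℚ) + finrank k B' ≤ finrank k B + finrank k A' := by exact_mod_cast h4
  linarith

variable {k K : Type} [Field k] [Field K] [Algebra k K] [Algebra (KA k) K]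
  [IsScalarTower k (KA k) K]

variable {p : ℕ} [Fact p.Prime] [CharP K p]

variable (S : Setup k K p)

/-- `c ↦ ∑ c_ij • β_ij` into `F_* K` -/
noncomputable def Psi1_lam (β : Fin p × Fin p → K) : (Fin p × Fin p → K) →ₗ[K] Tw K p :=
  Fintype.linearCombination K (fun ij => Tw.mk K p (β ij))

theorem Psi1_lam_apply (β c : Fin p × Fin p → K) :
    Psi1_lam β c = Tw.mk K p (∑ ij, c ij ^ p * β ij) := by
  unfold Psi1_lam
  rw [Fintype.linearCombination_apply, map_sum]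
  rfl

theorem Psi1_card : (Fintype.card (Fin p × Fin p) : ℚ) = (p : ℚ) ^ 2 := by
  simp [sq]

theorem Psi1_Fr_le {𝔭 : Fam k K} (h : IsPrimeFam S.toBase 𝔭) :
    Fr S.toBase p (fr1 p) 𝔭 ≤ S.R := by
  have := Fr_mono (B := S.toBase) (p := p) (φ := fr1 p) h.le
  rwa [Fr_R] at this

theorem Psi1_sum (α : Fin S.nα) (t : ℤ) (c : Fin p × Fin p → K) :
    ∑ ij, c ij ^ p * bas S α t ij = ∑ ij, bas S α t ij • fr1 p (c ij) :=
  Finset.sum_congr rfl fun ij _ => by rw [smul_eq_mul, mul_comm]; rfl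

/-- The `K`-linear map `(Fin p × Fin p → K) → Tw K p`, `c ↦ ∑ c_ij • mk (g^(pJ) bas α t0 ij)`
(`J` with `g^(pJ) bas ∈ R (t0 + pJc)`, `e = Jc`) sends `piF R (s - e)` into `twF R t0 s`, and the preimage
of `twF (Fr 𝔭)` is `piF 𝔭` (`Fr_coord`, `frob_unique`, `IsPrimeFam.of_pow_mul`). -/
theorem Setup.psi_lower {𝔭 : Fam k K} (h : IsPrimeFam S.toBase 𝔭) (α : Fin S.nα)
    (hα : S.g α ∉ 𝔭 S.c) : ∃ e : ℤ, ∀ s : ℤ,
      (p : ℚ) ^ 2 * (hf S.R (s - e) - hf 𝔭 (s - e)) ≤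
        hf S.R (p * s + S.t0) - hf (Fr S.toBase p (fr1 p) 𝔭) (p * s + S.t0) := by
  have hp1 : 1 ≤ p := (Fact.out : p.Prime).one_le
  have hg := S.g_mem α
  have hpl : RLat S.toBase 𝔭 := S.toBase.rlat.sub h.mod h.le
  obtain ⟨J, hJ⟩ := LocM.uniform (B := S.toBase) (N := S.R) S.toBase.isMod hg
    (ξ := fun ij => bas S α S.t0 ij) (d := fun _ => S.t0) (fun ij => S.bas_mem α S.t0 ij)
  have hJ' : ∀ ij, S.g α ^ (p * J) * bas S α S.t0 ij ∈ S.R (S.t0 + ((p * J : ℕ) : ℤ) * S.c) :=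
    fun ij => LocM.pow_smul (B := S.toBase) (N := S.R) S.toBase.isMod hg (hJ ij)
      (Nat.le_mul_of_pos_left J hp1)
  refine ⟨J * S.c, fun s => ?_⟩
  have hRl : IsLat (twF p S.R S.t0) := twF_isLat S.perf S.lat S.t0
  haveI := hRl.fin s
  haveI := (S.lat.piF (Fin p × Fin p)).fin (s - J * S.c)
  haveI := (hpl.1.piF (Fin p × Fin p)).fin (s - J * S.c)
  have key := Psi1_dim
    ((Psi1_lam (fun ij => S.g α ^ (p * J) * bas S α S.t0 ij)).restrictScalars k)
    (A := piF S.R (Fin p × Fin p) (s - J * S.c)) (A' := piF 𝔭 (Fin p × Fin p) (s - J * S.c))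
    (B := twF p S.R S.t0 s) (B' := twF p (Fr S.toBase p (fr1 p) 𝔭) S.t0 s)
    (twF_mono (Psi1_Fr_le S h) S.t0 s) ?_ ?_
  · have e1 := hf_piF S.R S.lat (Fin p × Fin p) (s - J * S.c)
    have e2 := hf_piF 𝔭 hpl.1 (Fin p × Fin p) (s - J * S.c)
    have e3 := hf_twF S.perf S.R S.t0 s
    have e4 := hf_twF S.perf (Fr S.toBase p (fr1 p) 𝔭) S.t0 s
    rw [Psi1_card] at e1 e2
    rw [← e3, ← e4, mul_sub, ← e1, ← e2]
    exact key
  · intro c hc
    rw [LinearMap.restrictScalars_apply, Psi1_lam_apply, mem_twF]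
    refine Submodule.sum_mem _ fun ij _ => ?_
    have h1 := S.mul _ _ _ (S.toBase.pow_mem (hc ij trivial) p) _ (hJ' ij)
    convert h1 using 2
    push_cast; ring
  · intro c hc hc'
    rw [LinearMap.restrictScalars_apply, Psi1_lam_apply, mem_twF] at hc'
    obtain ⟨η, hη, he⟩ := S.Fr_coord isFrob_fr1 h.mod α (s := s) (t := S.t0) (LocM.of_mem hc')
    have he' : ∑ ij, bas S α S.t0 ij • fr1 p (S.g α ^ J * c ij) =
        ∑ ij, bas S α S.t0 ij • fr1 p (η ij) := by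
      rw [← he]
      refine Finset.sum_congr rfl fun ij _ => ?_
      simp only [fr1, smul_eq_mul]
      ring
    have hu := S.frob_unique isFrob_fr1 α S.t0 he'
    intro ij _
    obtain ⟨j, hj⟩ := hη ij
    rw [← congrFun hu ij] at hj
    refine h.of_pow_mul hg hα (hc ij trivial) (j + J) ?_
    have e1 : s - ↑J * ↑S.c + ((j + J : ℕ) : ℤ) * ↑S.c = s + ↑j * ↑S.c := by push_cast; ring
    have e2 : S.g α ^ (j + J) * c ij = S.g α ^ j • (S.g α ^ J * c ij) := by
      rw [smul_eq_mul]; ring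
    rw [e1, e2]; exact hj

/-- Coordinates `crd : Tw K p ≃ₗ[K] (Fin p × Fin p → K)` for `bas α t0`; `g^J crd` maps `twF R t0 s` into
`piF R (s + Jc)` for a uniform `J` (generators of the lattice `twF R`, `bas_loc`, `LocM.uniform`).
`T s = {a ∈ twF R s | g^J crd a ∈ piF 𝔭}` satisfies `EvLe T (twF (Fr 𝔭))` by `Setup.evLe`:
`g_α^(pn) a ∈ Fr 𝔭` for some `n` (`Fr_of_coord`); on a chart `α'`, `g_α^n crd' a ∈ LocM 𝔭`, so
`crd' a ∈ LocM 𝔭` (primality, `g_α ∉ 𝔭`) and `a ∈ LocM_{α'} (Fr 𝔭)`. -/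
theorem Setup.psi_upper {𝔭 : Fam k K} (h : IsPrimeFam S.toBase 𝔭) (α : Fin S.nα)
    (hα : S.g α ∉ 𝔭 S.c) : ∃ e s0 : ℤ, ∀ s ≥ s0,
      hf S.R (p * s + S.t0) - hf (Fr S.toBase p (fr1 p) 𝔭) (p * s + S.t0) ≤
        (p : ℚ) ^ 2 * (hf S.R (s + e) - hf 𝔭 (s + e)) := by
  have hp1 : 1 ≤ p := (Fact.out : p.Prime).one_le
  have hg := S.g_mem α
  have hpl : RLat S.toBase 𝔭 := S.toBase.rlat.sub h.mod h.le
  have hbij : Function.Bijective (Psi1_lam (bas S α S.t0)) := by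
    constructor
    · intro c c' hcc
      rw [Psi1_lam_apply, Psi1_lam_apply] at hcc
      exact S.bas_unique α S.t0 ((Tw.mk K p).injective hcc)
    · intro z
      obtain ⟨a, rfl⟩ := (Tw.mk K p).surjective z
      obtain ⟨c, hc⟩ := S.bas_span α S.t0 a
      exact ⟨c, by rw [Psi1_lam_apply, ← hc]⟩
  set crd : Tw K p →ₗ[K] (Fin p × Fin p → K) :=
    (LinearEquiv.ofBijective _ hbij).symm.toLinearMap with hcrd
  have hcrd' : ∀ a : K, a = ∑ ij, crd (Tw.mk K p a) ij ^ p * bas S α S.t0 ij := by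
    intro a
    apply (Tw.mk K p).injective
    rw [← Psi1_lam_apply]
    exact ((LinearEquiv.ofBijective _ hbij).apply_symm_apply _).symm
  have hRl : IsLat (twF p S.R S.t0) := twF_isLat S.perf S.lat S.t0
  obtain ⟨J, hJ⟩ : ∃ J : ℕ, ∀ s, ∀ z ∈ twF p S.R S.t0 s,
      (S.g α ^ J • crd) z ∈ piF S.R (Fin p × Fin p) (s + J * S.c) := by
    obtain ⟨m, w, b, hw⟩ := hRl
    have hwm : ∀ i, w i ∈ twF p S.R S.t0 (b i) := fun i => by
      rw [hw]; exact mem_gen_self (S := AA k) (one_mem_AA le_rfl) w b i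
    obtain ⟨J, hJ⟩ := LocM.uniform (B := S.toBase) (N := S.R) S.toBase.isMod hg
      (ξ := fun z : Fin m × (Fin p × Fin p) => crd (w z.1) z.2) (d := fun z => b z.1) (by
        rintro ⟨i, ij⟩
        obtain ⟨a, ha⟩ := (Tw.mk K p).surjective (w i)
        have h1 := hwm i
        rw [← ha, mem_twF] at h1
        have := S.bas_loc α (s := b i) (t := S.t0) (LocM.of_mem (N := S.R) (g := S.g α) (c := S.c) h1) (hcrd' a) ij
        rw [ha] at this
        exact this)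
    refine ⟨J, ?_⟩
    have hle : twF p S.R S.t0 ≤
        fcomap (S.g α ^ J • crd) (sh (piF S.R (Fin p × Fin p)) (J * S.c)) := by
      rw [hw]
      refine gen_le (((S.lat.piF _).sh _).isMod.fcomap _) fun i ij _ => ?_
      exact hJ (i, ij)
    exact fun s z hz => hle s hz
  set T : Fam k (Tw K p) := twF p S.R S.t0 ⊓
    fcomap (S.g α ^ J • crd) (sh (piF 𝔭 (Fin p × Fin p)) (J * S.c)) with hT
  have hTm : IsMod (AA k) T := fun s t a ha v hv =>
    ⟨hRl.isMod s t a ha v hv.1, (((hpl.1.piF _).sh _).isMod.fcomap _) s t a ha v hv.2⟩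
  have hTl : IsLat T := hRl.sub hTm inf_le_left
  have hFm := Fr_isMod (p := p) S.toBase (fr1 p) 𝔭
  obtain ⟨s0, hs0⟩ := S.evLe hTl (twF_isMod hFm S.t0) (by
    intro α' t z hz
    obtain ⟨a, rfl⟩ := (Tw.mk K p).surjective z
    obtain ⟨hz1, hz2⟩ := hz
    have hg' := S.g_mem α'
    rw [mem_locM_twF hFm hg']
    have haR : a ∈ S.R (p * t + S.t0) := hz1
    have h1 : a ∈ LocM (Fr S.toBase p (fr1 p) 𝔭) (S.g α) S.c (p * t + S.t0) := by
      have := S.Fr_of_coord isFrob_fr1 h.mod α (s := t) (t := S.t0)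
        (η := crd (Tw.mk K p a)) (fun ij => ⟨J, hz2 ij trivial⟩)
      rwa [← Psi1_sum, ← hcrd'] at this
    obtain ⟨n, hn⟩ := h1
    have hn' := LocM.pow_smul hFm hg hn (Nat.le_mul_of_pos_left n hp1)
    have hn'' : S.g α ^ (p * n) • a ∈
        Fr S.toBase p (fr1 p) 𝔭 (p * (t + n * S.c) + S.t0) := by
      convert hn' using 2
      push_cast; ring
    obtain ⟨η, hη, he⟩ := S.Fr_coord isFrob_fr1 h.mod α' (s := t + n * S.c) (t := S.t0)
      (LocM.of_mem hn'')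
    obtain ⟨c', hc'⟩ := S.bas_span α' S.t0 a
    have hc'l := S.bas_loc α' (s := t) (t := S.t0) (LocM.of_mem (N := S.R) (g := S.g α') (c := S.c) haR) hc'
    have he' : ∑ ij, bas S α' S.t0 ij • fr1 p (S.g α ^ n * c' ij) =
        ∑ ij, bas S α' S.t0 ij • fr1 p (η ij) := by
      rw [← he, hc', smul_eq_mul, Finset.mul_sum]
      refine Finset.sum_congr rfl fun ij _ => ?_
      simp only [fr1, smul_eq_mul]
      ring
    have hu := S.frob_unique isFrob_fr1 α' S.t0 he'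
    have h2 := S.Fr_of_coord isFrob_fr1 h.mod α' (s := t) (t := S.t0) (η := c') (fun ij => by
      obtain ⟨j, hj⟩ := hη ij
      rw [← congrFun hu ij] at hj
      obtain ⟨j', hj'⟩ := hc'l ij
      have h3 := LocM.pow_smul h.mod hg' hj (le_max_left j j')
      have h4 := LocM.pow_smul (B := S.toBase) (N := S.R) S.toBase.isMod hg' hj'
        (le_max_right j j')
      refine ⟨max j j', h.of_pow_mul hg hα h4 n ?_⟩
      have e1 : t + ((max j j' : ℕ) : ℤ) * ↑S.c + ↑n * ↑S.c =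
          t + ↑n * ↑S.c + ((max j j' : ℕ) : ℤ) * ↑S.c := by ring
      have e2 : S.g α ^ n * S.g α' ^ max j j' • c' ij =
          S.g α' ^ max j j' • (S.g α ^ n * c' ij) := by
        simp only [smul_eq_mul]; ring
      rw [e1, e2]; exact h3)
    rwa [← Psi1_sum, ← hc'] at h2)
  refine ⟨J * S.c, s0, fun s hs => ?_⟩
  have hFl : IsLat (twF p (Fr S.toBase p (fr1 p) 𝔭) S.t0) :=
    twF_isLat S.perf (Fr_rlat isFrob_fr1 hpl.1).1 S.t0
  haveI := hRl.fin s
  haveI := hFl.fin s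
  haveI := (S.lat.piF (Fin p × Fin p)).fin (s + J * S.c)
  have key := Psi1_dim ((S.g α ^ J • crd).restrictScalars k)
    (A := twF p S.R S.t0 s) (A' := twF p (Fr S.toBase p (fr1 p) 𝔭) S.t0 s)
    (B := piF S.R (Fin p × Fin p) (s + J * S.c)) (B' := piF 𝔭 (Fin p × Fin p) (s + J * S.c))
    (fun c hc ij _ => h.le _ (hc ij trivial)) (hJ s) (fun z hz hz' => hs0 s hs ⟨hz, hz'⟩)
  have e1 := hf_piF S.R S.lat (Fin p × Fin p) (s + J * S.c)
  have e2 := hf_piF 𝔭 hpl.1 (Fin p × Fin p) (s + J * S.c)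
  have e3 := hf_twF S.perf S.R S.t0 s
  have e4 := hf_twF S.perf (Fr S.toBase p (fr1 p) 𝔭) S.t0 s
  rw [Psi1_card] at e1 e2
  rw [← e3, ← e4, mul_sub, ← e1, ← e2]
  exact key

end Crest.Agent.R169
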