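import Crest.Agent.R169.RProp

/-! # R169 task RSplit: sub and quotient lattices in coordinates -/

set_option autoImplicit false

namespace Crest.Agent.R169
open Module

variable {k K : Type} [Field k] [Field K] [Algebra k K] [Algebra (KA k) K]
  [IsScalarTower k (KA k) K]

variable {p : ℕ} [Fact p.Prime] [CharP K p]

theorem RSplit_mats {F : Type} [Field F] {ρ : ℕ} (W : Submodule F (Fin ρ → F)) :
    ∃ (d d' : ℕ) (A : Matrix (Fin ρ) (Fin d) F) (A' : Matrix (Fin d) (Fin ρ) F)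
      (Q : Matrix (Fin d') (Fin ρ) F) (Q' : Matrix (Fin ρ) (Fin d') F),
      finrank F W = d ∧ d + d' = ρ ∧ A' * A = 1 ∧ Q * Q' = 1 ∧ Q * A = 0 ∧ A * A' + Q' * Q = 1 ∧
      LinearMap.range (Matrix.toLin' A) = W := by
  obtain ⟨W', hW⟩ := W.exists_isCompl
  let b := Module.finBasis F W
  let b' := Module.finBasis F W'
  let ι : (Fin (finrank F W) → F) →ₗ[F] (Fin ρ → F) := W.subtype ∘ₗ b.equivFun.symm.toLinearMap
  let ι' : (Fin ρ → F) →ₗ[F] (Fin (finrank F W) → F) :=
    b.equivFun.toLinearMap ∘ₗ W.projectionOnto W' hW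
  let q : (Fin ρ → F) →ₗ[F] (Fin (finrank F W') → F) :=
    b'.equivFun.toLinearMap ∘ₗ W'.projectionOnto W hW.symm
  let q' : (Fin (finrank F W') → F) →ₗ[F] (Fin ρ → F) := W'.subtype ∘ₗ b'.equivFun.symm.toLinearMap
  refine ⟨_, _, LinearMap.toMatrix' ι, LinearMap.toMatrix' ι', LinearMap.toMatrix' q,
    LinearMap.toMatrix' q', rfl, ?_, ?_, ?_, ?_, ?_, ?_⟩
  · have := Submodule.finrank_add_eq_of_isCompl hW
    simpa using this
  · rw [← LinearMap.toMatrix'_comp, ← LinearMap.toMatrix'_id]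
    congr 1; refine LinearMap.ext fun v => ?_
    simp [ι, ι', -Basis.equivFun_symm_apply]
  · rw [← LinearMap.toMatrix'_comp, ← LinearMap.toMatrix'_id]
    congr 1; refine LinearMap.ext fun v => ?_
    simp [q, q', -Basis.equivFun_symm_apply]
  · rw [← LinearMap.toMatrix'_comp, ← map_zero LinearMap.toMatrix']
    congr 1; refine LinearMap.ext fun v => ?_
    simp [q, ι, -Basis.equivFun_symm_apply]
  · rw [← LinearMap.toMatrix'_comp, ← LinearMap.toMatrix'_comp, ← map_add, ← LinearMap.toMatrix'_id]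
    congr 1; refine LinearMap.ext fun v => ?_
    simp only [ι, ι', q, q', LinearMap.add_apply, LinearMap.comp_apply, LinearEquiv.coe_coe,
      LinearEquiv.symm_apply_apply, Submodule.subtype_apply, LinearMap.id_apply]
    exact Submodule.projection_add_projection_eq_self hW v
  · rw [Matrix.toLin'_toMatrix']
    simp [ι, LinearMap.range_comp]

/-- entrywise `p^e`-th power, as a linear map -/
noncomputable def RSplit_tw (p : ℕ) [Fact p.Prime] [CharP K p] (e : ℕ) {m n : ℕ}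
    (A : Matrix (Fin m) (Fin n) K) : (Fin n → K) →ₗ[K] (Fin m → K) :=
  Matrix.toLin' (A.map (iterateFrobenius K p e))

theorem RSplit_tw_zero {m n : ℕ} (A : Matrix (Fin m) (Fin n) K) :
    RSplit_tw p 0 A = Matrix.toLin' A := by
  unfold RSplit_tw; congr 1; ext i j; simp

theorem RSplit_tw_comp (e : ℕ) {m n l : ℕ} (A : Matrix (Fin m) (Fin n) K)
    (B : Matrix (Fin n) (Fin l) K) (v : Fin l → K) :
    RSplit_tw p e A (RSplit_tw p e B v) = RSplit_tw p e (A * B) v := by
  unfold RSplit_tw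
  rw [Matrix.map_mul, Matrix.toLin'_mul]; rfl

theorem RSplit_tw_one (e : ℕ) {m : ℕ} (v : Fin m → K) :
    RSplit_tw p e (1 : Matrix (Fin m) (Fin m) K) v = v := by
  unfold RSplit_tw
  rw [Matrix.map_one _ (map_zero _) (map_one _)]; simp

theorem RSplit_tw_zero' (e : ℕ) {m n : ℕ} (v : Fin n → K) :
    RSplit_tw p e (0 : Matrix (Fin m) (Fin n) K) v = 0 := by
  unfold RSplit_tw
  rw [Matrix.map_zero _ (map_zero _)]; simp

theorem RSplit_tw_add (e : ℕ) {m n : ℕ} (A B : Matrix (Fin m) (Fin n) K) (v : Fin n → K) :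
    RSplit_tw p e (A + B) v = RSplit_tw p e A v + RSplit_tw p e B v := by
  unfold RSplit_tw
  rw [Matrix.map_add _ (map_add _)]; simp

theorem RSplit_fr (e : ℕ) {m n : ℕ} (A : Matrix (Fin m) (Fin n) K) (v : Fin n → K) :
    frV p m (RSplit_tw p e A v) = RSplit_tw p (e + 1) A (frV p n v) := by
  funext i
  simp only [frV, RSplit_tw, Matrix.toLin'_apply, Matrix.mulVec, dotProduct, Matrix.map_apply,
    iterateFrobenius_def]
  rw [sum_pow_char]
  refine Finset.sum_congr rfl fun j _ => ?_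
  rw [mul_pow, ← pow_mul, ← pow_succ]

theorem RSplit_Fr_fmap (B : Base k K) {m n : ℕ} (f f' : (Fin n → K) →ₗ[K] (Fin m → K))
    (h : ∀ v, frV p m (f v) = f' (frV p n v)) (X : Fam k (Fin n → K)) :
    Fr B p (frV p m) (fmap f X) = fmap f' (Fr B p (frV p n) X) := by
  funext t
  unfold Fr fmap
  rw [Submodule.map_span]
  congr 1
  ext z
  constructor
  · rintro ⟨s, a, ha', _, ⟨ξ, hξ, rfl⟩, rfl⟩
    exact ⟨a • frV p n ξ, ⟨s, a, ha', ξ, hξ, rfl⟩, by simp [h]⟩
  · rintro ⟨_, ⟨s, a, ha', ξ, hξ, rfl⟩, rfl⟩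
    exact ⟨s, a, ha', f ξ, ⟨ξ, hξ, rfl⟩, by simp [h]⟩

theorem RSplit_span (e : ℕ) {m n : ℕ} (A : Matrix (Fin m) (Fin n) K) :
    Submodule.span K (frV p m '' (LinearMap.range (RSplit_tw p e A) : Set (Fin m → K))) =
      LinearMap.range (RSplit_tw p (e + 1) A) := by
  rw [LinearMap.range_eq_map (RSplit_tw p (e + 1) A), ← (isFrob_frV (K := K) (p := p) n).full,
    Submodule.map_span]
  congr 1
  ext z
  constructor
  · rintro ⟨_, ⟨v, rfl⟩, rfl⟩
    exact ⟨_, ⟨v, rfl⟩, (RSplit_fr e A v).symm⟩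
  · rintro ⟨_, ⟨v, rfl⟩, rfl⟩
    exact ⟨_, ⟨v, rfl⟩, RSplit_fr e A v⟩

theorem RSplit_congr (S : Setup k K p) {m n : ℕ} {X : Fam k (Fin m → K)} {Y : Fam k (Fin n → K)}
    (h : ∃ t0 : ℤ, ∀ t ≥ t0, hf X t = hf Y t) : dd S X = dd S Y ∧ cc S X = cc S Y := by
  obtain ⟨h1, h2, h3⟩ := coeffs_congr h
  unfold dd cc
  rw [h1, h2, h3]; exact ⟨rfl, rfl⟩

theorem RSplit_add (S : Setup k K p) {m n : ℕ} {X : Fam k (Fin m → K)} (hX : IsLat X)
    (f : (Fin m → K) →ₗ[K] (Fin n → K)) :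
    dd S X = dd S (cut X (LinearMap.ker f)) + dd S (fmap f X) ∧
    cc S X = cc S (cut X (LinearMap.ker f)) + cc S (fmap f X) := by
  obtain ⟨h1, h2, h3⟩ := hX.coeffs_add f
  unfold dd cc
  rw [h1, h2, h3]; constructor <;> ring

theorem RSplit_ev {m : ℕ} {X Y : Fam k (Fin m → K)} (h : EvEq X Y) :
    ∃ t0 : ℤ, ∀ t ≥ t0, hf X t = hf Y t := by
  obtain ⟨t0, h⟩ := h
  exact ⟨t0, fun t ht => by unfold hf; rw [h t ht]⟩

/-- Sketch.  Choose matrices `ι : ρ × d` (columns = echelon basis of `W`) and `q : d' × ρ` with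
`q ι = 0`, a left inverse of `ι` and a right inverse of `q`.  Let `ι_e, q_e` be the entrywise `p^e`-th powers
(`Matrix.map (iterateFrobenius K p e)`, again with one-sided inverses, `q_e ι_e = 0`, so
`ker q_e = range ι_e`); `frV ∘ ι_e = ι_{e+1} ∘ frV`.  `N₁ = fcomap ι N`, `N₂ = fmap q N`.
By induction `FrI e N₂ = fmap q_e (FrI e N)` and `fmap ι_e (FrI e N₁) ≈ cut (FrI e N) (range ι_e)`
(`Fr (fmap ι_e X) = fmap ι_{e+1} (Fr X)`, `Setup.cut_Fr`, `Fr_evEq`).  Take `W₁ = map ι_e W'`,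
`W₂ = comap q_e W''`; use `coeffs_add`, `FrI_coeffs`. -/
theorem Setup.split (S : Setup k K p) {ρ : ℕ} {N : Fam k (Fin ρ → K)} (hN : RLat S.toBase N)
    (hF : Full N) (W : Submodule K (Fin ρ → K)) :
    ∃ (d d' : ℕ) (N₁ : Fam k (Fin d → K)) (N₂ : Fam k (Fin d' → K)),
      finrank K W = d ∧ d + d' = ρ ∧ RLat S.toBase N₁ ∧ Full N₁ ∧ RLat S.toBase N₂ ∧ Full N₂ ∧
      dd S N₁ = dd S (cut N W) ∧ dd S N₁ + dd S N₂ = dd S N ∧ cc S N₁ + cc S N₂ = cc S N ∧
      (∀ (e : ℕ) (W' : Submodule K (Fin d → K)), ∃ W₁ : Submodule K (Fin ρ → K),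
        finrank K W₁ = finrank K W' ∧
        dd S (cut (FrI S.toBase p e N₁) W') = dd S (cut (FrI S.toBase p e N) W₁)) ∧
      (∀ (e : ℕ) (W'' : Submodule K (Fin d' → K)), ∃ W₂ : Submodule K (Fin ρ → K),
        finrank K W₂ = finrank K W'' + d ∧
        dd S (cut (FrI S.toBase p e N₂) W'') =
          dd S (cut (FrI S.toBase p e N) W₂) - (p : ℚ) ^ e * dd S N₁) := by
  obtain ⟨d, d', A, A', Q, Q', hd, hdd, hAA, hQQ, hQA, hsum, hW⟩ := RSplit_mats W
  have hinj : ∀ e, Function.Injective (RSplit_tw p e A) := fun e =>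
    Function.LeftInverse.injective (g := RSplit_tw p e A') fun v => by
      rw [RSplit_tw_comp, hAA, RSplit_tw_one]
  have hsurj : ∀ e, Function.Surjective (RSplit_tw p e Q) := fun e =>
    Function.RightInverse.surjective (g := RSplit_tw p e Q') fun v => by
      rw [RSplit_tw_comp, hQQ, RSplit_tw_one]
  have hker : ∀ e, LinearMap.ker (RSplit_tw p e Q) = LinearMap.range (RSplit_tw p e A) := by
    intro e
    ext v
    constructor
    · intro hv
      refine ⟨RSplit_tw p e A' v, ?_⟩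
      have h1 := RSplit_tw_one (p := p) e v
      rw [← hsum, RSplit_tw_add, ← RSplit_tw_comp, ← RSplit_tw_comp, LinearMap.mem_ker.1 hv,
        map_zero, add_zero] at h1
      exact h1
    · rintro ⟨u, rfl⟩
      rw [LinearMap.mem_ker, RSplit_tw_comp, hQA, RSplit_tw_zero']
  have hW0 : LinearMap.range (RSplit_tw p 0 A) = W := by rw [RSplit_tw_zero, hW]
  set N₁ := fcomap (RSplit_tw p 0 A) N with hN₁
  set N₂ := fmap (RSplit_tw p 0 Q) N with hN₂
  have r1 : RLat S.toBase N₁ := hN.fcomap (hinj 0)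
  have r2 : RLat S.toBase N₂ := hN.fmap _
  have e2 : ∀ e, FrI S.toBase p e N₂ = fmap (RSplit_tw p e Q) (FrI S.toBase p e N) := by
    intro e
    induction e with
    | zero => rfl
    | succ e ih => rw [FrI_succ, ih, FrI_succ, RSplit_Fr_fmap _ _ _ (RSplit_fr e Q)]
  have e1 : ∀ e, EvEq (fmap (RSplit_tw p e A) (FrI S.toBase p e N₁))
      (cut (FrI S.toBase p e N) (LinearMap.range (RSplit_tw p e A))) := by
    intro e
    induction e with
    | zero =>
      refine ⟨0, fun t _ => ?_⟩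
      ext v
      rw [mem_fmap, mem_cut]
      constructor
      · rintro ⟨u, hu, rfl⟩; exact ⟨hu, u, rfl⟩
      · rintro ⟨hv, u, rfl⟩; exact ⟨u, hv, rfl⟩
    | succ e ih =>
      rw [FrI_succ, FrI_succ, ← RSplit_Fr_fmap _ _ _ (RSplit_fr e A), ← RSplit_span]
      exact (Fr_evEq (isFrob_frV ρ) ((FrI_rlat r1 e).fmap _).1 ((FrI_rlat hN e).cut _).1 ih).trans
        (S.cut_Fr (isFrob_frV ρ) (FrI_rlat hN e) _).symm
  have d1 : dd S N₁ = dd S (cut N W) ∧ cc S N₁ = cc S (cut N W) :=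
    RSplit_congr S ⟨0, fun t _ => by rw [hN₁, hf_fcomap_inj (hinj 0), hW0]⟩
  have dadd := RSplit_add S hN.1 (RSplit_tw p 0 Q)
  rw [hker, hW0] at dadd
  refine ⟨d, d', N₁, N₂, hd, hdd, r1, Full.fcomap hN.1.isMod hF _, r2, hF.fmap (hsurj 0), d1.1,
    by rw [d1.1, dadd.1], by rw [d1.2, dadd.2], fun e W' => ?_, fun e W'' => ?_⟩
  · refine ⟨W'.map (RSplit_tw p e A), (LinearEquiv.finrank_eq
      (Submodule.equivMapOfInjective _ (hinj e) W')).symm, (RSplit_congr S ?_).1⟩
    obtain ⟨t0, h⟩ := e1 e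
    refine ⟨t0, fun t ht => ?_⟩
    rw [← hf_fmap_inj (hinj e)]
    unfold hf
    have h' := h t ht
    have : fmap (RSplit_tw p e A) (cut (FrI S.toBase p e N₁) W') t =
        cut (FrI S.toBase p e N) (W'.map (RSplit_tw p e A)) t := by
      ext v
      rw [mem_fmap, mem_cut]
      constructor
      · rintro ⟨u, hu, rfl⟩
        rw [mem_cut] at hu
        have : RSplit_tw p e A u ∈ fmap (RSplit_tw p e A) (FrI S.toBase p e N₁) t := ⟨u, hu.1, rfl⟩
        rw [h', mem_cut] at this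
        exact ⟨this.1, u, hu.2, rfl⟩
      · rintro ⟨hv, u, hu, rfl⟩
        have : RSplit_tw p e A u ∈ cut (FrI S.toBase p e N) (LinearMap.range (RSplit_tw p e A)) t :=
          mem_cut.2 ⟨hv, u, rfl⟩
        rw [← h', mem_fmap] at this
        obtain ⟨u', hu', he⟩ := this
        obtain rfl := hinj e he
        exact ⟨u', mem_cut.2 ⟨hu', hu⟩, rfl⟩
    rw [this]
  · refine ⟨W''.comap (RSplit_tw p e Q), ?_, ?_⟩
    · have h1 := LinearMap.finrank_range_add_finrank_ker
        ((RSplit_tw p e Q).domRestrict (W''.comap (RSplit_tw p e Q)))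
      rw [LinearMap.range_domRestrict, Submodule.map_comap_eq_of_surjective (hsurj e),
        LinearMap.ker_domRestrict] at h1
      have h2 : finrank K ((LinearMap.ker (RSplit_tw p e Q)).comap
          (W''.comap (RSplit_tw p e Q)).subtype) = finrank K (LinearMap.ker (RSplit_tw p e Q)) :=
        LinearEquiv.finrank_eq (Submodule.comapSubtypeEquivOfLe (LinearMap.ker_le_comap _))
      have h3 : finrank K (LinearMap.ker (RSplit_tw p e Q)) = d := by
        rw [hker, LinearMap.finrank_range_of_inj (hinj e)]; simp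
      omega
    · have hadd := (RSplit_add S ((FrI_rlat hN e).cut (W''.comap (RSplit_tw p e Q))).1
        (RSplit_tw p e Q)).1
      have c1 : cut (cut (FrI S.toBase p e N) (W''.comap (RSplit_tw p e Q)))
          (LinearMap.ker (RSplit_tw p e Q)) =
          cut (FrI S.toBase p e N) (LinearMap.range (RSplit_tw p e A)) := by
        funext t
        ext v
        rw [mem_cut, mem_cut, mem_cut, ← hker]
        constructor
        · rintro ⟨⟨h1, _⟩, h2⟩; exact ⟨h1, h2⟩
        · rintro ⟨h1, h2⟩; exact ⟨⟨h1, LinearMap.ker_le_comap _ h2⟩, h2⟩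
      have c2 : fmap (RSplit_tw p e Q) (cut (FrI S.toBase p e N) (W''.comap (RSplit_tw p e Q))) =
          cut (FrI S.toBase p e N₂) W'' := by
        rw [e2]
        funext t
        ext v
        rw [mem_fmap, mem_cut, mem_fmap]
        constructor
        · rintro ⟨u, hu, rfl⟩
          rw [mem_cut] at hu
          exact ⟨⟨u, hu.1, rfl⟩, hu.2⟩
        · rintro ⟨⟨u, hu, rfl⟩, h2⟩
          exact ⟨u, mem_cut.2 ⟨hu, h2⟩, rfl⟩
      have c3 : dd S (cut (FrI S.toBase p e N) (LinearMap.range (RSplit_tw p e A))) =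
          (p : ℚ) ^ e * dd S N₁ := by
        rw [← (S.FrI_coeffs r1 e).2.1, ← (RSplit_congr S (RSplit_ev (e1 e))).1]
        exact (RSplit_congr S ⟨0, fun t _ => by rw [hf_fmap_inj (hinj e)]⟩).1
      rw [c1, c2, c3] at hadd
      linarith

end Crest.Agent.R169
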