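import Crest.Agent.R169.RDual

/-! # R169 task UT1: reflexive lattices have first-order descriptions -/

set_option autoImplicit false

namespace Crest.Agent.R169
open Module

variable {k K : Type} [Field k] [Field K] [Algebra k K] [Algebra (KA k) K]
  [IsScalarTower k (KA k) K]

theorem Base.span_gen (B : Base k K) {ι : Type} {μ : ι → K} {e : ι → ℤ}
    (hB : B.R = gen (AA k) μ e) : Submodule.span (KA k) (Set.range μ) = ⊤ := by
  rw [← spanF_gen μ e, ← hB]
  exact B.full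

theorem EData.rlat (B : Base k K) {ι : Type} {μ : ι → K} {e : ι → ℤ} (hB : B.R = gen (AA k) μ e)
    {ρ m m' : ℕ} {w : Fin m → Fin ρ → K} {b : Fin m → ℤ} {φ : Matrix (Fin m) (Fin m') (KA k)}
    {b' : Fin m' → ℤ} {M0 : ℕ} {ψ : Fin 3 → Matrix (Fin m') (Fin m) (KA k)}
    {θ : ι → Matrix (Fin m) (Fin m) (KA k)} (H : EData μ e w b φ b' M0 ψ θ) :
    RLat B (gen (AA k) w b) ∧ Full (gen (AA k) w b) ∧ Syz w b φ b' := by
  have hA : IsMod (AA k) (gen (AA k) w b) := (gen_isLat w b).isMod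
  have h1 : ∀ l t, ∀ v ∈ gen (AA k) w b t, μ l • v ∈ gen (AA k) w b (e l + t) := by
    intro l t v hv
    obtain ⟨a, ha, rfl⟩ := mem_gen.1 hv
    rw [Finset.smul_sum]
    refine Submodule.sum_mem _ fun i _ => ?_
    rw [smul_comm, H.θrel]
    have h2 : ∑ j, θ l j i • w j ∈ gen (AA k) w b (e l + b i) :=
      mem_gen.2 ⟨fun j => θ l j i, fun j => H.θdeg l i j, rfl⟩
    have h3 := hA _ _ _ (ha i) _ h2
    rwa [show t - b i + (e l + b i) = e l + t by ring] at h3
  have hM : IsMod B.R (gen (AA k) w b) := by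
    intro s t a ha v hv
    rw [hB] at ha
    induction ha using Submodule.span_induction with
    | mem x hx =>
      obtain ⟨l, c, hc, rfl⟩ := hx
      have h3 := hA _ _ _ hc _ (h1 l t v hv)
      rw [show s - e l + (e l + t) = s + t by ring] at h3
      rwa [smul_assoc]
    | zero => rw [zero_smul]; exact Submodule.zero_mem _
    | add x y _ _ hx hy => rw [add_smul]; exact Submodule.add_mem _ hx hy
    | smul c x _ hx => rw [smul_assoc]; exact Submodule.smul_mem _ _ hx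
  have hF : Full (gen (AA k) w b) := by
    refine full_of_span hM _ H.span ?_
    rintro _ ⟨i, rfl⟩
    exact A1_mem_spanF (mem_gen_self (one_mem_AA le_rfl) w b i)
  exact ⟨⟨gen_isLat w b, hM⟩, hF, H.res.syz hF⟩

/-- `E' = E^∨∨` for `pairV lam` (`dualV_rlat`, `hull_coeffs`, `exists_resData`, `dual_dual_dual`);
`μ l • w i ∈ E' (e l + b i)` gives `θ`. -/
theorem exists_eData (B : Base k K) {ι : Type} {μ : ι → K} {e : ι → ℤ} (hB : B.R = gen (AA k) μ e)
    {ρ : ℕ} {E : Fam k (Fin ρ → K)} (hE : RLat B E) (hF : Full E) (hs : Semi k K E) :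
    ∃ (m m' : ℕ) (w : Fin m → Fin ρ → K) (b : Fin m → ℤ) (φ : Matrix (Fin m) (Fin m') (KA k))
      (b' : Fin m' → ℤ) (M0 : ℕ) (ψ : Fin 3 → Matrix (Fin m') (Fin m) (KA k))
      (θ : ι → Matrix (Fin m) (Fin m) (KA k)), EData μ e w b φ b' M0 ψ θ ∧
      Semi k K (gen (AA k) w b) ∧ ha (gen (AA k) w b) = ha E ∧ hb (gen (AA k) w b) = hb E ∧
      hc E ≤ hc (gen (AA k) w b) := by
  obtain ⟨lam, hlam⟩ := exists_lam k K
  obtain ⟨h1, h2⟩ := dualV_rlat hlam hE hF
  obtain ⟨h3, h4⟩ := dualV_rlat hlam h1 h2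
  have hco := hull_coeffs hlam hE hF
  have hdd := dual_dual_dual (pairV lam ρ) (dual (pairV lam ρ) E)
  obtain ⟨m, w, b, hw⟩ := h3.1
  rw [pairV_flip] at hdd
  rw [hw] at h3 h4 hco hdd
  obtain ⟨m', φ, b', M0, ψ, hres⟩ := exists_resData (perfect_pairV B hlam ρ) w b h4
    (by rw [pairV_flip]; exact hdd)
  have h5 : ∀ l i, ∃ a : Fin m → KA k, (∀ j, a j ∈ AA k (e l + b i - b j)) ∧
      μ l • w i = ∑ j, a j • w j := fun l i =>
    mem_gen.1 (h3.2 _ _ _ (hB ▸ mem_gen_self (one_mem_AA le_rfl) μ e l) _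
      (mem_gen_self (one_mem_AA le_rfl) w b i))
  choose θ hθ1 hθ2 using h5
  have h6 := hco ⊤
  rw [cut_top, cut_top] at h6
  refine ⟨m, m', w, b, φ, b', M0, ψ, fun l => Matrix.of fun j i => θ l i j,
    ⟨hres, hθ1, hθ2, ?_⟩, fun W => ?_, h6.1.symm, h6.2.1.symm, h6.2.2⟩
  · refine Submodule.span_eq_top_of_span_eq_top (KA k) K _ ?_
    rw [← spanF_gen w b]
    exact h4
  · rw [← (hco W).2.1, ← h6.2.1]
    exact hs W

end Crest.Agent.R169
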