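import Crest.Agent.R169.Defs3
import Crest.Agent.R169.A0
import Crest.Agent.R169.UT2_Aux

/-! # R169 task UT2: polynomials of bounded degree over an ultraproduct -/

set_option autoImplicit false
set_option linter.unusedSectionVars false

namespace Crest.Agent.R169
open Module

/-- `eval₂` of `𝕂[x,y]` at `mk x, mk y` sends `∑ mk(c_d) X^d` to `mk (∑ c_d j X^d)`; it is injective, so it
extends to the fraction field.  `AA t` = combinations of the finitely many `x^i y^j`, `i + j ≤ t`
(`AA_eq_span`). -/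
theorem exists_SpA {J : Type} (U : Ultrafilter J) (k : J → Type) [∀ j, Field (k j)] :
    ∃ SpA, SpAOK U k SpA := by
  obtain ⟨σ, hσ⟩ := UT2_exists_map U (fun j => algebraMap (k j) (KA (k j)))
  let ev : P2 (UP U k) →+* UP U (fun j => KA (k j)) :=
    MvPolynomial.eval₂Hom σ (fun i => UP.mk U _ (fun j => xA (k j) i))
  have hinj : Function.Injective ev := by
    rw [injective_iff_map_eq_zero]
    intro f hf
    choose c' hc' using fun d => UP.mk_surj U k (f.coeff d)
    have h3 : UP.mk U (fun j => KA (k j))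
        (fun j => ∑ d ∈ f.support, c' d j • (xA (k j) 0 ^ d 0 * xA (k j) 1 ^ d 1)) = 0 := by
      rw [← hf, UT2_mk_sum]
      simp only [ev, MvPolynomial.coe_eval₂Hom, MvPolynomial.eval₂_eq']
      refine Finset.sum_congr rfl fun d _ => ?_
      simp only [Algebra.smul_def, UT2_mk_mul, UT2_mk_pow, ← hσ, hc', Fin.prod_univ_two]
    ext d
    by_contra hd
    apply hd
    rw [← hc', MvPolynomial.coeff_zero, UT2_mk_zero]
    filter_upwards [UT2_mk_zero.1 h3] with j hj
    have hli := (A0_li (k := k j)).comp (fun d : Fin 2 →₀ ℕ => (d 0, d 1)) (by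
      intro a b hab
      simp only [Prod.mk.injEq] at hab
      ext i
      fin_cases i
      · exact hab.1
      · exact hab.2)
    exact linearIndependent_iff'.1 hli _ (fun d => c' d j) hj d
      (MvPolynomial.mem_support_iff.2 hd)
  let SpA : KA (UP U k) →+* UP U (fun j => KA (k j)) := IsFractionRing.lift hinj
  have hx : ∀ i, SpA (xA (UP U k) i) = UP.mk U _ (fun j => xA (k j) i) := fun i => by
    simp only [SpA, xA, IsFractionRing.lift_algebraMap, ev, MvPolynomial.eval₂Hom_X']
  have hk : ∀ c : ∀ j, k j, SpA (algebraMap (UP U k) (KA (UP U k)) (UP.mk U k c)) =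
      UP.mk U _ (fun j => algebraMap (k j) (KA (k j)) (c j)) := fun c => by
    rw [IsScalarTower.algebraMap_apply (UP U k) (P2 (UP U k)) (KA (UP U k))]
    simp only [SpA, IsFractionRing.lift_algebraMap, ev, MvPolynomial.algebraMap_eq,
      MvPolynomial.eval₂Hom_C, hσ]
  have key : ∀ (m : ℕ) (c : A0_T m → ∀ j, k j),
      SpA (∑ z, UP.mk U k (c z) • (xA (UP U k) 0 ^ z.1.1 * xA (UP U k) 1 ^ z.1.2)) =
        UP.mk U _ (fun j => ∑ z, c z j • (xA (k j) 0 ^ z.1.1 * xA (k j) 1 ^ z.1.2)) := by
    intro m c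
    simp only [Algebra.smul_def, map_sum, map_mul, map_pow, hx, hk, UT2_mk_sum, UT2_mk_mul,
      UT2_mk_pow]
  refine ⟨SpA, fun t a ha => ?_, fun t a' ha' => ?_, hx, hk⟩
  · rcases lt_or_ge t 0 with ht | ht
    · rw [AA_neg ht, Submodule.mem_bot] at ha
      exact ⟨0, fun j => Submodule.zero_mem _, by rw [ha, map_zero, map_zero]⟩
    · obtain ⟨m, rfl⟩ := Int.eq_ofNat_of_zero_le ht
      rw [A0_span_nat, Submodule.mem_span_range_iff_exists_fun] at ha
      obtain ⟨c, rfl⟩ := ha
      choose c' hc' using fun z => UP.mk_surj U k (c z)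
      refine ⟨_, fun j => ?_, by simp only [← hc']; exact key m c'⟩
      rw [A0_span_nat, Submodule.mem_span_range_iff_exists_fun]
      exact ⟨_, rfl⟩
  · rcases lt_or_ge t 0 with ht | ht
    · refine ⟨0, Submodule.zero_mem _, ?_⟩
      rw [map_zero, eq_comm, UT2_mk_zero]
      filter_upwards [ha'] with j hj
      rwa [AA_neg ht, Submodule.mem_bot] at hj
    · obtain ⟨m, rfl⟩ := Int.eq_ofNat_of_zero_le ht
      have h1 : ∀ j, ∃ c : A0_T m → k j, a' j ∈ AA (k j) m →
          ∑ z, c z • (xA (k j) 0 ^ z.1.1 * xA (k j) 1 ^ z.1.2) = a' j := by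
        intro j
        by_cases h : a' j ∈ AA (k j) m
        · rw [A0_span_nat, Submodule.mem_span_range_iff_exists_fun] at h
          obtain ⟨c, hc⟩ := h
          exact ⟨c, fun _ => hc⟩
        · exact ⟨0, fun h' => absurd h' h⟩
      choose c hc using h1
      refine ⟨_, ?_, (key m fun z j => c j z).trans ?_⟩
      · rw [A0_span_nat, Submodule.mem_span_range_iff_exists_fun]
        exact ⟨_, rfl⟩
      · rw [UP.mk_eq]
        filter_upwards [ha'] with j hj using hc j hj

variable {J : Type} {U : Ultrafilter J} {k K : J → Type} [∀ j, Field (k j)] [∀ j, Field (K j)]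
  [∀ j, Algebra (k j) (K j)] [∀ j, Algebra (KA (k j)) (K j)]
  [∀ j, IsScalarTower (k j) (KA (k j)) (K j)] {K' : Type} [Field K'] [Algebra (UP U k) K']
  [Algebra (KA (UP U k)) K'] [IsScalarTower (UP U k) (KA (UP U k)) K']

/-- two ring maps out of `𝕂(x,y)` that agree on constants and on `x, y` -/
theorem SpAOK.compat {SpA : KA (UP U k) →+* UP U (fun j => KA (k j))} (HA : SpAOK U k SpA)
    {Sp : K' →+* UP U K} (H : SpOK U k K K' Sp) {a : KA (UP U k)} {a' : ∀ j, KA (k j)}
    (h : SpA a = UP.mk U _ a') : Sp (algebraMap (KA (UP U k)) K' a) =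
      UP.mk U K (fun j => algebraMap (KA (k j)) (K j) (a' j)) := by
  obtain ⟨τ, hτ⟩ := UT2_exists_map U (fun j => algebraMap (KA (k j)) (K j))
  have key : Sp.comp (algebraMap (KA (UP U k)) K') = τ.comp SpA := by
    refine IsLocalization.ringHom_ext (nonZeroDivisors (P2 (UP U k))) ?_
    refine MvPolynomial.ringHom_ext (fun c => ?_) (fun i => ?_)
    · obtain ⟨c, rfl⟩ := UP.mk_surj U k c
      simp only [RingHom.comp_apply, ← MvPolynomial.algebraMap_eq,
        ← IsScalarTower.algebraMap_apply, H.hk, HA.hk, hτ]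
    · have h1 := H.hx i
      have h2 := HA.hx i
      simp only [xK, xA] at h1 h2
      simp only [RingHom.comp_apply, h1, h2, hτ]
  rw [← hτ, ← h]
  exact RingHom.congr_fun key a

end Crest.Agent.R169
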